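import Crest.Agent.R264.MontelU

/-!
Row 271, T9: L2 form of Montel's theorem in several complex variables (helper868).
-/

set_option autoImplicit false

open Set Filter Topology Metric Complex MeasureTheory
open scoped ENNReal NNReal Real

noncomputable section

namespace Crest.Agent.R271.Montel868

variable {n : ℕ}

/-- multiplication by a unit complex number preserves Lebesgue measure on `ℂ^n` -/
theorem mp_smul {a : ℂ} (ha : ‖a‖ = 1) :
    MeasurePreserving (fun y : Fin n → ℂ => a • y) volume volume := by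
  have h1 : ∀ _i : Fin n, MeasurePreserving (fun z : ℂ => a * z) volume volume := by
    intro _
    exact (rotation ⟨a, by simpa [Submonoid.unitSphere] using ha⟩).measurePreserving
  exact volume_preserving_pi h1

theorem me_smul {a : ℂ} (ha : a ≠ 0) : MeasurableEmbedding (fun y : Fin n → ℂ => a • y) :=
  (Homeomorph.smulOfNeZero a ha).measurableEmbedding

/-- `L¹` sub-mean value property on (polydisc) balls -/
theorem enorm_mul_le {f : (Fin n → ℂ) → ℂ} {x : Fin n → ℂ} {r : ℝ}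
    (hf : DifferentiableOn ℂ f (ball x r)) :
    ‖f x‖ₑ * volume (ball (0 : Fin n → ℂ) r) ≤ ∫⁻ y in ball x r, ‖f y‖ₑ := by
  rcases le_or_gt r 0 with hr | hr
  · simp [ball_eq_empty.2 hr]
  set B := ball (0 : Fin n → ℂ) r with hB
  set J := ∫⁻ y in ball x r, ‖f y‖ₑ with hJ
  have hJ1 : ∫⁻ y in B, ‖f (x + y)‖ₑ = J := by
    have h1 := (measurePreserving_add_left (volume : Measure (Fin n → ℂ)) x).setLIntegral_comp_preimage_emb
      (measurableEmbedding_addLeft x) (fun y => ‖f y‖ₑ) (ball x r)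
    have h2 : (fun y => x + y) ⁻¹' ball x r = B := by
      ext y; simp [hB, mem_ball, dist_eq_norm]
    rw [h2] at h1
    exact h1
  have hrot : ∀ θ : ℝ, ∫⁻ y in B, ‖f (x + circleMap 0 1 θ • y)‖ₑ = J := by
    intro θ
    have hn : ‖circleMap 0 1 θ‖ = 1 := by simp
    have hne : circleMap 0 1 θ ≠ 0 := by
      intro h; rw [h] at hn; simp at hn
    have h1 := (mp_smul (n := n) hn).setLIntegral_comp_preimage_emb (me_smul hne)
      (fun y => ‖f (x + y)‖ₑ) B
    have h2 : (fun y : Fin n → ℂ => circleMap 0 1 θ • y) ⁻¹' B = B := by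
      ext y; simp only [hB, mem_preimage, mem_ball, dist_zero_right, norm_smul, hn, one_mul]
    rw [h2] at h1
    rw [← hJ1]
    exact h1
  have hmem : ∀ θ : ℝ, ∀ y ∈ B, x + circleMap 0 1 θ • y ∈ ball x r := by
    intro θ y hy
    rw [mem_ball, dist_eq_norm, add_sub_cancel_left, norm_smul]
    simpa [hB] using hy
  have hmeas : AEMeasurable (Function.uncurry fun (θ : ℝ) (y : Fin n → ℂ) =>
      ‖f (x + circleMap 0 1 θ • y)‖ₑ)
      ((volume.restrict (Ioc 0 (2 * π))).prod (volume.restrict B)) := by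
    rw [Measure.prod_restrict]
    refine ContinuousOn.aemeasurable ?_ (measurableSet_Ioc.prod measurableSet_ball)
    refine ContinuousOn.enorm ?_
    refine hf.continuousOn.comp (t := ball x r) ?_ ?_
    · fun_prop
    · rintro ⟨θ, y⟩ ⟨_, hy⟩
      exact hmem θ y hy
  have hswap := lintegral_lintegral_swap hmeas
  have hlow : ∀ y ∈ B, ENNReal.ofReal (2 * π) * ‖f x‖ₑ ≤
      ∫⁻ θ in Ioc 0 (2 * π), ‖f (x + circleMap 0 1 θ • y)‖ₑ := by
    intro y hy
    have hd : DiffContOnCl ℂ (fun t : ℂ => f (x + t • y)) (ball 0 |1|) := by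
      refine DifferentiableOn.diffContOnCl ?_
      rw [abs_one, closure_ball _ one_ne_zero]
      refine hf.comp (by fun_prop) ?_
      intro t ht
      rw [mem_ball, dist_eq_norm, add_sub_cancel_left, norm_smul]
      have h1 : ‖t‖ ≤ 1 := by simpa using ht
      have h2 : ‖y‖ < r := by simpa [hB] using hy
      calc ‖t‖ * ‖y‖ ≤ 1 * ‖y‖ := by gcongr
        _ < r := by simpa using h2
    have havg := hd.circleAverage
    rw [Real.circleAverage_def, intervalIntegral.integral_of_le (by positivity)] at havg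
    simp only [zero_smul, add_zero] at havg
    have h2 : (2 * π) • f x = ∫ θ in Ioc 0 (2 * π), f (x + circleMap 0 1 θ • y) := by
      rw [← havg, smul_smul, mul_inv_cancel₀ (by positivity), one_smul]
    have h3 : ENNReal.ofReal (2 * π) * ‖f x‖ₑ = ‖(2 * π) • f x‖ₑ := by
      rw [enorm_smul, Real.enorm_eq_ofReal (by positivity)]
    rw [h3, h2]
    exact enorm_integral_le_lintegral_enorm _
  have hkey : ENNReal.ofReal (2 * π) * (‖f x‖ₑ * volume B) ≤ ENNReal.ofReal (2 * π) * J := by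
    calc ENNReal.ofReal (2 * π) * (‖f x‖ₑ * volume B)
        = ∫⁻ _ in B, ENNReal.ofReal (2 * π) * ‖f x‖ₑ := by
          rw [setLIntegral_const, mul_assoc]
      _ ≤ ∫⁻ y in B, ∫⁻ θ in Ioc 0 (2 * π), ‖f (x + circleMap 0 1 θ • y)‖ₑ :=
          setLIntegral_mono' measurableSet_ball hlow
      _ = ∫⁻ θ in Ioc 0 (2 * π), ∫⁻ y in B, ‖f (x + circleMap 0 1 θ • y)‖ₑ := hswap.symm
      _ = ∫⁻ _ in Ioc 0 (2 * π), J := by simp_rw [hrot]
      _ = ENNReal.ofReal (2 * π) * J := by
          rw [setLIntegral_const, Real.volume_Ioc, sub_zero, mul_comm]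
  exact (ENNReal.mul_le_mul_iff_right (by simp [Real.pi_pos]) ENNReal.ofReal_ne_top).1 hkey

/-- `L²` sub-mean value property on (polydisc) balls -/
theorem enorm_sq_mul_le {f : (Fin n → ℂ) → ℂ} {x : Fin n → ℂ} {r : ℝ} (hr : 0 < r)
    (hf : DifferentiableOn ℂ f (ball x r)) :
    ‖f x‖ₑ ^ 2 * volume (ball (0 : Fin n → ℂ) r) ≤ ∫⁻ y in ball x r, ‖f y‖ₑ ^ 2 := by
  set V := volume (ball (0 : Fin n → ℂ) r) with hV
  have hVx : volume (ball x r) = V := by
    rw [hV]
    exact Measure.addHaar_ball_center volume x r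
  have hV0 : V ≠ 0 := (measure_ball_pos volume _ hr).ne'
  have hVt : V ≠ ⊤ := measure_ball_lt_top.ne
  have h1 := enorm_mul_le hf
  have hm : AEMeasurable (fun y => ‖f y‖ₑ) (volume.restrict (ball x r)) :=
    hf.continuousOn.enorm.aemeasurable measurableSet_ball
  have h2 := ENNReal.lintegral_mul_le_Lp_mul_Lq (volume.restrict (ball x r))
    (Real.HolderConjugate.two_two) hm (aemeasurable_const (b := (1 : ℝ≥0∞)))
  simp only [Pi.mul_apply, mul_one, ENNReal.one_rpow, lintegral_const, Measure.restrict_apply,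
    MeasurableSet.univ, univ_inter, one_mul, hVx] at h2
  have h3 : (‖f x‖ₑ * V) ^ 2 ≤ (∫⁻ y in ball x r, ‖f y‖ₑ ^ 2) * V := by
    calc (‖f x‖ₑ * V) ^ 2 ≤ ((∫⁻ y in ball x r, ‖f y‖ₑ ^ (2 : ℝ)) ^ (1 / (2:ℝ)) * V ^ (1 / (2:ℝ))) ^ 2 :=
          pow_le_pow_left' (h1.trans h2) 2
      _ = (∫⁻ y in ball x r, ‖f y‖ₑ ^ 2) * V := by
          rw [mul_pow, ← ENNReal.rpow_natCast, ← ENNReal.rpow_mul, ← ENNReal.rpow_natCast,
            ← ENNReal.rpow_mul]
          simp
  have h4 : (‖f x‖ₑ ^ 2 * V) * V ≤ (∫⁻ y in ball x r, ‖f y‖ₑ ^ 2) * V := by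
    calc (‖f x‖ₑ ^ 2 * V) * V = (‖f x‖ₑ * V) ^ 2 := by ring
      _ ≤ _ := h3
  exact (ENNReal.mul_le_mul_iff_left hV0 hVt).1 h4



end Crest.Agent.R271.Montel868
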