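import Mathlib
import Crest.Agent.R271.Defs_710
import Crest.Agent.R271.Rd6_692
import Crest.Agent.R271.H3_51

/-!
Row 271 (R4): `lintM` is the integral against the measure of the engine (helper692).
-/

set_option autoImplicit false

open scoped Topology ENNReal
open Filter Set MeasureTheory

noncomputable section

namespace Crest.Agent.R271.Rd692

open Crest.Agent.R271.Defs710 Crest.Agent.R271.Ho51

variable {n : ℕ}

section general

variable {M : Type*} [TopologicalSpace M] [RDom n M]

/-- sum over a fibre of a function supported in a sheet -/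
lemma tsum_fibre_sheet {e : OpenPartialHomeomorph M (Fin n → ℂ)} (he : IsCh e) {f : M → ℝ≥0∞}
    (hf : ∀ y ∉ e.source, f y = 0) (ζ : Fin n → ℂ) :
    ∑' y : {y : M // cp y = ζ}, f y.1 = e.target.indicator (fun ζ => f (e.symm ζ)) ζ := by
  classical
  by_cases hζ : ζ ∈ e.target
  · rw [Set.indicator_of_mem hζ]
    have h1 : cp (e.symm ζ) = ζ := he.cp_symm hζ
    rw [tsum_eq_single (⟨e.symm ζ, h1⟩ : {y : M // cp y = ζ})]
    rintro ⟨y, hy⟩ hne
    apply hf
    intro hys
    apply hne
    have h2 : e.symm (cp y) = y := he.symm_cp hys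
    rw [hy] at h2
    exact Subtype.ext h2.symm
  · rw [Set.indicator_of_notMem hζ]
    rw [ENNReal.tsum_eq_zero]
    rintro ⟨y, hy⟩
    apply hf
    intro hys
    apply hζ
    rw [← hy]
    exact he.cp_mem hys

variable [MeasurableSpace M] [BorelSpace M]

lemma measurable_sheet (e : OpenPartialHomeomorph M (Fin n → ℂ)) {f : M → ℝ≥0∞}
    (hf : Measurable f) :
    AEMeasurable (e.target.indicator (fun ζ => f (e.symm ζ))) (volume : Measure (Fin n → ℂ)) := by
  rw [aemeasurable_indicator_iff e.open_target.measurableSet]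
  exact hf.comp_aemeasurable (aem_symm e)

/-- **fibre integration formula** -/
theorem lintegral_eq_fibre [SecondCountableTopology M] {μ : Measure M} (hμ : IsLeb μ)
    {g : M → ℝ≥0∞} (hg : Measurable g) :
    ∫⁻ y, g y ∂μ = ∫⁻ ζ : Fin n → ℂ, ∑' y : {y : M // cp y = ζ}, g y.1 := by
  classical
  rcases isEmpty_or_nonempty M with hM | hM
  · have h1 : μ = 0 := by
      ext s _
      have : s = ∅ := Set.eq_empty_of_isEmpty s
      simp [this]
    rw [h1]
    simp
  obtain ⟨S, hSc, hSu⟩ := TopologicalSpace.countable_cover_nhds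
    (f := fun x : M => (ch x).source) (fun x => (ch x).open_source.mem_nhds (mem_ch x))
  have hSne : S.Nonempty := by
    by_contra h
    rw [Set.not_nonempty_iff_eq_empty] at h
    rw [h] at hSu
    obtain ⟨x⟩ := hM
    have : x ∈ (⋃ x ∈ (∅ : Set M), (ch x).source) := by rw [hSu]; trivial
    simp at this
  obtain ⟨c, hc⟩ := hSc.exists_eq_range hSne
  set E : ℕ → OpenPartialHomeomorph M (Fin n → ℂ) := fun k => ch (c k) with hE
  set A : ℕ → Set M := disjointed fun k => (E k).source with hA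
  have hAsub : ∀ k, A k ⊆ (E k).source := fun k => disjointed_le _ k
  have hAm : ∀ k, MeasurableSet (A k) :=
    fun k => MeasurableSet.disjointed (fun k => (E k).open_source.measurableSet) k
  have hAd : Pairwise (Function.onFun Disjoint A) := disjoint_disjointed _
  have hAu : ⋃ k, A k = univ := by
    rw [hA, iUnion_disjointed, ← hSu, hc]
    simp [hE]
  have hsum : ∀ y, g y = ∑' k, (A k).indicator g y := by
    intro y
    have hy : y ∈ ⋃ k, A k := by rw [hAu]; trivial
    obtain ⟨k, hk⟩ := mem_iUnion.mp hy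
    rw [tsum_eq_single k]
    · rw [Set.indicator_of_mem hk]
    · intro j hj
      rw [Set.indicator_of_notMem]
      intro hyj
      exact Set.disjoint_left.mp (hAd hj) hyj hk
  have hgm : ∀ k, Measurable ((A k).indicator g) := fun k => hg.indicator (hAm k)
  have hoff : ∀ k, ∀ y ∉ (E k).source, (A k).indicator g y = 0 := by
    intro k y hy
    exact Set.indicator_of_notMem (fun h => hy (hAsub k h)) g
  have h1 : ∫⁻ y, g y ∂μ = ∑' k, ∫⁻ y, (A k).indicator g y ∂μ := by
    rw [← lintegral_tsum fun k => (hgm k).aemeasurable]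
    exact lintegral_congr fun y => hsum y
  have h2 : ∀ k, ∫⁻ y, (A k).indicator g y ∂μ =
      ∫⁻ ζ : Fin n → ℂ, (E k).target.indicator (fun ζ => (A k).indicator g ((E k).symm ζ)) ζ := by
    intro k
    rw [lintegral_indicator (E k).open_target.measurableSet,
      ← lintegral_chart hμ (isCh_ch (c k)) (hgm k).aemeasurable,
      ← lintegral_indicator (E k).open_source.measurableSet]
    apply lintegral_congr
    intro y
    by_cases hy : y ∈ (E k).source
    · rw [Set.indicator_of_mem hy]
    · rw [Set.indicator_of_notMem hy]; exact hoff k y hy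
  rw [h1]
  simp_rw [h2]
  rw [← lintegral_tsum fun k => measurable_sheet (E k) (hgm k)]
  apply lintegral_congr
  intro ζ
  have h3 : ∀ k, (E k).target.indicator (fun ζ => (A k).indicator g ((E k).symm ζ)) ζ =
      ∑' y : {y : M // cp y = ζ}, (A k).indicator g y.1 := by
    intro k
    rw [tsum_fibre_sheet (isCh_ch (c k)) (hoff k)]
  simp_rw [h3]
  rw [ENNReal.tsum_comm]
  apply tsum_congr
  intro y
  exact (hsum y.1).symm

end general

/-! ### the context -/

instance instMSPt {B : Type} [CommRing B] [Algebra ℂ B] : MeasurableSpace (B →ₐ[ℂ] ℂ) := borel _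

instance instBSPt {B : Type} [CommRing B] [Algebra ℂ B] : BorelSpace (B →ₐ[ℂ] ℂ) := ⟨rfl⟩

theorem lintM_eq_fibre {B : Type} [CommRing B] [Algebra ℂ B] (z : Fin n → B)
    (g : (B →ₐ[ℂ] ℂ) → ℝ≥0∞) :
    lintM z g = ∫⁻ ζ : Cn n, ∑' y : {y : B →ₐ[ℂ] ℂ // pr z y = ζ}, g y.1 := by
  unfold lintM
  apply lintegral_congr
  intro ζ
  let e : {y : B →ₐ[ℂ] ℂ // ∀ i, y (z i) = ζ i} ≃ {y : B →ₐ[ℂ] ℂ // pr z y = ζ} :=
    Equiv.subtypeEquivRight fun y => ⟨fun h => funext h, fun h i => congrFun h i⟩
  exact e.tsum_eq (fun y => g y.1)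

/-- **R4**: `lintM` is the integral against the Lebesgue measure of the Riemann domain `M`. -/
theorem lintM_eq (X : FCtx n) {μ : Measure (X.B →ₐ[ℂ] ℂ)} (hμ : IsLeb μ)
    {g : (X.B →ₐ[ℂ] ℂ) → ℝ≥0∞} (hg : Measurable g) :
    lintM X.z g = ∫⁻ y, g y ∂μ := by
  rw [lintM_eq_fibre, lintegral_eq_fibre hμ hg]
  rfl

/-- general form, for any finitely generated algebra with charts -/
theorem lintM_eq' {B : Type} [CommRing B] [Algebra ℂ B] (hft : Algebra.FiniteType ℂ B)
    (z : Fin n → B) (hch : ∀ y : B →ₐ[ℂ] ℂ, Nonempty (Chart z y))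
    {μ : Measure (B →ₐ[ℂ] ℂ)} (hμ : @IsLeb n (B →ₐ[ℂ] ℂ) _ (rdom hch) _ μ)
    {g : (B →ₐ[ℂ] ℂ) → ℝ≥0∞} (hg : Measurable g) :
    lintM z g = ∫⁻ y, g y ∂μ := by
  let _ := rdom hch
  have _ := secondCountable_of_ft hft
  rw [lintM_eq_fibre, lintegral_eq_fibre hμ hg]
  rfl


end Crest.Agent.R271.Rd692
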