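import Mathlib
import Crest.Agent.R271.Rd7_692

/-!
Row 271 (R4, addendum): the fibre sums are measurable (helper692).
-/

set_option autoImplicit false

open scoped Topology ENNReal
open Filter Set MeasureTheory

noncomputable section

namespace Crest.Agent.R271.Rd692

open Crest.Agent.R271.Defs710 Crest.Agent.R271.Ho51

variable {n : ℕ}

section general

variable {M : Type*} [TopologicalSpace M] [RDom n M] [MeasurableSpace M] [BorelSpace M]

lemma measurable_sheet' (e : OpenPartialHomeomorph M (Fin n → ℂ)) {f : M → ℝ≥0∞}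
    (hf : Measurable f) :
    Measurable (e.target.indicator (fun ζ => f (e.symm ζ))) := by
  apply measurable_of_restrict_of_restrict_compl e.open_target.measurableSet
  · have h1 : e.target.domRestrict (e.target.indicator (fun ζ => f (e.symm ζ))) =
        f ∘ (e.target.domRestrict e.symm) := by
      funext x
      simp [Set.domRestrict_apply, Set.indicator_of_mem x.2]
    rw [h1]
    exact hf.comp (e.continuousOn_symm.domRestrict).measurable
  · have h1 : (e.target)ᶜ.domRestrict (e.target.indicator (fun ζ => f (e.symm ζ))) =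
        fun _ => 0 := by
      funext x
      rw [Set.domRestrict_apply, Set.indicator_of_notMem x.2]
    rw [h1]
    exact measurable_const

/-- fibre sums are measurable -/
theorem measurable_fibre [SecondCountableTopology M]
    {g : M → ℝ≥0∞} (hg : Measurable g) :
    Measurable fun ζ : Fin n → ℂ => ∑' y : {y : M // cp y = ζ}, g y.1 := by
  classical
  rcases isEmpty_or_nonempty M with hM | hM
  · have : (fun ζ : Fin n → ℂ => ∑' y : {y : M // cp y = ζ}, g y.1) = fun _ => 0 := by
      funext ζ
      simp
    rw [this]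
    exact measurable_const
  obtain ⟨S, hSc, hSu⟩ := TopologicalSpace.countable_cover_nhds
    (f := fun x : M => (ch x).source) (fun x => (ch x).open_source.mem_nhds (mem_ch x))
  have hSne : S.Nonempty := by
    by_contra h
    rw [Set.not_nonempty_iff_eq_empty] at h
    rw [h] at hSu
    obtain ⟨x⟩ := hM
    have : x ∈ (⋃ x ∈ (∅ : Set M), (ch x).source) := by rw [hSu]; trivial
    simp at this
  obtain ⟨c, hc⟩ := hSc.exists_eq_range hSne
  set E : ℕ → OpenPartialHomeomorph M (Fin n → ℂ) := fun k => ch (c k) with hE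
  set A : ℕ → Set M := disjointed fun k => (E k).source with hA
  have hAsub : ∀ k, A k ⊆ (E k).source := fun k => disjointed_le _ k
  have hAm : ∀ k, MeasurableSet (A k) :=
    fun k => MeasurableSet.disjointed (fun k => (E k).open_source.measurableSet) k
  have hAd : Pairwise (Function.onFun Disjoint A) := disjoint_disjointed _
  have hAu : ⋃ k, A k = univ := by
    rw [hA, iUnion_disjointed, ← hSu, hc]
    simp [hE]
  have hsum : ∀ y, g y = ∑' k, (A k).indicator g y := by
    intro y
    have hy : y ∈ ⋃ k, A k := by rw [hAu]; trivial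
    obtain ⟨k, hk⟩ := mem_iUnion.mp hy
    rw [tsum_eq_single k]
    · rw [Set.indicator_of_mem hk]
    · intro j hj
      rw [Set.indicator_of_notMem]
      intro hyj
      exact Set.disjoint_left.mp (hAd hj) hyj hk
  have hgm : ∀ k, Measurable ((A k).indicator g) := fun k => hg.indicator (hAm k)
  have hoff : ∀ k, ∀ y ∉ (E k).source, (A k).indicator g y = 0 := by
    intro k y hy
    exact Set.indicator_of_notMem (fun h => hy (hAsub k h)) g
  have h3 : (fun ζ : Fin n → ℂ => ∑' y : {y : M // cp y = ζ}, g y.1) =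
      fun ζ => ∑' k, (E k).target.indicator
        (fun ζ => (A k).indicator g ((E k).symm ζ)) ζ := by
    funext ζ
    have h4 : ∀ k, (E k).target.indicator (fun ζ => (A k).indicator g ((E k).symm ζ)) ζ =
        ∑' y : {y : M // cp y = ζ}, (A k).indicator g y.1 := by
      intro k
      rw [tsum_fibre_sheet (isCh_ch (c k)) (hoff k)]
    simp_rw [h4]
    rw [ENNReal.tsum_comm]
    apply tsum_congr
    intro y
    exact hsum y.1
  rw [h3]
  exact Measurable.tsum fun k => measurable_sheet' (E k) (hgm k)

end general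

/-- **the fibre sums in `lintM` are measurable** -/
theorem measurable_fsum (X : FCtx n) {g : (X.B →ₐ[ℂ] ℂ) → ℝ≥0∞} (hg : Measurable g) :
    Measurable fun ζ : Cn n => ∑' y : {y : X.B →ₐ[ℂ] ℂ // ∀ i, y (X.z i) = ζ i}, g y.1 := by
  have h1 : (fun ζ : Cn n => ∑' y : {y : X.B →ₐ[ℂ] ℂ // ∀ i, y (X.z i) = ζ i}, g y.1) =
      fun ζ : Fin n → ℂ => ∑' y : {y : X.B →ₐ[ℂ] ℂ // cp y = ζ}, g y.1 := by
    funext ζ
    let e : {y : X.B →ₐ[ℂ] ℂ // ∀ i, y (X.z i) = ζ i} ≃ {y : X.B →ₐ[ℂ] ℂ // pr X.z y = ζ} :=
      Equiv.subtypeEquivRight fun y => ⟨fun h => funext h, fun h i => congrFun h i⟩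
    exact e.tsum_eq (fun y => g y.1)
  rw [h1]
  exact measurable_fibre hg


theorem lintM_mono {B : Type} [CommRing B] [Algebra ℂ B] (z : Fin n → B)
    {f g : (B →ₐ[ℂ] ℂ) → ℝ≥0∞} (h : ∀ y, f y ≤ g y) : lintM z f ≤ lintM z g := by
  unfold lintM
  exact lintegral_mono fun ζ => ENNReal.tsum_le_tsum fun y => h y.1

end Crest.Agent.R271.Rd692
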