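import Crest.Agent.R271.H4_51

/-!
# Row 271, analytic engine (H), piece T2: the basic identity for test forms and the
a priori (three weight) inequality (helper361)
-/

set_option autoImplicit false
set_option linter.unusedSectionVars false

noncomputable section

open Set Filter Topology MeasureTheory ComplexConjugate

namespace Crest.Agent.R271.H361

open Crest.Agent.R271.Ho51

variable {n : ℕ} {M : Type*} [TopologicalSpace M] [RDom n M]

/-- the (negative of the) formal adjoint of `∂̄_j` for the weight `φ` -/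
def dl (φ : M → ℝ) (j : Fin n) (a : M → ℂ) (x : M) : ℂ :=
  dz j a x - a x * dz j (fun y => (φ y : ℂ)) x

lemma sm_dl {φ : M → ℝ} (hφ : Sm φ) (j : Fin n) {a : M → ℂ} (ha : Sm a) : Sm (dl φ j a) :=
  (ha.dz j).sub (ha.mul (hφ.ofReal.dz j))

/-- the weight `exp (-φ)` -/
def Ew (φ : M → ℝ) (x : M) : ℂ := ((Real.exp (-φ x) : ℝ) : ℂ)

lemma sm_Er {φ : M → ℝ} (hφ : Sm φ) : Sm (fun x => Real.exp (-φ x)) :=
  Sm.comp (g := fun t : ℝ => Real.exp (-t)) (Real.contDiff_exp.comp contDiff_neg) hφ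

lemma sm_Ew {φ : M → ℝ} (hφ : Sm φ) : Sm (Ew φ) := (sm_Er hφ).ofReal

lemma hasDerivAt_expneg (t : ℝ) : HasDerivAt (fun t : ℝ => Real.exp (-t)) (-Real.exp (-t)) t := by
  have := (hasDerivAt_neg t).exp
  simpa using this

lemma dz_Ew {φ : M → ℝ} (hφ : Sm φ) (j : Fin n) (x : M) :
    dz j (Ew φ) x = - Ew φ x * dz j (fun y => (φ y : ℂ)) x := by
  have := dz_comp_real hφ (sm_Er hφ) x (hasDerivAt_expneg (φ x)) j
  have h2 : dz j (Ew φ) x = dz j (fun x => ((Real.exp (-φ x) : ℝ) : ℂ)) x := rfl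
  rw [h2, this, Ew]
  push_cast; ring

lemma db_Ew {φ : M → ℝ} (hφ : Sm φ) (j : Fin n) (x : M) :
    db j (Ew φ) x = - Ew φ x * conj (dz j (fun y => (φ y : ℂ)) x) := by
  have := db_comp_real hφ (sm_Er hφ) x (hasDerivAt_expneg (φ x)) j
  have h2 : db j (Ew φ) x = db j (fun x => ((Real.exp (-φ x) : ℝ) : ℂ)) x := rfl
  rw [h2, this, Ew, db_ofReal hφ]
  push_cast; ring


/-- commutation of `∂̄_j` with `dl φ k` -/
lemma db_dl {φ : M → ℝ} (hφ : Sm φ) {b : M → ℂ} (hb : Sm b) (j k : Fin n) (x : M) :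
    db j (dl φ k b) x = dz k (db j b) x - db j b x * dz k (fun y => (φ y : ℂ)) x
      - b x * Lv φ x k j := by
  have h1 : db j (dl φ k b) x = db j (fun y => dz k b y - b y * dz k (fun y => (φ y : ℂ)) y) x :=
    rfl
  have h2 : db j (fun y => b y * dz k (fun y => (φ y : ℂ)) y) x =
      db j b x * dz k (fun y => (φ y : ℂ)) x + b x * db j (dz k (fun y => (φ y : ℂ))) x :=
    db_mul hb (hφ.ofReal.dz k) j x
  rw [h1, db_sub (hb.dz k) (hb.mul (hφ.ofReal.dz k)), h2, ← dz_db_comm hb,
    ← dz_db_comm hφ.ofReal, Lv]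
  ring

/-- the two currents whose divergence appears in the basic identity -/
def cur1 (φ : M → ℝ) (k : Fin n) (a b : M → ℂ) (x : M) : ℂ :=
  (a x * Ew φ x) * conj (dl φ k b x)

/-- the two currents whose divergence appears in the basic identity -/
def cur2 (φ : M → ℝ) (j : Fin n) (a b : M → ℂ) (x : M) : ℂ :=
  (a x * Ew φ x) * conj (db j b x)

lemma sm_cur1 {φ : M → ℝ} (hφ : Sm φ) (k : Fin n) {a b : M → ℂ} (ha : Sm a) (hb : Sm b) :
    Sm (cur1 φ k a b) := (ha.mul (sm_Ew hφ)).mul (sm_dl hφ k hb).conj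

lemma sm_cur2 {φ : M → ℝ} (hφ : Sm φ) (k : Fin n) {a b : M → ℂ} (ha : Sm a) (hb : Sm b) :
    Sm (cur2 φ k a b) := (ha.mul (sm_Ew hφ)).mul (hb.db k).conj

/-- **pointwise basic identity** -/
lemma pointwise {φ : M → ℝ} (hφ : Sm φ) {a b : M → ℂ} (ha : Sm a) (hb : Sm b) (j k : Fin n)
    (x : M) :
    dl φ j a x * conj (dl φ k b x) * Ew φ x - Lv φ x j k * a x * conj (b x) * Ew φ x
      - db k a x * conj (db j b x) * Ew φ x =
      dz j (cur1 φ k a b) x - db k (cur2 φ j a b) x := by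
  have haE : Sm (fun x => a x * Ew φ x) := ha.mul (sm_Ew hφ)
  have e1 : dz j (cur1 φ k a b) x = dz j (fun x => a x * Ew φ x) x * conj (dl φ k b x) +
      (a x * Ew φ x) * dz j (fun x => conj (dl φ k b x)) x :=
    dz_mul haE (sm_dl hφ k hb).conj j x
  have e2 : db k (cur2 φ j a b) x = db k (fun x => a x * Ew φ x) x * conj (db j b x) +
      (a x * Ew φ x) * db k (fun x => conj (db j b x)) x :=
    db_mul haE (hb.db j).conj k x
  rw [e1, e2, dz_mul ha (sm_Ew hφ), db_mul ha (sm_Ew hφ), dz_Ew hφ, db_Ew hφ,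
    dz_conj (sm_dl hφ k hb), db_conj (hb.db j), db_dl hφ hb]
  simp only [map_sub, map_mul, Lv_conj hφ]
  simp only [dl]
  ring

section cpt

variable [T2Space M] [SecondCountableTopology M] [MeasurableSpace M] [BorelSpace M]

lemma hcs_dz {a : M → ℂ} (ha : HasCompactSupport a) (j : Fin n) : HasCompactSupport (dz j a) := by
  refine (hasCompactSupport_D ha).comp_left (g := fun A => wz j A) ?_
  simp [wz]

lemma hcs_db {a : M → ℂ} (ha : HasCompactSupport a) (j : Fin n) : HasCompactSupport (db j a) := by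
  refine (hasCompactSupport_D ha).comp_left (g := fun A => wb j A) ?_
  simp [wb]

end cpt

/-! ### algebra of sums -/

lemma norm_sum_sq (d : Fin n → ℂ) :
    ‖∑ j, d j‖ ^ 2 = (∑ j, ∑ k, d j * conj (d k)).re := by
  rw [← Complex.normSq_eq_norm_sq, ← Complex.ofReal_re (Complex.normSq _),
    Complex.normSq_eq_conj_mul_self, map_sum, Finset.sum_mul_sum, Finset.sum_comm]
  refine congrArg Complex.re (Finset.sum_congr rfl fun j _ => Finset.sum_congr rfl fun k _ => ?_)
  ring

lemma half_sum_sq (s : Fin n → Fin n → ℂ) :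
    (1 / 2 : ℝ) * ∑ j, ∑ k, ‖s j k - s k j‖ ^ 2 =
      ∑ j, ∑ k, ‖s j k‖ ^ 2 - (∑ j, ∑ k, s k j * conj (s j k)).re := by
  have h1 : ∀ j k, ‖s j k - s k j‖ ^ 2 =
      ‖s j k‖ ^ 2 + ‖s k j‖ ^ 2 - 2 * (s k j * conj (s j k)).re := by
    intro j k
    rw [← Complex.normSq_eq_norm_sq, ← Complex.normSq_eq_norm_sq, ← Complex.normSq_eq_norm_sq]
    simp only [Complex.normSq_apply, Complex.sub_re, Complex.sub_im, Complex.mul_re,
      Complex.conj_re, Complex.conj_im]
    ring
  simp only [h1, Finset.sum_sub_distrib, Finset.sum_add_distrib, ← Finset.mul_sum]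
  have h2 : ∑ j, ∑ k, ‖s k j‖ ^ 2 = ∑ j, ∑ k, ‖s j k‖ ^ 2 := Finset.sum_comm
  have h3 : (∑ j, ∑ k, s k j * conj (s j k)).re = ∑ j, ∑ k, (s k j * conj (s j k)).re := by
    simp only [Complex.re_sum]
  rw [h2, h3]
  ring

lemma cs_sum (a b : Fin n → ℂ) : ‖∑ j, a j * b j‖ ^ 2 ≤ nsq a * nsq b := by
  have h1 : ‖∑ j, a j * b j‖ ≤ ∑ j, ‖a j‖ * ‖b j‖ :=
    (norm_sum_le _ _).trans (by simp)
  have h2 : (∑ j, ‖a j‖ * ‖b j‖) ^ 2 ≤ (∑ j, ‖a j‖ ^ 2) * ∑ j, ‖b j‖ ^ 2 :=
    Finset.sum_mul_sq_le_sq_mul_sq _ _ _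
  exact (pow_le_pow_left₀ (norm_nonneg _) h1 2).trans h2

lemma norm_sub_sq_le' (u v : ℂ) : ‖u - v‖ ^ 2 ≤ 2 * ‖u‖ ^ 2 + 2 * ‖v‖ ^ 2 := by
  have h1 : ‖u - v‖ ≤ ‖u‖ + ‖v‖ := norm_sub_le u v
  have h2 := pow_le_pow_left₀ (norm_nonneg _) h1 2
  nlinarith [sq_nonneg (‖u‖ - ‖v‖)]

/-- the divergence in the basic identity -/
def Dv (φ : M → ℝ) (f : M → (Fin n → ℂ)) (x : M) : ℂ :=
  ∑ j, ∑ k, (dz j (cur1 φ k (fun y => f y j) (fun y => f y k)) x -
    db k (cur2 φ j (fun y => f y j) (fun y => f y k)) x)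

/-- pointwise form of the basic identity for forms -/
lemma basic_pointwise {φ : M → ℝ} (hφ : Sm φ) {f : M → (Fin n → ℂ)} (hf : Sm f) (x : M) :
    Levi φ x (f x) * Real.exp (-φ x) + ∑ j, ∑ k, ‖db j (fun y => f y k) x‖ ^ 2 * Real.exp (-φ x)
      = ‖∑ j, dl φ j (fun y => f y j) x‖ ^ 2 * Real.exp (-φ x)
      + (1 / 2) * ∑ j, ∑ k, ‖db j (fun y => f y k) x - db k (fun y => f y j) x‖ ^ 2 *
        Real.exp (-φ x) - (Dv φ f x).re := by
  have h1 : Dv φ f x = (∑ j, ∑ k, dl φ j (fun y => f y j) x * conj (dl φ k (fun y => f y k) x) -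
      ∑ j, ∑ k, Lv φ x j k * f x j * conj (f x k) -
      ∑ j, ∑ k, db k (fun y => f y j) x * conj (db j (fun y => f y k) x)) * Ew φ x := by
    unfold Dv
    simp only [sub_mul, Finset.sum_mul, ← Finset.sum_sub_distrib]
    refine Finset.sum_congr rfl fun j _ => Finset.sum_congr rfl fun k _ => ?_
    rw [← pointwise hφ (hf.pi_apply j) (hf.pi_apply k) j k x]
  have h2 := half_sum_sq (fun j k => db j (fun y => f y k) x)
  have h3 := norm_sum_sq (fun j => dl φ j (fun y => f y j) x)
  have h4 : (Dv φ f x).re = ((∑ j, ∑ k, dl φ j (fun y => f y j) x *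
      conj (dl φ k (fun y => f y k) x)).re - Levi φ x (f x) -
      (∑ j, ∑ k, db k (fun y => f y j) x * conj (db j (fun y => f y k) x)).re) *
      Real.exp (-φ x) := by
    rw [h1, Ew, Complex.re_mul_ofReal]
    simp only [Complex.sub_re, Levi]
  rw [h4, ← h3]
  have h5 : ∑ j, ∑ k, ‖db j (fun y => f y k) x‖ ^ 2 * Real.exp (-φ x) =
      (∑ j, ∑ k, ‖db j (fun y => f y k) x‖ ^ 2) * Real.exp (-φ x) := by
    simp only [Finset.sum_mul]
  have h6 : ∑ j, ∑ k, ‖db j (fun y => f y k) x - db k (fun y => f y j) x‖ ^ 2 * Real.exp (-φ x) =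
      (∑ j, ∑ k, ‖db j (fun y => f y k) x - db k (fun y => f y j) x‖ ^ 2) * Real.exp (-φ x) := by
    simp only [Finset.sum_mul]
  rw [h5, h6, ← mul_assoc (1 / 2 : ℝ), h2]
  ring

section main

variable [T2Space M] [SecondCountableTopology M] [MeasurableSpace M] [BorelSpace M]

lemma hcs_pi {f : M → (Fin n → ℂ)} (hc : HasCompactSupport f) (j : Fin n) :
    HasCompactSupport (fun y => f y j) :=
  hc.comp_left (g := fun v : Fin n → ℂ => v j) rfl

lemma hcs_of_zero {G G' : Type*} [Zero G] [Zero G'] {f : M → G} (hc : HasCompactSupport f)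
    {g : M → G'} (h : ∀ x ∉ tsupport f, g x = 0) : HasCompactSupport g :=
  HasCompactSupport.intro hc h

lemma D_zero_of_notMem {G : Type*} [NormedAddCommGroup G] [NormedSpace ℝ G] {f : M → G} {x : M}
    (hx : x ∉ tsupport f) : D f x = 0 := by
  have := fun h => hx (tsupport_D f h)
  exact image_eq_zero_of_notMem_tsupport this

lemma dz_zero_of_notMem {a : M → ℂ} {x : M} (hx : x ∉ tsupport a) (j : Fin n) : dz j a x = 0 := by
  rw [dz, D_zero_of_notMem hx]; simp [wz]

lemma db_zero_of_notMem {a : M → ℂ} {x : M} (hx : x ∉ tsupport a) (j : Fin n) : db j a x = 0 := by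
  rw [db, D_zero_of_notMem hx]; simp [wb]

lemma tsupport_pi {f : M → (Fin n → ℂ)} (j : Fin n) : tsupport (fun y => f y j) ⊆ tsupport f :=
  closure_mono (fun x hx => by
    rw [Function.mem_support] at hx ⊢
    intro h0; exact hx (by simp [h0]))

lemma integral_Dv {μ : Measure M} (hμ : IsLeb μ) {φ : M → ℝ} (hφ : Sm φ)
    {f : M → (Fin n → ℂ)} (hf : Sm f) (hc : HasCompactSupport f) :
    Integrable (Dv φ f) μ ∧ ∫ x, Dv φ f x ∂μ = 0 := by
  have s1 : ∀ j k, Sm (cur1 φ k (fun y => f y j) (fun y => f y k)) := fun j k =>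
    sm_cur1 hφ k (hf.pi_apply j) (hf.pi_apply k)
  have s2 : ∀ j k, Sm (cur2 φ j (fun y => f y j) (fun y => f y k)) := fun j k =>
    sm_cur2 hφ j (hf.pi_apply j) (hf.pi_apply k)
  have c1 : ∀ j k, HasCompactSupport (cur1 φ k (fun y => f y j) (fun y => f y k)) := by
    intro j k
    refine hcs_of_zero (hcs_pi hc j) fun x hx => ?_
    have : f x j = 0 := image_eq_zero_of_notMem_tsupport (f := fun y => f y j) hx
    simp [cur1, this]
  have c2 : ∀ j k, HasCompactSupport (cur2 φ j (fun y => f y j) (fun y => f y k)) := by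
    intro j k
    refine hcs_of_zero (hcs_pi hc j) fun x hx => ?_
    have : f x j = 0 := image_eq_zero_of_notMem_tsupport (f := fun y => f y j) hx
    simp [cur2, this]
  have i1 : ∀ j k, Integrable (dz j (cur1 φ k (fun y => f y j) (fun y => f y k))) μ := fun j k =>
    ((s1 j k).dz j).integrable hμ (hcs_dz (c1 j k) j)
  have i2 : ∀ j k, Integrable (db k (cur2 φ j (fun y => f y j) (fun y => f y k))) μ := fun j k =>
    ((s2 j k).db k).integrable hμ (hcs_db (c2 j k) k)
  have i3 : ∀ j k, Integrable (fun x => dz j (cur1 φ k (fun y => f y j) (fun y => f y k)) x -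
      db k (cur2 φ j (fun y => f y j) (fun y => f y k)) x) μ := fun j k => (i1 j k).sub (i2 j k)
  refine ⟨?_, ?_⟩
  · exact integrable_finsetSum _ fun j _ => integrable_finsetSum _ fun k _ => i3 j k
  · unfold Dv
    rw [integral_finsetSum _ fun j _ => integrable_finsetSum _ fun k _ => i3 j k]
    refine Finset.sum_eq_zero fun j _ => ?_
    rw [integral_finsetSum _ fun k _ => i3 j k]
    refine Finset.sum_eq_zero fun k _ => ?_
    rw [integral_sub (i1 j k) (i2 j k), integral_dz_eq_zero hμ (s1 j k) (c1 j k),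
      integral_db_eq_zero hμ (s2 j k) (c2 j k), sub_zero]

/-- **T2**: the a priori inequality for test forms. -/
theorem apriori {μ : Measure M} (hμ : IsLeb μ) (φ ψ : M → ℝ) (hφ : Sm φ) (hψ : Sm ψ)
    (f : M → (Fin n → ℂ)) (hf : Sm f) (hc : HasCompactSupport f) :
    ∫ x, Levi φ x (f x) * Real.exp (-φ x) ∂μ ≤
      2 * ∫ x, ‖∑ j, (dz j (fun y => f y j) x -
        f x j * dz j (fun y => ((φ y - ψ y : ℝ) : ℂ)) x)‖ ^ 2 * Real.exp (-φ x) ∂μ
      + 2 * ∫ x, nsq (f x) * nsq (fun j => dz j (fun y => (ψ y : ℂ)) x) * Real.exp (-φ x) ∂μ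
      + (1 / 2) * ∑ j, ∑ k, ∫ x, ‖db j (fun y => f y k) x - db k (fun y => f y j) x‖ ^ 2 *
        Real.exp (-φ x) ∂μ := by
  have hE : Continuous (fun x => Real.exp (-φ x)) := (sm_Er hφ).continuous
  have := hμ.locallyFinite
  have hfj : ∀ j, Continuous (fun x => f x j) := fun j => (hf.pi_apply j).continuous
  -- the functions
  set A : M → ℝ := fun x => Levi φ x (f x) * Real.exp (-φ x) with hA
  set B : M → ℝ := fun x => ‖∑ j, (dz j (fun y => f y j) x -
        f x j * dz j (fun y => ((φ y - ψ y : ℝ) : ℂ)) x)‖ ^ 2 * Real.exp (-φ x) with hB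
  set C : M → ℝ := fun x => nsq (f x) * nsq (fun j => dz j (fun y => (ψ y : ℂ)) x) *
    Real.exp (-φ x) with hC
  set S : Fin n → Fin n → M → ℝ := fun j k x =>
    ‖db j (fun y => f y k) x - db k (fun y => f y j) x‖ ^ 2 * Real.exp (-φ x) with hS
  have hdiff : ∀ j x, dz j (fun y => ((φ y - ψ y : ℝ) : ℂ)) x =
      dz j (fun y => (φ y : ℂ)) x - dz j (fun y => (ψ y : ℂ)) x := by
    intro j x
    rw [← dz_sub hφ.ofReal hψ.ofReal]
    refine dz_congr (Eventually.of_forall fun y => ?_) j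
    simp
  have hsmd : Sm (fun y => φ y - ψ y) := hφ.sub hψ
  -- integrability
  have cB : Continuous B := by
    refine ((Continuous.norm ?_).pow 2).mul hE
    refine continuous_finsetSum _ fun j _ => ?_
    exact ((hf.pi_apply j).dz j).continuous.sub ((hfj j).mul (hsmd.ofReal.dz j).continuous)
  have cC : Continuous C := by
    refine (Continuous.mul ?_ ?_).mul hE
    · exact continuous_finsetSum _ fun j _ => ((hfj j).norm.pow 2)
    · exact continuous_finsetSum _ fun j _ => ((hψ.ofReal.dz j).continuous.norm.pow 2)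
  have cS : ∀ j k, Continuous (S j k) := fun j k =>
    ((((hf.pi_apply k).db j).continuous.sub ((hf.pi_apply j).db k).continuous).norm.pow 2).mul hE
  have cA : Continuous A := by
    refine Continuous.mul (Complex.continuous_re.comp ?_) hE
    refine continuous_finsetSum _ fun j _ => continuous_finsetSum _ fun k _ => ?_
    exact (((hφ.ofReal.db k).dz j).continuous.mul (hfj j)).mul (Complex.continuous_conj.comp (hfj k))
  have iA : Integrable A μ := cA.integrable_of_hasCompactSupport <| hcs_of_zero hc fun x hx => by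
    have h0 : f x = 0 := image_eq_zero_of_notMem_tsupport hx
    simp [hA, Levi, h0]
  have iB : Integrable B μ := cB.integrable_of_hasCompactSupport <| hcs_of_zero hc fun x hx => by
    have h0 : f x = 0 := image_eq_zero_of_notMem_tsupport hx
    have h1 : ∀ j, dz j (fun y => f y j) x = 0 := fun j =>
      dz_zero_of_notMem (fun h => hx (tsupport_pi j h)) j
    simp [hB, h0, h1]
  have iC : Integrable C μ := cC.integrable_of_hasCompactSupport <| hcs_of_zero hc fun x hx => by
    have h0 : f x = 0 := image_eq_zero_of_notMem_tsupport hx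
    simp [hC, nsq, h0]
  have iS : ∀ j k, Integrable (S j k) μ := fun j k =>
    (cS j k).integrable_of_hasCompactSupport <| hcs_of_zero hc fun x hx => by
      have h1 : ∀ j k, db j (fun y => f y k) x = 0 := fun j k =>
        db_zero_of_notMem (fun h => hx (tsupport_pi k h)) j
      simp [hS, h1]
  obtain ⟨iD, hD⟩ := integral_Dv hμ hφ hf hc
  have hD' : ∫ x, (Dv φ f x).re ∂μ = 0 := by
    have := integral_re iD
    simp only [RCLike.re_eq_complex_re] at this
    rw [this, hD]; simp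
  -- pointwise inequality
  have hpt : ∀ x, A x ≤ 2 * B x + 2 * C x + (1 / 2) * ∑ j, ∑ k, S j k x - (Dv φ f x).re := by
    intro x
    have h1 := basic_pointwise hφ hf x
    have h2 : 0 ≤ ∑ j, ∑ k, ‖db j (fun y => f y k) x‖ ^ 2 * Real.exp (-φ x) :=
      Finset.sum_nonneg fun j _ => Finset.sum_nonneg fun k _ => by positivity
    have h3 : ‖∑ j, dl φ j (fun y => f y j) x‖ ^ 2 ≤ 2 * ‖∑ j, (dz j (fun y => f y j) x -
        f x j * dz j (fun y => ((φ y - ψ y : ℝ) : ℂ)) x)‖ ^ 2 +
        2 * (nsq (f x) * nsq (fun j => dz j (fun y => (ψ y : ℂ)) x)) := by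
      have e1 : ∑ j, dl φ j (fun y => f y j) x = ∑ j, (dz j (fun y => f y j) x -
        f x j * dz j (fun y => ((φ y - ψ y : ℝ) : ℂ)) x) -
          ∑ j, f x j * dz j (fun y => (ψ y : ℂ)) x := by
        rw [← Finset.sum_sub_distrib]
        refine Finset.sum_congr rfl fun j _ => ?_
        rw [hdiff, dl]; ring
      rw [e1]
      refine (norm_sub_sq_le' _ _).trans ?_
      have := cs_sum (f x) (fun j => dz j (fun y => (ψ y : ℂ)) x)
      linarith
    have h4 := mul_le_mul_of_nonneg_right h3 (Real.exp_pos (-φ x)).le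
    simp only [hA, hB, hC, hS]
    nlinarith [h1, h2, h4]
  calc ∫ x, A x ∂μ ≤ ∫ x, (2 * B x + 2 * C x + (1 / 2) * ∑ j, ∑ k, S j k x - (Dv φ f x).re) ∂μ := by
        refine integral_mono iA ?_ hpt
        exact (((iB.const_mul 2).add (iC.const_mul 2)).add
          ((integrable_finsetSum _ fun j _ => integrable_finsetSum _ fun k _ => iS j k).const_mul
            (1 / 2))).sub iD.re
    _ = _ := by
        rw [integral_sub, integral_add, integral_add, integral_const_mul, integral_const_mul,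
          integral_const_mul, integral_finsetSum, hD', sub_zero]
        · congr 2
          refine Finset.sum_congr rfl fun j _ => ?_
          rw [integral_finsetSum _ fun k _ => iS j k]
        · exact fun j _ => integrable_finsetSum _ fun k _ => iS j k
        · exact iB.const_mul 2
        · exact iC.const_mul 2
        · exact (iB.const_mul 2).add (iC.const_mul 2)
        · exact (integrable_finsetSum _ fun j _ => integrable_finsetSum _ fun k _ =>
            iS j k).const_mul (1 / 2)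
        · exact ((iB.const_mul 2).add (iC.const_mul 2)).add
            ((integrable_finsetSum _ fun j _ => integrable_finsetSum _ fun k _ =>
              iS j k).const_mul (1 / 2))
        · exact iD.re

end main

end Crest.Agent.R271.H361
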