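import Crest.Agent.R271.H3_51
import Crest.Agent.R271.H3_88
import Crest.Agent.R271.H4_51

-- ▼ part R271/H4_88
section

/-!
# Row 271, analytic engine (H), piece T4: product rule for weak equations and density of smooth
compactly supported functions (helper88)
-/

set_option autoImplicit false
set_option linter.unusedSectionVars false

noncomputable section

open Set Filter Topology MeasureTheory
open scoped ENNReal

namespace Crest.Agent.R271.H88

open Crest.Agent.R271.Ho51

variable {n : ℕ} {M : Type*} [TopologicalSpace M] [RDom n M] [MeasurableSpace M] [BorelSpace M]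
  {μ : Measure M}
  {V : Type*} [NormedAddCommGroup V] [NormedSpace ℝ V]
  {W : Type*} [NormedAddCommGroup W] [NormedSpace ℝ W]

/-- derivative of a product of real functions -/
lemma D_mulR {f g : M → ℝ} (hf : Sm f) (hg : Sm g) (x : M) :
    D (fun x => f x * g x) x = f x • D g x + g x • D f x := by
  ext v
  have := D_smul (G := ℝ) hf hg x v
  simp only [smul_eq_mul] at this
  rw [this]
  simp only [_root_.add_apply, _root_.smul_apply, smul_eq_mul]
  ring

lemma norm_L_le (L : ((Fin n → ℂ) →L[ℝ] V) →L[ℝ] W) (A : (Fin n → ℂ) →L[ℝ] ℝ) (u : V) :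
    ‖L (A.smulRight u)‖ ≤ ‖L‖ * ‖A‖ * ‖u‖ := by
  calc ‖L (A.smulRight u)‖ ≤ ‖L‖ * ‖A.smulRight u‖ := L.le_opNorm _
    _ ≤ ‖L‖ * (‖A‖ * ‖u‖) := by
        gcongr
        rw [ContinuousLinearMap.norm_smulRight_apply]
    _ = ‖L‖ * ‖A‖ * ‖u‖ := by ring

lemma continuous_L (L : ((Fin n → ℂ) →L[ℝ] V) →L[ℝ] W) :
    Continuous fun q : ((Fin n → ℂ) →L[ℝ] ℝ) × V => L (q.1.smulRight q.2) := by
  have h : Continuous fun q : ((Fin n → ℂ) →L[ℝ] ℝ) × V =>
      (ContinuousLinearMap.smulRightL ℝ (Fin n → ℂ) V) q.1 q.2 :=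
    (ContinuousLinearMap.smulRightL ℝ (Fin n → ℂ) V).isBoundedBilinearMap.continuous
  exact L.continuous.comp h

lemma aesm_L (L : ((Fin n → ℂ) →L[ℝ] V) →L[ℝ] W) {A : M → (Fin n → ℂ) →L[ℝ] ℝ}
    {v : M → V} {ν : Measure M} (hA : AEStronglyMeasurable A ν) (hv : AEStronglyMeasurable v ν) :
    AEStronglyMeasurable (fun x => L ((A x).smulRight (v x))) ν :=
  (continuous_L L).comp_aestronglyMeasurable (hA.prodMk hv)

lemma contA_aesm {A : M → (Fin n → ℂ) →L[ℝ] ℝ} (hA : Continuous A) (ν : Measure M) :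
    AEStronglyMeasurable A ν :=
  hA.aestronglyMeasurable

lemma integrable_L [T2Space M] (L : ((Fin n → ℂ) →L[ℝ] V) →L[ℝ] W)
    {A : M → (Fin n → ℂ) →L[ℝ] ℝ}
    {v : M → V} (hA : Continuous A) (hc : HasCompactSupport A) (hv : LocallyIntegrable v μ)
    (hvm : AEStronglyMeasurable v μ) :
    Integrable (fun x => L ((A x).smulRight (v x))) μ := by
  obtain ⟨C, hC⟩ := hA.bounded_above_of_compact_support hc
  have hK : IsCompact (tsupport A) := hc
  have h1 : IntegrableOn v (tsupport A) μ := hv.integrableOn_isCompact hK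
  have h2 : Integrable (fun x => (tsupport A).indicator (fun x => ‖L‖ * C * ‖v x‖) x) μ := by
    rw [integrable_indicator_iff (isClosed_tsupport A).measurableSet]
    exact h1.norm.const_mul _
  refine h2.mono' (aesm_L L (contA_aesm hA μ) hvm) (Eventually.of_forall fun x => ?_)
  by_cases hx : x ∈ tsupport A
  · rw [indicator_of_mem hx]
    refine (norm_L_le L _ _).trans ?_
    gcongr
    exact hC x
  · rw [indicator_of_notMem hx, image_eq_zero_of_notMem_tsupport hx]
    have : (0 : (Fin n → ℂ) →L[ℝ] ℝ).smulRight (v x) = 0 := by ext; simp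
    rw [this]; simp

/-- **Product rule** for weak equations. -/
theorem WP.smul [T2Space M] {L : ((Fin n → ℂ) →L[ℝ] V) →L[ℝ] W} {v : M → V} {w : M → W}
    (h : WP μ L v w) (hv : LocallyIntegrable v μ) (hvm : AEStronglyMeasurable v μ)
    (hw : LocallyIntegrable w μ) {b : M → ℝ} (hb : Sm b) :
    WP μ L (fun x => b x • v x) (fun x => b x • w x + L ((D b x).smulRight (v x))) := by
  intro θ hθ hc
  have h1 := h (fun x => b x * θ x) (hb.mulR hθ) (hc.mul_left)
  have i1 : Integrable (fun x => L ((D (fun x => b x * θ x) x).smulRight (v x))) μ :=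
    integrable_L L (hb.mulR hθ).D.continuous
      (hasCompactSupport_D (f := fun x => b x * θ x) hc.mul_left) hv hvm
  have i2 : Integrable (fun x => L ((θ x • D b x).smulRight (v x))) μ :=
    integrable_L L (hθ.smul hb.D).continuous hc.smul_right hv hvm
  have i3 : Integrable (fun x => (b x * θ x) • w x) μ :=
    hw.integrable_smul_left_of_hasCompactSupport (hb.mulR hθ).continuous hc.mul_left
  have e1 : ∀ x, L ((D θ x).smulRight (b x • v x)) =
      L ((D (fun x => b x * θ x) x).smulRight (v x)) - L ((θ x • D b x).smulRight (v x)) := by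
    intro x
    rw [← map_sub]
    congr 1
    rw [D_mulR hb hθ]
    ext e
    simp only [ContinuousLinearMap.smulRight_apply, _root_.sub_apply, _root_.add_apply,
      _root_.smul_apply, smul_eq_mul, add_smul, smul_smul]
    rw [mul_comm (D θ x e) (b x)]
    abel
  have e2 : ∀ x, θ x • (b x • w x + L ((D b x).smulRight (v x))) =
      (b x * θ x) • w x + L ((θ x • D b x).smulRight (v x)) := by
    intro x
    rw [smul_add, smul_smul, mul_comm (θ x) (b x), ← map_smul]
    congr 2
    ext e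
    simp [smul_smul]
  simp_rw [e1, e2]
  rw [integral_sub i1 i2, integral_add i3 i2, h1]
  abel

section chart

variable [T2Space M] [FiniteDimensional ℝ V] [FiniteDimensional ℝ W]

lemma eLp_chart (hμ : IsLeb μ) {e : OpenPartialHomeomorph M (Fin n → ℂ)} (he : IsCh e)
    {F : M → V} (hF : AEStronglyMeasurable F μ) (h0 : ∀ x ∉ e.source, F x = 0) :
    eLpNorm (ext0 e F) 2 volume = eLpNorm F 2 μ := by
  have h1 : Function.support F ⊆ e.source := by
    intro x hx
    by_contra hc
    exact hx (h0 x hc)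
  have h2 : AEStronglyMeasurable F ((volume.restrict e.target).map e.symm) := by
    rw [← hμ e he]; exact hF.restrict
  rw [← eLpNorm_restrict_eq_of_support_subset h1, hμ e he,
    eLpNorm_map_measure h2 (aem_symm e), ext0,
    eLpNorm_indicator_eq_eLpNorm_restrict e.open_target.measurableSet]

lemma aesm_chart (hμ : IsLeb μ) {e : OpenPartialHomeomorph M (Fin n → ℂ)} (he : IsCh e)
    {F : M → V} (hF : AEStronglyMeasurable F μ) :
    AEStronglyMeasurable (ext0 e F) volume := by
  have h2 : AEStronglyMeasurable F ((volume.restrict e.target).map e.symm) := by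
    rw [← hμ e he]; exact hF.restrict
  rw [ext0, aestronglyMeasurable_indicator_iff e.open_target.measurableSet]
  exact h2.comp_aemeasurable (aem_symm e)

lemma memLp_chart (hμ : IsLeb μ) {e : OpenPartialHomeomorph M (Fin n → ℂ)} (he : IsCh e)
    {F : M → V} (hF : MemLp F 2 μ) (h0 : ∀ x ∉ e.source, F x = 0) :
    MemLp (ext0 e F) 2 volume :=
  ⟨aesm_chart hμ he hF.1, by rw [eLp_chart hμ he hF.1 h0]; exact hF.2⟩

lemma int_chart0 (hμ : IsLeb μ) {e : OpenPartialHomeomorph M (Fin n → ℂ)} (he : IsCh e)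
    {F : M → V} (hF : AEStronglyMeasurable F μ) (h0 : ∀ x ∉ e.source, F x = 0) :
    ∫ x, F x ∂μ = ∫ z, ext0 e F z := by
  rw [← setIntegral_eq_integral_of_forall_compl_eq_zero (s := e.source) (fun x hx => h0 x hx),
    integral_chart hμ he hF.restrict, ext0, integral_indicator e.open_target.measurableSet]
  rfl

lemma ext0_out {e : OpenPartialHomeomorph M (Fin n → ℂ)} (he : IsCh e)
    {F : M → V} {K : Set M} (hF : ∀ x ∉ K, F x = 0) : ∀ z ∉ cp '' K, ext0 e F z = 0 := by
  intro z hz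
  by_cases hzt : z ∈ e.target
  · rw [ext0_of_mem e F hzt]
    apply hF
    intro hc
    exact hz ⟨e.symm z, hc, he.cp_symm hzt⟩
  · simp [ext0, indicator_of_notMem hzt]

/-- density in a chart -/
lemma density_chart (hμ : IsLeb μ) {e : OpenPartialHomeomorph M (Fin n → ℂ)} (he : IsCh e)
    (L : ((Fin n → ℂ) →L[ℝ] V) →L[ℝ] W) (v : M → V) (w : M → W) (hv : MemLp v 2 μ)
    (hw : MemLp w 2 μ) (K : Set M) (hK : IsCompact K) (hKe : K ⊆ e.source)
    (hvK : ∀ x ∉ K, v x = 0) (hwK : ∀ x ∉ K, w x = 0) (h : WP μ L v w) (U : Set M)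
    (hU : IsOpen U) (hKU : K ⊆ U) (ε : ℝ≥0∞) (hε : 0 < ε) :
    ∃ f : M → V, Sm f ∧ HasCompactSupport f ∧ tsupport f ⊆ U ∧ eLpNorm (f - v) 2 μ ≤ ε ∧
      eLpNorm (fun x => L (D f x) - w x) 2 μ ≤ ε := by
  have hve : ∀ x ∉ e.source, v x = 0 := fun x hx => hvK x fun hc => hx (hKe hc)
  have hwe : ∀ x ∉ e.source, w x = 0 := fun x hx => hwK x fun hc => hx (hKe hc)
  have hKt : cp '' K ⊆ e.target := by
    rintro _ ⟨x, hx, rfl⟩
    exact he.cp_mem (hKe hx)
  obtain ⟨f', hf's, hf'c, hf'U, hf'1, hf'2⟩ := flat_moll volume L (ext0 e v) (ext0 e w)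
    (memLp_chart hμ he hv hve) (memLp_chart hμ he hw hwe) (cp '' K)
    (e.target ∩ e.symm ⁻¹' U) (isCompact_cp_image hK)
    (by simpa using e.symm.isOpen_inter_preimage hU)
    (by
      rintro _ ⟨x, hx, rfl⟩
      exact ⟨he.cp_mem (hKe hx), by rw [mem_preimage, he.symm_cp (hKe hx)]; exact hKU hx⟩)
    (ext0_out he hvK) (ext0_out he hwK) (by
      intro θ hθ hθc hθU
      have hθt : tsupport θ ⊆ e.target := hθU.trans inter_subset_left
      have hS := pull_sm he hθ hθt hθc
      have hC := pull_hasCompactSupport he hθt hθc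
      have h1 := h (pull e θ) hS hC
      rw [int_chart0 hμ he (aesm_L L (contA_aesm hS.D.continuous μ) hv.1)
        (fun x hx => by
          rw [hve x hx]
          have : (D (pull e θ) x).smulRight (0 : V) = 0 := by ext; simp
          rw [this, map_zero]),
        int_chart0 hμ he (F := fun x => pull e θ x • w x)
        (hS.continuous.aestronglyMeasurable.smul hw.1)
        (fun x hx => by rw [hwe x hx, smul_zero])] at h1
      have e1 : ∀ z, ext0 e (fun x => L ((D (pull e θ) x).smulRight (v x))) z =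
          L ((fderiv ℝ θ z).smulRight (ext0 e v z)) := by
        intro z
        by_cases hz : z ∈ e.target
        · rw [ext0_of_mem e _ hz, ext0_of_mem e _ hz, D_pull he hθt hθc,
            pull_of_mem e _ (e.map_target hz), he.cp_symm hz]
        · have : (fderiv ℝ θ z).smulRight (0 : V) = 0 := by ext; simp
          simp [ext0, indicator_of_notMem hz, this]
      have e2 : ∀ z, ext0 e (fun x => pull e θ x • w x) z = θ z • ext0 e w z := by
        intro z
        by_cases hz : z ∈ e.target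
        · rw [ext0_of_mem e _ hz, ext0_of_mem e _ hz,
            pull_of_mem e _ (e.map_target hz), he.cp_symm hz]
        · simp [ext0, indicator_of_notMem hz]
      simp_rw [e1] at h1
      rw [h1]
      congr 1
      exact integral_congr_ae (Eventually.of_forall e2))
    ε hε
  have hf't : tsupport f' ⊆ e.target := hf'U.trans inter_subset_left
  have hS : Sm (pull e f') := pull_sm he hf's hf't hf'c
  have hC : HasCompactSupport (pull e f') := pull_hasCompactSupport he hf't hf'c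
  refine ⟨pull e f', hS, hC, ?_, ?_, ?_⟩
  · refine (pull_tsupport he hf't hf'c).trans ?_
    rintro _ ⟨z, hz, rfl⟩
    exact (hf'U hz).2
  · have h1 : ext0 e (pull e f' - v) = f' - ext0 e v := by
      funext z
      by_cases hz : z ∈ e.target
      · rw [ext0_of_mem e _ hz, Pi.sub_apply, Pi.sub_apply, ext0_of_mem e _ hz,
          pull_of_mem e _ (e.map_target hz), he.cp_symm hz]
      · have : f' z = 0 := image_eq_zero_of_notMem_tsupport fun hc => hz (hf't hc)
        simp [ext0, indicator_of_notMem hz, this]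
    rw [← eLp_chart hμ he (hS.continuous.aestronglyMeasurable.sub hv.1) (fun x hx => by
      simp [pull, indicator_of_notMem hx, hve x hx]), h1]
    exact hf'1
  · have h1 : ext0 e (fun x => L (D (pull e f') x) - w x) =
        fun z => L (fderiv ℝ f' z) - ext0 e w z := by
      funext z
      by_cases hz : z ∈ e.target
      · rw [ext0_of_mem e _ hz, ext0_of_mem e _ hz, D_pull he hf't hf'c,
          pull_of_mem e _ (e.map_target hz), he.cp_symm hz]
      · have hnt : z ∉ tsupport f' := fun hc => hz (hf't hc)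
        have : fderiv ℝ f' z = 0 := by
          rw [(notMem_tsupport_iff_eventuallyEq.mp hnt).fderiv_eq]; simp
        simp [ext0, indicator_of_notMem hz, this]
    have hm : AEStronglyMeasurable (fun x => L (D (pull e f') x) - w x) μ :=
      (L.continuous.comp hS.D.continuous).aestronglyMeasurable.sub hw.1
    rw [← eLp_chart hμ he hm (fun x hx => by
        rw [D_pull he hf't hf'c, hwe x hx]
        simp [pull, indicator_of_notMem hx]), h1]
    exact hf'2

/-- **Density** of smooth compactly supported functions in the graph norm (compact supports). -/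
theorem density_compact (hμ : IsLeb μ)
    (L : ((Fin n → ℂ) →L[ℝ] V) →L[ℝ] W) (v : M → V) (w : M → W) (hv : MemLp v 2 μ)
    (hw : MemLp w 2 μ) (K : Set M) (hK : IsCompact K)
    (hvK : ∀ x ∉ K, v x = 0) (hwK : ∀ x ∉ K, w x = 0) (h : WP μ L v w) (U : Set M)
    (hU : IsOpen U) (hKU : K ⊆ U) (ε : ℝ≥0∞) (hε : 0 < ε) :
    ∃ f : M → V, Sm f ∧ HasCompactSupport f ∧ tsupport f ⊆ U ∧ eLpNorm (f - v) 2 μ ≤ ε ∧
      eLpNorm (fun x => L (D f x) - w x) 2 μ ≤ ε := by
  have := hμ.locallyFinite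
  obtain ⟨m, c, g, hg, hsum⟩ := exists_pou (M := M) hK
  have hvl : LocallyIntegrable v μ := hv.locallyIntegrable (by norm_num)
  have hwl : LocallyIntegrable w μ := hw.locallyIntegrable (by norm_num)
  have hsum1 : ∀ x ∈ K, ∑ i, g i x = 1 := fun x hx => hsum.self_of_nhdsSet x hx
  have hsD : ∀ (s : Finset (Fin m)) (x : M), D (fun y => ∑ i ∈ s, g i y) x =
      ∑ i ∈ s, D (g i) x := by
    intro s x
    induction s using Finset.induction_on with
    | empty => simp [D_const]
    | insert a s ha ih =>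
      simp only [Finset.sum_insert ha]
      rw [D_add (hg a).1 (Sm.sum fun i _ => (hg i).1), ih]
  have hsumD : ∀ x ∈ K, ∑ i, D (g i) x = 0 := by
    intro x hx
    rw [← hsD Finset.univ x]
    have h1 : (fun y => ∑ i, g i y) =ᶠ[𝓝 x] fun _ => (1 : ℝ) :=
      (hsum.filter_mono (nhds_le_nhdsSet hx))
    rw [D_congr h1, D_const]
  have key : ∀ i : Fin m, ∃ f : M → V, Sm f ∧ HasCompactSupport f ∧ tsupport f ⊆ U ∧
      eLpNorm (f - fun x => g i x • v x) 2 μ ≤ ε / (m + 1) ∧
      eLpNorm (fun x => L (D f x) - (g i x • w x + L ((D (g i) x).smulRight (v x)))) 2 μ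
        ≤ ε / (m + 1) := by
    intro i
    obtain ⟨hgs, hgc, hgt, hg0⟩ := hg i
    obtain ⟨C₁, hC₁⟩ := hgs.continuous.bounded_above_of_compact_support hgc
    obtain ⟨C₂, hC₂⟩ := hgs.D.continuous.bounded_above_of_compact_support
      (hasCompactSupport_D hgc)
    have hz : ∀ x, v x = 0 → L ((D (g i) x).smulRight (v x)) = 0 := fun x hx => by
      rw [hx]
      have : (D (g i) x).smulRight (0 : V) = 0 := by ext; simp
      rw [this, map_zero]
    have hz' : ∀ x, D (g i) x = 0 → L ((D (g i) x).smulRight (v x)) = 0 := fun x hx => by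
      rw [hx]
      have : (0 : (Fin n → ℂ) →L[ℝ] ℝ).smulRight (v x) = 0 := by ext; simp
      rw [this, map_zero]
    have m1 : MemLp (fun x => g i x • v x) 2 μ := by
      refine MemLp.of_le_mul (c := C₁) hv (hgs.continuous.aestronglyMeasurable.smul hv.1)
        (Eventually.of_forall fun x => ?_)
      rw [norm_smul]
      gcongr
      exact hC₁ x
    have m2 : MemLp (fun x => g i x • w x) 2 μ := by
      refine MemLp.of_le_mul (c := C₁) hw (hgs.continuous.aestronglyMeasurable.smul hw.1)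
        (Eventually.of_forall fun x => ?_)
      rw [norm_smul]
      gcongr
      exact hC₁ x
    have m3 : MemLp (fun x => L ((D (g i) x).smulRight (v x))) 2 μ := by
      refine MemLp.of_le_mul (c := ‖L‖ * C₂) hv (aesm_L L (contA_aesm hgs.D.continuous μ) hv.1)
        (Eventually.of_forall fun x => ?_)
      refine (norm_L_le L _ _).trans ?_
      gcongr
      exact hC₂ x
    refine density_chart hμ (isCh_ch (c i)) L (fun x => g i x • v x)
      (fun x => g i x • w x + L ((D (g i) x).smulRight (v x))) m1 (m2.add m3)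
      (K ∩ tsupport (g i)) (hK.inter_right (isClosed_tsupport _))
      (inter_subset_right.trans hgt) ?_ ?_ (WP.smul h hvl hv.1 hwl hgs) U hU
      (inter_subset_left.trans hKU) (ε / (m + 1)) ?_
    · intro x hx
      by_cases hxK : x ∈ K
      · have : x ∉ tsupport (g i) := fun hc => hx ⟨hxK, hc⟩
        rw [image_eq_zero_of_notMem_tsupport this, zero_smul]
      · rw [hvK x hxK, smul_zero]
    · intro x hx
      by_cases hxK : x ∈ K
      · have h1 : x ∉ tsupport (g i) := fun hc => hx ⟨hxK, hc⟩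
        have h2 : x ∉ tsupport (D (g i)) := fun hc => h1 (tsupport_D _ hc)
        rw [image_eq_zero_of_notMem_tsupport h1, zero_smul, zero_add]
        exact hz' x (image_eq_zero_of_notMem_tsupport h2)
      · rw [hwK x hxK, smul_zero, zero_add]
        exact hz x (hvK x hxK)
    · exact ENNReal.div_pos hε.ne' (by simp)
  choose f hfs hfc hfU hf1 hf2 using key
  have hDs : ∀ (s : Finset (Fin m)) (x : M), D (fun y => ∑ i ∈ s, f i y) x =
      ∑ i ∈ s, D (f i) x := by
    intro s x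
    induction s using Finset.induction_on with
    | empty => simp [D_const]
    | insert a s ha ih =>
      simp only [Finset.sum_insert ha]
      rw [D_add (hfs a) (Sm.sum fun i _ => hfs i), ih]
  have hεs : ∑ _i : Fin m, ε / ((m : ℝ≥0∞) + 1) ≤ ε := by
    rw [Finset.sum_const, Finset.card_univ, Fintype.card_fin, nsmul_eq_mul]
    calc (m : ℝ≥0∞) * (ε / (m + 1)) ≤ ((m : ℝ≥0∞) + 1) * (ε / (m + 1)) := by
          gcongr; exact le_self_add
      _ = ε := ENNReal.mul_div_cancel (by simp) (by simp)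
  have hsub : tsupport (fun x => ∑ i, f i x) ⊆ ⋃ i, tsupport (f i) := by
    refine closure_minimal ?_ (isClosed_iUnion_of_finite fun i => isClosed_tsupport _)
    intro x hx
    by_contra hcon
    apply hx
    refine Finset.sum_eq_zero fun i _ => ?_
    by_contra hne
    exact hcon (mem_iUnion.2 ⟨i, subset_tsupport _ hne⟩)
  refine ⟨fun x => ∑ i, f i x, Sm.sum fun i _ => hfs i, ?_, ?_, ?_, ?_⟩
  · exact (isCompact_iUnion fun i => hfc i).of_isClosed_subset (isClosed_tsupport _) hsub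
  · exact hsub.trans (iUnion_subset hfU)
  · have e1 : ((fun x => ∑ i, f i x) - v) = ∑ i, (f i - fun x => g i x • v x) := by
      funext x
      rw [Pi.sub_apply, Finset.sum_apply]
      simp only [Pi.sub_apply]
      rw [Finset.sum_sub_distrib, ← Finset.sum_smul]
      by_cases hx : x ∈ K
      · rw [hsum1 x hx, one_smul]
      · rw [hvK x hx, smul_zero]
    rw [e1]
    refine (eLpNorm_sum_le (fun i _ => (hfs i).continuous.aestronglyMeasurable.sub
      ((hg i).1.continuous.aestronglyMeasurable.smul hv.1)) (by norm_num)).trans ?_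
    exact (Finset.sum_le_sum fun i _ => hf1 i).trans hεs
  · have e1 : (fun x => L (D (fun x => ∑ i, f i x) x) - w x) =
        ∑ i, fun x => L (D (f i) x) - (g i x • w x + L ((D (g i) x).smulRight (v x))) := by
      funext x
      rw [Finset.sum_apply, hDs Finset.univ x, map_sum, Finset.sum_sub_distrib,
        Finset.sum_add_distrib, ← Finset.sum_smul]
      congr 1
      by_cases hx : x ∈ K
      · have h1 : ∑ i, (D (g i) x).smulRight (v x) = 0 := by
          have h2 : ∑ i, (D (g i) x).smulRight (v x) = (∑ i, D (g i) x).smulRight (v x) := by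
            ext e
            simp [Finset.sum_smul]
          rw [h2, hsumD x hx]
          ext; simp
        rw [hsum1 x hx, one_smul, ← map_sum, h1, map_zero, add_zero]
      · have h1 : ∑ i, (D (g i) x).smulRight (v x) = 0 := by
          refine Finset.sum_eq_zero fun i _ => ?_
          rw [hvK x hx]
          ext; simp
        rw [hwK x hx, smul_zero, ← map_sum, h1, map_zero, add_zero]
    rw [e1]
    refine (eLpNorm_sum_le (fun i _ => ?_) (by norm_num)).trans ?_
    · exact ((L.continuous.comp (hfs i).D.continuous).aestronglyMeasurable.sub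
        (((hg i).1.continuous.aestronglyMeasurable.smul hw.1).add
          (aesm_L L (contA_aesm (hg i).1.D.continuous μ) hv.1)))
    · exact (Finset.sum_le_sum fun i _ => hf2 i).trans hεs

end chart

end Crest.Agent.R271.H88
end
end

-- ▼ part R271/T7b2_88

/-!
# Row 271, analytic engine (H), piece T7b2: the basic estimate for compactly supported `L²` forms
(helper88)
-/

set_option autoImplicit false
set_option linter.unusedSectionVars false

noncomputable section

open Set Filter Topology MeasureTheory ComplexConjugate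
open scoped ENNReal

namespace Crest.Agent.R271.H88

open Crest.Agent.R271.Ho51

variable {n : ℕ} {M : Type*} [TopologicalSpace M] [RDom n M] [MeasurableSpace M] [BorelSpace M]

/-- the statement of the a priori inequality (T2) -/
def Apriori (μ : Measure M) : Prop :=
  ∀ (phi psi : M → ℝ), Sm phi → Sm psi → ∀ f : M → (Fin n → ℂ), Sm f → HasCompactSupport f →
    ∫ x, Levi phi x (f x) * Real.exp (-phi x) ∂μ ≤
      2 * ∫ x, ‖∑ j, (dz j (fun y => f y j) x -
          f x j * dz j (fun y => ((phi y - psi y : ℝ) : ℂ)) x)‖ ^ 2 * Real.exp (-phi x) ∂μ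
      + 2 * ∫ x, nsq (f x) * nsq (fun j => dz j (fun y => (psi y : ℂ)) x) * Real.exp (-phi x) ∂μ
      + (1 / 2) * ∑ j, ∑ k, ∫ x, ‖db j (fun y => f y k) x - db k (fun y => f y j) x‖ ^ 2 *
          Real.exp (-phi x) ∂μ

variable {μ : Measure M}

lemma Lv_continuous {φ : M → ℝ} (hφ : Sm φ) (j k : Fin n) : Continuous (fun x => Lv φ x j k) :=
  ((hφ.ofReal.db k).dz j).continuous

lemma Levi_continuous {φ : M → ℝ} (hφ : Sm φ) {f : M → Fin n → ℂ} (hf : Continuous f) :
    Continuous (fun x => Levi φ x (f x)) := by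
  unfold Levi
  refine Complex.continuous_re.comp ?_
  refine continuous_finsetSum _ fun j _ => continuous_finsetSum _ fun k _ => ?_
  exact ((Lv_continuous hφ j k).mul ((continuous_apply j).comp hf)).mul
    (Complex.continuous_conj.comp ((continuous_apply k).comp hf))

lemma Levi_zero (φ : M → ℝ) (x : M) : Levi φ x 0 = 0 := by
  simp [Levi]

lemma nsq_zero : nsq (0 : Fin n → ℂ) = 0 := by simp [nsq]

lemma nsq_continuous : Continuous (nsq : (Fin n → ℂ) → ℝ) := by
  unfold nsq
  exact continuous_finsetSum _ fun j _ => ((continuous_apply j).norm).pow 2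

/-- the integral of a square -/
lemma sq_int {V : Type*} [NormedAddCommGroup V] {G : M → V} (hG : MemLp G 2 μ) :
    ∫ x, ‖G x‖ ^ 2 ∂μ = (eLpNorm G 2 μ).toReal ^ 2 := by
  rw [eLpNorm_eq_lintegral_rpow_enorm_toReal (by norm_num) (by norm_num),
    integral_eq_lintegral_of_nonneg_ae (f := fun x => ‖G x‖ ^ 2)
      (Eventually.of_forall fun x => by positivity) ((hG.1.norm.pow 2))]
  have e : ∀ x, ENNReal.ofReal (‖G x‖ ^ 2) = ‖G x‖ₑ ^ (ENNReal.toReal 2) := by
    intro x
    rw [ENNReal.ofReal_pow (norm_nonneg _), ofReal_norm]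
    simp
  simp_rw [e]
  rw [← ENNReal.toReal_rpow, ← Real.rpow_natCast, ← Real.rpow_mul ENNReal.toReal_nonneg]
  simp

lemma tendsto_sq {V : Type*} [NormedAddCommGroup V] {H : ℕ → M → V} {H0 : M → V}
    (hH : ∀ k, MemLp (H k) 2 μ) (hH0 : MemLp H0 2 μ)
    (h : Tendsto (fun k => eLpNorm (H k - H0) 2 μ) atTop (𝓝 0)) :
    Tendsto (fun k => ∫ x, ‖H k x‖ ^ 2 ∂μ) atTop (𝓝 (∫ x, ‖H0 x‖ ^ 2 ∂μ)) := by
  have h1 := ((Lp.tendsto_Lp_iff_tendsto_eLpNorm'' H hH H0 hH0).2 h).norm
  simp only [Lp.norm_toLp] at h1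
  rw [sq_int hH0]
  simp_rw [sq_int (hH _)]
  exact h1.pow 2

/-- `L²` convergence of functions supported in a compact set, controlled by `p k`, `q k`. -/
lemma tendsto_of_bound {V : Type*} [NormedAddCommGroup V] {P Q : Type*} [NormedAddCommGroup P]
    [NormedAddCommGroup Q] {H : ℕ → M → V} {H0 : M → V} {p : ℕ → M → P} {q : ℕ → M → Q}
    (hp : ∀ k, AEStronglyMeasurable (p k) μ) (hq : ∀ k, AEStronglyMeasurable (q k) μ)
    (hpt : Tendsto (fun k => eLpNorm (p k) 2 μ) atTop (𝓝 0))
    (hqt : Tendsto (fun k => eLpNorm (q k) 2 μ) atTop (𝓝 0)) {C : ℝ} (_hC : 0 ≤ C)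
    (hb : ∀ k x, ‖H k x - H0 x‖ ≤ C * (‖p k x‖ + ‖q k x‖)) :
    Tendsto (fun k => eLpNorm (H k - H0) 2 μ) atTop (𝓝 0) := by
  have h1 : ∀ k, eLpNorm (H k - H0) 2 μ ≤
      ENNReal.ofReal C * (eLpNorm (p k) 2 μ + eLpNorm (q k) 2 μ) := by
    intro k
    have h2 : eLpNorm (H k - H0) 2 μ ≤
        ENNReal.ofReal C * eLpNorm (fun x => ‖p k x‖ + ‖q k x‖) 2 μ := by
      refine eLpNorm_le_mul_eLpNorm_of_ae_le_mul (Eventually.of_forall fun x => ?_) 2
      refine (hb k x).trans (le_of_eq ?_)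
      rw [Real.norm_of_nonneg (by positivity)]
    refine h2.trans ?_
    gcongr
    refine (eLpNorm_add_le (hp k).norm (hq k).norm (by norm_num)).trans ?_
    rw [eLpNorm_norm, eLpNorm_norm]
  have h3 : Tendsto (fun k => ENNReal.ofReal C * (eLpNorm (p k) 2 μ + eLpNorm (q k) 2 μ)) atTop
      (𝓝 0) := by
    have := ENNReal.Tendsto.const_mul (a := ENNReal.ofReal C) (hpt.add hqt)
      (Or.inr ENNReal.ofReal_ne_top)
    simpa using this
  exact tendsto_of_tendsto_of_tendsto_of_le_of_le tendsto_const_nhds h3 (fun _ => zero_le) h1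

section main

variable [T2Space M]
  {Phi chi psi : M → ℝ} {al : M → (Fin n → ℂ)} {kap : M → ℝ} {K0 : ℝ}

/-- Cauchy–Schwarz for the pairing. -/
lemma pairing_cs (hμ : IsLeb μ) (hPhi : Sm Phi) (hchi : Sm chi)
    (hpos : ∀ x w, 0 ≤ Levi Phi x w)
    (h2 : ∀ x, 2 * psi x ≤ chi x) (hkap0 : ∀ x, 0 ≤ kap x)
    (hkapm : Measurable kap)
    (hk : ∀ x (w : Fin n → ℂ), ‖∑ j, al x j * conj (w j)‖ ^ 2 ≤ kap x * Levi Phi x w)
    (hK0 : 0 ≤ K0)
    (hK : ∫⁻ x, ENNReal.ofReal (kap x * Real.exp (-Phi x)) ∂μ ≤ ENNReal.ofReal K0)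
    {f : M → (Fin n → ℂ)} (hf : Sm f) (hfc : HasCompactSupport f) :
    ‖∫ x, (∑ j, al x j * conj (f x j)) * (Real.exp (-(Phi x + chi x - psi x)) : ℂ) ∂μ‖ ^ 2 ≤
      K0 * ∫ x, Levi Phi x (f x) * Real.exp (-(Phi x + chi x)) ∂μ := by
  have hloc := hμ.locallyFinite
  set a : M → ℝ := fun x => kap x * Real.exp (-Phi x) with ha
  set b : M → ℝ := fun x => Levi Phi x (f x) * Real.exp (-(Phi x + chi x)) with hb
  have ha0 : ∀ x, 0 ≤ a x := fun x => mul_nonneg (hkap0 x) (Real.exp_pos _).le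
  have hb0 : ∀ x, 0 ≤ b x := fun x => mul_nonneg (hpos x _) (Real.exp_pos _).le
  have hbc : Continuous b := (Levi_continuous hPhi hf.continuous).mul
    (Real.continuous_exp.comp (hPhi.continuous.add hchi.continuous).neg)
  have hbs : HasCompactSupport b := by
    refine hfc.mono' ?_
    intro x hx
    by_contra hxs
    apply hx
    simp only [hb]
    rw [image_eq_zero_of_notMem_tsupport hxs, Levi_zero, zero_mul]
  have hbi : Integrable b μ := hbc.integrable_of_hasCompactSupport hbs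
  have ham : Measurable a := hkapm.mul
    (Real.measurable_exp.comp hPhi.continuous.measurable.neg)
  have hbm : Measurable b := hbc.measurable
  have hpt : ∀ x, ‖(∑ j, al x j * conj (f x j)) *
      (Real.exp (-(Phi x + chi x - psi x)) : ℂ)‖ ≤ Real.sqrt (a x) * Real.sqrt (b x) := by
    intro x
    rw [norm_mul, Complex.norm_real, Real.norm_of_nonneg (Real.exp_pos _).le,
      ← Real.sqrt_mul (ha0 x)]
    apply Real.le_sqrt_of_sq_le
    rw [mul_pow]
    have e1 : Real.exp (-(Phi x + chi x - psi x)) ^ 2 ≤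
        Real.exp (-Phi x) * Real.exp (-(Phi x + chi x)) := by
      rw [sq, ← Real.exp_add, ← Real.exp_add]
      apply Real.exp_le_exp.2
      have := h2 x
      linarith
    calc ‖∑ j, al x j * conj (f x j)‖ ^ 2 * Real.exp (-(Phi x + chi x - psi x)) ^ 2
        ≤ (kap x * Levi Phi x (f x)) * (Real.exp (-Phi x) * Real.exp (-(Phi x + chi x))) :=
          mul_le_mul (hk x (f x)) e1 (by positivity) (mul_nonneg (hkap0 x) (hpos x _))
      _ = a x * b x := by simp only [ha, hb]; ring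
  have key : ‖∫ x, (∑ j, al x j * conj (f x j)) *
      (Real.exp (-(Phi x + chi x - psi x)) : ℂ) ∂μ‖ₑ ^ 2 ≤
      (∫⁻ x, ENNReal.ofReal (a x) ∂μ) * ∫⁻ x, ENNReal.ofReal (b x) ∂μ := by
    have h3 : ‖∫ x, (∑ j, al x j * conj (f x j)) *
        (Real.exp (-(Phi x + chi x - psi x)) : ℂ) ∂μ‖ₑ ≤
        ∫⁻ x, ENNReal.ofReal (Real.sqrt (a x)) * ENNReal.ofReal (Real.sqrt (b x)) ∂μ := by
      refine (enorm_integral_le_lintegral_enorm _).trans (lintegral_mono fun x => ?_)
      rw [← ofReal_norm, ← ENNReal.ofReal_mul (Real.sqrt_nonneg _)]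
      exact ENNReal.ofReal_le_ofReal (hpt x)
    have h4 := ENNReal.lintegral_mul_le_Lp_mul_Lq μ Real.HolderConjugate.two_two
      (f := fun x => ENNReal.ofReal (Real.sqrt (a x)))
      (g := fun x => ENNReal.ofReal (Real.sqrt (b x)))
      ham.sqrt.ennreal_ofReal.aemeasurable hbm.sqrt.ennreal_ofReal.aemeasurable
    have e2 : ∀ {c : M → ℝ}, (∀ x, 0 ≤ c x) → ∀ x,
        ENNReal.ofReal (Real.sqrt (c x)) ^ (2 : ℝ) = ENNReal.ofReal (c x) := by
      intro c hc x
      rw [ENNReal.ofReal_rpow_of_nonneg (Real.sqrt_nonneg _) (by norm_num)]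
      congr 1
      rw [show (2 : ℝ) = ((2 : ℕ) : ℝ) by norm_num, Real.rpow_natCast, Real.sq_sqrt (hc x)]
    simp only [e2 ha0, e2 hb0, Pi.mul_apply] at h4
    calc ‖∫ x, (∑ j, al x j * conj (f x j)) *
        (Real.exp (-(Phi x + chi x - psi x)) : ℂ) ∂μ‖ₑ ^ 2
        ≤ ((∫⁻ x, ENNReal.ofReal (a x) ∂μ) ^ (1 / 2 : ℝ) *
          (∫⁻ x, ENNReal.ofReal (b x) ∂μ) ^ (1 / 2 : ℝ)) ^ 2 :=
          pow_le_pow_left' (h3.trans h4) 2
      _ = (∫⁻ x, ENNReal.ofReal (a x) ∂μ) * ∫⁻ x, ENNReal.ofReal (b x) ∂μ := by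
          rw [mul_pow, ← ENNReal.rpow_natCast, ← ENNReal.rpow_natCast, ← ENNReal.rpow_mul,
            ← ENNReal.rpow_mul]
          norm_num
  have h5 : ∫⁻ x, ENNReal.ofReal (b x) ∂μ = ENNReal.ofReal (∫ x, b x ∂μ) :=
    (ofReal_integral_eq_lintegral_ofReal hbi (Eventually.of_forall hb0)).symm
  rw [h5] at key
  have h6 := key.trans (mul_le_mul_left hK _)
  rw [← ENNReal.ofReal_mul hK0, ← ofReal_norm, ← ENNReal.ofReal_pow (norm_nonneg _)] at h6
  have h7 : 0 ≤ K0 * ∫ x, b x ∂μ := mul_nonneg hK0 (integral_nonneg hb0)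
  exact (ENNReal.ofReal_le_ofReal_iff h7).1 h6

/-- the estimate for test forms -/
lemma pairing_test (hμ : IsLeb μ) (hap : Apriori μ) (hPhi : Sm Phi) (hchi : Sm chi)
    (hpsi : Sm psi) (hpos : ∀ x w, 0 ≤ Levi Phi x w)
    (hL : ∀ x w, 2 * nsq (fun j => dz j (fun y => (psi y : ℂ)) x) * nsq w ≤ Levi chi x w)
    (h2 : ∀ x, 2 * psi x ≤ chi x) (hkap0 : ∀ x, 0 ≤ kap x)
    (hkapm : Measurable kap)
    (hk : ∀ x (w : Fin n → ℂ), ‖∑ j, al x j * conj (w j)‖ ^ 2 ≤ kap x * Levi Phi x w)
    (hK0 : 0 ≤ K0)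
    (hK : ∫⁻ x, ENNReal.ofReal (kap x * Real.exp (-Phi x)) ∂μ ≤ ENNReal.ofReal K0)
    {f : M → (Fin n → ℂ)} (hf : Sm f) (hfc : HasCompactSupport f) :
    ‖∫ x, (∑ j, al x j * conj (f x j)) * (Real.exp (-(Phi x + chi x - psi x)) : ℂ) ∂μ‖ ^ 2 ≤
      K0 * (2 * ∫ x, ‖(Lop n (D f x)).1 - ∑ j, f x j *
          dz j (fun y => ((Phi y + chi y - psi y : ℝ) : ℂ)) x‖ ^ 2 *
            Real.exp (-(Phi x + chi x)) ∂μ +
        (1 / 2) * ∑ j, ∑ k, ∫ x, ‖(Lop n (D f x)).2 j k‖ ^ 2 *
            Real.exp (-(Phi x + chi x)) ∂μ) := by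
  have hloc := hμ.locallyFinite
  refine (pairing_cs hμ hPhi hchi hpos h2 hkap0 hkapm hk hK0 hK hf hfc).trans ?_
  refine mul_le_mul_of_nonneg_left ?_ hK0
  have h3 := hap (fun x => Phi x + chi x) psi (hPhi.add hchi) hpsi f hf hfc
  have e1 : ∀ x, (Lop n (D f x)).1 - ∑ j, f x j *
          dz j (fun y => ((Phi y + chi y - psi y : ℝ) : ℂ)) x =
      ∑ j, (dz j (fun y => f y j) x - f x j *
          dz j (fun y => ((Phi y + chi y - psi y : ℝ) : ℂ)) x) := by
    intro x
    rw [Lop_D_fst hf, Finset.sum_sub_distrib]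
  simp_rw [e1, Lop_D_snd hf]
  have hcs : ∀ (g : M → ℝ), Continuous g → (∀ x, f x = 0 → g x = 0) → Integrable g μ := by
    intro g hg hg0
    refine hg.integrable_of_hasCompactSupport (hfc.mono' ?_)
    intro x hx
    by_contra hxs
    exact hx (hg0 x (image_eq_zero_of_notMem_tsupport hxs))
  have hexp : Continuous fun x => Real.exp (-(Phi x + chi x)) :=
    Real.continuous_exp.comp (hPhi.continuous.add hchi.continuous).neg
  have hdpsi : Continuous fun x => nsq (fun j => dz j (fun y => (psi y : ℂ)) x) := by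
    refine nsq_continuous.comp ?_
    exact continuous_pi fun j => (hpsi.ofReal.dz j).continuous
  have i1 : Integrable (fun x => Levi Phi x (f x) * Real.exp (-(Phi x + chi x))) μ :=
    hcs _ ((Levi_continuous hPhi hf.continuous).mul hexp) fun x hx => by rw [hx, Levi_zero]; ring
  have i2 : Integrable (fun x => nsq (f x) * nsq (fun j => dz j (fun y => (psi y : ℂ)) x) *
      Real.exp (-(Phi x + chi x))) μ :=
    hcs _ (((nsq_continuous.comp hf.continuous).mul hdpsi).mul hexp) fun x hx => by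
      rw [hx, nsq_zero]; ring
  have i3 : Integrable (fun x => Levi (fun y => Phi y + chi y) x (f x) *
      Real.exp (-(Phi x + chi x))) μ :=
    hcs _ ((Levi_continuous (hPhi.add hchi) hf.continuous).mul hexp) fun x hx => by
      rw [hx, Levi_zero]; ring
  have h4 : ∫ x, Levi Phi x (f x) * Real.exp (-(Phi x + chi x)) ∂μ +
      2 * ∫ x, nsq (f x) * nsq (fun j => dz j (fun y => (psi y : ℂ)) x) *
        Real.exp (-(Phi x + chi x)) ∂μ ≤
      ∫ x, Levi (fun y => Phi y + chi y) x (f x) * Real.exp (-(Phi x + chi x)) ∂μ := by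
    rw [← integral_const_mul, ← integral_add i1 (i2.const_mul 2)]
    refine integral_mono (i1.add (i2.const_mul 2)) i3 fun x => ?_
    show Levi Phi x (f x) * Real.exp (-(Phi x + chi x)) +
      2 * (nsq (f x) * nsq (fun j => dz j (fun y => (psi y : ℂ)) x) *
        Real.exp (-(Phi x + chi x))) ≤ _
    rw [Levi_add hPhi hchi]
    have h5 := hL x (f x)
    have h6 := Real.exp_pos (-(Phi x + chi x))
    nlinarith
  linarith

/-- **T7b2**: the estimate for compactly supported `L²` forms. -/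
theorem pairing_compact (hμ : IsLeb μ) (hap : Apriori μ) (hPhi : Sm Phi) (hchi : Sm chi)
    (hpsi : Sm psi) (hpos : ∀ x w, 0 ≤ Levi Phi x w)
    (hL : ∀ x w, 2 * nsq (fun j => dz j (fun y => (psi y : ℂ)) x) * nsq w ≤ Levi chi x w)
    (h2 : ∀ x, 2 * psi x ≤ chi x) (hal : Continuous al) (hkap0 : ∀ x, 0 ≤ kap x)
    (hkapm : Measurable kap)
    (hk : ∀ x (w : Fin n → ℂ), ‖∑ j, al x j * conj (w j)‖ ^ 2 ≤ kap x * Levi Phi x w)
    (hK0 : 0 ≤ K0)
    (hKint : ∫⁻ x, ENNReal.ofReal (kap x * Real.exp (-Phi x)) ∂μ ≤ ENNReal.ofReal K0)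
    {v : M → (Fin n → ℂ)} {d : M → ℂ} {s : M → Fin n → Fin n → ℂ}
    (hv : MemLp v 2 μ) (hd : MemLp d 2 μ) (hs : MemLp s 2 μ) {K : Set M} (hK : IsCompact K)
    (hvK : ∀ x ∉ K, v x = 0) (hdK : ∀ x ∉ K, d x = 0) (hsK : ∀ x ∉ K, s x = 0)
    (hw : WP μ (Lop n) v (fun x => (d x, s x))) :
    ‖∫ x, (∑ j, al x j * conj (v x j)) * (Real.exp (-(Phi x + chi x - psi x)) : ℂ) ∂μ‖ ^ 2 ≤
      K0 * (2 * ∫ x, ‖d x - ∑ j, v x j *
          dz j (fun y => ((Phi y + chi y - psi y : ℝ) : ℂ)) x‖ ^ 2 *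
            Real.exp (-(Phi x + chi x)) ∂μ +
        (1 / 2) * ∑ j, ∑ k, ∫ x, ‖s x j k‖ ^ 2 * Real.exp (-(Phi x + chi x)) ∂μ) := by
  have hloc := hμ.locallyFinite
  -- a relatively compact neighbourhood of `K`
  obtain ⟨U, K', hU, hKU, hUK', hK'⟩ : ∃ U K' : Set M, IsOpen U ∧ K ⊆ U ∧ U ⊆ K' ∧
      IsCompact K' := by
    obtain ⟨m, c, g, hg, hsum⟩ := exists_pou (M := M) hK
    refine ⟨{x | 0 < ∑ i, g i x}, ⋃ i, tsupport (g i), ?_, ?_, ?_, ?_⟩
    · exact isOpen_lt continuous_const (Sm.sum fun i _ => (hg i).1).continuous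
    · intro x hx
      have := hsum.self_of_nhdsSet x hx
      simp [this]
    · intro x hx
      by_contra hcon
      have h0 : ∑ i, g i x = 0 := Finset.sum_eq_zero fun i _ => by
        by_contra hne
        exact hcon (mem_iUnion.2 ⟨i, subset_tsupport _ hne⟩)
      rw [mem_ofPred_eq, h0] at hx
      exact lt_irrefl _ hx
    · exact isCompact_iUnion fun i => (hg i).2.1
  have hwm : MemLp (fun x => (d x, s x)) 2 μ := by
    refine MemLp.of_le_mul (g := fun x => ‖d x‖ + ‖s x‖) (c := 1) (hd.norm.add hs.norm)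
      (hd.1.prodMk hs.1) (Eventually.of_forall fun x => ?_)
    rw [one_mul, Real.norm_of_nonneg (by positivity), Prod.norm_def]
    exact max_le (le_add_of_nonneg_right (norm_nonneg _)) (le_add_of_nonneg_left (norm_nonneg _))
  have hKK' : K ⊆ K' := hKU.trans hUK'
  have hε : ∀ k : ℕ, (0 : ℝ≥0∞) < ((k : ℝ≥0∞) + 1)⁻¹ := fun k => by
    rw [ENNReal.inv_pos]; simp
  choose f hfs hfc hfU hf1 hf2 using fun k : ℕ => density_compact hμ (Lop n) v
    (fun x => (d x, s x)) hv hwm K hK hvK (fun x hx => by rw [hdK x hx, hsK x hx]; rfl) hw U hU hKU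
    ((k : ℝ≥0∞) + 1)⁻¹ (hε k)
  have hfz : ∀ k, ∀ x ∉ K', f k x = 0 := fun k x hx =>
    image_eq_zero_of_notMem_tsupport fun hc => hx (hUK' (hfU k hc))
  have hDz : ∀ k, ∀ x ∉ K', D (f k) x = 0 := fun k x hx =>
    image_eq_zero_of_notMem_tsupport fun hc => hx (hUK' (hfU k (tsupport_D _ hc)))
  have hvz : ∀ x ∉ K', v x = 0 := fun x hx => hvK x fun hc => hx (hKK' hc)
  have hdz : ∀ x ∉ K', d x = 0 := fun x hx => hdK x fun hc => hx (hKK' hc)
  have hsz : ∀ x ∉ K', s x = 0 := fun x hx => hsK x fun hc => hx (hKK' hc)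
  have hinv : Tendsto (fun k : ℕ => ((k : ℝ≥0∞) + 1)⁻¹) atTop (𝓝 0) := by
    have h1 := ENNReal.tendsto_inv_nat_nhds_zero
    have h3 := (tendsto_add_atTop_iff_nat (f := fun k : ℕ => ((k : ℝ≥0∞))⁻¹) 1).2 h1
    simpa using h3
  -- the two basic convergences
  have t1 : Tendsto (fun k => eLpNorm (f k - v) 2 μ) atTop (𝓝 0) :=
    tendsto_of_tendsto_of_tendsto_of_le_of_le tendsto_const_nhds hinv (fun _ => zero_le) hf1
  have t2 : Tendsto (fun k => eLpNorm (fun x => Lop n (D (f k) x) - (d x, s x)) 2 μ) atTop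
      (𝓝 0) :=
    tendsto_of_tendsto_of_tendsto_of_le_of_le tendsto_const_nhds hinv (fun _ => zero_le) hf2
  have mfv : ∀ k, AEStronglyMeasurable (f k - v) μ := fun k =>
    (hfs k).continuous.aestronglyMeasurable.sub hv.1
  have mDf : ∀ k, AEStronglyMeasurable (fun x => Lop n (D (f k) x)) μ := fun k =>
    ((Lop n).continuous.comp (hfs k).D.continuous).aestronglyMeasurable
  have mw : ∀ k, AEStronglyMeasurable (fun x => Lop n (D (f k) x) - (d x, s x)) μ := fun k =>
    (mDf k).sub hwm.1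
  -- weights
  set E1 : M → ℝ := fun x => Real.exp (-(Phi x + chi x - psi x)) with hE1
  set E2 : M → ℝ := fun x => Real.exp (-(Phi x + chi x) / 2) with hE2
  set th : Fin n → M → ℂ := fun j x => dz j (fun y => ((Phi y + chi y - psi y : ℝ) : ℂ)) x with hth
  have hE1c : Continuous E1 := Real.continuous_exp.comp
    ((hPhi.continuous.add hchi.continuous).sub hpsi.continuous).neg
  have hE2c : Continuous E2 := Real.continuous_exp.comp
    ((hPhi.continuous.add hchi.continuous).neg.div_const 2)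
  have hE2sq : ∀ x, Real.exp (-(Phi x + chi x)) = E2 x ^ 2 := fun x => by
    rw [hE2, sq, ← Real.exp_add]; congr 1; ring
  have hthc : ∀ j, Continuous (th j) := fun j =>
    ((Sm.ofReal ((hPhi.add hchi).sub hpsi)).dz j).continuous
  obtain ⟨C2, hC2⟩ := hK'.exists_bound_of_continuousOn hE2c.continuousOn
  obtain ⟨C3, hC3⟩ := hK'.exists_bound_of_continuousOn
    (f := fun x => ∑ j, ‖th j x‖) (continuous_finsetSum _ fun j _ => (hthc j).norm).continuousOn
  obtain ⟨C1, hC1⟩ := hK'.exists_bound_of_continuousOn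
    (f := fun x => (∑ j, ‖al x j‖) * E1 x)
    ((continuous_finsetSum _ fun j _ => ((continuous_apply j).comp hal).norm).mul hE1c).continuousOn
  have hC2' : ∀ x ∈ K', E2 x ≤ |C2| := fun x hx =>
    (le_abs_self _).trans ((hC2 x hx).trans (le_abs_self _))
  have hC3' : ∀ x ∈ K', ∑ j, ‖th j x‖ ≤ |C3| := fun x hx =>
    (le_abs_self _).trans ((hC3 x hx).trans (le_abs_self _))
  have hC1' : ∀ x ∈ K', (∑ j, ‖al x j‖) * E1 x ≤ |C1| := fun x hx =>
    (le_abs_self _).trans ((hC1 x hx).trans (le_abs_self _))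
  have hE2p : ∀ x, 0 ≤ E2 x := fun x => (Real.exp_pos _).le
  have hE1p : ∀ x, 0 ≤ E1 x := fun x => (Real.exp_pos _).le
  -- the pairing converges
  have hsumle : ∀ (x : M) (a b : Fin n → ℂ), ‖∑ j, a j * conj (b j)‖ ≤ (∑ j, ‖a j‖) * ‖b‖ := by
    intro x a b
    refine (norm_sum_le _ _).trans ?_
    rw [Finset.sum_mul]
    refine Finset.sum_le_sum fun j _ => ?_
    rw [norm_mul, Complex.norm_conj]
    gcongr
    exact norm_le_pi_norm b j
  have hsumle' : ∀ (x : M) (a b : Fin n → ℂ), ‖∑ j, b j * a j‖ ≤ (∑ j, ‖a j‖) * ‖b‖ := by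
    intro x a b
    refine (norm_sum_le _ _).trans ?_
    rw [Finset.sum_mul]
    refine Finset.sum_le_sum fun j _ => ?_
    rw [norm_mul, mul_comm]
    gcongr
    exact norm_le_pi_norm b j
  have mcomp : ∀ {u : M → (Fin n → ℂ)}, AEStronglyMeasurable u μ → ∀ j : Fin n,
      AEStronglyMeasurable (fun x => u x j) μ := fun {u} hu j =>
    (continuous_apply j).comp_aestronglyMeasurable hu
  have mpair : ∀ {u : M → (Fin n → ℂ)}, AEStronglyMeasurable u μ →
      AEStronglyMeasurable (fun x => (∑ j, al x j * conj (u x j)) * (E1 x : ℂ)) μ := by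
    intro u hu
    refine AEStronglyMeasurable.mul ?_
      (Complex.continuous_ofReal.comp hE1c).aestronglyMeasurable
    refine Finset.aestronglyMeasurable_fun_sum _ fun j _ => ?_
    exact (((continuous_apply j).comp hal).aestronglyMeasurable).mul
      (Complex.continuous_conj.comp_aestronglyMeasurable (mcomp hu j))
  have hPb : ∀ (u u' : M → (Fin n → ℂ)), (∀ x ∉ K', u x = 0) → (∀ x ∉ K', u' x = 0) → ∀ x,
      ‖(∑ j, al x j * conj (u x j)) * (E1 x : ℂ) - (∑ j, al x j * conj (u' x j)) * (E1 x : ℂ)‖ ≤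
        |C1| * ‖u x - u' x‖ := by
    intro u u' hu hu' x
    have e : (∑ j, al x j * conj (u x j)) * (E1 x : ℂ) -
        (∑ j, al x j * conj (u' x j)) * (E1 x : ℂ) =
        (∑ j, al x j * conj ((u x - u' x) j)) * (E1 x : ℂ) := by
      rw [← sub_mul, ← Finset.sum_sub_distrib]
      congr 1
      refine Finset.sum_congr rfl fun j _ => ?_
      rw [Pi.sub_apply, map_sub]; ring
    rw [e, norm_mul, Complex.norm_real, Real.norm_of_nonneg (hE1p x)]
    by_cases hx : x ∈ K'
    · calc ‖∑ j, al x j * conj ((u x - u' x) j)‖ * E1 x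
          ≤ ((∑ j, ‖al x j‖) * ‖u x - u' x‖) * E1 x :=
            mul_le_mul_of_nonneg_right (hsumle x (al x) (u x - u' x)) (hE1p x)
        _ = ((∑ j, ‖al x j‖) * E1 x) * ‖u x - u' x‖ := by ring
        _ ≤ |C1| * ‖u x - u' x‖ := mul_le_mul_of_nonneg_right (hC1' x hx) (norm_nonneg _)
    · rw [hu x hx, hu' x hx]
      simp
  have hfin : IsFiniteMeasure (μ.restrict K') :=
    ⟨by rw [Measure.restrict_apply_univ]; exact hK'.measure_lt_top⟩
  have hu1 : ∀ {u : M → (Fin n → ℂ)}, MemLp u 2 μ → (∀ x ∉ K', u x = 0) → Integrable u μ := by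
    intro u hu hu0
    have h1 : IntegrableOn u K' μ :=
      memLp_one_iff_integrable.1 ((hu.restrict K').mono_exponent (by norm_num))
    refine (integrableOn_iff_integrable_of_support_subset ?_).1 h1
    intro x hx
    by_contra hc
    exact hx (hu0 x hc)
  have hPi : ∀ {u : M → (Fin n → ℂ)}, MemLp u 2 μ → (∀ x ∉ K', u x = 0) →
      Integrable (fun x => (∑ j, al x j * conj (u x j)) * (E1 x : ℂ)) μ := by
    intro u hu hu0
    refine ((hu1 hu hu0).norm.const_mul |C1|).mono' (mpair hu.1) (Eventually.of_forall fun x => ?_)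
    have := hPb u 0 hu0 (fun _ _ => rfl) x
    simpa using this
  have hfm : ∀ k, MemLp (f k) 2 μ := fun k =>
    (hfs k).continuous.memLp_of_hasCompactSupport (hfc k)
  have tP : Tendsto (fun k => ∫ x, (∑ j, al x j * conj (f k x j)) * (E1 x : ℂ) ∂μ) atTop
      (𝓝 (∫ x, (∑ j, al x j * conj (v x j)) * (E1 x : ℂ) ∂μ)) := by
    refine tendsto_integral_of_L1' _ (hPi hv hvz).aestronglyMeasurable
      (Eventually.of_forall fun k => hPi (hfm k) (hfz k)) ?_
    have hle : ∀ k, eLpNorm ((fun x => (∑ j, al x j * conj (f k x j)) * (E1 x : ℂ)) -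
        fun x => (∑ j, al x j * conj (v x j)) * (E1 x : ℂ)) 1 μ ≤
        ENNReal.ofReal |C1| * (eLpNorm (f k - v) 2 μ * (μ K') ^ (1 / 2 : ℝ)) := by
      intro k
      refine (eLpNorm_le_mul_eLpNorm_of_ae_le_mul (g := f k - v) (c := |C1|)
        (Eventually.of_forall fun x => hPb (f k) v (hfz k) hvz x) 1).trans ?_
      gcongr
      have hsup : Function.support (f k - v) ⊆ K' := by
        intro x hx
        by_contra hc
        apply hx
        rw [Pi.sub_apply, hfz k x hc, hvz x hc, sub_zero]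
      rw [← eLpNorm_restrict_eq_of_support_subset hsup]
      refine (eLpNorm_le_eLpNorm_mul_rpow_measure_univ (p := 1) (q := 2) (by norm_num)
        (mfv k).restrict).trans ?_
      rw [Measure.restrict_apply_univ]
      have e1 : (1 / ENNReal.toReal 1 - 1 / ENNReal.toReal 2 : ℝ) = 1 / 2 := by
        simp; norm_num
      rw [e1]
      gcongr
      exact Measure.restrict_le_self
    have hlim : Tendsto (fun k => ENNReal.ofReal |C1| *
        (eLpNorm (f k - v) 2 μ * (μ K') ^ (1 / 2 : ℝ))) atTop (𝓝 0) := by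
      have h1 := ENNReal.Tendsto.mul_const (b := (μ K') ^ (1 / 2 : ℝ)) t1
        (Or.inr (ENNReal.rpow_ne_top_of_nonneg (by norm_num) hK'.measure_ne_top))
      have h3 := ENNReal.Tendsto.const_mul (a := ENNReal.ofReal |C1|) h1
        (Or.inr ENNReal.ofReal_ne_top)
      simpa using h3
    exact tendsto_of_tendsto_of_tendsto_of_le_of_le tendsto_const_nhds hlim (fun _ => zero_le) hle
  -- the divergence term
  have hE2n : ∀ x, ‖((E2 x : ℝ) : ℂ)‖ = E2 x := fun x => by
    rw [Complex.norm_real, Real.norm_of_nonneg (hE2p x)]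
  have hE2cc : Continuous fun x => ((E2 x : ℝ) : ℂ) := Complex.continuous_ofReal.comp hE2c
  have hAb : ∀ (w w' : M → ℂ × (Fin n → Fin n → ℂ)) (u u' : M → (Fin n → ℂ)),
      (∀ x ∉ K', w x = 0) → (∀ x ∉ K', w' x = 0) → (∀ x ∉ K', u x = 0) →
      (∀ x ∉ K', u' x = 0) → ∀ x,
      ‖((E2 x : ℝ) : ℂ) * ((w x).1 - ∑ j, u x j * th j x) -
        ((E2 x : ℝ) : ℂ) * ((w' x).1 - ∑ j, u' x j * th j x)‖ ≤
        (|C2| * (1 + |C3|)) * (‖w x - w' x‖ + ‖u x - u' x‖) := by
    intro w w' u u' hw0 hw0' hu hu' x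
    have e : ((E2 x : ℝ) : ℂ) * ((w x).1 - ∑ j, u x j * th j x) -
        ((E2 x : ℝ) : ℂ) * ((w' x).1 - ∑ j, u' x j * th j x) =
        ((E2 x : ℝ) : ℂ) * ((w x - w' x).1 - ∑ j, (u x - u' x) j * th j x) := by
      have : ∑ j, (u x - u' x) j * th j x = ∑ j, u x j * th j x - ∑ j, u' x j * th j x := by
        rw [← Finset.sum_sub_distrib]
        exact Finset.sum_congr rfl fun j _ => by rw [Pi.sub_apply]; ring
      rw [this, Prod.fst_sub]; ring
    rw [e, norm_mul, hE2n]
    by_cases hx : x ∈ K'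
    · have h1 : ‖(w x - w' x).1 - ∑ j, (u x - u' x) j * th j x‖ ≤
          ‖w x - w' x‖ + |C3| * ‖u x - u' x‖ := by
        refine (norm_sub_le _ _).trans (add_le_add (norm_fst_le _) ?_)
        refine (hsumle' x (fun j => th j x) (u x - u' x)).trans ?_
        exact mul_le_mul_of_nonneg_right (hC3' x hx) (norm_nonneg _)
      calc E2 x * ‖(w x - w' x).1 - ∑ j, (u x - u' x) j * th j x‖
          ≤ |C2| * (‖w x - w' x‖ + |C3| * ‖u x - u' x‖) :=
            mul_le_mul (hC2' x hx) h1 (norm_nonneg _) (abs_nonneg _)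
        _ ≤ |C2| * ((1 + |C3|) * (‖w x - w' x‖ + ‖u x - u' x‖)) := by
            refine mul_le_mul_of_nonneg_left ?_ (abs_nonneg _)
            have := abs_nonneg C3
            have h3 := norm_nonneg (w x - w' x)
            have h4 := norm_nonneg (u x - u' x)
            nlinarith
        _ = _ := by ring
    · rw [hw0 x hx, hw0' x hx, hu x hx, hu' x hx]
      simp
  have hLz : ∀ k, ∀ x ∉ K', Lop n (D (f k) x) = 0 := fun k x hx => by
    rw [hDz k x hx, map_zero]
  have hdsz : ∀ x ∉ K', ((d x, s x) : ℂ × (Fin n → Fin n → ℂ)) = 0 := fun x hx => by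
    rw [hdz x hx, hsz x hx]; rfl
  have mAv : AEStronglyMeasurable (fun x => ((E2 x : ℝ) : ℂ) * (d x - ∑ j, v x j * th j x)) μ := by
    refine hE2cc.aestronglyMeasurable.mul (hd.1.sub ?_)
    exact Finset.aestronglyMeasurable_fun_sum _ fun j _ =>
      (mcomp hv.1 j).mul (hthc j).aestronglyMeasurable
  have hAv : MemLp (fun x => ((E2 x : ℝ) : ℂ) * (d x - ∑ j, v x j * th j x)) 2 μ := by
    refine MemLp.of_le_mul (g := fun x => ‖(d x, s x)‖ + ‖v x‖) (c := |C2| * (1 + |C3|))
      (hwm.norm.add hv.norm) mAv (Eventually.of_forall fun x => ?_)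
    have := hAb (fun x => (d x, s x)) 0 v 0 hdsz (fun _ _ => rfl) hvz (fun _ _ => rfl) x
    simp only [Pi.zero_apply, sub_zero, Prod.fst_zero, zero_mul, Finset.sum_const_zero,
      mul_zero] at this
    rwa [Real.norm_of_nonneg (by positivity)]
  have hAf : ∀ k, MemLp (fun x => ((E2 x : ℝ) : ℂ) * ((Lop n (D (f k) x)).1 -
      ∑ j, f k x j * th j x)) 2 μ := by
    intro k
    refine Continuous.memLp_of_hasCompactSupport ?_ ?_
    · refine hE2cc.mul ((continuous_fst.comp ((Lop n).continuous.comp (hfs k).D.continuous)).sub ?_)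
      exact continuous_finsetSum _ fun j _ =>
        ((continuous_apply j).comp (hfs k).continuous).mul (hthc j)
    · refine HasCompactSupport.intro hK' fun x hx => ?_
      rw [hLz k x hx, hfz k x hx]
      simp
  have tA := tendsto_sq hAf hAv (tendsto_of_bound mw mfv t2 t1 (C := |C2| * (1 + |C3|))
    (by positivity) fun k x => hAb (fun x => Lop n (D (f k) x)) (fun x => (d x, s x)) (f k) v
      (hLz k) hdsz (hfz k) hvz x)
  -- the curl terms
  have hBb : ∀ (w w' : M → ℂ × (Fin n → Fin n → ℂ)) (j i : Fin n),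
      (∀ x ∉ K', w x = 0) → (∀ x ∉ K', w' x = 0) → ∀ x,
      ‖((E2 x : ℝ) : ℂ) * (w x).2 j i - ((E2 x : ℝ) : ℂ) * (w' x).2 j i‖ ≤
        |C2| * (‖w x - w' x‖ + ‖w x - w' x‖) := by
    intro w w' j i hw0 hw0' x
    rw [← mul_sub, norm_mul, hE2n]
    by_cases hx : x ∈ K'
    · have h1 : ‖(w x).2 j i - (w' x).2 j i‖ ≤ ‖w x - w' x‖ :=
        ((norm_le_pi_norm ((w x - w' x).2 j) i).trans
          (norm_le_pi_norm ((w x - w' x).2) j)).trans (norm_snd_le _)
      calc E2 x * ‖(w x).2 j i - (w' x).2 j i‖ ≤ |C2| * ‖w x - w' x‖ :=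
            mul_le_mul (hC2' x hx) h1 (norm_nonneg _) (abs_nonneg _)
        _ ≤ |C2| * (‖w x - w' x‖ + ‖w x - w' x‖) :=
            mul_le_mul_of_nonneg_left (le_add_of_nonneg_left (norm_nonneg _)) (abs_nonneg _)
    · rw [hw0 x hx, hw0' x hx]
      simp
  have tB : ∀ j i : Fin n, Tendsto (fun k => ∫ x, ‖((E2 x : ℝ) : ℂ) *
      (Lop n (D (f k) x)).2 j i‖ ^ 2 ∂μ) atTop (𝓝 (∫ x, ‖((E2 x : ℝ) : ℂ) * s x j i‖ ^ 2 ∂μ)) := by
    intro j i
    have cji : Continuous fun q : Fin n → Fin n → ℂ => q j i :=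
      (continuous_apply i).comp (continuous_apply j)
    have m1 : AEStronglyMeasurable (fun x => ((E2 x : ℝ) : ℂ) * s x j i) μ :=
      hE2cc.aestronglyMeasurable.mul (cji.comp_aestronglyMeasurable hs.1)
    have m2 : MemLp (fun x => ((E2 x : ℝ) : ℂ) * s x j i) 2 μ := by
      refine MemLp.of_le_mul (g := fun x => ‖(d x, s x)‖ + ‖(d x, s x)‖) (c := |C2|)
        (hwm.norm.add hwm.norm) m1 (Eventually.of_forall fun x => ?_)
      have := hBb (fun x => (d x, s x)) 0 j i hdsz (fun _ _ => rfl) x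
      simp only [Pi.zero_apply, sub_zero, Prod.snd_zero, mul_zero] at this
      rwa [Real.norm_of_nonneg (by positivity)]
    have m3 : ∀ k, MemLp (fun x => ((E2 x : ℝ) : ℂ) * (Lop n (D (f k) x)).2 j i) 2 μ := by
      intro k
      refine Continuous.memLp_of_hasCompactSupport ?_ ?_
      · exact hE2cc.mul (cji.comp
          (continuous_snd.comp ((Lop n).continuous.comp (hfs k).D.continuous)))
      · refine HasCompactSupport.intro hK' fun x hx => ?_
        rw [hLz k x hx]
        simp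
    exact tendsto_sq m3 m2 (tendsto_of_bound mw mw t2 t2 (C := |C2|) (abs_nonneg _) fun k x =>
      hBb (fun x => Lop n (D (f k) x)) (fun x => (d x, s x)) j i (hLz k) hdsz x)
  have eA : ∀ (z : M → ℂ), ∫ x, ‖z x‖ ^ 2 * Real.exp (-(Phi x + chi x)) ∂μ =
      ∫ x, ‖((E2 x : ℝ) : ℂ) * z x‖ ^ 2 ∂μ := by
    intro z
    refine integral_congr_ae (Eventually.of_forall fun x => ?_)
    show ‖z x‖ ^ 2 * Real.exp (-(Phi x + chi x)) = ‖((E2 x : ℝ) : ℂ) * z x‖ ^ 2
    rw [norm_mul, hE2n, mul_pow, hE2sq, mul_comm]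
  have hineq : ∀ k, ‖∫ x, (∑ j, al x j * conj (f k x j)) * (E1 x : ℂ) ∂μ‖ ^ 2 ≤
      K0 * (2 * ∫ x, ‖((E2 x : ℝ) : ℂ) * ((Lop n (D (f k) x)).1 - ∑ j, f k x j * th j x)‖ ^ 2 ∂μ +
        (1 / 2) * ∑ j, ∑ i, ∫ x, ‖((E2 x : ℝ) : ℂ) * (Lop n (D (f k) x)).2 j i‖ ^ 2 ∂μ) := by
    intro k
    have h3 := pairing_test hμ hap hPhi hchi hpsi hpos hL h2 hkap0 hkapm hk hK0 hKint (hfs k)
      (hfc k)
    simp only [eA] at h3
    exact h3
  simp only [eA]
  refine le_of_tendsto_of_tendsto' (tP.norm.pow 2) ?_ hineq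
  exact ((tA.const_mul 2).add ((tendsto_finsetSum _ fun j _ =>
    tendsto_finsetSum _ fun i _ => tB j i).const_mul (1 / 2))).const_mul K0

end main

end Crest.Agent.R271.H88
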