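import Mathlib

/-!
# Weyl lemma for the ∂̄-operator on open subsets of `ℂⁿ` (helper399, row 271, piece T8)
-/

set_option autoImplicit false

namespace Crest.Agent.R271.Weyl399

open MeasureTheory Metric Set Filter Topology Complex
open scoped Convolution ContDiff Real

noncomputable section

variable {n : ℕ}

/-! ## A rotation invariant mollifier -/

/-- squared euclidean norm on `ℂⁿ` -/
def nsq (z : Fin n → ℂ) : ℝ := ∑ j, normSq (z j)

lemma nsq_smul {c : ℂ} (hc : ‖c‖ = 1) (z : Fin n → ℂ) : nsq (c • z) = nsq z := by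
  simp [nsq, normSq_eq_norm_sq, hc]

lemma contDiff_nsq : ContDiff ℝ ∞ (nsq : (Fin n → ℂ) → ℝ) := by
  unfold nsq
  refine ContDiff.sum fun j _ => ?_
  have h : ContDiff ℝ ∞ (fun z : ℂ => normSq z) := by
    simp_rw [normSq_eq_norm_sq]; exact contDiff_norm_sq ℝ
  exact h.comp (contDiff_apply ℝ ℂ j)

lemma norm_lt_of_nsq_lt {z : Fin n → ℂ} (h : nsq z < 1) : ‖z‖ < 1 := by
  rw [pi_norm_lt_iff one_pos]
  intro j
  have h1 : normSq (z j) ≤ nsq z :=
    Finset.single_le_sum (f := fun j => normSq (z j)) (fun i _ => normSq_nonneg _) (Finset.mem_univ j)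
  rw [normSq_eq_norm_sq] at h1
  have h2 : ‖z j‖ ^ 2 < 1 := lt_of_le_of_lt h1 h
  nlinarith [norm_nonneg (z j)]

/-- the unnormalised mollifier -/
def rho0 (z : Fin n → ℂ) : ℝ := Real.smoothTransition (1 - nsq z)

lemma contDiff_rho0 : ContDiff ℝ ∞ (rho0 : (Fin n → ℂ) → ℝ) :=
  Real.smoothTransition.contDiff.comp (contDiff_const.sub contDiff_nsq)

lemma rho0_nonneg (z : Fin n → ℂ) : 0 ≤ rho0 z := Real.smoothTransition.nonneg _

lemma rho0_le_one (z : Fin n → ℂ) : rho0 z ≤ 1 := Real.smoothTransition.le_one _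

lemma rho0_eq_zero {z : Fin n → ℂ} (h : 1 ≤ ‖z‖) : rho0 z = 0 := by
  apply Real.smoothTransition.zero_of_nonpos
  by_contra h'
  push Not at h'
  exact absurd (norm_lt_of_nsq_lt (z := z) (by linarith)) (not_lt.2 h)

lemma rho0_pos_zero : 0 < rho0 (0 : Fin n → ℂ) := by
  apply Real.smoothTransition.pos_of_pos
  simp [nsq]

lemma rho0_smul {c : ℂ} (hc : ‖c‖ = 1) (z : Fin n → ℂ) : rho0 (c • z) = rho0 z := by
  unfold rho0; rw [nsq_smul hc]


/-- scaled, normalised mollifier -/
def mass (n : ℕ) (ε : ℝ) : ℝ := ∫ z : Fin n → ℂ, rho0 ((ε⁻¹ : ℝ) • z)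

/-- scaled, normalised mollifier -/
def rho (ε : ℝ) (z : Fin n → ℂ) : ℝ := (mass n ε)⁻¹ * rho0 ((ε⁻¹ : ℝ) • z)

lemma contDiff_rho0s (ε : ℝ) : ContDiff ℝ ∞ (fun z : Fin n → ℂ => rho0 ((ε⁻¹ : ℝ) • z)) :=
  contDiff_rho0.comp (contDiff_const_smul _)

lemma contDiff_rho (ε : ℝ) : ContDiff ℝ ∞ (rho ε : (Fin n → ℂ) → ℝ) :=
  contDiff_const.mul (contDiff_rho0s ε)

lemma rho0s_eq_zero {ε : ℝ} (hε : 0 < ε) {z : Fin n → ℂ} (h : ε ≤ ‖z‖) :
    rho0 ((ε⁻¹ : ℝ) • z) = 0 := by
  apply rho0_eq_zero
  rw [norm_smul, norm_inv, Real.norm_of_nonneg hε.le]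
  rw [← inv_mul_cancel₀ hε.ne']
  gcongr

lemma rho_eq_zero {ε : ℝ} (hε : 0 < ε) {z : Fin n → ℂ} (h : ε ≤ ‖z‖) : rho ε z = 0 := by
  unfold rho; rw [rho0s_eq_zero hε h, mul_zero]

lemma support_rho {ε : ℝ} (hε : 0 < ε) :
    Function.support (rho ε : (Fin n → ℂ) → ℝ) ⊆ ball 0 ε := by
  intro z hz
  by_contra h
  exact hz (rho_eq_zero hε (by simpa [mem_ball_zero_iff] using h))


lemma hasCompactSupport_rho {ε : ℝ} (hε : 0 < ε) :
    HasCompactSupport (rho ε : (Fin n → ℂ) → ℝ) :=
  HasCompactSupport.of_support_subset_isCompact (isCompact_closedBall 0 ε)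
    ((support_rho hε).trans ball_subset_closedBall)

lemma hasCompactSupport_rho0s {ε : ℝ} (hε : 0 < ε) :
    HasCompactSupport (fun z : Fin n → ℂ => rho0 ((ε⁻¹ : ℝ) • z)) := by
  apply HasCompactSupport.of_support_subset_isCompact (isCompact_closedBall 0 ε)
  intro z hz
  by_contra h
  exact hz (rho0s_eq_zero hε (by
    have : ε < ‖z‖ := by simpa [mem_closedBall_zero_iff] using h
    exact this.le))

lemma mass_pos {ε : ℝ} (hε : 0 < ε) : 0 < mass n ε := by
  unfold mass
  apply (contDiff_rho0s ε).continuous.integral_pos_of_hasCompactSupport_nonneg_nonzero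
    (hasCompactSupport_rho0s hε) (fun z => rho0_nonneg _) (x := 0)
  simpa using rho0_pos_zero.ne'

lemma rho_nonneg {ε : ℝ} (hε : 0 < ε) (z : Fin n → ℂ) : 0 ≤ rho ε z :=
  mul_nonneg (inv_nonneg.2 (mass_pos hε).le) (rho0_nonneg _)

lemma integral_rho {ε : ℝ} (hε : 0 < ε) : ∫ z : Fin n → ℂ, rho ε z = 1 := by
  unfold rho
  rw [integral_const_mul]
  exact inv_mul_cancel₀ (mass_pos hε).ne'

lemma rho_smul {ε : ℝ} {c : ℂ} (hc : ‖c‖ = 1) (z : Fin n → ℂ) : rho ε (c • z) = rho ε z := by
  unfold rho
  rw [smul_comm, rho0_smul hc]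


lemma mass_eq {ε : ℝ} (hε : 0 < ε) :
    mass n ε = ε ^ (Module.finrank ℝ (Fin n → ℂ)) * mass n 1 := by
  unfold mass
  rw [Measure.integral_comp_smul]
  simp [abs_of_pos hε]

lemma rho_le {ε : ℝ} (hε : 0 < ε) (z : Fin n → ℂ) :
    rho ε z ≤ (volume.real (closedBall (0 : Fin n → ℂ) 1) / mass n 1) /
      volume.real (closedBall (0 : Fin n → ℂ) ε) := by
  have h1 : volume.real (closedBall (0 : Fin n → ℂ) ε)
      = ε ^ (Module.finrank ℝ (Fin n → ℂ)) * volume.real (closedBall (0 : Fin n → ℂ) 1) := by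
    rw [Measure.addHaar_real_closedBall' (μ := volume) (0 : Fin n → ℂ) hε.le]
  have h2 : 0 < volume.real (closedBall (0 : Fin n → ℂ) 1) := by
    rw [measureReal_def, ENNReal.toReal_pos_iff]
    exact ⟨measure_closedBall_pos volume _ one_pos, measure_closedBall_lt_top⟩
  rw [h1]
  unfold rho
  rw [mass_eq hε]
  have h3 : 0 < mass n 1 := mass_pos one_pos
  have h4 : 0 < ε ^ (Module.finrank ℝ (Fin n → ℂ)) := pow_pos hε _
  have h5 : volume.real (closedBall (0 : Fin n → ℂ) 1) / mass n 1 /
      (ε ^ (Module.finrank ℝ (Fin n → ℂ)) * volume.real (closedBall (0 : Fin n → ℂ) 1))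
      = (ε ^ (Module.finrank ℝ (Fin n → ℂ)) * mass n 1)⁻¹ := by
    field_simp
  rw [h5]
  have h6 := rho0_le_one ((ε⁻¹ : ℝ) • z)
  have h7 : 0 ≤ (ε ^ (Module.finrank ℝ (Fin n → ℂ)) * mass n 1)⁻¹ := by positivity
  nlinarith

/-! ## The mean value property -/

lemma measurePreserving_smul (θ : ℝ) :
    MeasurePreserving (fun z : Fin n → ℂ => circleMap 0 1 θ • z) volume volume := by
  have h1 : MeasurePreserving (fun z : ℂ => circleMap 0 1 θ * z) volume volume := by
    have h := (rotation (Circle.exp θ)).measurePreserving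
    have h2 : (fun z : ℂ => circleMap 0 1 θ * z) = ⇑(rotation (Circle.exp θ)) := by
      funext z
      simp [rotation_apply, circleMap, Circle.coe_exp]
    rw [h2]; exact h
  exact volume_preserving_pi (fun _ => h1)

lemma circleMap_ne (θ : ℝ) : circleMap 0 1 θ ≠ 0 := by
  have : ‖circleMap 0 1 θ‖ = 1 := by simp
  intro h; rw [h] at this; simp at this

lemma integral_rotate (ε θ : ℝ) (f : (Fin n → ℂ) → ℂ) (x : Fin n → ℂ) :
    ∫ w, rho ε w • f (x - w) = ∫ w, rho ε w • f (x - circleMap 0 1 θ • w) := by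
  have h := (measurePreserving_smul (n := n) θ).integral_comp
    (Homeomorph.smulOfNeZero _ (circleMap_ne θ)).measurableEmbedding
    (fun w => rho ε w • f (x - w))
  rw [← h]
  congr 1
  ext w
  rw [rho_smul (by simp)]

theorem mean_value {ε : ℝ} (hε : 0 < ε) {f : (Fin n → ℂ) → ℂ} {x : Fin n → ℂ}
    (hf : ∀ y ∈ closedBall x ε, DifferentiableAt ℂ f y) :
    ∫ w, rho ε w • f (x - w) = f x := by
  have hmem : ∀ θ : ℝ, ∀ w ∈ closedBall (0 : Fin n → ℂ) ε,
      x - circleMap 0 1 θ • w ∈ closedBall x ε := by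
    intro θ w hw
    rw [mem_closedBall_iff_norm] at *
    simpa [norm_smul] using hw
  set F : ℝ → (Fin n → ℂ) → ℂ := fun θ w => rho ε w • f (x - circleMap 0 1 θ • w) with hF
  have hcont : ContinuousOn (Function.uncurry F)
      (Icc 0 (2 * π) ×ˢ closedBall (0 : Fin n → ℂ) ε) := by
    have h1 : ContinuousOn (fun p : ℝ × (Fin n → ℂ) => rho ε p.2)
        (Icc 0 (2 * π) ×ˢ closedBall (0 : Fin n → ℂ) ε) :=
      ((contDiff_rho ε).continuous.comp continuous_snd).continuousOn
    have h2 : ContinuousOn (fun p : ℝ × (Fin n → ℂ) => f (x - circleMap 0 1 p.1 • p.2))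
        (Icc 0 (2 * π) ×ˢ closedBall (0 : Fin n → ℂ) ε) := by
      have h1 : ContinuousOn f (closedBall x ε) := fun y hy =>
        (hf y hy).continuousAt.continuousWithinAt
      refine h1.comp (s := Icc 0 (2 * π) ×ˢ closedBall (0 : Fin n → ℂ) ε)
        (f := fun p : ℝ × (Fin n → ℂ) => x - circleMap 0 1 p.1 • p.2) ?_ ?_
      · apply Continuous.continuousOn
        have := (continuous_circleMap 0 1).comp (continuous_fst (X := ℝ) (Y := Fin n → ℂ))
        exact continuous_const.sub (this.smul continuous_snd)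
      · rintro ⟨θ, w⟩ ⟨_, hw⟩
        exact hmem θ w hw
    exact h1.smul h2
  have hI : Integrable (Function.uncurry F)
      ((volume.restrict (Ioc 0 (2 * π))).prod (volume : Measure (Fin n → ℂ))) := by
    have h1 : IntegrableOn (Function.uncurry F) (Icc 0 (2 * π) ×ˢ closedBall (0 : Fin n → ℂ) ε)
        (volume.prod volume) :=
      hcont.integrableOn_compact (isCompact_Icc.prod (isCompact_closedBall _ _))
    have h2 : IntegrableOn (Function.uncurry F) (Ioc 0 (2 * π) ×ˢ closedBall (0 : Fin n → ℂ) ε)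
        (volume.prod volume) := h1.mono_set (prod_mono Ioc_subset_Icc_self subset_rfl)
    have h3 : IntegrableOn (Function.uncurry F) (Ioc 0 (2 * π) ×ˢ (univ : Set (Fin n → ℂ)))
        (volume.prod volume) := by
      refine h2.of_forall_sdiff_eq_zero (measurableSet_Ioc.prod MeasurableSet.univ) ?_
      rintro ⟨θ, w⟩ ⟨⟨h4, _⟩, h5⟩
      have h6 : ¬ w ∈ closedBall (0 : Fin n → ℂ) ε := fun h => h5 ⟨h4, h⟩
      have h7 : ε ≤ ‖w‖ := by
        rw [mem_closedBall_zero_iff] at h6; linarith
      simp [hF, Function.uncurry, rho_eq_zero hε h7]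
    rw [IntegrableOn, ← Measure.prod_restrict, Measure.restrict_univ] at h3
    exact h3
  have hswap := integral_integral_swap (μ := volume.restrict (Ioc 0 (2 * π)))
    (ν := (volume : Measure (Fin n → ℂ))) (f := F) hI
  have hL : ∫ θ in Ioc 0 (2 * π), ∫ w, F θ w = (2 * π) • ∫ w, rho ε w • f (x - w) := by
    have : ∀ θ : ℝ, ∫ w, F θ w = ∫ w, rho ε w • f (x - w) := fun θ =>
      (integral_rotate ε θ f x).symm
    simp_rw [this]
    rw [setIntegral_const]
    simp [Real.pi_pos.le]
  have hR : ∫ w, ∫ θ in Ioc 0 (2 * π), F θ w = (2 * π) • f x := by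
    have h1 : ∀ w, ∫ θ in Ioc 0 (2 * π), F θ w = rho ε w • ((2 * π) • f x) := by
      intro w
      by_cases hw : w ∈ closedBall (0 : Fin n → ℂ) ε
      · have h2 : DiffContOnCl ℂ (fun ζ : ℂ => f (x - ζ • w)) (ball 0 |(1 : ℝ)|) := by
          apply DifferentiableOn.diffContOnCl
          rw [abs_one, closure_ball _ one_ne_zero]
          intro ζ hζ
          apply DifferentiableAt.differentiableWithinAt
          have h3 : x - ζ • w ∈ closedBall x ε := by
            rw [mem_closedBall_iff_norm] at *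
            simp only [sub_zero, sub_sub_cancel_left, norm_neg, norm_smul] at *
            nlinarith [norm_nonneg w, norm_nonneg ζ]
          exact (hf _ h3).comp ζ (by fun_prop)
        have h4 := h2.circleAverage
        rw [Real.circleAverage_def, intervalIntegral.integral_of_le (by positivity)] at h4
        simp only [zero_smul, sub_zero] at h4
        simp only [hF]
        rw [integral_smul, ← h4, smul_smul (2 * π), mul_inv_cancel₀ (by positivity), one_smul]
      · have h7 : ε ≤ ‖w‖ := by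
          rw [mem_closedBall_zero_iff] at hw; linarith
        simp [hF, rho_eq_zero hε h7]
    simp_rw [h1]
    rw [integral_smul_const, integral_rho hε, one_smul]
  have hfin := hL.symm.trans (hswap.trans hR)
  have h2π : (2 * π) ≠ 0 := by positivity
  exact smul_right_injective ℂ h2π hfin

/-! ## Regularisation -/

/-- the `∂̄_j` derivative -/
def dbar (j : Fin n) (φ : (Fin n → ℂ) → ℂ) (z : Fin n → ℂ) : ℂ :=
  (1 / 2 : ℂ) * (fderiv ℝ φ z (Pi.single j 1) + I * fderiv ℝ φ z (Pi.single j I))

/-- the regularisation of `u` at scale `ε` -/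
def reg (u : (Fin n → ℂ) → ℂ) (ε : ℝ) (x : Fin n → ℂ) : ℂ := ∫ w, rho ε (x - w) • u w

lemma reg_eq_conv (u : (Fin n → ℂ) → ℂ) (ε : ℝ) :
    reg u ε = (rho ε ⋆[ContinuousLinearMap.lsmul ℝ ℝ, volume] u) := by
  funext x
  rw [convolution_eq_swap]
  rfl

lemma reg_eq (u : (Fin n → ℂ) → ℂ) (ε : ℝ) (x : Fin n → ℂ) :
    reg u ε x = ∫ w, rho ε w • u (x - w) := by
  rw [reg_eq_conv, convolution_def]; rfl

lemma reg_congr {u v : (Fin n → ℂ) → ℂ} {ε : ℝ} (hε : 0 < ε) {x : Fin n → ℂ}
    (h : ∀ y ∈ ball x ε, u y = v y) : reg u ε x = reg v ε x := by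
  unfold reg
  congr 1
  ext w
  by_cases hw : w ∈ ball x ε
  · rw [h w hw]
  · have : ε ≤ ‖x - w‖ := by
      rw [mem_ball_iff_norm] at hw
      rw [norm_sub_rev]; linarith
    rw [rho_eq_zero hε this]; simp

/-- `u` is weakly holomorphic on `U` -/
def WeakHol (u : (Fin n → ℂ) → ℂ) (U : Set (Fin n → ℂ)) : Prop :=
  ∀ j : Fin n, ∀ φ : (Fin n → ℂ) → ℂ, ContDiff ℝ ∞ φ → HasCompactSupport φ → tsupport φ ⊆ U →
    ∫ z, u z * dbar j φ z = 0

lemma single_decomp (v : Fin n → ℂ) :
    v = ∑ j, ((v j).re • (Pi.single j (1 : ℂ) : Fin n → ℂ) +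
      (v j).im • (Pi.single j I : Fin n → ℂ)) := by
  funext i
  simp only [Finset.sum_apply, Pi.add_apply, Pi.smul_apply, Pi.single_apply, real_smul]
  rw [Finset.sum_eq_single i]
  · simp
  · intro b _ hb; simp [Ne.symm hb]
  · simp

/-- a real-linear map which is complex linear on the basis vectors is complex-linear -/
lemma exists_complex_linear (D : (Fin n → ℂ) →L[ℝ] ℂ)
    (h : ∀ j, D (Pi.single j I) = I * D (Pi.single j 1)) :
    ∃ L : (Fin n → ℂ) →L[ℂ] ℂ, L.restrictScalars ℝ = D := by
  have hI : ∀ v, D (I • v) = I * D v := by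
    intro v
    conv_rhs => rw [single_decomp v]
    rw [single_decomp (I • v)]
    simp only [map_sum, map_add, map_smul, Pi.smul_apply, smul_eq_mul, Finset.mul_sum]
    refine Finset.sum_congr rfl fun j _ => ?_
    rw [h j]
    simp only [mul_re, mul_im, I_re, I_im, real_smul]
    push_cast
    linear_combination (-(v j).im * D (Pi.single j 1)) * (I_mul_I)
  refine ⟨⟨⟨⟨D, D.map_add⟩, ?_⟩, D.continuous⟩, ?_⟩
  · intro c v
    simp only [RingHom.id_apply, smul_eq_mul]
    have h1 : c • v = c.re • v + c.im • (I • v) := by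
      funext i
      simp only [Pi.smul_apply, Pi.add_apply, smul_eq_mul, real_smul]
      conv_lhs => rw [← re_add_im c]
      ring
    change D (c • v) = c * D v
    rw [h1, map_add, map_smul, map_smul, hI]
    simp only [real_smul]
    conv_rhs => rw [← re_add_im c]
    ring
  · ext v; rfl

lemma fderiv_test (ε : ℝ) (x w : Fin n → ℂ) (v : Fin n → ℂ) :
    fderiv ℝ (fun w : Fin n → ℂ => ((rho ε (x - w) : ℝ) : ℂ)) w v
      = -((fderiv ℝ (rho ε) (x - w) v : ℝ) : ℂ) := by
  have h1 : HasFDerivAt (rho ε : (Fin n → ℂ) → ℝ) (fderiv ℝ (rho ε) (x - w)) (x - w) :=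
    ((contDiff_rho ε).differentiable (by simp) _).hasFDerivAt
  have h2 : HasFDerivAt (fun w : Fin n → ℂ => x - w) (-(ContinuousLinearMap.id ℝ (Fin n → ℂ))) w := by
    exact (hasFDerivAt_id (𝕜 := ℝ) w).const_sub x
  have h3 := h1.comp w h2
  have h4 := (ofRealCLM.hasFDerivAt).comp w h3
  have h5 := h4.fderiv
  have h6 : (fun w : Fin n → ℂ => ((rho ε (x - w) : ℝ) : ℂ))
      = (⇑ofRealCLM ∘ (rho ε ∘ fun w : Fin n → ℂ => x - w)) := by
    funext w; simp
  rw [h6, h5]
  simp

lemma differentiableAt_reg {v : (Fin n → ℂ) → ℂ} (hv : LocallyIntegrable v)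
    {W : Set (Fin n → ℂ)} (hw : WeakHol v W) {ε : ℝ} (hε : 0 < ε) {x : Fin n → ℂ}
    (hx : closedBall x ε ⊆ W) : DifferentiableAt ℂ (reg v ε) x := by
  have hd := (hasCompactSupport_rho (n := n) hε).hasFDerivAt_convolution_left
    (ContinuousLinearMap.lsmul ℝ ℝ : ℝ →L[ℝ] ℂ →L[ℝ] ℂ) ((contDiff_rho ε).of_le (by simp)) hv x
  rw [← reg_eq_conv] at hd
  set D := (fderiv ℝ (rho ε) ⋆[(ContinuousLinearMap.lsmul ℝ ℝ : ℝ →L[ℝ] ℂ →L[ℝ] ℂ).precompL
    (Fin n → ℂ), volume] v) x with hD
  have hDv : ∀ a : Fin n → ℂ, D a = ∫ w, (fderiv ℝ (rho ε) (x - w) a) • v w := by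
    intro a
    have h0 := ((hasCompactSupport_rho (n := n) hε).fderiv ℝ).convolutionExists_left
      ((ContinuousLinearMap.lsmul ℝ ℝ : ℝ →L[ℝ] ℂ →L[ℝ] ℂ).precompL (Fin n → ℂ))
      ((contDiff_rho ε).continuous_fderiv (by simp)) hv x
    rw [hD, convolution_eq_swap, ContinuousLinearMap.integral_apply h0.integrable_swap]
    rfl
  obtain ⟨L, hL⟩ := exists_complex_linear D (by
    intro j
    have h1 := hw j (fun w => ((rho ε (x - w) : ℝ) : ℂ)) ?_ ?_ ?_
    · have h2 : ∀ w, v w * dbar j (fun w => ((rho ε (x - w) : ℝ) : ℂ)) w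
          = -(1 / 2 : ℂ) * ((fderiv ℝ (rho ε) (x - w) (Pi.single j 1)) • v w
            + I * ((fderiv ℝ (rho ε) (x - w) (Pi.single j I)) • v w)) := by
        intro w
        unfold dbar
        rw [fderiv_test, fderiv_test]
        simp only [real_smul]
        ring
      have hint : ∀ a : Fin n → ℂ, Integrable (fun w => (fderiv ℝ (rho ε) (x - w) a) • v w) := by
        intro a
        have h3 := ((hasCompactSupport_rho (n := n) hε).fderiv_apply (𝕜 := ℝ) a).convolutionExists_left
          (ContinuousLinearMap.lsmul ℝ ℝ : ℝ →L[ℝ] ℂ →L[ℝ] ℂ)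
          (by
            have := (contDiff_rho (n := n) ε).continuous_fderiv (by simp)
            exact this.clm_apply continuous_const) hv x
        have h4 := h3.integrable_swap
        exact h4
      rw [integral_congr_ae (Eventually.of_forall h2), integral_const_mul,
        integral_add (hint _) ((hint _).const_mul _), integral_const_mul, ← hDv, ← hDv] at h1
      have h5 : D (Pi.single j 1) + I * D (Pi.single j I) = 0 := by
        rcases mul_eq_zero.1 h1 with h | h
        · norm_num at h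
        · exact h
      linear_combination (-I) * h5 + D (Pi.single j I) * I_mul_I
    · exact ofRealCLM.contDiff.comp ((contDiff_rho ε).comp (contDiff_const.sub contDiff_id))
    · apply HasCompactSupport.of_support_subset_isCompact (isCompact_closedBall x ε)
      intro w hw'
      by_contra h6
      apply hw'
      have : ε ≤ ‖x - w‖ := by
        rw [mem_closedBall_iff_norm] at h6
        rw [norm_sub_rev]; linarith
      simp [rho_eq_zero hε this]
    · refine (closure_minimal ?_ isClosed_closedBall).trans hx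
      intro w hw'
      by_contra h6
      apply hw'
      have : ε ≤ ‖x - w‖ := by
        rw [mem_closedBall_iff_norm] at h6
        rw [norm_sub_rev]; linarith
      simp [rho_eq_zero hε this])
  exact (hasFDerivAt_of_restrictScalars ℝ hd hL).differentiableAt


/-- regularisations commute -/
lemma reg_comm {v : (Fin n → ℂ) → ℂ} (hv : LocallyIntegrable v) {ε δ : ℝ} (hε : 0 < ε)
    (hδ : 0 < δ) (x : Fin n → ℂ) : reg (reg v ε) δ x = reg (reg v δ) ε x := by
  have key : ∀ {ε δ : ℝ}, 0 < ε → 0 < δ →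
      reg (reg v ε) δ x = ((rho δ ⋆[ContinuousLinearMap.mul ℝ ℝ, volume] rho ε)
        ⋆[(ContinuousLinearMap.lsmul ℝ ℝ : ℝ →L[ℝ] ℂ →L[ℝ] ℂ), volume] v) x := by
    intro ε δ hε hδ
    rw [reg_eq_conv, reg_eq_conv]
    symm
    have hcε := (contDiff_rho (n := n) ε).continuous
    have hcδ := (contDiff_rho (n := n) δ).continuous
    have hsε := hasCompactSupport_rho (n := n) hε
    have hsδ := hasCompactSupport_rho (n := n) hδ
    have hvn : LocallyIntegrable (fun x => ‖v x‖) := fun x => (hv x).norm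
    refine convolution_assoc (L := ContinuousLinearMap.mul ℝ ℝ)
      (L₂ := (ContinuousLinearMap.lsmul ℝ ℝ : ℝ →L[ℝ] ℂ →L[ℝ] ℂ))
      (L₃ := (ContinuousLinearMap.lsmul ℝ ℝ : ℝ →L[ℝ] ℂ →L[ℝ] ℂ))
      (L₄ := (ContinuousLinearMap.lsmul ℝ ℝ : ℝ →L[ℝ] ℂ →L[ℝ] ℂ)) ?_
      hcδ.aestronglyMeasurable hcε.aestronglyMeasurable hv.aestronglyMeasurable ?_ ?_ ?_
    · intro a b c
      simp [mul_assoc]
    · exact Eventually.of_forall fun y => hsδ.convolutionExists_left _ hcδ hcε.locallyIntegrable y
    · exact Eventually.of_forall fun y =>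
        hsε.norm.convolutionExists_left _ hcε.norm hvn y
    · apply hsδ.norm.convolutionExists_left _ hcδ.norm
      apply Continuous.locallyIntegrable
      exact hsε.norm.continuous_convolution_left _ hcε.norm hvn
  rw [key hε hδ, key hδ hε]
  congr 1
  funext y
  rw [convolution_eq_swap, convolution_def]
  congr 1
  ext t
  simp [mul_comm]

/-- independence of the scale -/
lemma reg_eq_reg {u : (Fin n → ℂ) → ℂ} {x : Fin n → ℂ} {R : ℝ}
    (hu : IntegrableOn u (closedBall x R)) (hw : WeakHol u (ball x R)) {ε δ : ℝ} (hε : 0 < ε)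
    (hδ : 0 < δ) (hR : ε + δ < R) : reg u ε x = reg u δ x := by
  set v := (closedBall x R).indicator u with hv
  have hvi : Integrable v := (integrable_indicator_iff measurableSet_closedBall).2 hu
  have hvl : LocallyIntegrable v := hvi.locallyIntegrable
  have huv : ∀ y ∈ closedBall x R, u y = v y := fun y hy => by rw [hv, indicator_of_mem hy]
  have hwv : WeakHol v (ball x R) := by
    intro j φ h1 h2 h3
    rw [← hw j φ h1 h2 h3]
    congr 1
    ext z
    by_cases hz : z ∈ closedBall x R
    · rw [huv z hz]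
    · have h4 : z ∉ tsupport φ := fun h => hz (ball_subset_closedBall (h3 h))
      have h5 : fderiv ℝ φ z = 0 := by
        by_contra h6
        exact h4 (support_fderiv_subset ℝ h6)
      simp [dbar, h5]
  have key : ∀ {ε δ : ℝ}, 0 < ε → 0 < δ → ε + δ < R → reg (reg v ε) δ x = reg v ε x := by
    intro ε δ hε hδ hR
    rw [reg_eq]
    apply mean_value hδ
    intro y hy
    apply differentiableAt_reg hvl hwv hε
    intro z hz
    rw [mem_closedBall] at hy hz
    rw [mem_ball]
    linarith [dist_triangle z y x]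
  have h1 : reg v ε x = reg v δ x := by
    rw [← key hε hδ hR, ← key hδ hε (by linarith), reg_comm hvl hε hδ]
  rw [reg_congr hε (v := v), reg_congr hδ (u := u) (v := v), h1]
  · intro y hy; exact huv y (closedBall_subset_closedBall (by linarith) (ball_subset_closedBall hy))
  · intro y hy; exact huv y (closedBall_subset_closedBall (by linarith) (ball_subset_closedBall hy))

/-- **Weyl lemma for `∂̄`**: a locally integrable weakly holomorphic function is a.e. equal to a
holomorphic function. -/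
theorem weyl {U : Set (Fin n → ℂ)} (hU : IsOpen U) {u : (Fin n → ℂ) → ℂ}
    (hu : LocallyIntegrableOn u U) (hw : WeakHol u U) :
    ∃ h : (Fin n → ℂ) → ℂ, DifferentiableOn ℂ h U ∧ u =ᵐ[volume.restrict U] h := by
  have hR : ∀ x ∈ U, ∃ R > 0, closedBall x R ⊆ U := fun x hx =>
    nhds_basis_closedBall.mem_iff.1 (hU.mem_nhds hx)
  have hint : ∀ {x R}, closedBall x R ⊆ U → IntegrableOn u (closedBall x R) := fun h =>
    hu.integrableOn_compact_subset h (isCompact_closedBall _ _)
  have hwR : ∀ {x R}, closedBall x R ⊆ U → WeakHol u (ball x R) := fun h j φ h1 h2 h3 =>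
    hw j φ h1 h2 (h3.trans (ball_subset_closedBall.trans h))
  -- scale independence
  have hind : ∀ {x ε δ}, 0 < ε → 0 < δ → closedBall x (3 * ε) ⊆ U → closedBall x (3 * δ) ⊆ U →
      reg u ε x = reg u δ x := by
    intro x ε δ hε hδ h1 h2
    rcases le_total ε δ with h | h
    · exact reg_eq_reg (hint h2) (hwR h2) hε hδ (by linarith)
    · exact reg_eq_reg (hint h1) (hwR h1) hε hδ (by linarith)
  choose! R hR0 hRU using hR
  set h : (Fin n → ℂ) → ℂ := fun x => reg u (R x / 3) x with hh
  have hval : ∀ x ∈ U, ∀ ε, 0 < ε → closedBall x (3 * ε) ⊆ U → h x = reg u ε x := by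
    intro x hx ε hε h1
    apply hind (by have := hR0 x hx; positivity) hε _ h1
    have : 3 * (R x / 3) = R x := by ring
    rw [this]; exact hRU x hx
  refine ⟨h, ?_, ?_⟩
  · intro x hx
    apply DifferentiableAt.differentiableWithinAt
    have hr := hR0 x hx
    set r := R x with hrdef
    set v := (closedBall x r).indicator u with hv
    have hvi : Integrable v :=
      (integrable_indicator_iff measurableSet_closedBall).2 (hint (hRU x hx))
    have huv : ∀ y ∈ closedBall x r, u y = v y := fun y hy => by rw [hv, indicator_of_mem hy]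
    have hwv : WeakHol v (ball x r) := by
      intro j φ h1 h2 h3
      rw [← hwR (hRU x hx) j φ h1 h2 h3]
      congr 1
      ext z
      by_cases hz : z ∈ closedBall x r
      · rw [huv z hz]
      · have h4 : z ∉ tsupport φ := fun h => hz (ball_subset_closedBall (h3 h))
        have h5 : fderiv ℝ φ z = 0 := by
          by_contra h6
          exact h4 (support_fderiv_subset ℝ h6)
        simp [dbar, h5]
    have hd : DifferentiableAt ℂ (reg v (r / 5)) x := by
      apply differentiableAt_reg hvi.locallyIntegrable hwv (by positivity)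
      intro z hz
      rw [mem_closedBall] at hz
      rw [mem_ball]; linarith
    apply hd.congr_of_eventuallyEq
    filter_upwards [ball_mem_nhds x (show 0 < r / 5 by positivity)] with y hy
    rw [mem_ball] at hy
    have hyU : closedBall y (3 * (r / 5)) ⊆ U := by
      intro z hz
      apply hRU x hx
      rw [mem_closedBall] at *
      linarith [dist_triangle z y x]
    rw [hval y (hyU (mem_closedBall_self (by positivity))) (r / 5) (by positivity) hyU]
    apply reg_congr (by positivity)
    intro z hz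
    apply huv
    rw [mem_ball] at hz
    rw [mem_closedBall]
    linarith [dist_triangle z y x]
  · rw [EventuallyEq, ae_restrict_iff' hU.measurableSet, ae_iff]
    apply measure_null_of_locally_null
    intro x hx
    simp only [mem_ofPred_eq, Classical.not_imp] at hx
    have hxU := hx.1
    have hr := hR0 x hxU
    set r := R x with hrdef
    refine ⟨{a | ¬(a ∈ U → u a = h a)} ∩ ball x (r / 2), ?_, ?_⟩
    · exact inter_mem self_mem_nhdsWithin (mem_nhdsWithin_of_mem_nhds (ball_mem_nhds _ (by positivity)))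
    set v := (closedBall x r).indicator u with hv
    have hvi : Integrable v :=
      (integrable_indicator_iff measurableSet_closedBall).2 (hint (hRU x hxU))
    have huv : ∀ y ∈ closedBall x r, u y = v y := fun y hy => by rw [hv, indicator_of_mem hy]
    have hleb := IsUnifLocDoublingMeasure.ae_tendsto_average_norm_sub (μ := volume)
      hvi.locallyIntegrable 1
    have hnull := ae_iff.1 hleb
    refine measure_mono_null ?_ hnull
    intro y hy
    simp only [mem_inter_iff, mem_ofPred_eq, Classical.not_imp, mem_ball] at hy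
    obtain ⟨⟨hyU, hne⟩, hyr⟩ := hy
    intro hL
    apply hne
    have hlim : Tendsto (fun δ : ℝ => ⨍ z in closedBall y δ, ‖v z - v y‖) (𝓝[>] 0) (𝓝 0) := by
      apply hL (fun _ => y) id tendsto_id
      filter_upwards [self_mem_nhdsWithin] with δ hδ
      simp only [mem_Ioi] at hδ
      simp [hδ.le]
    have hlim2 : Tendsto (fun δ : ℝ => ∫ w, rho δ (y - w) • v w) (𝓝[>] 0) (𝓝 (v y)) := by
      apply tendsto_integral_smul_of_tendsto_average_norm_sub
        (volume.real (closedBall (0 : Fin n → ℂ) 1) / mass n 1) hlim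
      · exact Eventually.of_forall fun δ => hvi.integrableOn
      · apply tendsto_const_nhds.congr'
        filter_upwards [self_mem_nhdsWithin] with δ hδ
        rw [integral_sub_left_eq_self (fun w => rho δ w) volume y, integral_rho hδ]
      · filter_upwards [self_mem_nhdsWithin] with δ hδ
        intro w hw'
        by_contra h6
        apply hw'
        have : δ ≤ ‖y - w‖ := by
          rw [mem_closedBall_iff_norm] at h6
          rw [norm_sub_rev]; linarith
        simp [rho_eq_zero hδ this]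
      · filter_upwards [self_mem_nhdsWithin] with δ hδ w
        rw [abs_of_nonneg (rho_nonneg hδ _)]
        have h7 := rho_le hδ (y - w)
        have h8 : volume.real (closedBall y δ) = volume.real (closedBall (0 : Fin n → ℂ) δ) := by
          rw [measureReal_def, measureReal_def, Measure.addHaar_closedBall_center]
        rw [h8]; exact h7
    have hconst : ∀ᶠ δ : ℝ in 𝓝[>] 0, ∫ w, rho δ (y - w) • v w = h y := by
      have h9 : ∀ᶠ δ : ℝ in 𝓝[>] 0, δ < r / 6 :=
        mem_nhdsWithin_of_mem_nhds (Iio_mem_nhds (by positivity))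
      filter_upwards [h9, self_mem_nhdsWithin] with δ h10 h11
      simp only [mem_Ioi] at h11
      have hyδ : closedBall y (3 * δ) ⊆ closedBall x r := by
        intro z hz
        rw [mem_closedBall] at *
        linarith [dist_triangle z y x]
      rw [hval y hyU δ h11 (hyδ.trans (hRU x hxU))]
      change reg v δ y = reg u δ y
      apply reg_congr h11
      intro z hz
      symm
      apply huv
      apply hyδ
      rw [mem_ball] at hz
      rw [mem_closedBall]; linarith
    have h12 : v y = h y := tendsto_nhds_unique hlim2 (tendsto_const_nhds.congr'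
      (hconst.mono fun δ hδ => hδ.symm))
    rw [← h12]
    apply huv
    rw [mem_closedBall]; linarith

end

end Crest.Agent.R271.Weyl399
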