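import Crest.Agent.R271.H7a_51
import Crest.Agent.R271.H5_361
import Crest.Agent.R271.H3_51
import Crest.Agent.R271.Weyl_399
import Crest.Agent.R271.T7b2_88
import Crest.Agent.R271.T7b1_868
import Crest.Agent.R271.T7a_297
import Crest.Agent.R271.BallSolver_399
import Crest.Agent.R271.T2_361

-- ▼ part R271/H7b_51
section

/-!
# Row 271, analytic engine (H): global estimate by cut-offs (helper51)
-/

set_option autoImplicit false
set_option linter.unusedSectionVars false

noncomputable section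

open Set Filter Topology MeasureTheory ComplexConjugate

namespace Crest.Agent.R271.Ho51

variable {n : ℕ} {M : Type*} [TopologicalSpace M] [RDom n M] [MeasurableSpace M] [BorelSpace M]

lemma memLp_two_of_compact {μ : Measure M} {G : Type*} [NormedAddCommGroup G] {f : M → G}
    {g : M → ℝ} (hf : AEStronglyMeasurable f μ) (hg : Integrable g μ) (hg0 : ∀ x, 0 ≤ g x)
    {C : M → ℝ} (hC : Continuous C) {K : Set M} (hK : IsCompact K) (hfK : ∀ x ∉ K, f x = 0)
    (h : ∀ x, ‖f x‖ ^ 2 ≤ C x * g x) : MemLp f 2 μ := by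
  obtain ⟨B, hB⟩ := hK.bddAbove_image hC.continuousOn
  refine memLp_two_of_bound hf hg (max B 0) fun x => ?_
  by_cases hx : x ∈ K
  · have h1 : C x ≤ B := hB (mem_image_of_mem _ hx)
    exact (h x).trans (mul_le_mul_of_nonneg_right (h1.trans (le_max_left _ _)) (hg0 x))
  · rw [hfK x hx]
    simp only [norm_zero, ne_eq, OfNat.ofNat_ne_zero, not_false_eq_true, zero_pow]
    exact mul_nonneg (le_max_right _ _) (hg0 x)

lemma norm_db_ofReal {φ : M → ℝ} (hφ : Sm φ) (j : Fin n) (x : M) :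
    ‖db j (fun y => (φ y : ℂ)) x‖ = ‖dz j (fun y => (φ y : ℂ)) x‖ := by
  rw [db_ofReal hφ, RCLike.norm_conj]

lemma norm_apply_sq_le_nsq (w : Fin n → ℂ) (j : Fin n) : ‖w j‖ ^ 2 ≤ nsq w :=
  Finset.single_le_sum (f := fun j => ‖w j‖ ^ 2) (fun i _ => by positivity) (Finset.mem_univ j)

lemma s_bound {η : M → ℝ} (hη : Sm η) (x : M) (V : Fin n → ℂ) (j k : Fin n) :
    ‖db j (fun y => (η y : ℂ)) x * V k - db k (fun y => (η y : ℂ)) x * V j‖ ^ 2 ≤
      4 * (nsq (fun j => dz j (fun y => (η y : ℂ)) x) * nsq V) := by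
  set a := fun j => dz j (fun y => (η y : ℂ)) x with ha
  have h1 : ∀ i, ‖db i (fun y => (η y : ℂ)) x‖ ^ 2 ≤ nsq a := by
    intro i
    rw [norm_db_ofReal hη]
    exact norm_apply_sq_le_nsq a i
  have h2 : ∀ i, ‖V i‖ ^ 2 ≤ nsq V := norm_apply_sq_le_nsq V
  have h3 : ∀ i l, ‖db i (fun y => (η y : ℂ)) x * V l‖ ^ 2 ≤ nsq a * nsq V := by
    intro i l
    rw [norm_mul, mul_pow]
    exact mul_le_mul (h1 i) (h2 l) (by positivity) (nsq_nonneg _)
  have h4 := norm_add_sq_le (db j (fun y => (η y : ℂ)) x * V k)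
    (-(db k (fun y => (η y : ℂ)) x * V j))
  rw [norm_neg, ← sub_eq_add_neg] at h4
  linarith [h3 j k, h3 k j]

theorem pairing_global {μ : Measure M} (hμ : IsLeb μ) (hmul : WPmul (M := M) μ)
    {Φ χ ψ : M → ℝ} (hΦ : Sm Φ) (hχ : Sm χ) (hψ : Sm ψ)
    {α : M → (Fin n → ℂ)} (hα : Continuous α) {K0 : ℝ} (_hK0 : 0 ≤ K0)
    (hpair : PairC μ Φ χ ψ α K0)
    (hαi : Integrable (fun x => nsq (α x) * Real.exp (-(Φ x + χ x - ψ x))) μ)
    (η : ℕ → M → ℝ) (hη : ∀ ν, Sm (η ν) ∧ HasCompactSupport (η ν) ∧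
      (∀ x, 0 ≤ η ν x ∧ η ν x ≤ 1) ∧
      ∀ x, nsq (fun j => dz j (fun y => (η ν y : ℂ)) x) ≤ Real.exp (ψ x))
    (hη1 : ∀ x, ∀ᶠ ν in atTop, ∀ᶠ y in 𝓝 x, η ν y = 1)
    {V : M → (Fin n → ℂ)} {t : M → ℂ} (hV : AEStronglyMeasurable V μ)
    (ht : AEStronglyMeasurable t μ)
    (hVi : Integrable (fun x => nsq (V x) * Real.exp (-(Φ x + χ x - ψ x))) μ)
    (hti : Integrable (fun x => ‖t x‖ ^ 2 * Real.exp (-(Φ x + χ x - 2 * ψ x))) μ)
    (hw : WP μ (Lop n) V (fun x => (∑ j, V x j * dz j (fun y => ((Φ y + χ y - ψ y : ℝ) : ℂ)) x -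
      Real.exp (ψ x) * t x, 0))) :
    ‖∫ x, (∑ j, α x j * conj (V x j)) * Real.exp (-(Φ x + χ x - ψ x)) ∂μ‖ ^ 2 ≤
      K0 * (2 * ∫ x, ‖t x‖ ^ 2 * Real.exp (-(Φ x + χ x - 2 * ψ x)) ∂μ) := by
  classical
  have hφ2 : Sm (fun y => Φ y + χ y - ψ y) := (hΦ.add hχ).sub hψ
  set p2 : M → (Fin n → ℂ) := fun x j => dz j (fun y => ((Φ y + χ y - ψ y : ℝ) : ℂ)) x with hp2
  have hp2c : Continuous p2 := continuous_pi fun j => (hφ2.ofReal.dz j).continuous
  have hVj : ∀ j, AEStronglyMeasurable (fun x => V x j) μ := fun j =>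
    (continuous_apply j).comp_aestronglyMeasurable hV
  set dV : M → ℂ := fun x => ∑ j, V x j * p2 x j - Real.exp (ψ x) * t x with hdV
  have hψc := hψ.continuous
  have hΦc := hΦ.continuous
  have hχc := hχ.continuous
  have hdVm : AEStronglyMeasurable dV μ := by
    refine AEStronglyMeasurable.sub ?_ ?_
    · refine Finset.aestronglyMeasurable_fun_sum _ fun j _ => ?_
      exact (hVj j).mul ((continuous_apply j).comp hp2c).aestronglyMeasurable
    · refine AEStronglyMeasurable.mul ?_ ht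
      exact (Complex.continuous_ofReal.comp (Real.continuous_exp.comp hψc)).aestronglyMeasurable
  set g : M → ℝ := fun x => nsq (V x) * Real.exp (-(Φ x + χ x - ψ x)) +
    ‖t x‖ ^ 2 * Real.exp (-(Φ x + χ x - 2 * ψ x)) with hgdef
  have hgi : Integrable g μ := hVi.add hti
  have hg0 : ∀ x, 0 ≤ g x := fun x => by
    have := nsq_nonneg (V x)
    simp only [hgdef]
    positivity
  have hVg : ∀ x, nsq (V x) ≤ Real.exp (Φ x + χ x - ψ x) * g x := by
    intro x
    have h1 : Real.exp (Φ x + χ x - ψ x) * Real.exp (-(Φ x + χ x - ψ x)) = 1 := by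
      rw [← Real.exp_add]; simp
    have h2 : 0 ≤ Real.exp (Φ x + χ x - ψ x) * (‖t x‖ ^ 2 * Real.exp (-(Φ x + χ x - 2 * ψ x))) := by
      positivity
    have h3 : Real.exp (Φ x + χ x - ψ x) * g x = nsq (V x) *
      (Real.exp (Φ x + χ x - ψ x) * Real.exp (-(Φ x + χ x - ψ x))) +
      Real.exp (Φ x + χ x - ψ x) * (‖t x‖ ^ 2 * Real.exp (-(Φ x + χ x - 2 * ψ x))) := by
      simp only [hgdef]; ring
    rw [h3, h1, mul_one]
    linarith
  have htg : ∀ x, ‖t x‖ ^ 2 ≤ Real.exp (Φ x + χ x - 2 * ψ x) * g x := by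
    intro x
    have h1 : Real.exp (Φ x + χ x - 2 * ψ x) * Real.exp (-(Φ x + χ x - 2 * ψ x)) = 1 := by
      rw [← Real.exp_add]; simp
    have h2 : 0 ≤ Real.exp (Φ x + χ x - 2 * ψ x) *
        (nsq (V x) * Real.exp (-(Φ x + χ x - ψ x))) := by
      have := nsq_nonneg (V x)
      positivity
    have h3 : Real.exp (Φ x + χ x - 2 * ψ x) * g x = ‖t x‖ ^ 2 *
      (Real.exp (Φ x + χ x - 2 * ψ x) * Real.exp (-(Φ x + χ x - 2 * ψ x))) +
      Real.exp (Φ x + χ x - 2 * ψ x) * (nsq (V x) * Real.exp (-(Φ x + χ x - ψ x))) := by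
      simp only [hgdef]; ring
    rw [h3, h1, mul_one]
    linarith
  set Cd : M → ℝ := fun x => 2 * (nsq (p2 x) * Real.exp (Φ x + χ x - ψ x)) +
    2 * (Real.exp (ψ x) ^ 2 * Real.exp (Φ x + χ x - 2 * ψ x)) with hCd
  have hCdc : Continuous Cd := by
    have := continuous_nsq.comp hp2c
    simp only [hCd]
    fun_prop
  have hdVg : ∀ x, ‖dV x‖ ^ 2 ≤ Cd x * g x := by
    intro x
    have h1 : ‖dV x‖ ^ 2 ≤ 2 * ‖∑ j, V x j * p2 x j‖ ^ 2 + 2 * ‖-((Real.exp (ψ x) : ℂ) * t x)‖ ^ 2 := by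
      simp only [hdV]
      rw [sub_eq_add_neg]
      exact norm_add_sq_le _ _
    have h2 := norm_sum_mul_sq_le (V x) (p2 x)
    have h3 : ‖-((Real.exp (ψ x) : ℂ) * t x)‖ ^ 2 = Real.exp (ψ x) ^ 2 * ‖t x‖ ^ 2 := by
      rw [norm_neg, norm_mul, mul_pow, Complex.norm_real, Real.norm_eq_abs, sq_abs]
    have h4 : nsq (V x) * nsq (p2 x) ≤ (Real.exp (Φ x + χ x - ψ x) * g x) * nsq (p2 x) :=
      mul_le_mul_of_nonneg_right (hVg x) (nsq_nonneg _)
    have h5 : Real.exp (ψ x) ^ 2 * ‖t x‖ ^ 2 ≤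
        Real.exp (ψ x) ^ 2 * (Real.exp (Φ x + χ x - 2 * ψ x) * g x) :=
      mul_le_mul_of_nonneg_left (htg x) (by positivity)
    rw [h3] at h1
    simp only [hCd]
    nlinarith [h1, h2, h4, h5]
  -- local integrability
  have hVloc : LocallyIntegrable V μ :=
    locallyIntegrable_of_bound hμ hV hgi (C := fun x => Real.exp (Φ x + χ x - ψ x))
      (by fun_prop) hg0 (fun x => (norm_sq_le_nsq (V x)).trans (hVg x))
  have hdVloc : LocallyIntegrable (fun x => ((dV x, 0) : ℂ × (Fin n → Fin n → ℂ))) μ := by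
    refine locallyIntegrable_of_bound hμ (hdVm.prodMk aestronglyMeasurable_const) hgi
      (C := Cd) hCdc hg0 fun x => ?_
    have : ‖((dV x, 0) : ℂ × (Fin n → Fin n → ℂ))‖ = ‖dV x‖ := by
      rw [Prod.norm_mk, norm_zero]; exact max_eq_left (norm_nonneg _)
    rw [this]; exact hdVg x
  -- the truncated data
  set dη : ℕ → M → (Fin n → ℂ) := fun ν x j => dz j (fun y => (η ν y : ℂ)) x with hdη
  have hdηc : ∀ ν, Continuous (dη ν) := fun ν =>
    continuous_pi fun j => ((hη ν).1.ofReal.dz j).continuous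
  have hdbc : ∀ ν j, Continuous (fun x => db j (fun y => (η ν y : ℂ)) x) := fun ν j =>
    ((hη ν).1.ofReal.db j).continuous
  set v : ℕ → M → (Fin n → ℂ) := fun ν x => η ν x • V x with hv
  set d : ℕ → M → ℂ := fun ν x => η ν x * dV x + ∑ j, dη ν x j * V x j with hd
  set s : ℕ → M → Fin n → Fin n → ℂ := fun ν x j k =>
    db j (fun y => (η ν y : ℂ)) x * V x k - db k (fun y => (η ν y : ℂ)) x * V x j with hs
  have hvm : ∀ ν, AEStronglyMeasurable (v ν) μ := fun ν =>
    (hη ν).1.continuous.aestronglyMeasurable.smul hV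
  have hdm1 : ∀ ν, AEStronglyMeasurable (fun x => ∑ j, dη ν x j * V x j) μ := fun ν =>
    Finset.aestronglyMeasurable_fun_sum _ fun j _ =>
      ((continuous_apply j).comp (hdηc ν)).aestronglyMeasurable.mul (hVj j)
  have hdm : ∀ ν, AEStronglyMeasurable (d ν) μ := fun ν =>
    ((Complex.continuous_ofReal.comp (hη ν).1.continuous).aestronglyMeasurable.mul hdVm).add
      (hdm1 ν)
  have hsmjk : ∀ ν j k, AEStronglyMeasurable (fun x => s ν x j k) μ := fun ν j k =>
    ((hdbc ν j).aestronglyMeasurable.mul (hVj k)).sub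
      ((hdbc ν k).aestronglyMeasurable.mul (hVj j))
  have hsm : ∀ ν, AEStronglyMeasurable (s ν) μ := fun ν => by
    have h1 : ∀ j, AEMeasurable (fun x => s ν x j) μ := fun j =>
      aemeasurable_pi_iff.2 fun k => (hsmjk ν j k).aemeasurable
    exact (aemeasurable_pi_iff.2 h1).aestronglyMeasurable
  -- supports
  have hη0 : ∀ ν, ∀ x ∉ tsupport (η ν), η ν x = 0 := fun ν x hx =>
    image_eq_zero_of_notMem_tsupport hx
  have hηe : ∀ ν, ∀ x ∉ tsupport (η ν), ∀ᶠ y in 𝓝 x, η ν y = 0 := fun ν x hx =>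
    notMem_tsupport_iff_eventuallyEq.1 hx
  have hdη0 : ∀ ν, ∀ x ∉ tsupport (η ν), dη ν x = 0 := fun ν x hx => by
    funext j
    exact dz_eventually_const (hηe ν x hx) j
  have hv0 : ∀ ν, ∀ x ∉ tsupport (η ν), v ν x = 0 := fun ν x hx => by
    simp only [hv, hη0 ν x hx, zero_smul]
  have hd0 : ∀ ν, ∀ x ∉ tsupport (η ν), d ν x = 0 := fun ν x hx => by
    simp only [hd, hη0 ν x hx, hdη0 ν x hx, Complex.ofReal_zero, zero_mul, Pi.zero_apply,
      Finset.sum_const_zero, add_zero]
  have hs0 : ∀ ν, ∀ x ∉ tsupport (η ν), s ν x = 0 := fun ν x hx => by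
    funext j k
    simp only [hs, db_eventually_const (hηe ν x hx), zero_mul, sub_self, Pi.zero_apply]
  -- bounds
  have hη1' : ∀ ν x, η ν x ^ 2 ≤ 1 := fun ν x => by
    have := (hη ν).2.2.1 x
    nlinarith
  have hvb : ∀ ν x, ‖v ν x‖ ^ 2 ≤ Real.exp (Φ x + χ x - ψ x) * g x := by
    intro ν x
    simp only [hv, norm_smul, mul_pow, Real.norm_eq_abs, sq_abs]
    calc η ν x ^ 2 * ‖V x‖ ^ 2 ≤ 1 * nsq (V x) :=
          mul_le_mul (hη1' ν x) (norm_sq_le_nsq _) (by positivity) (by norm_num)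
      _ ≤ _ := by rw [one_mul]; exact hVg x
  have hdb1 : ∀ ν x, ‖∑ j, dη ν x j * V x j‖ ^ 2 ≤ nsq (dη ν x) * nsq (V x) := fun ν x =>
    norm_sum_mul_sq_le _ _
  have hdbd : ∀ ν x, ‖d ν x‖ ^ 2 ≤
      (2 * Cd x + 2 * (nsq (dη ν x) * Real.exp (Φ x + χ x - ψ x))) * g x := by
    intro ν x
    have h1 : ‖d ν x‖ ^ 2 ≤ 2 * ‖(η ν x : ℂ) * dV x‖ ^ 2 + 2 * ‖∑ j, dη ν x j * V x j‖ ^ 2 :=
      norm_add_sq_le _ _
    have h2 : ‖(η ν x : ℂ) * dV x‖ ^ 2 ≤ Cd x * g x := by
      rw [norm_mul, mul_pow, Complex.norm_real, Real.norm_eq_abs, sq_abs]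
      calc η ν x ^ 2 * ‖dV x‖ ^ 2 ≤ 1 * (Cd x * g x) :=
            mul_le_mul (hη1' ν x) (hdVg x) (by positivity) (by norm_num)
        _ = _ := one_mul _
    have h3 : nsq (dη ν x) * nsq (V x) ≤ nsq (dη ν x) * (Real.exp (Φ x + χ x - ψ x) * g x) :=
      mul_le_mul_of_nonneg_left (hVg x) (nsq_nonneg _)
    have h4 := hdb1 ν x
    nlinarith [h1, h2, h3, h4]
  have hsb : ∀ ν x, ‖s ν x‖ ^ 2 ≤
      (4 * (nsq (dη ν x) * Real.exp (Φ x + χ x - ψ x))) * g x := by
    intro ν x
    have hB : 0 ≤ (4 * (nsq (dη ν x) * Real.exp (Φ x + χ x - ψ x))) * g x := by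
      have := nsq_nonneg (dη ν x)
      have := hg0 x
      positivity
    have h1 : ‖s ν x‖ ≤ Real.sqrt ((4 * (nsq (dη ν x) * Real.exp (Φ x + χ x - ψ x))) * g x) := by
      refine (pi_norm_le_iff_of_nonneg (Real.sqrt_nonneg _)).2 fun j => ?_
      refine (pi_norm_le_iff_of_nonneg (Real.sqrt_nonneg _)).2 fun k => ?_
      refine Real.le_sqrt_of_sq_le ?_
      have h2 := s_bound (hη ν).1 x (V x) j k
      have h3 : nsq (dη ν x) * nsq (V x) ≤ nsq (dη ν x) * (Real.exp (Φ x + χ x - ψ x) * g x) :=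
        mul_le_mul_of_nonneg_left (hVg x) (nsq_nonneg _)
      calc ‖s ν x j k‖ ^ 2 ≤ 4 * (nsq (dη ν x) * nsq (V x)) := h2
        _ ≤ _ := by nlinarith [h3]
    calc ‖s ν x‖ ^ 2 ≤ (Real.sqrt _) ^ 2 := by gcongr
      _ = _ := Real.sq_sqrt hB
  have hnc : ∀ ν, Continuous (fun x => nsq (dη ν x)) := fun ν => continuous_nsq.comp (hdηc ν)
  have hvL : ∀ ν, MemLp (v ν) 2 μ := fun ν =>
    memLp_two_of_compact (hvm ν) hgi hg0 (by fun_prop) (hη ν).2.1 (hv0 ν) (hvb ν)
  have hdL : ∀ ν, MemLp (d ν) 2 μ := fun ν =>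
    memLp_two_of_compact (hdm ν) hgi hg0 (by have := hnc ν; fun_prop) (hη ν).2.1 (hd0 ν) (hdbd ν)
  have hsL : ∀ ν, MemLp (s ν) 2 μ := fun ν =>
    memLp_two_of_compact (hsm ν) hgi hg0 (by have := hnc ν; fun_prop) (hη ν).2.1 (hs0 ν) (hsb ν)
  have hwν : ∀ ν, WP μ (Lop n) (v ν) (fun x => (d ν x, s ν x)) := by
    intro ν
    have h1 := hmul V (fun x => (dV x, 0)) (η ν) hVloc hdVloc (hη ν).1 hw
    have h2 : (fun x => η ν x • ((dV x, 0) : ℂ × (Fin n → Fin n → ℂ)) +
        Lop n ((D (η ν) x).smulRight (V x))) = fun x => (d ν x, s ν x) := by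
      funext x
      refine Prod.ext ?_ ?_
      · rw [Prod.fst_add, Lop_smulRight_fst (hη ν).1]
        simp [hd, hdη]
      · funext j k
        rw [Prod.snd_add, Pi.add_apply, Pi.add_apply, Lop_smulRight_snd (hη ν).1]
        simp [hs]
    rw [h2] at h1
    exact h1
  have hineq := fun ν => hpair (v ν) (d ν) (s ν) (tsupport (η ν)) (hvL ν) (hdL ν) (hsL ν)
    (hη ν).2.1 (hv0 ν) (hd0 ν) (hs0 ν) (hwν ν)
  -- limits
  have hE : ∀ x, Real.exp (ψ x) * Real.exp (-(Φ x + χ x)) = Real.exp (-(Φ x + χ x - ψ x)) := by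
    intro x; rw [← Real.exp_add]; congr 1; ring
  have hE2 : ∀ x, Real.exp (ψ x) ^ 2 * Real.exp (-(Φ x + χ x)) =
      Real.exp (-(Φ x + χ x - 2 * ψ x)) := by
    intro x; rw [sq, ← Real.exp_add, ← Real.exp_add]; congr 1; ring
  have hexpm : ∀ {h : M → ℝ}, Continuous h → AEStronglyMeasurable (fun x => Real.exp (h x)) μ :=
    fun hh => (Real.continuous_exp.comp hh).aestronglyMeasurable
  have hexpmC : ∀ {h : M → ℝ}, Continuous h →
      AEStronglyMeasurable (fun x => ((Real.exp (h x) : ℝ) : ℂ)) μ :=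
    fun hh => (Complex.continuous_ofReal.comp (Real.continuous_exp.comp hh)).aestronglyMeasurable
  have hαj : ∀ j, AEStronglyMeasurable (fun x => α x j) μ := fun j =>
    ((continuous_apply j).comp hα).aestronglyMeasurable
  have hL0 : Tendsto (fun ν => ∫ x, (∑ j, α x j * conj (v ν x j)) *
      Real.exp (-(Φ x + χ x - ψ x)) ∂μ) atTop
      (𝓝 (∫ x, (∑ j, α x j * conj (V x j)) * Real.exp (-(Φ x + χ x - ψ x)) ∂μ)) := by
    refine tendsto_integral_of_dominated_convergence
      (fun x => (nsq (α x) * Real.exp (-(Φ x + χ x - ψ x)) +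
        nsq (V x) * Real.exp (-(Φ x + χ x - ψ x)))) ?_ (hαi.add hVi) ?_ ?_
    · intro ν
      refine AEStronglyMeasurable.mul ?_ (hexpmC (by fun_prop))
      refine Finset.aestronglyMeasurable_fun_sum _ fun j _ => (hαj j).mul ?_
      exact (Complex.continuous_conj.comp_aestronglyMeasurable
        ((continuous_apply j).comp_aestronglyMeasurable (hvm ν)))
    · intro ν
      refine Eventually.of_forall fun x => ?_
      have h1 : ‖∑ j, α x j * conj (v ν x j)‖ ^ 2 ≤ nsq (α x) * nsq (V x) := by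
        refine (norm_sum_mul_sq_le (α x) (fun j => conj (v ν x j))).trans ?_
        rw [nsq_conj]
        refine mul_le_mul_of_nonneg_left ?_ (nsq_nonneg _)
        simp only [hv]
        rw [nsq_smul]
        calc η ν x ^ 2 * nsq (V x) ≤ 1 * nsq (V x) :=
              mul_le_mul_of_nonneg_right (hη1' ν x) (nsq_nonneg _)
          _ = _ := one_mul _
      have h2 : ‖∑ j, α x j * conj (v ν x j)‖ ≤ nsq (α x) + nsq (V x) := by
        have h3 := nsq_nonneg (α x)
        have h4 := nsq_nonneg (V x)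
        have h5 := norm_nonneg (∑ j, α x j * conj (v ν x j))
        nlinarith [sq_nonneg (nsq (α x) - nsq (V x))]
      rw [norm_mul, Complex.norm_real, Real.norm_of_nonneg (Real.exp_pos _).le]
      calc _ ≤ (nsq (α x) + nsq (V x)) * Real.exp (-(Φ x + χ x - ψ x)) :=
            mul_le_mul_of_nonneg_right h2 (Real.exp_pos _).le
        _ = _ := by ring
    · refine Eventually.of_forall fun x => ?_
      refine tendsto_const_nhds.congr' ?_
      filter_upwards [hη1 x] with ν hν
      have : η ν x = 1 := hν.self_of_nhds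
      simp only [hv, this, one_smul]
  have hdsub : ∀ ν x, d ν x - ∑ j, v ν x j * p2 x j =
      -((η ν x : ℂ) * ((Real.exp (ψ x) : ℝ) * t x)) + ∑ j, dη ν x j * V x j := by
    intro ν x
    have h1 : ∑ j, v ν x j * p2 x j = (η ν x : ℂ) * ∑ j, V x j * p2 x j := by
      rw [Finset.mul_sum]
      refine Finset.sum_congr rfl fun j _ => ?_
      simp only [hv, Pi.smul_apply, Complex.real_smul]; ring
    rw [h1]
    simp only [hd, hdV]
    ring
  have hR1 : Tendsto (fun ν => ∫ x, ‖d ν x - ∑ j, v ν x j * p2 x j‖ ^ 2 *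
      Real.exp (-(Φ x + χ x)) ∂μ) atTop
      (𝓝 (∫ x, ‖t x‖ ^ 2 * Real.exp (-(Φ x + χ x - 2 * ψ x)) ∂μ)) := by
    refine tendsto_integral_of_dominated_convergence (fun x => 2 * g x) ?_ (hgi.const_mul 2) ?_ ?_
    · intro ν
      refine AEStronglyMeasurable.mul ?_ (hexpm (by fun_prop))
      refine ((hdm ν).sub ?_).norm.pow 2
      refine Finset.aestronglyMeasurable_fun_sum _ fun j _ => ?_
      exact ((continuous_apply j).comp_aestronglyMeasurable (hvm ν)).mul
        ((continuous_apply j).comp hp2c).aestronglyMeasurable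
    · intro ν
      refine Eventually.of_forall fun x => ?_
      rw [hdsub, Real.norm_of_nonneg (by positivity)]
      have h1 := norm_add_sq_le (-((η ν x : ℂ) * ((Real.exp (ψ x) : ℝ) * t x)))
        (∑ j, dη ν x j * V x j)
      have h2 : ‖-((η ν x : ℂ) * ((Real.exp (ψ x) : ℝ) * t x))‖ ^ 2 ≤
          Real.exp (ψ x) ^ 2 * ‖t x‖ ^ 2 := by
        rw [norm_neg, norm_mul, norm_mul, mul_pow, mul_pow, Complex.norm_real, Complex.norm_real,
          Real.norm_eq_abs, sq_abs, Real.norm_eq_abs, sq_abs]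
        calc _ ≤ 1 * (Real.exp (ψ x) ^ 2 * ‖t x‖ ^ 2) :=
              mul_le_mul_of_nonneg_right (hη1' ν x) (by positivity)
          _ = _ := one_mul _
      have h3 := hdb1 ν x
      have h4 : nsq (dη ν x) * nsq (V x) ≤ Real.exp (ψ x) * nsq (V x) :=
        mul_le_mul_of_nonneg_right ((hη ν).2.2.2 x) (nsq_nonneg _)
      have h5 : ‖-((η ν x : ℂ) * ((Real.exp (ψ x) : ℝ) * t x)) + ∑ j, dη ν x j * V x j‖ ^ 2 ≤
          2 * (Real.exp (ψ x) ^ 2 * ‖t x‖ ^ 2) + 2 * (Real.exp (ψ x) * nsq (V x)) := by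
        linarith
      have h6 := mul_le_mul_of_nonneg_right h5 (Real.exp_pos (-(Φ x + χ x))).le
      refine h6.trans (le_of_eq ?_)
      simp only [hgdef]
      rw [← hE x, ← hE2 x]
      ring
    · refine Eventually.of_forall fun x => ?_
      refine tendsto_const_nhds.congr' ?_
      filter_upwards [hη1 x] with ν hν
      have h1 : η ν x = 1 := hν.self_of_nhds
      have h2 : dη ν x = 0 := by
        funext j
        exact dz_eventually_const hν j
      rw [hdsub, h1, h2]
      simp only [Complex.ofReal_one, one_mul, Pi.zero_apply, zero_mul, Finset.sum_const_zero,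
        add_zero, norm_neg, norm_mul, mul_pow, Complex.norm_real, Real.norm_eq_abs, sq_abs]
      rw [← hE2 x]
      ring
  have hR2 : ∀ j k, Tendsto (fun ν => ∫ x, ‖s ν x j k‖ ^ 2 *
      Real.exp (-(Φ x + χ x)) ∂μ) atTop (𝓝 0) := by
    intro j k
    have h0 : (0 : ℝ) = ∫ _x : M, (0 : ℝ) ∂μ := by simp
    rw [h0]
    refine tendsto_integral_of_dominated_convergence (fun x => 4 * g x) ?_ (hgi.const_mul 4) ?_ ?_
    · intro ν
      exact AEStronglyMeasurable.mul ((hsmjk ν j k).norm.pow 2) (hexpm (by fun_prop))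
    · intro ν
      refine Eventually.of_forall fun x => ?_
      rw [Real.norm_of_nonneg (by positivity)]
      have h2 := s_bound (hη ν).1 x (V x) j k
      have h4 : nsq (dη ν x) * nsq (V x) ≤ Real.exp (ψ x) * nsq (V x) :=
        mul_le_mul_of_nonneg_right ((hη ν).2.2.2 x) (nsq_nonneg _)
      have h5 : ‖s ν x j k‖ ^ 2 ≤ 4 * (Real.exp (ψ x) * nsq (V x)) :=
        h2.trans (by linarith [h4])
      have h6 := mul_le_mul_of_nonneg_right h5 (Real.exp_pos (-(Φ x + χ x))).le
      refine h6.trans ?_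
      simp only [hgdef]
      rw [← hE x]
      have h7 : 0 ≤ ‖t x‖ ^ 2 * Real.exp (-(Φ x + χ x - 2 * ψ x)) := by positivity
      nlinarith [h7]
    · refine Eventually.of_forall fun x => ?_
      refine tendsto_const_nhds.congr' ?_
      filter_upwards [hη1 x] with ν hν
      simp only [hs, db_eventually_const hν, zero_mul, sub_self, norm_zero, ne_eq,
        OfNat.ofNat_ne_zero, not_false_eq_true, zero_pow]
  have hRR : Tendsto (fun ν => K0 * (2 * ∫ x, ‖d ν x - ∑ j, v ν x j * p2 x j‖ ^ 2 *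
      Real.exp (-(Φ x + χ x)) ∂μ + (1 / 2) * ∑ j, ∑ k, ∫ x, ‖s ν x j k‖ ^ 2 *
      Real.exp (-(Φ x + χ x)) ∂μ)) atTop
      (𝓝 (K0 * (2 * ∫ x, ‖t x‖ ^ 2 * Real.exp (-(Φ x + χ x - 2 * ψ x)) ∂μ +
        (1 / 2) * ∑ _j : Fin n, ∑ _k : Fin n, (0 : ℝ)))) := by
    refine Tendsto.const_mul _ ((hR1.const_mul 2).add (Tendsto.const_mul _ ?_))
    exact tendsto_finsetSum _ fun j _ => tendsto_finsetSum _ fun k _ => hR2 j k
  simp only [Finset.sum_const_zero, mul_zero, add_zero] at hRR
  exact le_of_tendsto_of_tendsto' ((hL0.norm).pow 2) hRR hineq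

end Crest.Agent.R271.Ho51
end
end

-- ▼ part R271/H7c_51
section

/-!
# Row 271, analytic engine (H): Hilbert space step (helper51)
-/

set_option autoImplicit false
set_option linter.unusedSectionVars false

noncomputable section

open Set Filter Topology MeasureTheory ComplexConjugate

namespace Crest.Agent.R271.Ho51

/-! ### inner products in `L²` -/

section L2

variable {α : Type*} [MeasurableSpace α] {μ : Measure α} {E : Type*} [NormedAddCommGroup E]
  [InnerProductSpace ℂ E]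

lemma inner_toLp_left {f : α → E} (hf : MemLp f 2 μ) (v : Lp E 2 μ) :
    inner ℂ (hf.toLp f) v = ∫ x, inner ℂ (f x) (v x) ∂μ := by
  rw [L2.inner_def]
  refine integral_congr_ae ?_
  filter_upwards [hf.coeFn_toLp] with x hx
  rw [hx]

lemma inner_toLp_right {f : α → E} (hf : MemLp f 2 μ) (v : Lp E 2 μ) :
    inner ℂ v (hf.toLp f) = ∫ x, inner ℂ (v x) (f x) ∂μ := by
  rw [L2.inner_def]
  refine integral_congr_ae ?_
  filter_upwards [hf.coeFn_toLp] with x hx
  rw [hx]

lemma inner_toLp_toLp {f g : α → E} (hf : MemLp f 2 μ) (hg : MemLp g 2 μ) :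
    inner ℂ (hf.toLp f) (hg.toLp g) = ∫ x, inner ℂ (f x) (g x) ∂μ := by
  rw [inner_toLp_left]
  refine integral_congr_ae ?_
  filter_upwards [hg.coeFn_toLp] with x hx
  rw [hx]

lemma Lp_norm_sq (u : Lp E 2 μ) : ‖u‖ ^ 2 = ∫ x, ‖u x‖ ^ 2 ∂μ := by
  have h1 : ((‖u‖ ^ 2 : ℝ) : ℂ) = ((∫ x, ‖u x‖ ^ 2 ∂μ : ℝ) : ℂ) := by
    have h2 := inner_self_eq_norm_sq_to_K (𝕜 := ℂ) u
    rw [L2.inner_def] at h2
    have h3 : (∫ x, inner ℂ (u x) (u x) ∂μ) = ((∫ x, ‖u x‖ ^ 2 ∂μ : ℝ) : ℂ) := by
      rw [← integral_complex_ofReal]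
      refine integral_congr_ae (Eventually.of_forall fun x => ?_)
      have := inner_self_eq_norm_sq_to_K (𝕜 := ℂ) (u x)
      simp only at this ⊢
      rw [this]
      push_cast
      rfl
    rw [h3] at h2
    rw [h2]
    push_cast
    rfl
  exact_mod_cast h1

lemma Lp_integrable_sq (u : Lp E 2 μ) : Integrable (fun x => ‖u x‖ ^ 2) μ :=
  (memLp_two_iff_integrable_sq_norm (Lp.aestronglyMeasurable u)).1 (Lp.memLp u)

end L2

variable {n : ℕ}

/-- the euclidean space -/
abbrev EE (n : ℕ) : Type := EuclideanSpace ℂ (Fin n)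

/-- euclidean version of a vector -/
def tE (w : Fin n → ℂ) : EE n := WithLp.toLp 2 w

lemma tE_apply (w : Fin n → ℂ) (j : Fin n) : tE w j = w j := rfl

lemma continuous_tE : Continuous (tE : (Fin n → ℂ) → EE n) :=
  PiLp.continuous_toLp 2 _

lemma norm_sq_tE (w : Fin n → ℂ) : ‖tE w‖ ^ 2 = nsq w := by
  rw [EuclideanSpace.norm_sq_eq]; rfl

lemma norm_sq_EE (w : EE n) : ‖w‖ ^ 2 = nsq (fun j => w j) := by
  rw [EuclideanSpace.norm_sq_eq]; rfl

lemma inner_EE (v w : EE n) : inner ℂ v w = ∑ j, conj (v j) * w j := by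
  rw [PiLp.inner_apply]
  refine Finset.sum_congr rfl fun j _ => ?_
  rw [RCLike.inner_apply']

variable {M : Type*} [TopologicalSpace M] [RDom n M]

/-- test functions -/
def TF (M : Type*) [TopologicalSpace M] [RDom n M] : Submodule ℂ (M → ℂ) where
  carrier := {f | Sm f ∧ HasCompactSupport f}
  add_mem' := fun ha hb => ⟨ha.1.add hb.1, ha.2.add hb.2⟩
  zero_mem' := ⟨Sm.const 0, HasCompactSupport.zero⟩
  smul_mem' := fun c _ hf => ⟨(Sm.const c).mul hf.1, hf.2.mul_left (f := fun _ => c)⟩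

lemma Sm.smulC {f : M → (Fin n → ℂ)} (hf : Sm f) {c : M → ℂ} (hc : Sm c) :
    Sm (fun x => c x • f x) := fun x =>
  (hc x).smul (hf x)

lemma Sm.pi {f : M → (Fin n → ℂ)} (hf : ∀ j, Sm (fun x => f x j)) : Sm f := fun x =>
  contDiffAt_pi.2 fun j => hf j x

/-- test forms -/
def TFm (M : Type*) [TopologicalSpace M] [RDom n M] : Submodule ℂ (M → (Fin n → ℂ)) where
  carrier := {f | Sm f ∧ HasCompactSupport f}
  add_mem' := fun ha hb => ⟨ha.1.add hb.1, ha.2.add hb.2⟩
  zero_mem' := ⟨Sm.const 0, HasCompactSupport.zero⟩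
  smul_mem' := fun c _ hf => ⟨hf.1.smulC (Sm.const c), hf.2.smul_left (f := fun _ => c)⟩

variable [MeasurableSpace M] [BorelSpace M]

lemma memLp_smooth {μ : Measure M} (hμ : IsLeb μ) {G : Type*} [NormedAddCommGroup G]
    {f : M → G} (hf : Continuous f) (hc : HasCompactSupport f) : MemLp f 2 μ := by
  have := hμ.locallyFinite
  exact hf.memLp_of_hasCompactSupport hc

lemma memLp_tE {μ : Measure M} (hμ : IsLeb μ)
    {f : M → (Fin n → ℂ)} (hf : Continuous f) (hc : HasCompactSupport f) :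
    MemLp (fun x => tE (f x)) 2 μ :=
  memLp_smooth hμ (continuous_tE.comp hf) (hc.comp_left (g := tE) rfl)

/-- divergence of a form -/
def dvg (g : M → (Fin n → ℂ)) (x : M) : ℂ := ∑ j, dz j (fun y => g y j) x

lemma dvg_sm {g : M → (Fin n → ℂ)} (hg : Sm g) : Sm (dvg g) :=
  Sm.sum fun j _ => (hg.pi_apply j).dz j

lemma dz_hcs {f : M → ℂ} (hc : HasCompactSupport f) (j : Fin n) : HasCompactSupport (dz j f) :=
  (hasCompactSupport_D hc).comp_left (g := wz j) (by simp [wz])

lemma db_hcs {f : M → ℂ} (hc : HasCompactSupport f) (j : Fin n) : HasCompactSupport (db j f) :=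
  (hasCompactSupport_D hc).comp_left (g := wb j) (by simp [wb])

lemma pi_hcs {g : M → (Fin n → ℂ)} (hc : HasCompactSupport g) (j : Fin n) :
    HasCompactSupport (fun x => g x j) := hc.comp_left (g := fun w : Fin n → ℂ => w j) rfl

lemma sum_hcs {ι : Type*} (s : Finset ι) {f : ι → M → ℂ}
    (hc : ∀ i ∈ s, HasCompactSupport (f i)) : HasCompactSupport (fun x => ∑ i ∈ s, f i x) := by
  classical
  induction s using Finset.induction_on with
  | empty => exact HasCompactSupport.zero (α := M) (β := ℂ)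
  | insert a s ha ih =>
    simp only [Finset.sum_insert ha]
    exact (hc a (by simp)).add (ih fun i hi => hc i (by simp [hi]))

lemma dvg_hcs {g : M → (Fin n → ℂ)} (hc : HasCompactSupport g) : HasCompactSupport (dvg g) :=
  sum_hcs _ fun j _ => dz_hcs (pi_hcs hc j) j

lemma dvg_add {f g : M → (Fin n → ℂ)} (hf : Sm f) (hg : Sm g) (x : M) :
    dvg (fun x => f x + g x) x = dvg f x + dvg g x := by
  unfold dvg
  rw [← Finset.sum_add_distrib]
  refine Finset.sum_congr rfl fun j _ => ?_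
  exact dz_add (hf.pi_apply j) (hg.pi_apply j) j x

lemma dvg_smul {g : M → (Fin n → ℂ)} (hg : Sm g) (c : ℂ) (x : M) :
    dvg (fun x => c • g x) x = c * dvg g x := by
  unfold dvg
  rw [Finset.mul_sum]
  refine Finset.sum_congr rfl fun j _ => ?_
  exact dz_const_mul (hg.pi_apply j) c j x

end Crest.Agent.R271.Ho51
end
end

-- ▼ part R271/H7d_51
section

/-!
# Row 271, analytic engine (H): Hilbert space step, continued (helper51)
-/

set_option autoImplicit false
set_option linter.unusedSectionVars false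

noncomputable section

open Set Filter Topology MeasureTheory ComplexConjugate

namespace Crest.Agent.R271.Ho51

variable {n : ℕ} {M : Type*} [TopologicalSpace M] [T2Space M] [RDom n M]
  [MeasurableSpace M] [BorelSpace M] {μ : Measure M}

/-- integration by parts: `∫ ∑ conj(g_j) ∂̄_j w = - ∫ conj(div g) w` -/
lemma ibp_div (hμ : IsLeb μ) {g : M → (Fin n → ℂ)} (hg : Sm g) (hgc : HasCompactSupport g)
    {w : M → ℂ} (hw : Sm w) :
    ∫ x, ∑ j, conj (g x j) * db j w x ∂μ = ∫ x, -(conj (dvg g x) * w x) ∂μ := by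
  have h0 : ∀ j, ∫ x, db j (fun y => conj (g y j) * w y) x ∂μ = 0 := fun j =>
    integral_db_eq_zero hμ ((hg.pi_apply j).conj.mul hw)
      (((pi_hcs hgc j).comp_left (g := conj) (by simp)).mul_right) j
  have hi : ∀ j, Integrable (fun x => db j (fun y => conj (g y j) * w y) x) μ := fun j =>
    (((hg.pi_apply j).conj.mul hw).db j).integrable hμ
      (db_hcs (((pi_hcs hgc j).comp_left (g := conj) (by simp)).mul_right) j)
  have h1 : ∫ x, ∑ j, db j (fun y => conj (g y j) * w y) x ∂μ = 0 := by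
    rw [integral_finsetSum _ fun j _ => hi j]
    exact Finset.sum_eq_zero fun j _ => h0 j
  have h2 : ∀ x, ∑ j, db j (fun y => conj (g y j) * w y) x =
      ∑ j, conj (g x j) * db j w x - -(conj (dvg g x) * w x) := by
    intro x
    have h3 : ∀ j, db j (fun y => conj (g y j) * w y) x =
        conj (g x j) * db j w x + conj (dz j (fun y => g y j) x) * w x := by
      intro j
      rw [db_mul (hg.pi_apply j).conj hw, db_conj (hg.pi_apply j)]
      ring
    simp only [h3, Finset.sum_add_distrib, sub_neg_eq_add]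
    congr 1
    unfold dvg
    rw [map_sum, Finset.sum_mul]
  simp only [h2] at h1
  have i1 : Integrable (fun x => ∑ j, conj (g x j) * db j w x) μ :=
    integrable_finsetSum _ fun j _ =>
      ((hg.pi_apply j).conj.mul (hw.db j)).integrable hμ
        (((pi_hcs hgc j).comp_left (g := conj) (by simp)).mul_right)
  have i2 : Integrable (fun x => -(conj (dvg g x) * w x)) μ :=
    ((dvg_sm hg).conj.mul hw).neg.integrable hμ
      ((((dvg_hcs hgc).comp_left (g := conj) (by simp)).mul_right).comp_left (g := fun z => -z)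
        (by simp))
  rw [integral_sub i1 i2] at h1
  exact sub_eq_zero.1 h1

/-- `∂̄ ∂̄ = 0` weakly -/
lemma closed_pair (hμ : IsLeb μ) {θ : M → ℂ} (hθ : Sm θ) (hθc : HasCompactSupport θ)
    {w : M → ℂ} (hw : Sm w) (j k : Fin n) :
    ∫ x, (db j θ x * db k w x - db k θ x * db j w x) ∂μ = 0 := by
  have h0 : ∀ j k, ∫ x, db j (fun y => θ y * db k w y) x ∂μ = 0 := fun j k =>
    integral_db_eq_zero hμ (hθ.mul (hw.db k)) hθc.mul_right j
  have hi : ∀ j k, Integrable (fun x => db j (fun y => θ y * db k w y) x) μ := fun j k =>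
    ((hθ.mul (hw.db k)).db j).integrable hμ (db_hcs hθc.mul_right j)
  have h1 : ∀ x, db j θ x * db k w x - db k θ x * db j w x =
      db j (fun y => θ y * db k w y) x - db k (fun y => θ y * db j w y) x := by
    intro x
    rw [db_mul hθ (hw.db k), db_mul hθ (hw.db j), db_db_comm hw j k]
    ring
  simp only [h1]
  rw [integral_sub (hi j k) (hi k j), h0, h0, sub_zero]

/-- the vectors defining `ker S` -/
def svec (b : ℝ) (p q : ℂ) (j k : Fin n) : Fin n → ℂ :=
  fun l => (b : ℂ) * ((if l = k then p else 0) - (if l = j then q else 0))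

lemma inner_svec (b : ℝ) (p q : ℂ) (j k : Fin n) (v : EE n) :
    inner ℂ (tE (svec b p q j k)) v = (b : ℂ) * (conj p * v k - conj q * v j) := by
  rw [inner_EE]
  simp only [tE_apply, svec, map_mul, map_sub, Complex.conj_ofReal, apply_ite conj, map_zero]
  simp only [mul_sub, sub_mul, mul_ite, ite_mul, mul_zero, zero_mul, Finset.sum_sub_distrib,
    Finset.sum_ite_eq', Finset.sum_ite_eq, Finset.mem_univ, if_true]
  ring

lemma svec_sm {b : M → ℝ} (hb : Sm b) {p q : M → ℂ} (hp : Sm p) (hq : Sm q) (j k : Fin n) :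
    Sm (fun x => svec (b x) (p x) (q x) j k) := by
  refine Sm.pi fun l => ?_
  unfold svec
  refine hb.ofReal.mul (Sm.sub ?_ ?_)
  · by_cases h : l = k
    · simpa [h] using hp
    · simpa [h] using Sm.const (0 : ℂ)
  · by_cases h : l = j
    · simpa [h] using hq
    · simpa [h] using Sm.const (0 : ℂ)

lemma svec_hcs {b : M → ℝ} {p q : M → ℂ} {K : Set M} (hK : IsCompact K)
    (hp : ∀ x ∉ K, p x = 0) (hq : ∀ x ∉ K, q x = 0) (j k : Fin n) :
    HasCompactSupport (fun x => svec (b x) (p x) (q x) j k) := by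
  refine HasCompactSupport.intro hK fun x hx => ?_
  funext l
  simp [svec, hp x hx, hq x hx]

/-- product of an `L²` vector component with a smooth compactly supported function -/
lemma integrable_comp_mul (hμ : IsLeb μ) (v : Lp (EE n) 2 μ) (j : Fin n) {c : M → ℂ}
    (hc : Continuous c) (hcc : HasCompactSupport c) : Integrable (fun x => v x j * c x) μ := by
  have h1 : MemLp (fun x => v x j) 2 μ := by
    have h2 := Lp.memLp v
    refine h2.mono ?_ (Eventually.of_forall fun x => ?_)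
    · exact ((EuclideanSpace.proj (𝕜 := ℂ) j).continuous).comp_aestronglyMeasurable
        (Lp.aestronglyMeasurable v)
    · exact PiLp.norm_apply_le _ j
  exact h1.integrable_mul (memLp_smooth hμ hc hcc)

lemma integrable_mul' (hμ : IsLeb μ) (t : Lp ℂ 2 μ) {c : M → ℂ}
    (hc : Continuous c) (hcc : HasCompactSupport c) : Integrable (fun x => t x * c x) μ :=
  (Lp.memLp t).integrable_mul (memLp_smooth hμ hc hcc)

end Crest.Agent.R271.Ho51
end
end

-- ▼ part R271/H7e_51
section

/-!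
# Row 271, analytic engine (H): Hilbert space step, the weak equation (helper51)
-/

set_option autoImplicit false
set_option linter.unusedSectionVars false

noncomputable section

open Set Filter Topology MeasureTheory ComplexConjugate

namespace Crest.Agent.R271.Ho51

variable {n : ℕ} {M : Type*} [TopologicalSpace M] [T2Space M] [RDom n M]
  [MeasurableSpace M] [BorelSpace M] {μ : Measure M}

/-- `V = e^{φ₂/2} v` -/
def Vof (φ2 : M → ℝ) (v : M → EE n) : M → (Fin n → ℂ) :=
  fun x j => (Real.exp (φ2 x / 2) : ℂ) * v x j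

lemma Vof_aesm {φ2 : M → ℝ} (hφ2 : Continuous φ2) (v : Lp (EE n) 2 μ) :
    AEStronglyMeasurable (Vof φ2 v) μ := by
  have h1 : ∀ j, AEMeasurable (fun x => Vof φ2 v x j) μ := fun j => by
    refine AEStronglyMeasurable.aemeasurable ?_
    refine AEStronglyMeasurable.mul ?_ ?_
    · exact (Complex.continuous_ofReal.comp (Real.continuous_exp.comp
        (hφ2.div_const 2))).aestronglyMeasurable
    · exact ((EuclideanSpace.proj (𝕜 := ℂ) j).continuous).comp_aestronglyMeasurable
        (Lp.aestronglyMeasurable v)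
  exact (aemeasurable_pi_iff.2 h1).aestronglyMeasurable

lemma nsq_Vof (φ2 : M → ℝ) (v : M → EE n) (x : M) :
    nsq (Vof φ2 v x) * Real.exp (-φ2 x) = ‖v x‖ ^ 2 := by
  rw [norm_sq_EE]
  unfold nsq Vof
  rw [Finset.sum_mul]
  refine Finset.sum_congr rfl fun j _ => ?_
  rw [norm_mul, mul_pow, Complex.norm_real, Real.norm_of_nonneg (Real.exp_pos _).le, sq,
    ← Real.exp_add]
  have h : Real.exp (φ2 x / 2 + φ2 x / 2) * Real.exp (-φ2 x) = 1 := by
    rw [← Real.exp_add]
    simp
  calc Real.exp (φ2 x / 2 + φ2 x / 2) * ‖v x j‖ ^ 2 * Real.exp (-φ2 x) =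
      (Real.exp (φ2 x / 2 + φ2 x / 2) * Real.exp (-φ2 x)) * ‖v x j‖ ^ 2 := by ring
    _ = ‖v x j‖ ^ 2 := by rw [h, one_mul]

/-- `t ↦ e^{φ₁/2} t` -/
def tof (φ1 : M → ℝ) (t : M → ℂ) : M → ℂ := fun x => (Real.exp (φ1 x / 2) : ℂ) * t x

lemma tof_aesm {φ1 : M → ℝ} (hφ1 : Continuous φ1) (t : Lp ℂ 2 μ) :
    AEStronglyMeasurable (tof φ1 t) μ :=
  AEStronglyMeasurable.mul (Complex.continuous_ofReal.comp (Real.continuous_exp.comp
    (hφ1.div_const 2))).aestronglyMeasurable (Lp.aestronglyMeasurable t)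

lemma norm_tof (φ1 : M → ℝ) (t : M → ℂ) (x : M) :
    ‖tof φ1 t x‖ ^ 2 * Real.exp (-φ1 x) = ‖t x‖ ^ 2 := by
  unfold tof
  rw [norm_mul, mul_pow, Complex.norm_real, Real.norm_of_nonneg (Real.exp_pos _).le, sq,
    ← Real.exp_add]
  have h : Real.exp (φ1 x / 2 + φ1 x / 2) * Real.exp (-φ1 x) = 1 := by
    rw [← Real.exp_add]
    simp
  calc Real.exp (φ1 x / 2 + φ1 x / 2) * ‖t x‖ ^ 2 * Real.exp (-φ1 x) =
      (Real.exp (φ1 x / 2 + φ1 x / 2) * Real.exp (-φ1 x)) * ‖t x‖ ^ 2 := by ring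
    _ = ‖t x‖ ^ 2 := by rw [h, one_mul]

lemma hcs_of_tsupport {G : Type*} [Zero G] {θ : M → ℝ} (hθc : HasCompactSupport θ) {f : M → G}
    (hf : ∀ x ∉ tsupport θ, f x = 0) : HasCompactSupport f :=
  HasCompactSupport.intro hθc hf

lemma dz_off {θ : M → ℝ} {x : M} (hx : x ∉ tsupport θ) (j : Fin n) :
    dz j (fun y => (θ y : ℂ)) x = 0 := by
  have h := notMem_tsupport_iff_eventuallyEq.1 hx
  exact dz_eventually_const (c := 0) h j

lemma db_off {θ : M → ℝ} {x : M} (hx : x ∉ tsupport θ) (j : Fin n) :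
    db j (fun y => (θ y : ℂ)) x = 0 := by
  have h := notMem_tsupport_iff_eventuallyEq.1 hx
  exact db_eventually_const (c := 0) h j

/-- The weak equation satisfied by `V = e^{φ₂/2} v`. -/
theorem wp_of (hμ : IsLeb μ) {φ1 φ2 ψ : M → ℝ} (hφ1 : Sm φ1) (hφ2 : Sm φ2) (hψ : Sm ψ)
    (h12 : ∀ x, ψ x = φ2 x - φ1 x)
    (v : Lp (EE n) 2 μ) (t : Lp ℂ 2 μ)
    (hN : ∀ θ : M → ℝ, Sm θ → HasCompactSupport θ → ∀ j k : Fin n,
      ∫ x, (Real.exp (φ2 x / 2) : ℂ) * (db j (fun y => (θ y : ℂ)) x * v x k -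
        db k (fun y => (θ y : ℂ)) x * v x j) ∂μ = 0)
    (hT : ∀ θ : M → ℝ, Sm θ → HasCompactSupport θ →
      ∫ x, ∑ j, conj (v x j) * ((Real.exp (φ2 x / 2) : ℂ) * (db j (fun y => (θ y : ℂ)) x +
        θ x * db j (fun y => (φ2 y : ℂ)) x)) ∂μ =
      ∫ x, conj (t x) * ((Real.exp (φ2 x - φ1 x / 2) : ℂ) * θ x) ∂μ) :
    WP μ (Lop n) (Vof φ2 v) (fun x => (∑ j, Vof φ2 v x j * dz j (fun y => (φ2 y : ℂ)) x -
      Real.exp (ψ x) * tof φ1 t x, 0)) := by
  classical
  have hφ1c := hφ1.continuous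
  have hφ2c := hφ2.continuous
  have hψc := hψ.continuous
  have hexpc : ∀ {h : M → ℝ}, Continuous h → Continuous (fun x => ((Real.exp (h x) : ℝ) : ℂ)) :=
    fun hh => Complex.continuous_ofReal.comp (Real.continuous_exp.comp hh)
  intro θ hθ hθc
  have hθcC : Continuous (fun x => (θ x : ℂ)) := Complex.continuous_ofReal.comp hθ.continuous
  have hθ0 : ∀ x ∉ tsupport θ, θ x = 0 := fun x hx => image_eq_zero_of_notMem_tsupport hx
  have hdzc : ∀ j, Continuous (fun x => dz j (fun y => (θ y : ℂ)) x) := fun j =>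
    (hθ.ofReal.dz j).continuous
  have hdbc : ∀ j, Continuous (fun x => db j (fun y => (θ y : ℂ)) x) := fun j =>
    (hθ.ofReal.db j).continuous
  have hdz2c : ∀ j, Continuous (fun x => dz j (fun y => (φ2 y : ℂ)) x) := fun j =>
    (hφ2.ofReal.dz j).continuous
  have hb2 : Continuous (fun x => ((Real.exp (φ2 x / 2) : ℝ) : ℂ)) := hexpc (by fun_prop)
  -- integrable pieces
  have I1 : ∀ j k, Integrable (fun x => dz j (fun y => (θ y : ℂ)) x * Vof φ2 v x k) μ := by
    intro j k
    have := integrable_comp_mul hμ v k (c := fun x => (Real.exp (φ2 x / 2) : ℂ) *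
      dz j (fun y => (θ y : ℂ)) x) (hb2.mul (hdzc j))
      (hcs_of_tsupport hθc fun x hx => by rw [dz_off hx, mul_zero])
    refine this.congr (Eventually.of_forall fun x => ?_)
    simp only [Vof]; ring
  have I2 : ∀ j k, Integrable (fun x => db j (fun y => (θ y : ℂ)) x * Vof φ2 v x k) μ := by
    intro j k
    have := integrable_comp_mul hμ v k (c := fun x => (Real.exp (φ2 x / 2) : ℂ) *
      db j (fun y => (θ y : ℂ)) x) (hb2.mul (hdbc j))
      (hcs_of_tsupport hθc fun x hx => by rw [db_off hx, mul_zero])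
    refine this.congr (Eventually.of_forall fun x => ?_)
    simp only [Vof]; ring
  have I3 : ∀ j, Integrable (fun x => (θ x : ℂ) * (Vof φ2 v x j *
      dz j (fun y => (φ2 y : ℂ)) x)) μ := by
    intro j
    have := integrable_comp_mul hμ v j (c := fun x => (Real.exp (φ2 x / 2) : ℂ) *
      ((θ x : ℂ) * dz j (fun y => (φ2 y : ℂ)) x)) (hb2.mul (hθcC.mul (hdz2c j)))
      (hcs_of_tsupport hθc fun x hx => by rw [hθ0 x hx]; simp)
    refine this.congr (Eventually.of_forall fun x => ?_)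
    simp only [Vof]; ring
  have I4 : Integrable (fun x => (θ x : ℂ) * (Real.exp (ψ x) * tof φ1 t x)) μ := by
    have := integrable_mul' hμ t (c := fun x => (θ x : ℂ) * ((Real.exp (ψ x) : ℝ) : ℂ) *
      ((Real.exp (φ1 x / 2) : ℝ) : ℂ)) ((hθcC.mul (hexpc hψc)).mul (hexpc (by fun_prop)))
      (hcs_of_tsupport hθc fun x hx => by rw [hθ0 x hx]; simp)
    refine this.congr (Eventually.of_forall fun x => ?_)
    simp only [tof]; ring
  -- the first component
  have E1 : ∫ x, ∑ j, dz j (fun y => (θ y : ℂ)) x * Vof φ2 v x j ∂μ =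
      - ∫ x, (θ x : ℂ) * (∑ j, Vof φ2 v x j * dz j (fun y => (φ2 y : ℂ)) x -
        Real.exp (ψ x) * tof φ1 t x) ∂μ := by
    have h1 := congrArg conj (hT θ hθ hθc)
    rw [← integral_conj, ← integral_conj] at h1
    have h2 : (fun x => conj (∑ j, conj (v x j) * ((Real.exp (φ2 x / 2) : ℂ) *
        (db j (fun y => (θ y : ℂ)) x + θ x * db j (fun y => (φ2 y : ℂ)) x)))) =
        fun x => ∑ j, dz j (fun y => (θ y : ℂ)) x * Vof φ2 v x j +
          ∑ j, (θ x : ℂ) * (Vof φ2 v x j * dz j (fun y => (φ2 y : ℂ)) x) := by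
      funext x
      rw [map_sum, ← Finset.sum_add_distrib]
      refine Finset.sum_congr rfl fun j _ => ?_
      rw [db_ofReal hθ, db_ofReal hφ2]
      simp only [map_mul, map_add, Complex.conj_conj, Complex.conj_ofReal, Vof]
      ring
    have h3 : (fun x => conj (conj (t x) * ((Real.exp (φ2 x - φ1 x / 2) : ℂ) * θ x))) =
        fun x => (θ x : ℂ) * (Real.exp (ψ x) * tof φ1 t x) := by
      funext x
      simp only [map_mul, Complex.conj_conj, Complex.conj_ofReal, tof]
      have h4 : Real.exp (φ2 x - φ1 x / 2) = Real.exp (ψ x) * Real.exp (φ1 x / 2) := by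
        rw [← Real.exp_add, h12 x]; congr 1; ring
      rw [h4]
      push_cast
      ring
    rw [h2, h3, integral_add (integrable_finsetSum _ fun j _ => I1 j j)
      (integrable_finsetSum _ fun j _ => I3 j)] at h1
    have h5 : (fun x => (θ x : ℂ) * (∑ j, Vof φ2 v x j * dz j (fun y => (φ2 y : ℂ)) x -
        Real.exp (ψ x) * tof φ1 t x)) =
        fun x => ∑ j, (θ x : ℂ) * (Vof φ2 v x j * dz j (fun y => (φ2 y : ℂ)) x) -
          (θ x : ℂ) * (Real.exp (ψ x) * tof φ1 t x) := by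
      funext x
      rw [mul_sub, Finset.mul_sum]
    rw [h5, integral_sub (integrable_finsetSum _ fun j _ => I3 j) I4, ← h1]
    ring
  have hL : (fun x => Lop n ((D θ x).smulRight (Vof φ2 v x))) = fun x =>
      (∑ j, dz j (fun y => (θ y : ℂ)) x * Vof φ2 v x j,
        fun j k => db j (fun y => (θ y : ℂ)) x * Vof φ2 v x k -
          db k (fun y => (θ y : ℂ)) x * Vof φ2 v x j) := by
    funext x
    refine Prod.ext (Lop_smulRight_fst hθ x _) ?_
    funext j k
    exact Lop_smulRight_snd hθ x _ j k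
  rw [hL]
  have hR : (fun x => θ x • ((∑ j, Vof φ2 v x j * dz j (fun y => (φ2 y : ℂ)) x -
      Real.exp (ψ x) * tof φ1 t x, 0) : ℂ × (Fin n → Fin n → ℂ))) = fun x =>
      ((θ x : ℂ) * (∑ j, Vof φ2 v x j * dz j (fun y => (φ2 y : ℂ)) x -
        Real.exp (ψ x) * tof φ1 t x), (0 : Fin n → Fin n → ℂ)) := by
    funext x
    refine Prod.ext ?_ ?_
    · simp
    · simp
  rw [hR]
  have J1 : Integrable (fun x => ∑ j, dz j (fun y => (θ y : ℂ)) x * Vof φ2 v x j) μ :=
    integrable_finsetSum _ fun j _ => I1 j j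
  have J2 : ∀ j k, Integrable (fun x => db j (fun y => (θ y : ℂ)) x * Vof φ2 v x k -
          db k (fun y => (θ y : ℂ)) x * Vof φ2 v x j) μ := fun j k => (I2 j k).sub (I2 k j)
  have J2' : ∀ j, Integrable (fun x => fun k => db j (fun y => (θ y : ℂ)) x * Vof φ2 v x k -
          db k (fun y => (θ y : ℂ)) x * Vof φ2 v x j) μ := fun j => Integrable.of_eval (J2 j)
  have J3 : Integrable (fun x => fun j k => db j (fun y => (θ y : ℂ)) x * Vof φ2 v x k -
          db k (fun y => (θ y : ℂ)) x * Vof φ2 v x j) μ := Integrable.of_eval J2'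
  have J4 : Integrable (fun x => (θ x : ℂ) * (∑ j, Vof φ2 v x j *
      dz j (fun y => (φ2 y : ℂ)) x - Real.exp (ψ x) * tof φ1 t x)) μ := by
    have := (integrable_finsetSum Finset.univ fun j _ => I3 j).sub I4
    refine this.congr (Eventually.of_forall fun x => ?_)
    simp only [Pi.sub_apply, mul_sub, Finset.mul_sum]
  rw [integral_pair J1 J3, integral_pair J4 (integrable_zero _ _ _), E1]
  refine Prod.ext ?_ ?_
  · simp
  · show (∫ x, (fun j k => db j (fun y => (θ y : ℂ)) x * Vof φ2 v x k -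
          db k (fun y => (θ y : ℂ)) x * Vof φ2 v x j) ∂μ) = -(∫ _x : M, (0 : Fin n → Fin n → ℂ) ∂μ)
    rw [integral_zero, neg_zero]
    funext j k
    rw [eval_integral J2' j, eval_integral (J2 j) k]
    show _ = (0 : ℂ)
    rw [← hN θ hθ hθc j k]
    refine integral_congr_ae (Eventually.of_forall fun x => ?_)
    simp only [Vof]; ring

end Crest.Agent.R271.Ho51
end
end

-- ▼ part R271/H7f_51
section

/-!
# Row 271, analytic engine (H): weak solution of `∂̄ u = ∂̄ G` (helper51)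
-/

set_option autoImplicit false
set_option linter.unusedSectionVars false

noncomputable section

open Set Filter Topology MeasureTheory ComplexConjugate

namespace Crest.Agent.R271.Ho51

variable {n : ℕ} {M : Type*} [TopologicalSpace M] [T2Space M] [RDom n M]
  [MeasurableSpace M] [BorelSpace M] {μ : Measure M}

lemma expC_sm {h : M → ℝ} (hh : Sm h) : Sm (fun x => ((Real.exp (h x) : ℝ) : ℂ)) :=
  (Sm.comp (Real.contDiff_exp.of_le le_top) hh).ofReal

lemma half_sm {h : M → ℝ} (hh : Sm h) : Sm (fun x => h x / 2) := by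
  have := hh.mulR (Sm.const (1 / 2 : ℝ))
  refine Sm.of_locally fun x => ⟨_, this, Eventually.of_forall fun y => ?_⟩
  simp only; ring

/-- `e^{-φ₁/2} w` -/
def fi1 (φ1 : M → ℝ) (w : M → ℂ) (x : M) : ℂ := (Real.exp (-(φ1 x / 2)) : ℂ) * w x
/-- `e^{-φ₂/2} ∂̄ w` -/
def fT (φ2 : M → ℝ) (w : M → ℂ) (x : M) : EE n :=
  tE (fun j => (Real.exp (-(φ2 x / 2)) : ℂ) * db j w x)
/-- `e^{φ₂/2} g` -/
def fi2 (φ2 : M → ℝ) (g : M → (Fin n → ℂ)) (x : M) : EE n :=
  tE (fun j => (Real.exp (φ2 x / 2) : ℂ) * g x j)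
/-- `- e^{φ₁/2} div g` -/
def fTs (φ1 : M → ℝ) (g : M → (Fin n → ℂ)) (x : M) : ℂ :=
  -((Real.exp (φ1 x / 2) : ℂ) * dvg g x)
/-- the vectors defining `ker S` -/
def fS (φ2 : M → ℝ) (θ : M → ℝ) (j k : Fin n) (x : M) : EE n :=
  tE (svec (Real.exp (φ2 x / 2)) (dz j (fun y => (θ y : ℂ)) x) (dz k (fun y => (θ y : ℂ)) x) j k)

lemma mfi1 (hμ : IsLeb μ) {φ1 : M → ℝ} (hφ1 : Sm φ1) {w : M → ℂ} (hw : Sm w)
    (hwc : HasCompactSupport w) : MemLp (fi1 φ1 w) 2 μ :=
  memLp_smooth hμ ((expC_sm (half_sm hφ1).neg).mul hw).continuous hwc.mul_left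

lemma mfT (hμ : IsLeb μ) {φ2 : M → ℝ} (hφ2 : Sm φ2) {w : M → ℂ} (hw : Sm w)
    (hwc : HasCompactSupport w) : MemLp (fT φ2 w) 2 μ :=
  memLp_tE hμ (continuous_pi fun j => ((expC_sm (half_sm hφ2).neg).mul (hw.db j)).continuous)
    (HasCompactSupport.intro hwc fun x hx => by
      funext j
      have : db j w x = 0 := by
        have h := notMem_tsupport_iff_eventuallyEq.1 hx
        have h' : w =ᶠ[𝓝 x] fun _ => (0 : ℂ) := h
        rw [db_congr h', db_const]
      simp [this])

lemma mfi2 (hμ : IsLeb μ) {φ2 : M → ℝ} (hφ2 : Sm φ2) {g : M → (Fin n → ℂ)} (hg : Sm g)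
    (hgc : HasCompactSupport g) : MemLp (fi2 φ2 g) 2 μ :=
  memLp_tE hμ (continuous_pi fun j => ((expC_sm (half_sm hφ2)).mul (hg.pi_apply j)).continuous)
    (HasCompactSupport.intro hgc fun x hx => by
      funext j
      simp [image_eq_zero_of_notMem_tsupport hx])

lemma mfTs (hμ : IsLeb μ) {φ1 : M → ℝ} (hφ1 : Sm φ1) {g : M → (Fin n → ℂ)} (hg : Sm g)
    (hgc : HasCompactSupport g) : MemLp (fTs φ1 g) 2 μ :=
  memLp_smooth hμ ((expC_sm (half_sm hφ1)).mul (dvg_sm hg)).neg.continuous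
    (((dvg_hcs hgc).mul_left).comp_left (g := fun z => -z) (by simp))

lemma mfS (hμ : IsLeb μ) {φ2 : M → ℝ} (hφ2 : Sm φ2) {θ : M → ℝ} (hθ : Sm θ)
    (hθc : HasCompactSupport θ) (j k : Fin n) : MemLp (fS φ2 θ j k) 2 μ :=
  memLp_tE hμ (svec_sm (Sm.comp (Real.contDiff_exp.of_le le_top) (half_sm hφ2))
    (hθ.ofReal.dz j) (hθ.ofReal.dz k) j k).continuous
    (svec_hcs hθc (fun _ hx => dz_off hx j) (fun _ hx => dz_off hx k) j k)

lemma exp_inv_mul (h : ℝ) : ((Real.exp (-h) : ℝ) : ℂ) * ((Real.exp h : ℝ) : ℂ) = 1 := by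
  rw [← Complex.ofReal_mul, ← Real.exp_add]; simp

lemma adj_pt (φ2 : M → ℝ) (g : M → (Fin n → ℂ)) (w : M → ℂ) (x : M) :
    inner ℂ (fi2 φ2 g x) (fT φ2 w x) = ∑ j, conj (g x j) * db j w x := by
  rw [inner_EE]
  refine Finset.sum_congr rfl fun j _ => ?_
  simp only [fi2, fT, tE_apply, map_mul, Complex.conj_ofReal]
  have := exp_inv_mul (φ2 x / 2)
  linear_combination (conj (g x j) * db j w x) * this

lemma adj_pt' (φ1 : M → ℝ) (g : M → (Fin n → ℂ)) (w : M → ℂ) (x : M) :
    inner ℂ (fTs φ1 g x) (fi1 φ1 w x) = -(conj (dvg g x) * w x) := by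
  rw [RCLike.inner_apply']
  simp only [fTs, fi1, map_mul, map_neg, Complex.conj_ofReal]
  have := exp_inv_mul (φ1 x / 2)
  linear_combination (-(conj (dvg g x) * w x)) * this

/-- **weak solution** -/
theorem solve (hμ : IsLeb μ) (hmul : WPmul (M := M) μ)
    {Φ χ ψ : M → ℝ} (hΦ : Sm Φ) (hχ : Sm χ) (hψ : Sm ψ)
    {G : M → ℂ} (hG : Sm G) {K0 : ℝ} (hK0 : 0 ≤ K0)
    (hpair : PairC μ Φ χ ψ (fun x j => db j G x) K0)
    (hαi : Integrable (fun x => nsq (fun j => db j G x) * Real.exp (-(Φ x + χ x - ψ x))) μ)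
    (η : ℕ → M → ℝ) (hη : ∀ ν, Sm (η ν) ∧ HasCompactSupport (η ν) ∧
      (∀ x, 0 ≤ η ν x ∧ η ν x ≤ 1) ∧
      ∀ x, nsq (fun j => dz j (fun y => (η ν y : ℂ)) x) ≤ Real.exp (ψ x))
    (hη1 : ∀ x, ∀ᶠ ν in atTop, ∀ᶠ y in 𝓝 x, η ν y = 1) :
    ∃ U : M → ℂ, AEStronglyMeasurable U μ ∧
      Integrable (fun x => ‖U x‖ ^ 2 * Real.exp (-(Φ x + χ x - 2 * ψ x))) μ ∧
      ∫ x, ‖U x‖ ^ 2 * Real.exp (-(Φ x + χ x - 2 * ψ x)) ∂μ ≤ 2 * K0 ∧
      ∀ (j : Fin n) (θ : M → ℝ), Sm θ → HasCompactSupport θ →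
        ∫ x, U x * db j (fun y => (θ y : ℂ)) x ∂μ = - ∫ x, db j G x * θ x ∂μ := by
  classical
  set φ1 : M → ℝ := fun x => Φ x + χ x - 2 * ψ x with hφ1def
  set φ2 : M → ℝ := fun x => Φ x + χ x - ψ x with hφ2def
  have hφ1 : Sm φ1 := (hΦ.add hχ).sub ((Sm.const (2 : ℝ)).mulR hψ)
  have hφ2 : Sm φ2 := (hΦ.add hχ).sub hψ
  have h12 : ∀ x, ψ x = φ2 x - φ1 x := fun x => by simp only [hφ1def, hφ2def]; ring
  -- the closed subspace
  let ι := {θ : M → ℝ // Sm θ ∧ HasCompactSupport θ} × Fin n × Fin n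
  let sv : ι → Lp (EE n) 2 μ := fun i =>
    (mfS hμ hφ2 i.1.2.1 i.1.2.2 i.2.1 i.2.2).toLp (fS φ2 i.1.1 i.2.1 i.2.2)
  let N : Submodule ℂ (Lp (EE n) 2 μ) := (Submodule.span ℂ (Set.range sv))ᗮ
  have hN : ∀ v, v ∈ N ↔ ∀ i, inner ℂ (sv i) v = 0 := by
    intro v
    constructor
    · intro hv i
      exact hv (sv i) (Submodule.subset_span (Set.mem_range_self i))
    · intro hv
      rw [Submodule.mem_orthogonal]
      intro u hu
      induction hu using Submodule.span_induction with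
      | mem u hu => obtain ⟨i, rfl⟩ := hu; exact hv i
      | zero => simp
      | add a b _ _ ha hb => rw [inner_add_left, ha, hb, add_zero]
      | smul c a _ ha => rw [inner_smul_left, ha, mul_zero]
  have hNcl : IsClosed (N : Set (Lp (EE n) 2 μ)) := Submodule.isClosed_orthogonal _
  -- inner product with sv
  have hsv_pt : ∀ (θ : M → ℝ) (_ : Sm θ) (j k : Fin n) (x : M) (v : EE n),
      inner ℂ (fS φ2 θ j k x) v = (Real.exp (φ2 x / 2) : ℂ) *
        (db j (fun y => (θ y : ℂ)) x * v k - db k (fun y => (θ y : ℂ)) x * v j) := by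
    intro θ hθ j k x v
    rw [fS, inner_svec, db_ofReal hθ, db_ofReal hθ]
  -- the right-hand side as a vector
  have hαL : MemLp (fun x => fT φ2 G x) 2 μ := by
    have hm : AEStronglyMeasurable (fun x => fT φ2 G x) μ :=
      (continuous_tE.comp (continuous_pi fun j =>
        ((expC_sm (half_sm hφ2).neg).mul (hG.db j)).continuous)).aestronglyMeasurable
    rw [memLp_two_iff_integrable_sq_norm hm]
    refine hαi.congr (Eventually.of_forall fun x => ?_)
    simp only [fT]
    rw [norm_sq_tE]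
    unfold nsq
    rw [Finset.sum_mul]
    refine Finset.sum_congr rfl fun j _ => ?_
    rw [norm_mul, mul_pow, Complex.norm_real, Real.norm_of_nonneg (Real.exp_pos _).le]
    have : Real.exp (-(φ2 x / 2)) ^ 2 = Real.exp (-φ2 x) := by
      rw [sq, ← Real.exp_add]; congr 1; ring
    rw [this]; ring
  let αt : Lp (EE n) 2 μ := hαL.toLp _
  -- `∂̄` of a smooth function is in `N`
  have hdbN : ∀ (w : M → ℂ) (_ : Sm w) (hL : MemLp (fun x => fT φ2 w x) 2 μ),
      hL.toLp _ ∈ N := by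
    intro w hw hL
    rw [hN]
    rintro ⟨⟨θ, hθ, hθc⟩, j, k⟩
    show inner ℂ ((mfS hμ hφ2 hθ hθc j k).toLp (fS φ2 θ j k)) (hL.toLp _) = 0
    rw [inner_toLp_toLp, ← closed_pair hμ hθ.ofReal (hθc.comp_left (g := fun r : ℝ => (r : ℂ))
      (by simp)) hw j k]
    refine integral_congr_ae (Eventually.of_forall fun x => ?_)
    simp only
    rw [hsv_pt θ hθ]
    simp only [fT, tE_apply]
    have := exp_inv_mul (φ2 x / 2)
    linear_combination (db j (fun y => (θ y : ℂ)) x * db k w x -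
      db k (fun y => (θ y : ℂ)) x * db j w x) * this
  have hαN : αt ∈ N := hdbN G hG hαL
  -- operators
  let i1 : TF M → Lp ℂ 2 μ := fun w => (mfi1 hμ hφ1 w.2.1 w.2.2).toLp _
  let T : TF M → Lp (EE n) 2 μ := fun w => (mfT hμ hφ2 w.2.1 w.2.2).toLp _
  have hTN : ∀ w, T w ∈ N := fun w => hdbN w.1 w.2.1 (mfT hμ hφ2 w.2.1 w.2.2)
  let i2 : TFm M →ₗ[ℂ] Lp (EE n) 2 μ :=
    { toFun := fun g => (mfi2 hμ hφ2 g.2.1 g.2.2).toLp _
      map_add' := fun f g => by
        rw [← MemLp.toLp_add]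
        refine MemLp.toLp_congr _ _ (Eventually.of_forall fun x => ?_)
        simp only [fi2, Pi.add_apply]
        ext j
        simp only [tE_apply, PiLp.add_apply, Submodule.coe_add, Pi.add_apply]
        ring
      map_smul' := fun c g => by
        rw [RingHom.id_apply, ← MemLp.toLp_const_smul]
        refine MemLp.toLp_congr _ _ (Eventually.of_forall fun x => ?_)
        simp only [fi2, Pi.smul_apply]
        ext j
        simp only [tE_apply, PiLp.smul_apply, Submodule.coe_smul, Pi.smul_apply, smul_eq_mul]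
        ring }
  let Ts : TFm M →ₗ[ℂ] Lp ℂ 2 μ :=
    { toFun := fun g => (mfTs hμ hφ1 g.2.1 g.2.2).toLp _
      map_add' := fun f g => by
        rw [← MemLp.toLp_add]
        refine MemLp.toLp_congr _ _ (Eventually.of_forall fun x => ?_)
        simp only [fTs, Pi.add_apply]
        have : dvg ((f + g : TFm M) : M → (Fin n → ℂ)) x = dvg f.1 x + dvg g.1 x :=
          dvg_add f.2.1 g.2.1 x
        rw [this]
        ring
      map_smul' := fun c g => by
        rw [RingHom.id_apply, ← MemLp.toLp_const_smul]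
        refine MemLp.toLp_congr _ _ (Eventually.of_forall fun x => ?_)
        simp only [fTs, Pi.smul_apply, smul_eq_mul]
        have : dvg ((c • g : TFm M) : M → (Fin n → ℂ)) x = c * dvg g.1 x :=
          dvg_smul g.2.1 c x
        rw [this]
        ring }
  have adj : ∀ (f : TFm M) (w : TF M), inner ℂ (i2 f) (T w) = inner ℂ (Ts f) (i1 w) := by
    intro f w
    show inner ℂ ((mfi2 hμ hφ2 f.2.1 f.2.2).toLp _) ((mfT hμ hφ2 w.2.1 w.2.2).toLp _) =
      inner ℂ ((mfTs hμ hφ1 f.2.1 f.2.2).toLp _) ((mfi1 hμ hφ1 w.2.1 w.2.2).toLp _)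
    rw [inner_toLp_toLp, inner_toLp_toLp]
    simp only [adj_pt φ2, adj_pt' φ1]
    exact ibp_div hμ f.2.1 f.2.2 w.2.1
  -- the a priori estimate
  have est : ∀ v ∈ N, ∀ t : Lp ℂ 2 μ, (∀ w, inner ℂ v (T w) = inner ℂ t (i1 w)) →
      ‖inner ℂ αt v‖ ≤ Real.sqrt (2 * K0) * ‖t‖ := by
    intro v hv t hvt
    have hNv : ∀ θ : M → ℝ, Sm θ → HasCompactSupport θ → ∀ j k : Fin n,
        ∫ x, (Real.exp (φ2 x / 2) : ℂ) * (db j (fun y => (θ y : ℂ)) x * v x k -
          db k (fun y => (θ y : ℂ)) x * v x j) ∂μ = 0 := by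
      intro θ hθ hθc j k
      have h1 := (hN v).1 hv ⟨⟨θ, hθ, hθc⟩, j, k⟩
      have h2 : inner ℂ ((mfS hμ hφ2 hθ hθc j k).toLp (fS φ2 θ j k)) v = 0 := h1
      rw [inner_toLp_left] at h2
      rw [← h2]
      refine integral_congr_ae (Eventually.of_forall fun x => ?_)
      simp only
      rw [hsv_pt θ hθ]
    have hTv : ∀ θ : M → ℝ, Sm θ → HasCompactSupport θ →
        ∫ x, ∑ j, conj (v x j) * ((Real.exp (φ2 x / 2) : ℂ) * (db j (fun y => (θ y : ℂ)) x +
          θ x * db j (fun y => (φ2 y : ℂ)) x)) ∂μ =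
        ∫ x, conj (t x) * ((Real.exp (φ2 x - φ1 x / 2) : ℂ) * θ x) ∂μ := by
      intro θ hθ hθc
      have hwS : Sm (fun x => ((Real.exp (φ2 x) : ℝ) : ℂ) * (θ x : ℂ)) :=
        (expC_sm hφ2).mul hθ.ofReal
      have hwc : HasCompactSupport (fun x => ((Real.exp (φ2 x) : ℝ) : ℂ) * (θ x : ℂ)) :=
        (hθc.comp_left (g := fun r : ℝ => (r : ℂ)) (by simp)).mul_left
      have h1 := hvt ⟨_, hwS, hwc⟩
      have h2 : inner ℂ v ((mfT hμ hφ2 hwS hwc).toLp _) =
        inner ℂ t ((mfi1 hμ hφ1 hwS hwc).toLp _) := h1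
      rw [inner_toLp_right, inner_toLp_right] at h2
      have h3 : ∀ x, inner ℂ (v x) (fT φ2 (fun x => ((Real.exp (φ2 x) : ℝ) : ℂ) * (θ x : ℂ)) x) =
          ∑ j, conj (v x j) * ((Real.exp (φ2 x / 2) : ℂ) * (db j (fun y => (θ y : ℂ)) x +
          θ x * db j (fun y => (φ2 y : ℂ)) x)) := by
        intro x
        rw [inner_EE]
        refine Finset.sum_congr rfl fun j _ => ?_
        simp only [fT, tE_apply]
        have hd : HasDerivAt Real.exp (Real.exp (φ2 x)) (φ2 x) := Real.hasDerivAt_exp _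
        have hexpS : Sm (fun y => Real.exp (φ2 y)) :=
          Sm.comp (Real.contDiff_exp.of_le le_top) hφ2
        rw [db_mul (expC_sm hφ2) hθ.ofReal, db_comp_real hφ2 hexpS x hd]
        have h4 : ((Real.exp (-(φ2 x / 2)) : ℝ) : ℂ) * ((Real.exp (φ2 x) : ℝ) : ℂ) =
            ((Real.exp (φ2 x / 2) : ℝ) : ℂ) := by
          rw [← Complex.ofReal_mul, ← Real.exp_add]; congr 2; ring
        linear_combination (conj (v x j) * (db j (fun y => (θ y : ℂ)) x +
          θ x * db j (fun y => (φ2 y : ℂ)) x)) * h4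
      have h3' : ∀ x, inner ℂ (t x) (fi1 φ1 (fun x => ((Real.exp (φ2 x) : ℝ) : ℂ) *
          (θ x : ℂ)) x) = conj (t x) * ((Real.exp (φ2 x - φ1 x / 2) : ℂ) * θ x) := by
        intro x
        rw [RCLike.inner_apply']
        simp only [fi1]
        have h4 : ((Real.exp (-(φ1 x / 2)) : ℝ) : ℂ) * ((Real.exp (φ2 x) : ℝ) : ℂ) =
            ((Real.exp (φ2 x - φ1 x / 2) : ℝ) : ℂ) := by
          rw [← Complex.ofReal_mul, ← Real.exp_add]; congr 2; ring
        linear_combination (conj (t x) * θ x) * h4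
      simp only [h3, h3'] at h2
      exact h2
    have hwp := wp_of hμ hφ1 hφ2 hψ h12 v t hNv hTv
    have hVi : Integrable (fun x => nsq (Vof φ2 v x) * Real.exp (-(Φ x + χ x - ψ x))) μ := by
      refine (Lp_integrable_sq v).congr (Eventually.of_forall fun x => ?_)
      exact (nsq_Vof φ2 v x).symm
    have hti : Integrable (fun x => ‖tof φ1 t x‖ ^ 2 *
        Real.exp (-(Φ x + χ x - 2 * ψ x))) μ := by
      refine (Lp_integrable_sq t).congr (Eventually.of_forall fun x => ?_)
      exact (norm_tof φ1 t x).symm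
    have hmain := pairing_global hμ hmul hΦ hχ hψ
      (α := fun x j => db j G x) (continuous_pi fun j => (hG.db j).continuous) hK0 hpair hαi
      η hη hη1 (Vof_aesm hφ2.continuous v) (tof_aesm hφ1.continuous t) hVi hti hwp
    have hR : ∫ x, ‖tof φ1 t x‖ ^ 2 * Real.exp (-(Φ x + χ x - 2 * ψ x)) ∂μ = ‖t‖ ^ 2 := by
      rw [Lp_norm_sq]
      refine integral_congr_ae (Eventually.of_forall fun x => ?_)
      exact norm_tof φ1 t x
    have hL : ‖inner ℂ αt v‖ = ‖∫ x, (∑ j, db j G x * conj (Vof φ2 v x j)) *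
        Real.exp (-(Φ x + χ x - ψ x)) ∂μ‖ := by
      have h5 : inner ℂ αt v = conj (∫ x, (∑ j, db j G x * conj (Vof φ2 v x j)) *
        Real.exp (-(Φ x + χ x - ψ x)) ∂μ) := by
        rw [← integral_conj]
        show inner ℂ (hαL.toLp _) v = _
        rw [inner_toLp_left]
        refine integral_congr_ae (Eventually.of_forall fun x => ?_)
        simp only
        rw [inner_EE]
        simp only [fT, tE_apply, map_mul, map_sum, Complex.conj_ofReal, Complex.conj_conj, Vof]
        rw [Finset.sum_mul]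
        refine Finset.sum_congr rfl fun j _ => ?_
        have h6 : ((Real.exp (φ2 x / 2) : ℝ) : ℂ) *
            ((Real.exp (-(Φ x + χ x - ψ x)) : ℝ) : ℂ) =
            ((Real.exp (-(φ2 x / 2)) : ℝ) : ℂ) := by
          rw [← Complex.ofReal_mul, ← Real.exp_add]; congr 2
          simp only [hφ2def]; ring
        linear_combination (-(conj (db j G x) * v x j)) * h6
      rw [h5, RCLike.norm_conj]
    rw [hR] at hmain
    rw [hL]
    have h7 : ‖∫ x, (∑ j, db j G x * conj (Vof φ2 v x j)) *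
        Real.exp (-(Φ x + χ x - ψ x)) ∂μ‖ ^ 2 ≤ (Real.sqrt (2 * K0) * ‖t‖) ^ 2 := by
      rw [mul_pow, Real.sq_sqrt (by positivity)]
      calc _ ≤ K0 * (2 * ‖t‖ ^ 2) := hmain
        _ = _ := by ring
    exact (pow_le_pow_iff_left₀ (norm_nonneg _) (by positivity) two_ne_zero).1 h7
  obtain ⟨u, hu, hu'⟩ := H361.T5 N hNcl αt hαN i1 T hTN i2 Ts adj (Real.sqrt_nonneg _) est
  refine ⟨tof φ1 u, tof_aesm hφ1.continuous u, ?_, ?_, ?_⟩
  · refine (Lp_integrable_sq u).congr (Eventually.of_forall fun x => ?_)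
    exact (norm_tof φ1 u x).symm
  · have h1 : ∫ x, ‖tof φ1 u x‖ ^ 2 * Real.exp (-(Φ x + χ x - 2 * ψ x)) ∂μ = ‖u‖ ^ 2 := by
      rw [Lp_norm_sq]
      refine integral_congr_ae (Eventually.of_forall fun x => ?_)
      exact norm_tof φ1 u x
    rw [h1]
    calc ‖u‖ ^ 2 ≤ (Real.sqrt (2 * K0)) ^ 2 := by gcongr
      _ = 2 * K0 := Real.sq_sqrt (by positivity)
  · intro j θ hθ hθc
    -- the test form `θ e_j`
    have hgS : Sm (fun x : M => (Pi.single j ((θ x : ℝ) : ℂ) : Fin n → ℂ)) := by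
      refine Sm.pi fun l => ?_
      by_cases h : l = j
      · subst h
        simpa using hθ.ofReal
      · have : (fun x : M => (Pi.single j ((θ x : ℝ) : ℂ) : Fin n → ℂ) l) = fun _ => 0 := by
          funext x; simp [Pi.single_eq_of_ne h]
        rw [this]; exact Sm.const _
    have hgc : HasCompactSupport (fun x : M => (Pi.single j ((θ x : ℝ) : ℂ) : Fin n → ℂ)) :=
      hθc.comp_left (g := fun r : ℝ => (Pi.single j (r : ℂ) : Fin n → ℂ)) (by simp)
    have h1 := hu' ⟨_, hgS, hgc⟩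
    have h2 : inner ℂ u ((mfTs hμ hφ1 hgS hgc).toLp _) =
      inner ℂ (hαL.toLp _) ((mfi2 hμ hφ2 hgS hgc).toLp _) := h1
    rw [inner_toLp_right, inner_toLp_toLp] at h2
    have hdv : ∀ x, dvg (fun x : M => (Pi.single j ((θ x : ℝ) : ℂ) : Fin n → ℂ)) x =
        dz j (fun y => (θ y : ℂ)) x := by
      intro x
      unfold dvg
      rw [Finset.sum_eq_single j]
      · simp
      · intro l _ hl
        have : (fun x : M => (Pi.single j ((θ x : ℝ) : ℂ) : Fin n → ℂ) l) = fun _ => 0 := by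
          funext x; simp [Pi.single_eq_of_ne hl]
        rw [this, dz_const]
      · simp
    have h3 : ∀ x, inner ℂ (u x) (fTs φ1 (fun x : M => (Pi.single j ((θ x : ℝ) : ℂ) :
        Fin n → ℂ)) x) = -(conj (tof φ1 u x) * dz j (fun y => (θ y : ℂ)) x) := by
      intro x
      rw [RCLike.inner_apply']
      simp only [fTs, hdv, tof, map_mul, Complex.conj_ofReal]
      ring
    have h4 : ∀ x, inner ℂ (fT φ2 G x) (fi2 φ2 (fun x : M => (Pi.single j ((θ x : ℝ) : ℂ) :
        Fin n → ℂ)) x) = conj (db j G x) * θ x := by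
      intro x
      rw [inner_EE, Finset.sum_eq_single j]
      · simp only [fT, fi2, tE_apply, map_mul, Complex.conj_ofReal, Pi.single_eq_same]
        have := exp_inv_mul (φ2 x / 2)
        linear_combination (conj (db j G x) * θ x) * this
      · intro l _ hl
        simp [fi2, tE_apply, Pi.single_eq_of_ne hl]
      · simp
    simp only [h3, h4] at h2
    have h5 := congrArg conj h2
    rw [← integral_conj, ← integral_conj] at h5
    have e1 : (fun x => conj (-(conj (tof φ1 u x) * dz j (fun y => (θ y : ℂ)) x))) =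
        fun x => -(tof φ1 u x * db j (fun y => (θ y : ℂ)) x) := by
      funext x
      rw [db_ofReal hθ, map_neg, map_mul, Complex.conj_conj]
    have e2 : (fun x => conj (conj (db j G x) * (θ x : ℂ))) = fun x => db j G x * θ x := by
      funext x
      rw [map_mul, Complex.conj_conj, Complex.conj_ofReal]
    rw [e1, e2, integral_neg] at h5
    rw [← h5, neg_neg]

end Crest.Agent.R271.Ho51
end
end

-- ▼ part R271/WeylM_399
section

/-!
# Weyl lemma for `∂̄` on a Riemann domain (helper399, row 271, piece T10)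
-/

set_option autoImplicit false
set_option linter.unusedSectionVars false

noncomputable section

open Set Filter Topology MeasureTheory Metric

namespace Crest.Agent.R271.WeylM399

open Crest.Agent.R271.Ho51

variable {n : ℕ} {M : Type*} [TopologicalSpace M] [RDom n M]

variable {G' : Type*} [NormedAddCommGroup G'] [NormedSpace ℝ G']

open Classical in
/-- extension by zero of a test function on a chart -/
def ext (e : OpenPartialHomeomorph M (Fin n → ℂ)) (φ : (Fin n → ℂ) → G') (x : M) : G' :=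
  if x ∈ e.source then φ (cp x) else 0

lemma ext_of_mem {e : OpenPartialHomeomorph M (Fin n → ℂ)} (φ : (Fin n → ℂ) → G') {x : M}
    (hx : x ∈ e.source) : ext e φ x = φ (cp x) := by
  classical
  unfold ext; rw [if_pos hx]

lemma ext_of_notMem {e : OpenPartialHomeomorph M (Fin n → ℂ)} (φ : (Fin n → ℂ) → G') {x : M}
    (hx : x ∉ e.source) : ext e φ x = 0 := by
  classical
  unfold ext; rw [if_neg hx]

lemma ext_symm {e : OpenPartialHomeomorph M (Fin n → ℂ)} (he : IsCh e) (φ : (Fin n → ℂ) → G')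
    {z : Fin n → ℂ} (hz : z ∈ e.target) : ext e φ (e.symm z) = φ z := by
  rw [ext_of_mem φ (e.map_target hz), he.cp_symm hz]

section T2
variable [T2Space M]

lemma support_ext {e : OpenPartialHomeomorph M (Fin n → ℂ)} (he : IsCh e)
    (φ : (Fin n → ℂ) → G') : Function.support (ext e φ) ⊆ e.symm '' tsupport φ := by
  intro x hx
  by_cases h : x ∈ e.source
  · rw [Function.mem_support, ext_of_mem φ h] at hx
    exact ⟨cp x, subset_tsupport _ hx, he.symm_cp h⟩
  · exact absurd (ext_of_notMem φ h) hx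

lemma isCompact_K {e : OpenPartialHomeomorph M (Fin n → ℂ)}
    {φ : (Fin n → ℂ) → G'} (hc : HasCompactSupport φ) (ht : tsupport φ ⊆ e.target) :
    IsCompact (e.symm '' tsupport φ) :=
  hc.isCompact.image_of_continuousOn (e.continuousOn_symm.mono ht)

lemma hasCompactSupport_ext {e : OpenPartialHomeomorph M (Fin n → ℂ)} (he : IsCh e)
    {φ : (Fin n → ℂ) → G'} (hc : HasCompactSupport φ) (ht : tsupport φ ⊆ e.target) :
    HasCompactSupport (ext e φ) :=
  HasCompactSupport.of_support_subset_isCompact (isCompact_K hc ht) (support_ext he φ)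

lemma tsupport_ext {e : OpenPartialHomeomorph M (Fin n → ℂ)} (he : IsCh e)
    {φ : (Fin n → ℂ) → G'} (hc : HasCompactSupport φ) (ht : tsupport φ ⊆ e.target) :
    tsupport (ext e φ) ⊆ e.source := by
  refine (closure_minimal (support_ext he φ) (isCompact_K hc ht).isClosed).trans ?_
  rintro x ⟨z, hz, rfl⟩
  exact e.map_target (ht hz)

lemma Sm_ext {e : OpenPartialHomeomorph M (Fin n → ℂ)} (he : IsCh e)
    {φ : (Fin n → ℂ) → G'} (hφ : ContDiff ℝ (⊤ : ℕ∞) φ) (hc : HasCompactSupport φ)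
    (ht : tsupport φ ⊆ e.target) : Sm (ext e φ) := by
  apply Sm.of_locally
  intro x
  by_cases h : x ∈ e.source
  · refine ⟨fun x => φ (cp x), Sm.of_coord hφ, ?_⟩
    filter_upwards [e.open_source.mem_nhds h] with y hy
    exact ext_of_mem φ hy
  · refine ⟨fun _ => 0, Sm.const _, ?_⟩
    have h1 : x ∉ tsupport (ext e φ) := fun h' => h (tsupport_ext he hc ht h')
    exact notMem_tsupport_iff_eventuallyEq.1 h1

end T2

lemma D_ext {e : OpenPartialHomeomorph M (Fin n → ℂ)} (he : IsCh e)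
    (φ : (Fin n → ℂ) → G') {z : Fin n → ℂ} (hz : z ∈ e.target) :
    D (ext e φ) (e.symm z) = fderiv ℝ φ z := by
  rw [D_symm he hz]
  apply Filter.EventuallyEq.fderiv_eq
  filter_upwards [e.open_target.mem_nhds hz] with w hw
  exact ext_symm he φ hw

lemma db_ext {e : OpenPartialHomeomorph M (Fin n → ℂ)} (he : IsCh e)
    (φ : (Fin n → ℂ) → ℂ) {z : Fin n → ℂ} (hz : z ∈ e.target) (j : Fin n) :
    db j (ext e φ) (e.symm z) = Weyl399.dbar j φ z := by
  rw [db, D_ext he φ hz]; rfl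

variable [T2Space M] [SecondCountableTopology M] [MeasurableSpace M] [BorelSpace M]

section meas

variable {mu : Measure M}

lemma aemeas (e : OpenPartialHomeomorph M (Fin n → ℂ)) :
    AEMeasurable e.symm (volume.restrict e.target) :=
  e.continuousOn_symm.aemeasurable e.open_target.measurableSet

lemma isLocallyFinite (hmu : IsLeb mu) : IsLocallyFiniteMeasure mu := by
  refine ⟨fun x => ?_⟩
  have hx := (isCh_ch x).cp_mem (mem_ch x)
  obtain ⟨r, hr, hrs⟩ := nhds_basis_closedBall.mem_iff.1 ((ch x).open_target.mem_nhds hx)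
  refine ⟨(ch x).source ∩ cp ⁻¹' (ball (cp x) r), ?_, ?_⟩
  · exact inter_mem ((ch x).open_source.mem_nhds (mem_ch x))
      (cp_cont.continuousAt.preimage_mem_nhds (ball_mem_nhds _ hr))
  · have hms : MeasurableSet ((ch x).source ∩ cp ⁻¹' (ball (cp x) r)) :=
      ((ch x).open_source.inter (isOpen_ball.preimage cp_cont)).measurableSet
    have h1 : mu ((ch x).source ∩ cp ⁻¹' (ball (cp x) r)) =
        (mu.restrict (ch x).source) ((ch x).source ∩ cp ⁻¹' (ball (cp x) r)) := by
      rw [Measure.restrict_apply hms]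
      congr 1
      ext y; simp only [mem_inter_iff]; tauto
    rw [h1, hmu (ch x) (isCh_ch x), Measure.map_apply_of_aemeasurable (aemeas _) hms]
    refine lt_of_le_of_lt ?_ (measure_ball_lt_top (μ := volume) (x := cp x) (r := r))
    rw [Measure.restrict_apply₀' (ch x).open_target.measurableSet.nullMeasurableSet]
    apply measure_mono
    rintro z ⟨⟨_, hz1⟩, hz2⟩
    have := (isCh_ch x).cp_symm hz2
    simp only [mem_preimage, this] at hz1
    exact hz1

/-- transfer of null sets -/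
lemma ae_transfer (hmu : IsLeb mu) {e : OpenPartialHomeomorph M (Fin n → ℂ)}
    (he : IsCh e) {P : M → Prop} (h : ∀ᵐ z ∂(volume.restrict e.target), P (e.symm z)) :
    ∀ᵐ x ∂(mu.restrict e.source), P x := by
  rw [ae_iff] at h ⊢
  set N : Set (Fin n → ℂ) := toMeasurable (volume.restrict e.target) {z | ¬ P (e.symm z)} with hN
  have hN0 : (volume.restrict e.target) N = 0 := by rw [hN, measure_toMeasurable]; exact h
  have hNm : MeasurableSet N := measurableSet_toMeasurable _ _
  have hT : MeasurableSet (e.source ∩ cp ⁻¹' N) :=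
    e.open_source.measurableSet.inter (hNm.preimage cp_cont.measurable)
  have h1 : (mu.restrict e.source) {x | ¬ P x} ≤ (mu.restrict e.source) (e.source ∩ cp ⁻¹' N) := by
    rw [Measure.restrict_apply₀' e.open_source.measurableSet.nullMeasurableSet,
      Measure.restrict_apply₀' e.open_source.measurableSet.nullMeasurableSet]
    apply measure_mono
    rintro x ⟨hx1, hx2⟩
    refine ⟨⟨hx2, ?_⟩, hx2⟩
    apply subset_toMeasurable
    simp only [mem_ofPred_eq] at *
    rw [he.symm_cp hx2]; exact hx1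
  refine le_antisymm (h1.trans ?_) zero_le
  rw [hmu e he, Measure.map_apply_of_aemeasurable (aemeas _) hT,
    Measure.restrict_apply₀' e.open_target.measurableSet.nullMeasurableSet, ← hN0,
    Measure.restrict_apply₀' e.open_target.measurableSet.nullMeasurableSet]
  apply measure_mono
  rintro z ⟨⟨_, hz1⟩, hz2⟩
  have := he.cp_symm hz2
  simp only [mem_preimage, this] at hz1
  exact ⟨hz1, hz2⟩

/-- integrals over a chart -/
lemma integral_chart (hmu : IsLeb mu) {e : OpenPartialHomeomorph M (Fin n → ℂ)}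
    (he : IsCh e) {f : M → ℂ} (hf : AEStronglyMeasurable f mu) (h0 : ∀ x, x ∉ e.source → f x = 0) :
    ∫ x, f x ∂mu = ∫ z in e.target, f (e.symm z) := by
  rw [← setIntegral_eq_integral_of_forall_compl_eq_zero (s := e.source) h0, hmu e he,
    integral_map (aemeas _)]
  rw [← hmu e he]
  exact hf.restrict

lemma locInt_chart (hmu : IsLeb mu) {e : OpenPartialHomeomorph M (Fin n → ℂ)}
    (he : IsCh e) {u : M → ℂ} (hu : LocallyIntegrable u mu) :
    LocallyIntegrableOn (u ∘ e.symm) e.target volume := by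
  rw [locallyIntegrableOn_iff e.open_target.isLocallyClosed]
  intro K hK hKc
  have hKc' : IsCompact (e.symm '' K) := hKc.image_of_continuousOn (e.continuousOn_symm.mono hK)
  have h1 : IntegrableOn u (e.symm '' K) mu := hu.integrableOn_isCompact hKc'
  have hsub : e.symm '' K ⊆ e.source := by
    rintro x ⟨z, hz, rfl⟩; exact e.map_target (hK hz)
  have hm : MeasurableSet (e.symm '' K) := hKc'.isClosed.measurableSet
  have h2 : mu.restrict (e.symm '' K) = ((volume.restrict e.target).restrict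
      (e.symm ⁻¹' (e.symm '' K))).map e.symm := by
    rw [← Measure.restrict_map_of_aemeasurable (aemeas _) hm, ← hmu e he,
      Measure.restrict_restrict hm, inter_eq_self_of_subset_left hsub]
  rw [IntegrableOn, h2] at h1
  have h3 := (integrable_map_measure h1.aestronglyMeasurable
    ((aemeas e).mono_measure Measure.restrict_le_self)).1 h1
  rw [IntegrableOn]
  refine h3.mono_measure ?_
  have h4 : K ⊆ e.symm ⁻¹' (e.symm '' K) := subset_preimage_image _ _
  have h5 : MeasurableSet K := hKc.measurableSet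
  calc volume.restrict K = (volume.restrict e.target).restrict K := by
        rw [Measure.restrict_restrict h5, inter_eq_self_of_subset_left hK]
    _ ≤ _ := Measure.restrict_mono h4 le_rfl

/-- Weyl lemma on `M` (homogeneous form) -/
theorem weylM0 (hmu : IsLeb mu) {v : M → ℂ} (hv : LocallyIntegrable v mu)
    (hw : ∀ j : Fin n, ∀ θ : M → ℝ, Sm θ → HasCompactSupport θ →
      ∫ x, v x * db j (fun y => ((θ y : ℝ) : ℂ)) x ∂mu = 0) :
    ∃ F : M → ℂ, Hol F ∧ v =ᵐ[mu] F := by
  have := isLocallyFinite hmu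
  -- the weak equation for complex test functions
  have hwc : ∀ j : Fin n, ∀ θ : M → ℂ, Sm θ → HasCompactSupport θ →
      ∫ x, v x * db j θ x ∂mu = 0 := by
    intro j θ hθ hc
    have hre : Sm (fun x => (θ x).re) := hθ.clm Complex.reCLM
    have him : Sm (fun x => (θ x).im) := hθ.clm Complex.imCLM
    have hcre : HasCompactSupport (fun x => (θ x).re) := hc.comp_left (g := Complex.re) (by simp)
    have hcim : HasCompactSupport (fun x => (θ x).im) := hc.comp_left (g := Complex.im) (by simp)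
    have h1 := hw j _ hre hcre
    have h2 := hw j _ him hcim
    have h3 : ∀ x, db j θ x = db j (fun y => (((θ y).re : ℝ) : ℂ)) x
        + Complex.I * db j (fun y => (((θ y).im : ℝ) : ℂ)) x := by
      intro x
      rw [← db_const_mul him.ofReal, ← db_add hre.ofReal ((Sm.const _).mul him.ofReal)]
      congr 1
      funext y
      rw [mul_comm]
      exact (Complex.re_add_im _).symm
    have hint : ∀ θ : M → ℝ, Sm θ → HasCompactSupport θ →
        Integrable (fun x => v x * db j (fun y => ((θ y : ℝ) : ℂ)) x) mu := by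
      intro θ hθ hc
      have h4 : HasCompactSupport (db j (fun y => ((θ y : ℝ) : ℂ))) := by
        have hc' : HasCompactSupport (fun y => ((θ y : ℝ) : ℂ)) :=
          hc.comp_left (g := fun r : ℝ => (r : ℂ)) (by simp)
        refine hc'.mono' ?_
        intro x hx
        by_contra hx'
        apply hx
        have h5 := notMem_tsupport_iff_eventuallyEq.1 hx'
        rw [db_congr h5]
        exact db_const 0 j x
      have h5 := hv.integrable_smul_right_of_hasCompactSupport (hθ.ofReal.db j).continuous h4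
      simpa [smul_eq_mul] using h5
    simp_rw [h3, mul_add]
    have h4 : ∀ x, v x * (Complex.I * db j (fun y => (((θ y).im : ℝ) : ℂ)) x)
        = Complex.I * (v x * db j (fun y => (((θ y).im : ℝ) : ℂ)) x) := fun x => by ring
    simp_rw [h4]
    rw [integral_add (hint _ hre hcre) ((hint _ him hcim).const_mul _), integral_const_mul, h1, h2]
    simp
  -- holomorphic representatives in charts
  have hloc : ∀ e : OpenPartialHomeomorph M (Fin n → ℂ), IsCh e →
      ∃ h : (Fin n → ℂ) → ℂ, DifferentiableOn ℂ h e.target ∧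
        (v ∘ e.symm) =ᵐ[volume.restrict e.target] h := by
    intro e he
    apply Weyl399.weyl e.open_target (locInt_chart hmu he hv)
    intro j φ hφ hc ht
    have h1 := hwc j (ext e φ) (Sm_ext he hφ hc ht) (hasCompactSupport_ext he hc ht)
    rw [integral_chart hmu he] at h1
    · rw [← h1, ← setIntegral_eq_integral_of_forall_compl_eq_zero (s := e.target)]
      · apply setIntegral_congr_fun e.open_target.measurableSet
        intro z hz
        simp only [Function.comp_apply]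
        rw [db_ext he φ hz]
      · intro z hz
        have h2 : z ∉ tsupport φ := fun h => hz (ht h)
        have h3 : fderiv ℝ φ z = 0 := by
          by_contra h6
          exact h2 (support_fderiv_subset ℝ h6)
        simp [Weyl399.dbar, h3]
    · exact hv.aestronglyMeasurable.mul
        ((Sm_ext he hφ hc ht).db j).continuous.aestronglyMeasurable
    · intro x hx
      have h2 : x ∉ tsupport (ext e φ) := fun h => hx (tsupport_ext he hc ht h)
      have h5 := notMem_tsupport_iff_eventuallyEq.1 h2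
      rw [db_congr h5]
      have : db j (0 : M → ℂ) x = 0 := db_const 0 j x
      rw [this, mul_zero]
  choose! h hh1 hh2 using hloc
  -- the glued function
  set F : M → ℂ := fun x => h (ch x) (cp x) with hF
  have hglue : ∀ e : OpenPartialHomeomorph M (Fin n → ℂ), IsCh e → ∀ x ∈ e.source,
      F x = h e (cp x) := by
    intro e he x hx
    have hx' := mem_ch x
    have hxt : cp x ∈ e.target := he.cp_mem hx
    have hxt' : cp x ∈ (ch x).target := (isCh_ch x).cp_mem hx'
    -- both functions are a.e. equal near `cp x`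
    have hev := he.germ (isCh_ch x) hx hx'
    obtain ⟨r, hr, hrs⟩ := nhds_basis_ball.mem_iff.1 (inter_mem (inter_mem hev
      (e.open_target.mem_nhds hxt)) ((ch x).open_target.mem_nhds hxt'))
    have h1 : h e =ᵐ[volume.restrict (ball (cp x) r)] h (ch x) := by
      have h2 : ∀ᵐ z ∂(volume.restrict (ball (cp x) r)), (v ∘ e.symm) z = h e z :=
        ae_restrict_of_ae_restrict_of_subset (fun z hz => (hrs hz).1.2) (hh2 e he)
      have h3 : ∀ᵐ z ∂(volume.restrict (ball (cp x) r)), (v ∘ (ch x).symm) z = h (ch x) z :=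
        ae_restrict_of_ae_restrict_of_subset (fun z hz => (hrs hz).2) (hh2 (ch x) (isCh_ch x))
      have h4 : ∀ᵐ z ∂(volume.restrict (ball (cp x) r)), z ∈ ball (cp x) r :=
        ae_restrict_mem measurableSet_ball
      filter_upwards [h2, h3, h4] with z hz2 hz3 hz4
      rw [← hz2, ← hz3]
      have hz5 : e.symm z = (ch x).symm z := (hrs hz4).1.1
      simp only [Function.comp_apply, hz5]
    have hc1 : ContinuousOn (h e) (ball (cp x) r) :=
      (hh1 e he).continuousOn.mono (fun z hz => (hrs hz).1.2)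
    have hc2 : ContinuousOn (h (ch x)) (ball (cp x) r) :=
      (hh1 (ch x) (isCh_ch x)).continuousOn.mono (fun z hz => (hrs hz).2)
    have h5 := Measure.eqOn_open_of_ae_eq h1 isOpen_ball hc1 hc2
    exact (h5 (mem_ball_self hr)).symm
  refine ⟨F, ?_, ?_⟩
  · intro e he z hz
    have h1 : (F ∘ e.symm) =ᶠ[𝓝 z] h e := by
      filter_upwards [e.open_target.mem_nhds hz] with w hw
      simp only [Function.comp_apply]
      rw [hglue e he _ (e.map_target hw), he.cp_symm hw]
    exact (((hh1 e he).differentiableAt (e.open_target.mem_nhds hz)).congr_of_eventuallyEq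
      h1).differentiableWithinAt
  · have h1 : ∀ x : M, ∀ᵐ y ∂(mu.restrict (ch x).source), v y = F y := by
      intro x
      apply ae_transfer hmu (isCh_ch x)
      filter_upwards [hh2 (ch x) (isCh_ch x), ae_restrict_mem (ch x).open_target.measurableSet]
        with z hz1 hz2
      rw [hglue _ (isCh_ch x) _ ((ch x).map_target hz2), (isCh_ch x).cp_symm hz2]
      exact hz1
    obtain ⟨T, hTc, hTU⟩ := TopologicalSpace.isOpen_iUnion_countable
      (fun x : M => (ch x).source) (fun x => (ch x).open_source)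
    have hcov : (⋃ x ∈ T, (ch x).source) = univ := by
      rw [hTU]
      exact eq_univ_of_forall fun x => mem_iUnion.2 ⟨x, mem_ch x⟩
    have h2 : ∀ᵐ y ∂(mu.restrict (⋃ x ∈ T, (ch x).source)), v y = F y := by
      rw [ae_restrict_biUnion_iff _ hTc]
      intro x _
      exact h1 x
    rw [hcov, Measure.restrict_univ] at h2
    exact h2

/-- **Weyl lemma on `M`**: if `∂̄u = ∂̄G` weakly then `G - u` is a.e. holomorphic. -/
theorem weylM (hmu : IsLeb mu) {u : M → ℂ} (hu : LocallyIntegrable u mu) {G : M → ℂ} (hG : Sm G)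
    (hw : ∀ j : Fin n, ∀ θ : M → ℝ, Sm θ → HasCompactSupport θ →
      ∫ x, u x * db j (fun y => ((θ y : ℝ) : ℂ)) x ∂mu = - ∫ x, db j G x * ((θ x : ℝ) : ℂ) ∂mu) :
    ∃ F : M → ℂ, Hol F ∧ (fun x => G x - u x) =ᵐ[mu] F := by
  have := isLocallyFinite hmu
  have hGl : LocallyIntegrable G mu := hG.continuous.locallyIntegrable
  apply weylM0 hmu (hGl.sub hu)
  intro j θ hθ hc
  have hc' : HasCompactSupport (fun y => ((θ y : ℝ) : ℂ)) :=
    hc.comp_left (g := fun r : ℝ => (r : ℂ)) (by simp)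
  have h4 : HasCompactSupport (db j (fun y => ((θ y : ℝ) : ℂ))) := by
    refine hc'.mono' ?_
    intro x hx
    by_contra hx'
    apply hx
    have h5 := notMem_tsupport_iff_eventuallyEq.1 hx'
    rw [db_congr h5]
    exact db_const 0 j x
  have hi1 : Integrable (fun x => G x * db j (fun y => ((θ y : ℝ) : ℂ)) x) mu := by
    have h5 := hGl.integrable_smul_right_of_hasCompactSupport (hθ.ofReal.db j).continuous h4
    simpa [smul_eq_mul] using h5
  have hi2 : Integrable (fun x => u x * db j (fun y => ((θ y : ℝ) : ℂ)) x) mu := by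
    have h5 := hu.integrable_smul_right_of_hasCompactSupport (hθ.ofReal.db j).continuous h4
    simpa [smul_eq_mul] using h5
  have hi3 : Integrable (fun x => db j G x * ((θ x : ℝ) : ℂ)) mu := by
    have h5 := (hG.db j).continuous.locallyIntegrable.integrable_smul_right_of_hasCompactSupport
      (μ := mu) hθ.ofReal.continuous hc'
    simpa [smul_eq_mul] using h5
  have h1 : ∀ x, (G x - u x) * db j (fun y => ((θ y : ℝ) : ℂ)) x
      = G x * db j (fun y => ((θ y : ℝ) : ℂ)) x - u x * db j (fun y => ((θ y : ℝ) : ℂ)) x :=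
    fun x => by ring
  simp only [Pi.sub_apply] at *
  simp_rw [h1]
  rw [integral_sub hi1 hi2, hw j θ hθ hc, sub_neg_eq_add, ← integral_add hi1 hi3]
  have h2 : ∀ x, G x * db j (fun y => ((θ y : ℝ) : ℂ)) x + db j G x * ((θ x : ℝ) : ℂ)
      = db j (fun y => G y * ((θ y : ℝ) : ℂ)) x := by
    intro x
    rw [db_mul hG hθ.ofReal]; ring
  simp_rw [h2]
  exact integral_db_eq_zero hmu (hG.mul hθ.ofReal) (hc'.mul_left) j

end meas

end Crest.Agent.R271.WeylM399
end
end

-- ▼ part R271/H8_51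
section

/-!
# Row 271, analytic engine (H): the engine, from the a priori inequality (helper51)
-/

set_option autoImplicit false
set_option linter.unusedSectionVars false

noncomputable section

open Set Filter Topology MeasureTheory ComplexConjugate
open scoped ENNReal

namespace Crest.Agent.R271.Ho51

variable {n : ℕ} {M : Type*} [TopologicalSpace M] [T2Space M] [SecondCountableTopology M]
  [RDom n M] [MeasurableSpace M] [BorelSpace M] {μ : Measure M}

lemma wpmul : WPmul (M := M) μ := fun _ _ _ hv hw hb h =>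
  H88.WP.smul h hv hv.aestronglyMeasurable hw hb

/-- one weight, one sublevel set -/
theorem engine_step (hμ : IsLeb μ) (hap : H88.Apriori μ) {ρ : M → ℝ} (hρ : Sm ρ)
    (hcpt : ∀ t : ℝ, IsCompact {x | ρ x ≤ t}) (hL : ∀ x w, nsq w ≤ Levi ρ x w) (a : ℝ)
    {Φ : M → ℝ} (hΦ : Sm Φ) (hpos : ∀ x w, 0 ≤ Levi Φ x w) {G : M → ℂ} (hG : Sm G)
    {κ : M → ℝ} (hκ0 : ∀ x, 0 ≤ κ x) (hκm : Measurable κ)
    (hk : ∀ x (w : Fin n → ℂ), ‖∑ j, db j G x * conj (w j)‖ ^ 2 ≤ κ x * Levi Φ x w)
    {K0 : ℝ} (hK0 : 0 ≤ K0)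
    (hKint : ∫⁻ x, ENNReal.ofReal (κ x * Real.exp (-Φ x)) ∂μ ≤ ENNReal.ofReal K0) :
    ∃ F : M → ℂ, Hol F ∧ ∫⁻ x in {x | ρ x ≤ a},
      ENNReal.ofReal (‖F x - G x‖ ^ 2 * Real.exp (-Φ x)) ∂μ ≤ ENNReal.ofReal (2 * K0) := by
  have hΦc := hΦ.continuous
  have hαc : Continuous (fun x => (fun j => db j G x : Fin n → ℂ)) :=
    continuous_pi fun j => (hG.db j).continuous
  have hnα : Continuous (fun x => nsq (fun j => db j G x)) := continuous_nsq.comp hαc
  have hhc : Continuous (fun x => nsq (fun j => db j G x) * Real.exp (-Φ x)) := by fun_prop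
  obtain ⟨ψ, χ, hψ, hχ, hψ0, hsub, h2, hLχ, hint, η, hη, hη1⟩ :=
    H868.exists_weights hμ ρ hρ hcpt hL a _ hhc
  have hψc := hψ.continuous
  have hχc := hχ.continuous
  have hαi : Integrable (fun x => nsq (fun j => db j G x) *
      Real.exp (-(Φ x + χ x - ψ x))) μ := by
    refine ⟨(by fun_prop : Continuous _).aestronglyMeasurable, ?_⟩
    rw [hasFiniteIntegral_iff_ofReal (Eventually.of_forall fun x => by
      have := nsq_nonneg (fun j => db j G x); positivity)]
    refine lt_of_le_of_lt (le_of_eq ?_) hint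
    refine lintegral_congr fun x => ?_
    congr 1
    have h0 : 0 ≤ nsq (fun j => db j G x) * Real.exp (-Φ x) := by
      have := nsq_nonneg (fun j => db j G x); positivity
    rw [abs_of_nonneg h0, mul_assoc, ← Real.exp_add]
    congr 2; ring
  have hpair : PairC μ Φ χ ψ (fun x j => db j G x) K0 := by
    intro v d s K hv hd hs hK hvK hdK hsK hw
    exact H88.pairing_compact hμ hap hΦ hχ hψ hpos hLχ h2 hαc hκ0 hκm hk hK0 hKint
      hv hd hs hK hvK hdK hsK hw
  obtain ⟨U, hUm, hUi, hUb, hUw⟩ := solve hμ wpmul hΦ hχ hψ hG hK0 hpair hαi η hη hη1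
  have hUloc : LocallyIntegrable U μ := by
    refine locallyIntegrable_of_bound hμ hUm hUi
      (C := fun x => Real.exp (Φ x + χ x - 2 * ψ x)) (by fun_prop) (fun x => by positivity)
      fun x => ?_
    have h1 : Real.exp (Φ x + χ x - 2 * ψ x) * Real.exp (-(Φ x + χ x - 2 * ψ x)) = 1 := by
      rw [← Real.exp_add]; simp
    calc ‖U x‖ ^ 2 = ‖U x‖ ^ 2 *
          (Real.exp (Φ x + χ x - 2 * ψ x) * Real.exp (-(Φ x + χ x - 2 * ψ x))) := by
          rw [h1, mul_one]
      _ = _ := by ring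
      _ ≤ _ := le_rfl
  obtain ⟨F, hF, hFae⟩ := WeylM399.weylM hμ hUloc hG hUw
  refine ⟨F, hF, ?_⟩
  have hmeas : MeasurableSet {x | ρ x ≤ a} :=
    (isClosed_le hρ.continuous continuous_const).measurableSet
  have h1 : ∫⁻ x in {x | ρ x ≤ a}, ENNReal.ofReal (‖F x - G x‖ ^ 2 * Real.exp (-Φ x)) ∂μ =
      ∫⁻ x in {x | ρ x ≤ a},
        ENNReal.ofReal (‖U x‖ ^ 2 * Real.exp (-(Φ x + χ x - 2 * ψ x))) ∂μ := by
    refine lintegral_congr_ae ?_
    filter_upwards [ae_restrict_of_ae hFae, ae_restrict_mem hmeas] with x hx hxa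
    obtain ⟨hp, hc⟩ := hsub x hxa
    have hx' : F x - G x = - U x := by
      have : G x - U x = F x := hx
      rw [← this]; ring
    rw [hx', norm_neg, hp, hc]
    congr 3; ring
  rw [h1]
  calc _ ≤ ∫⁻ x, ENNReal.ofReal (‖U x‖ ^ 2 * Real.exp (-(Φ x + χ x - 2 * ψ x))) ∂μ :=
        setLIntegral_le_lintegral _ _
    _ = ENNReal.ofReal (∫ x, ‖U x‖ ^ 2 * Real.exp (-(Φ x + χ x - 2 * ψ x)) ∂μ) :=
        (ofReal_integral_eq_lintegral_ofReal hUi
          (Eventually.of_forall fun x => by positivity)).symm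
    _ ≤ ENNReal.ofReal (2 * K0) := ENNReal.ofReal_le_ofReal hUb

/-- **the engine**, from the a priori inequality for test forms -/
theorem engine_of (hμ : IsLeb μ) (hap : H88.Apriori μ) {ρ : M → ℝ} (hρ : Sm ρ)
    (hcpt : ∀ t : ℝ, IsCompact {x | ρ x ≤ t}) (hL : ∀ x w, nsq w ≤ Levi ρ x w)
    {φ : ℕ → M → ℝ} (hφ : ∀ k, Sm (φ k)) (hmono : ∀ k x, φ (k + 1) x ≤ φ k x)
    (hpos : ∀ k x w, 0 ≤ Levi (φ k) x w) {G : M → ℂ} (hG : Sm G)
    {κ : ℕ → M → ℝ} (hκ0 : ∀ k x, 0 ≤ κ k x) (hκm : ∀ k, Measurable (κ k))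
    (hk : ∀ k x (w : Fin n → ℂ), ‖∑ j, db j G x * conj (w j)‖ ^ 2 ≤ κ k x * Levi (φ k) x w)
    {K : ℝ≥0∞} (hK : K ≠ ∞)
    (hKint : ∀ k, ∫⁻ x, ENNReal.ofReal (κ k x * Real.exp (-φ k x)) ∂μ ≤ K) :
    ∃ F : M → ℂ, Hol F ∧
      ∫⁻ x, ENNReal.ofReal (‖F x - G x‖ ^ 2) *
        (⨆ k, ENNReal.ofReal (Real.exp (-φ k x))) ∂μ ≤ 2 * K := by
  have hKr : ENNReal.ofReal K.toReal = K := ENNReal.ofReal_toReal hK
  choose F hF hFb using fun k : ℕ => engine_step hμ hap hρ hcpt hL (k : ℝ) (hφ k) (hpos k) hG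
    (hκ0 k) (hκm k) (hk k) (K0 := K.toReal) ENNReal.toReal_nonneg (by rw [hKr]; exact hKint k)
  have h2K : ENNReal.ofReal (2 * K.toReal) = 2 * K := by
    rw [ENNReal.ofReal_mul (by norm_num), hKr]; simp
  simp only [h2K] at hFb
  exact T7a297.engine_limit hμ ρ hρ.continuous hcpt φ (fun k => (hφ k).continuous) hmono G
    hG.continuous F hF (2 * K) (ENNReal.mul_ne_top (by simp) hK) hFb

end Crest.Agent.R271.Ho51
end
end

-- ▼ part R271/H9_51
section

/-!
# Row 271, analytic engine (H): `EngineP` from the a priori inequality (helper51)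
-/

set_option autoImplicit false
set_option linter.unusedSectionVars false

noncomputable section

open Set Filter Topology MeasureTheory ComplexConjugate
open scoped ENNReal

namespace Crest.Agent.R271.Ho51

variable {n : ℕ} {M : Type*} [TopologicalSpace M] [T2Space M] [SecondCountableTopology M]
  [RDom n M] [MeasurableSpace M] [BorelSpace M] {μ : Measure M}

lemma Levi_cont_w (φ : M → ℝ) (x : M) : Continuous (fun w : Fin n → ℂ => Levi φ x w) := by
  unfold Levi; fun_prop

/-- the best constant -/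
def kmin (φ : M → ℝ) (α : M → (Fin n → ℂ)) (x : M) : ℝ :=
  ⨆ i : ℕ, (if 0 < Levi φ x (TopologicalSpace.denseSeq (Fin n → ℂ) i) then
    ‖∑ j, α x j * conj (TopologicalSpace.denseSeq (Fin n → ℂ) i j)‖ ^ 2 /
      Levi φ x (TopologicalSpace.denseSeq (Fin n → ℂ) i) else 0)

lemma kmin_spec {φ : M → ℝ} (hφ : Sm φ) (hpos : ∀ x w, 0 ≤ Levi φ x w)
    {α : M → (Fin n → ℂ)} (hα : Continuous α) {κ : M → ℝ}
    (hk : ∀ x (w : Fin n → ℂ), ‖∑ j, α x j * conj (w j)‖ ^ 2 ≤ κ x * Levi φ x w) :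
    Measurable (kmin φ α) ∧ (∀ x, 0 ≤ kmin φ α x) ∧ (∀ x, kmin φ α x ≤ max (κ x) 0) ∧
      ∀ x (w : Fin n → ℂ), ‖∑ j, α x j * conj (w j)‖ ^ 2 ≤ kmin φ α x * Levi φ x w := by
  set d := TopologicalSpace.denseSeq (Fin n → ℂ) with hd
  have hterm : ∀ x i, (if 0 < Levi φ x (d i) then
      ‖∑ j, α x j * conj (d i j)‖ ^ 2 / Levi φ x (d i) else 0) ≤ max (κ x) 0 := by
    intro x i
    split_ifs with h
    · rw [div_le_iff₀ h]
      exact (hk x (d i)).trans (mul_le_mul_of_nonneg_right (le_max_left _ _) h.le)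
    · exact le_max_right _ _
  have hterm0 : ∀ x i, 0 ≤ (if 0 < Levi φ x (d i) then
      ‖∑ j, α x j * conj (d i j)‖ ^ 2 / Levi φ x (d i) else 0) := by
    intro x i
    split_ifs with h
    · positivity
    · exact le_rfl
  have hbdd : ∀ x, BddAbove (range fun i => (if 0 < Levi φ x (d i) then
      ‖∑ j, α x j * conj (d i j)‖ ^ 2 / Levi φ x (d i) else 0)) := fun x =>
    ⟨max (κ x) 0, by rintro _ ⟨i, rfl⟩; exact hterm x i⟩
  refine ⟨?_, ?_, ?_, ?_⟩
  · refine Measurable.iSup fun i => ?_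
    have h1 : Continuous (fun x => Levi φ x (d i)) := H88.Levi_continuous hφ continuous_const
    have h2 : Continuous (fun x => ‖∑ j, α x j * conj (d i j)‖ ^ 2) := by fun_prop
    exact Measurable.ite (measurableSet_lt measurable_const h1.measurable)
      (h2.measurable.div h1.measurable) measurable_const
  · intro x
    exact Real.iSup_nonneg fun i => hterm0 x i
  · intro x
    exact ciSup_le fun i => hterm x i
  · intro x w
    have hcl : IsClosed {w : Fin n → ℂ | ‖∑ j, α x j * conj (w j)‖ ^ 2 ≤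
        kmin φ α x * Levi φ x w} :=
      isClosed_le (by fun_prop) (continuous_const.mul (Levi_cont_w φ x))
    have hall : closure (range d) ⊆ {w : Fin n → ℂ | ‖∑ j, α x j * conj (w j)‖ ^ 2 ≤
        kmin φ α x * Levi φ x w} := by
      refine closure_minimal ?_ hcl
      rintro _ ⟨i, rfl⟩
      show ‖∑ j, α x j * conj (d i j)‖ ^ 2 ≤ kmin φ α x * Levi φ x (d i)
      rcases (hpos x (d i)).lt_or_eq with h | h
      · have h1 := le_ciSup (hbdd x) i
        simp only [if_pos h] at h1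
        rw [div_le_iff₀ h] at h1
        exact h1
      · rw [← h, mul_zero]
        have h1 := hk x (d i)
        rw [← h, mul_zero] at h1
        exact h1
    exact hall (by rw [(TopologicalSpace.denseRange_denseSeq _).closure_range]; trivial)

/-- `EngineP` from the a priori inequality -/
theorem engineP_of
    (hap : ∀ (n : ℕ) (M : Type) [TopologicalSpace M] [T2Space M] [SecondCountableTopology M]
      [RDom n M] [MeasurableSpace M] [BorelSpace M] (μ : Measure M), IsLeb μ → H88.Apriori μ) :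
    Ball399.EngineP := by
  intro n M _ _ _ _ _ _ μ hμ ρ hρ hcpt hL φ hφ hanti hpos G hG kap hk K hK
  by_cases hKt : K = ∞
  · subst hKt
    refine ⟨fun _ => 0, fun e _ => ?_, ?_⟩
    · exact differentiableOn_const _
    · simp
  · have hαc : Continuous (fun x => (fun j => db j G x : Fin n → ℂ)) :=
      continuous_pi fun j => (hG.db j).continuous
    have hs := fun k => kmin_spec (hφ k) (hpos k) hαc (hk k)
    refine engine_of hμ (hap n M μ hμ) hρ hcpt hL hφ (fun k x => hanti x (Nat.le_succ k)) hpos hG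
      (fun k => (hs k).2.1) (fun k => (hs k).1) (fun k => (hs k).2.2.2) hKt fun k => ?_
    refine le_trans (lintegral_mono fun x => ?_) (hK k)
    rcases le_or_gt 0 (kap k x) with h | h
    · refine ENNReal.ofReal_le_ofReal (mul_le_mul_of_nonneg_right ?_ (Real.exp_pos _).le)
      have := (hs k).2.2.1 x
      rwa [max_eq_left h] at this
    · have h1 := (hs k).2.2.1 x
      rw [max_eq_right h.le] at h1
      have h2 : kmin (φ k) (fun x => (fun j => db j G x : Fin n → ℂ)) x = 0 :=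
        le_antisymm h1 ((hs k).2.1 x)
      rw [h2, zero_mul, ENNReal.ofReal_zero]
      exact zero_le

end Crest.Agent.R271.Ho51
end
end

-- ▼ part R271/Engine_51

/-!
# Row 271, analytic engine (H): the Hörmander engine, unconditional (helper51)
-/

set_option autoImplicit false

open MeasureTheory
open scoped ENNReal

namespace Crest.Agent.R271.Ho51

/-- **the a priori inequality** (T2, helper361) -/
theorem aprioriAll {n : ℕ} {M : Type*} [TopologicalSpace M] [T2Space M]
    [SecondCountableTopology M] [RDom n M]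
    [MeasurableSpace M] [BorelSpace M] {μ : Measure M} (hμ : IsLeb μ) : H88.Apriori μ :=
  fun φ ψ hφ hψ f hf hc => H361.apriori hμ φ ψ hφ hψ f hf hc

/-- **the engine**: `EngineP` -/
theorem engineP : Ball399.EngineP :=
  engineP_of fun _ _ _ _ _ _ _ _ _ hμ => aprioriAll hμ

end Crest.Agent.R271.Ho51
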