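import Crest.Agent.R271.AlgA_255_Mg

/-!
Row 271, G2 (helper956 + helper255): ALGEBRAICITY.
-/

set_option autoImplicit false

open Topology Filter MeasureTheory
open scoped ENNReal
open Crest.Agent.R271.Defs710

noncomputable section

namespace Crest.Agent.R271.Alg956

variable {n : ℕ}

/-- fibre data exist for every domain of finite type étale over `ℂ[z]` -/
theorem exists_fibData {B : Type} [CommRing B] [IsDomain B] [Algebra ℂ B]
    [hft : Algebra.FiniteType ℂ B] (z : Fin n → B)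
    (het : RingHom.Etale ((MvPolynomial.aeval z : MvPolynomial (Fin n) ℂ →ₐ[ℂ] B) :
      MvPolynomial (Fin n) ℂ →+* B)) : ∃ θ μ g, AlgB956.FibData z θ μ g := by
  have hinj : Function.Injective (Alg255.az z) := KT661.aeval_injective z het
  have halg : ∀ b : B, ∃ p : Polynomial (MvPolynomial (Fin n) ℂ), p ≠ 0 ∧
      Polynomial.eval₂ (Alg255.az z) b p = 0 := by
    let _ : Algebra (MvPolynomial (Fin n) ℂ) B := (Alg255.az z).toAlgebra
    have : Algebra.Etale (MvPolynomial (Fin n) ℂ) B := het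
    have h1 := (KT661.injective_and_isAlgebraic_of_etale
      (R := MvPolynomial (Fin n) ℂ) (S := B)).2
    intro b
    obtain ⟨p, hp, hp0⟩ := h1.isAlgebraic b
    exact ⟨p, hp, hp0⟩
  obtain ⟨θ, μ, g, h1, h2, h3, h4, h5⟩ := Alg255.A1_gen z hft hinj halg
  exact ⟨θ, μ, g, h1, h2, h3, h4, fun ζ hζ => (h5 ζ hζ).1, fun ζ hζ => (h5 ζ hζ).2⟩

/-- ALGEBRAICITY for a domain `B` of finite type étale over `ℂ[z]`: a holomorphic function on
`M = Hom(B,ℂ)` which is square integrable for a weight `|u|^{2N} (1+|z|²)^{-M}`, `u ≠ 0`, is in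
`B`. -/
theorem algebraicity_gen {B : Type} [CommRing B] [IsDomain B] [Algebra ℂ B]
    [Algebra.FiniteType ℂ B] {z : Fin n → B}
    (het : RingHom.Etale ((MvPolynomial.aeval z : MvPolynomial (Fin n) ℂ →ₐ[ℂ] B) :
      MvPolynomial (Fin n) ℂ →+* B)) {F : (B →ₐ[ℂ] ℂ) → ℂ}
    (hFan : ∀ (y : B →ₐ[ℂ] ℂ) (C : Chart z y), AnalyticAt ℂ (fun ζ => F (C.s ζ)) 0)
    {u : B} (hu : u ≠ 0) (N M : ℕ)
    (hint : lintM z (fun y => ENNReal.ofReal
      (‖F y‖ ^ 2 * ‖y u‖ ^ (2 * N) / (1 + ∑ i, ‖y (z i)‖ ^ 2) ^ M)) < ∞) :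
    ∃ b : B, ∀ y : B →ₐ[ℂ] ℂ, F y = y b := by
  obtain ⟨θ, μ, g, hD⟩ := exists_fibData z het
  exact AlgD956.alg_of_fibData het hD hFan hu N M hint


end Crest.Agent.R271.Alg956
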