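import Mathlib

-- ▼ part R271/UfdA_243
section

set_option autoImplicit false

/-!
# Row 271, part (B3) of the bridge, step 1: `k[[z_0, …, z_{n-1}]]` is a UFD (k infinite field)

Weierstrass preparation (Mathlib) + Gauss lemma + Kaplansky's criterion.
-/

namespace Crest.Agent.R271.UFD243

open IsLocalRing

section WeierstrassStep

variable {A : Type*} [CommRing A] [IsDomain A] [UniqueFactorizationMonoid A] [IsLocalRing A]
  [IsAdicComplete (maximalIdeal A) A]

/-- A distinguished irreducible polynomial is prime in the power series ring. -/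
theorem prime_coe_of_distinguished {p : Polynomial A}
    (hp : p.IsDistinguishedAt (maximalIdeal A)) (hirr : Irreducible p) :
    Prime (p : PowerSeries A) := by
  have hprime : Prime p := hirr.prime
  have h1 : (Ideal.span {p}).IsPrime := (Ideal.span_singleton_prime hprime.ne_zero).2 hprime
  have hdom : IsDomain (Polynomial A ⧸ Ideal.span {p}) := Ideal.Quotient.isDomain _
  have e := hp.algEquivQuotient
  have hdom2 : IsDomain (PowerSeries A ⧸ Ideal.span {(p : PowerSeries A)}) :=
    MulEquiv.isDomain (Polynomial A ⧸ Ideal.span {p}) e.symm.toRingEquiv.toMulEquiv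
  have h2 : (Ideal.span {(p : PowerSeries A)}).IsPrime :=
    (Ideal.Quotient.isDomain_iff_prime _).1 hdom2
  have hne : (p : PowerSeries A) ≠ 0 := by
    intro h
    exact hprime.ne_zero (by exact_mod_cast h)
  exact (Ideal.span_singleton_prime hne).1 h2

omit [IsAdicComplete (maximalIdeal A) A] in
/-- A distinguished polynomial lying in a prime ideal of `A⟦X⟧` has a distinguished irreducible
factor lying in it. -/
theorem exists_distinguished_factor {w : Polynomial A}
    (hw : w.IsDistinguishedAt (maximalIdeal A)) (P : Ideal (PowerSeries A)) [hP : P.IsPrime]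
    (hwP : (w : PowerSeries A) ∈ P) :
    ∃ q : Polynomial A, q.IsDistinguishedAt (maximalIdeal A) ∧ Irreducible q ∧
      (q : PowerSeries A) ∈ P := by
  classical
  have hw0 : w ≠ 0 := hw.monic.ne_zero
  -- some irreducible factor lies in P
  obtain ⟨q, hq, hqw, hqP⟩ : ∃ q : Polynomial A, Irreducible q ∧ q ∣ w ∧
      (q : PowerSeries A) ∈ P := by
    set P' : Ideal (Polynomial A) := P.comap (Polynomial.coeToPowerSeries.ringHom) with hP'
    have hP'prime : P'.IsPrime := Ideal.IsPrime.comap _
    have hmem : w ∈ P' := by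
      rw [hP', Ideal.mem_comap]; simpa using hwP
    obtain ⟨f, hf, u, hu⟩ := UniqueFactorizationMonoid.exists_prime_factors w hw0
    have hprod : f.prod ∈ P' := by
      rw [← hu] at hmem
      rcases hP'prime.mem_or_mem hmem with h | h
      · exact h
      · exact absurd (Ideal.eq_top_of_isUnit_mem _ h u.isUnit) hP'prime.ne_top
    obtain ⟨q, hqf, hq⟩ := (Ideal.IsPrime.multiset_prod_mem_iff_exists_mem hP'prime f).1 hprod
    refine ⟨q, (hf q hqf).irreducible, ?_, ?_⟩
    · rw [← hu]
      exact (Multiset.dvd_prod hqf).mul_right _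
    · rw [hP', Ideal.mem_comap] at hq; simpa using hq
  obtain ⟨r, hr⟩ := hqw
  have hlc : q.leadingCoeff * r.leadingCoeff = 1 := by
    have := hw.monic
    rw [Polynomial.Monic, hr, Polynomial.leadingCoeff_mul] at this
    exact this
  have hlcu : IsUnit q.leadingCoeff := IsUnit.of_mul_eq_one _ hlc
  obtain ⟨u, hu⟩ := hlcu
  -- normalise
  set q' : Polynomial A := Polynomial.C (↑u⁻¹ : A) * q with hq'
  have hmon : q'.Monic := by
    rw [Polynomial.Monic, hq', Polynomial.leadingCoeff_mul, Polynomial.leadingCoeff_C, ← hu]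
    simp
  have hassoc : Associated q q' := by
    refine ⟨Units.map (Polynomial.C : A →+* Polynomial A).toMonoidHom u⁻¹, ?_⟩
    rw [hq', mul_comm]; rfl
  have hirr' : Irreducible q' := hassoc.irreducible hq
  have hq'P : (q' : PowerSeries A) ∈ P := by
    rw [hq', Polynomial.coe_mul]
    exact P.mul_mem_left _ hqP
  have hq'dvd : q' ∣ w := by
    have : q' ∣ q := hassoc.symm.dvd
    exact this.trans ⟨r, hr⟩
  refine ⟨q', ?_, hirr', hq'P⟩
  -- distinguishedness
  have hmap : w.map (Ideal.Quotient.mk (maximalIdeal A)) = Polynomial.X ^ w.natDegree :=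
    hw.map_eq_X_pow
  have : IsDomain (A ⧸ maximalIdeal A) := Ideal.Quotient.isDomain _
  have hdvd : q'.map (Ideal.Quotient.mk (maximalIdeal A)) ∣ Polynomial.X ^ w.natDegree := by
    rw [← hmap]
    exact Polynomial.map_dvd _ hq'dvd
  obtain ⟨i, hi, hassoc2⟩ := (dvd_prime_pow Polynomial.prime_X _).1 hdvd
  have hmon2 : (q'.map (Ideal.Quotient.mk (maximalIdeal A))).Monic := hmon.map _
  have heq : q'.map (Ideal.Quotient.mk (maximalIdeal A)) = Polynomial.X ^ i :=
    Polynomial.eq_of_monic_of_associated hmon2 (Polynomial.monic_X_pow i) hassoc2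
  have hdeg : q'.natDegree = i := by
    have h1 : (q'.map (Ideal.Quotient.mk (maximalIdeal A))).natDegree = q'.natDegree :=
      hmon.natDegree_map _
    rw [heq, Polynomial.natDegree_X_pow] at h1
    exact h1.symm
  refine { mem := ?_, monic := hmon }
  intro j hj
  have h1 : (q'.map (Ideal.Quotient.mk (maximalIdeal A))).coeff j = 0 := by
    rw [heq, Polynomial.coeff_X_pow, if_neg (by omega)]
  rw [Polynomial.coeff_map] at h1
  exact Ideal.Quotient.eq_zero_iff_mem.1 h1

/-- If `f ∈ P` has non-zero reduction, then `P` contains a prime element. -/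
theorem exists_prime_mem {f : PowerSeries A} (hf : f.map (residue A) ≠ 0)
    (P : Ideal (PowerSeries A)) [hP : P.IsPrime] (hfP : f ∈ P) :
    ∃ q : PowerSeries A, q ∈ P ∧ Prime q := by
  obtain ⟨w, h, hw⟩ := PowerSeries.exists_isWeierstrassFactorization hf
  have hwP : (w : PowerSeries A) ∈ P := by
    have : f = w * h := hw.eq_mul
    rw [this] at hfP
    rcases hP.mem_or_mem hfP with h1 | h1
    · exact h1
    · exact absurd (Ideal.eq_top_of_isUnit_mem _ h1 hw.isUnit) hP.ne_top
  obtain ⟨q, h1, h2, h3⟩ := exists_distinguished_factor hw.isDistinguishedAt P hwP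
  exact ⟨q, h3, prime_coe_of_distinguished h1 h2⟩

end WeierstrassStep

end Crest.Agent.R271.UFD243
end

-- ▼ part R271/UfdB_243
section

set_option autoImplicit false

/-!
# Row 271, part (B3), step 2: `k[[z_0, …, z_{n-1}]]` is a UFD (k infinite field)
-/

namespace Crest.Agent.R271.UFD243

open IsLocalRing

variable {k : Type*} [Field k]

/-- The elements of `k[[z]]` with zero constant coefficient form the ideal of the variables. -/
theorem mem_span_range_X_iff {n : ℕ} (f : MvPowerSeries (Fin n) k) :
    f ∈ Ideal.span (Set.range (MvPowerSeries.X : Fin n → MvPowerSeries (Fin n) k)) ↔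
      MvPowerSeries.constantCoeff f = 0 := by
  constructor
  · intro hf
    have : Ideal.span (Set.range (MvPowerSeries.X : Fin n → MvPowerSeries (Fin n) k)) ≤
        RingHom.ker (MvPowerSeries.constantCoeff (σ := Fin n) (R := k)) := by
      rw [Ideal.span_le]
      rintro _ ⟨i, rfl⟩
      simp [RingHom.mem_ker]
    exact this hf
  · intro hf
    induction n with
    | zero =>
      have : f = 0 := by
        ext d
        have hd : d = 0 := Subsingleton.elim _ _
        rw [hd]
        simpa using hf
      rw [this]; exact Ideal.zero_mem _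
    | succ n ih =>
      set e := (MvPowerSeries.finSuccEquiv k n) with he
      set g := e f with hg
      set a0 := PowerSeries.coeff 0 g with ha0
      have h1 : MvPowerSeries.constantCoeff a0 = 0 := by
        have := MvPowerSeries.coeff_coeff_finSuccEquiv (R := k) (n := n) f (k := 0) (x := 0)
        rw [← he, ← hg, ← ha0] at this
        rw [← MvPowerSeries.coeff_zero_eq_constantCoeff_apply, this]
        have h0 : Finsupp.cons 0 (0 : Fin n →₀ ℕ) = 0 := Finsupp.cons_zero_zero
        rw [h0]; simpa using hf
      have h2 := ih a0 h1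
      -- g = C a0 + X * h
      obtain ⟨h, hh⟩ : (PowerSeries.X : PowerSeries (MvPowerSeries (Fin n) k)) ∣
          g - PowerSeries.C a0 := by
        rw [PowerSeries.X_dvd_iff]
        simp [ha0]
      have h3 : g = PowerSeries.C a0 + PowerSeries.X * h := by rw [← hh]; ring
      have h4 : f = e.symm (PowerSeries.C a0) + MvPowerSeries.X 0 * e.symm h := by
        have h5 : e (MvPowerSeries.X 0) = PowerSeries.X := MvPowerSeries.finSuccEquiv_X_zero
        apply e.injective
        rw [map_add, map_mul, e.apply_symm_apply, e.apply_symm_apply, h5, ← h3]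
      rw [h4]
      refine Ideal.add_mem _ ?_ (Ideal.mul_mem_right _ _ (Ideal.subset_span ⟨0, rfl⟩))
      -- a0 in the span
      have h6 : Ideal.span (Set.range (MvPowerSeries.X : Fin n → MvPowerSeries (Fin n) k)) ≤
          (Ideal.span (Set.range (MvPowerSeries.X : Fin (n+1) → MvPowerSeries (Fin (n+1)) k))).comap
            ((e.symm : PowerSeries (MvPowerSeries (Fin n) k) ≃ₐ[k] _).toRingEquiv.toRingHom.comp
              (PowerSeries.C (R := MvPowerSeries (Fin n) k))) := by
        rw [Ideal.span_le]
        rintro _ ⟨i, rfl⟩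
        simp only [SetLike.mem_coe, Ideal.mem_comap]
        have h7 : (MvPowerSeries.X i.succ : MvPowerSeries (Fin (n+1)) k) =
            e.symm (PowerSeries.C (MvPowerSeries.X i)) := by
          apply e.injective
          rw [e.apply_symm_apply]
          exact MvPowerSeries.finSuccEquiv_X_succ i
        refine Ideal.subset_span ⟨i.succ, ?_⟩
        rw [h7]; rfl
      exact h6 h2

theorem maximalIdeal_eq_span (n : ℕ) :
    maximalIdeal (MvPowerSeries (Fin n) k) =
      Ideal.span (Set.range (MvPowerSeries.X : Fin n → MvPowerSeries (Fin n) k)) := by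
  ext f
  rw [mem_span_range_X_iff, mem_maximalIdeal, mem_nonunits_iff, MvPowerSeries.isUnit_iff_constantCoeff,
    isUnit_iff_ne_zero, not_not]

instance isDomain_mvPowerSeries (n : ℕ) : IsDomain (MvPowerSeries (Fin n) k) :=
  NoZeroDivisors.to_isDomain _

instance isAdicComplete_maximalIdeal (n : ℕ) :
    IsAdicComplete (maximalIdeal (MvPowerSeries (Fin n) k)) (MvPowerSeries (Fin n) k) := by
  rw [maximalIdeal_eq_span]
  infer_instance

/-! ### The linear change of variables -/

section Subst

variable {n : ℕ}

/-- `X_0 ↦ c_0 X_0`, `X_{j+1} ↦ X_{j+1} + c_{j+1} X_0`. -/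
noncomputable def subA (c : Fin (n+1) → k) : Fin (n+1) → MvPowerSeries (Fin (n+1)) k :=
  fun j => (if j = 0 then 0 else MvPowerSeries.X j) + c j • MvPowerSeries.X 0

theorem subA_hasSubst (c : Fin (n+1) → k) : MvPowerSeries.HasSubst (subA c) := by
  apply MvPowerSeries.hasSubst_of_constantCoeff_zero
  intro j
  by_cases h : j = 0
  · simp [subA, h]
  · simp [subA, h]



/-- parameters of the inverse substitution -/
noncomputable def invC (c : Fin (n+1) → k) : Fin (n+1) → k :=
  fun j => if j = 0 then (c 0)⁻¹ else - (c j * (c 0)⁻¹)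

theorem subst_subA_comp (c d : Fin (n+1) → k) (hd0 : d 0 * c 0 = 1)
    (hd : ∀ j, j ≠ 0 → c j + d j * c 0 = 0) (j : Fin (n+1)) :
    MvPowerSeries.subst (subA c) (subA d j) = MvPowerSeries.X j := by
  have hc := subA_hasSubst c
  by_cases h : j = 0
  · subst h
    simp only [subA, if_true, zero_add]
    rw [MvPowerSeries.subst_smul hc, MvPowerSeries.subst_X hc]
    simp only [subA, if_true, zero_add]
    rw [smul_smul, hd0, one_smul]
  · have h1 : subA d j = MvPowerSeries.X j + d j • MvPowerSeries.X 0 := by simp [subA, h]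
    rw [h1, MvPowerSeries.subst_add hc, MvPowerSeries.subst_smul hc, MvPowerSeries.subst_X hc,
      MvPowerSeries.subst_X hc]
    simp only [subA, h, if_true, if_false, zero_add]
    rw [smul_smul, add_assoc, ← add_smul, hd j h, zero_smul, add_zero]

/-- The linear change of variables as an algebra automorphism. -/
noncomputable def linAut (c : Fin (n+1) → k) (hc : c 0 ≠ 0) :
    MvPowerSeries (Fin (n+1)) k ≃ₐ[k] MvPowerSeries (Fin (n+1)) k :=
  AlgEquiv.ofAlgHom (MvPowerSeries.substAlgHom (subA_hasSubst c))
    (MvPowerSeries.substAlgHom (subA_hasSubst (invC c)))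
    (by
      apply AlgHom.ext
      intro f
      simp only [AlgHom.comp_apply, MvPowerSeries.substAlgHom_apply, AlgHom.id_apply]
      rw [MvPowerSeries.subst_comp_subst_apply (subA_hasSubst _) (subA_hasSubst _)]
      have : (fun s => MvPowerSeries.subst (subA c) (subA (invC c) s)) =
          (MvPowerSeries.X : Fin (n+1) → MvPowerSeries (Fin (n+1)) k) := by
        funext j
        refine subst_subA_comp c (invC c) ?_ ?_ j
        · simp [invC, hc]
        · intro i hi
          simp [invC, hi, hc]
      rw [this, MvPowerSeries.subst_self]; rfl)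
    (by
      apply AlgHom.ext
      intro f
      simp only [AlgHom.comp_apply, MvPowerSeries.substAlgHom_apply, AlgHom.id_apply]
      rw [MvPowerSeries.subst_comp_subst_apply (subA_hasSubst _) (subA_hasSubst _)]
      have : (fun s => MvPowerSeries.subst (subA (invC c)) (subA c s)) =
          (MvPowerSeries.X : Fin (n+1) → MvPowerSeries (Fin (n+1)) k) := by
        funext j
        refine subst_subA_comp (invC c) c ?_ ?_ j
        · simp [invC, hc]
        · intro i hi
          simp [invC, hi]
      rw [this, MvPowerSeries.subst_self]; rfl)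

theorem linAut_apply (c : Fin (n+1) → k) (hc : c 0 ≠ 0) (f : MvPowerSeries (Fin (n+1)) k) :
    linAut c hc f = MvPowerSeries.subst (subA c) f := by
  simp [linAut, MvPowerSeries.substAlgHom_apply]

/-- Setting all variables but `X_0` to zero. -/
noncomputable def slice : MvPowerSeries (Fin (n+1)) k →+* PowerSeries k :=
  (PowerSeries.map (MvPowerSeries.constantCoeff (σ := Fin n) (R := k))).comp
    (MvPowerSeries.finSuccEquiv k n).toRingEquiv.toRingHom

theorem coeff_slice (f : MvPowerSeries (Fin (n+1)) k) (D : ℕ) :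
    PowerSeries.coeff D (slice f) = MvPowerSeries.coeff (Finsupp.single 0 D) f := by
  have := MvPowerSeries.coeff_coeff_finSuccEquiv (R := k) (n := n) f (k := D) (x := 0)
  have h2 : (Finsupp.cons D (0 : Fin n →₀ ℕ)) = Finsupp.single 0 D := by
    ext i
    refine Fin.cases ?_ (fun j => ?_) i
    · simp
    · simp
  rw [h2] at this
  rw [← this]
  simp [slice, PowerSeries.coeff_map]

theorem slice_subA (c : Fin (n+1) → k) (j : Fin (n+1)) :
    slice (subA c j) = PowerSeries.C (c j) * PowerSeries.X := by
  have h0 : (slice (MvPowerSeries.X 0 : MvPowerSeries (Fin (n+1)) k)) = PowerSeries.X := by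
    simp [slice]
  have h1 : ∀ a : k, slice (MvPowerSeries.C a : MvPowerSeries (Fin (n+1)) k) =
      PowerSeries.C a := by
    intro a
    simp [slice]
  have h2 : ∀ i : Fin n, slice (MvPowerSeries.X i.succ : MvPowerSeries (Fin (n+1)) k) = 0 := by
    intro i
    simp [slice]
  rw [subA, map_add, MvPowerSeries.smul_eq_C_mul, map_mul, h0, h1]
  refine Fin.cases ?_ (fun i => ?_) j
  · simp
  · simp [h2]

theorem coeff_subst_subA (c : Fin (n+1) → k) (f : MvPowerSeries (Fin (n+1)) k) (D : ℕ) :
    MvPowerSeries.coeff (Finsupp.single 0 D) (MvPowerSeries.subst (subA c) f) =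
      finsum (fun d : Fin (n+1) →₀ ℕ =>
        MvPowerSeries.coeff d f * (if d.degree = D then d.prod (fun s e => c s ^ e) else 0)) := by
  rw [MvPowerSeries.coeff_subst (subA_hasSubst c)]
  apply finsum_congr
  intro d
  rw [smul_eq_mul]
  congr 1
  rw [← coeff_slice, Finsupp.prod, map_prod]
  have h1 : ∀ s ∈ d.support, slice (subA c s ^ d s) =
      PowerSeries.C (c s ^ d s) * PowerSeries.X ^ (d s) := by
    intro s _
    rw [map_pow, slice_subA, mul_pow, map_pow]
  rw [Finset.prod_congr rfl h1, Finset.prod_mul_distrib, ← map_prod, Finset.prod_pow_eq_pow_sum]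
  rw [PowerSeries.coeff_C_mul, PowerSeries.coeff_X_pow]
  have h2 : ∑ i ∈ d.support, d i = d.degree := rfl
  rw [h2]
  by_cases h : d.degree = D
  · simp [h, Finsupp.prod]
  · rw [if_neg h, if_neg (fun h' => h h'.symm), mul_zero]

theorem exists_slice_linAut_ne_zero [Infinite k] {f : MvPowerSeries (Fin (n+1)) k} (hf : f ≠ 0) :
    ∃ (c : Fin (n+1) → k) (hc : c 0 ≠ 0), slice (linAut c hc f) ≠ 0 := by
  classical
  obtain ⟨d0, hd0⟩ : ∃ d0, MvPowerSeries.coeff d0 f ≠ 0 := by
    by_contra hcon
    push Not at hcon
    exact hf (by ext d; simpa using hcon d)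
  set D := d0.degree with hD
  -- the homogeneous component as a polynomial
  set S : Finset (Fin (n+1) →₀ ℕ) := Finset.finsuppAntidiag Finset.univ D with hS
  have hSmem : ∀ d : Fin (n+1) →₀ ℕ, d ∈ S ↔ d.degree = D := by
    intro d
    rw [hS, Finset.mem_finsuppAntidiag]
    simp [Finsupp.degree_eq_sum]
  set p : MvPolynomial (Fin (n+1)) k := ∑ d ∈ S, MvPolynomial.monomial d (MvPowerSeries.coeff d f)
    with hp
  have hpc : ∀ d ∈ S, p.coeff d = MvPowerSeries.coeff d f := by
    intro d hd
    rw [hp, MvPolynomial.coeff_sum, Finset.sum_eq_single d]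
    · simp
    · intro b _ hb
      rw [MvPolynomial.coeff_monomial, if_neg hb]
    · intro h; exact absurd hd h
  have hpne : p ≠ 0 := by
    intro h
    have := hpc d0 ((hSmem d0).2 rfl)
    rw [h, MvPolynomial.coeff_zero] at this
    exact hd0 this.symm
  have hne : p * MvPolynomial.X 0 ≠ 0 := mul_ne_zero hpne (MvPolynomial.X_ne_zero 0)
  obtain ⟨c, hc⟩ : ∃ c : Fin (n+1) → k, MvPolynomial.eval c (p * MvPolynomial.X 0) ≠ 0 := by
    by_contra hcon
    push Not at hcon
    exact hne (MvPolynomial.funext (fun c => by simpa using hcon c))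
  rw [map_mul, MvPolynomial.eval_X] at hc
  have hc0 : c 0 ≠ 0 := right_ne_zero_of_mul hc
  have hcp : MvPolynomial.eval c p ≠ 0 := left_ne_zero_of_mul hc
  refine ⟨c, hc0, ?_⟩
  intro hsl
  apply hcp
  have h1 : PowerSeries.coeff D (slice (linAut c hc0 f)) = 0 := by rw [hsl]; simp
  rw [coeff_slice, linAut_apply, coeff_subst_subA] at h1
  rw [finsum_eq_sum_of_support_subset (s := S)] at h1
  · rw [← h1, hp, map_sum]
    apply Finset.sum_congr rfl
    intro d hd
    rw [MvPolynomial.eval_monomial, if_pos ((hSmem d).1 hd)]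
  · intro d hd
    rw [Function.mem_support] at hd
    rw [Finset.mem_coe, hSmem]
    by_contra hne
    rw [if_neg hne, mul_zero] at hd
    exact hd rfl

end Subst

/-- `k[[z_0, …, z_{n-1}]]` is a UFD for an infinite field `k`. -/
theorem mvPowerSeries_ufd [Infinite k] (n : ℕ) :
    UniqueFactorizationMonoid (MvPowerSeries (Fin n) k) := by
  induction n with
  | zero =>
    have e : MvPowerSeries (Fin 0) k ≃ₐ[k] k := MvPowerSeries.isEmptyEquiv (Fin 0) k
    exact MulEquiv.uniqueFactorizationMonoid e.symm.toRingEquiv.toMulEquiv inferInstance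
  | succ n ih =>
    have := ih
    rw [UniqueFactorizationMonoid.iff_exists_prime_mem_of_isPrime]
    intro P hP hPp
    obtain ⟨f, hfP, hf⟩ := Submodule.exists_mem_ne_zero_of_ne_bot hP
    obtain ⟨c, hc, hsl⟩ := exists_slice_linAut_ne_zero hf
    set E : MvPowerSeries (Fin (n+1)) k ≃+* PowerSeries (MvPowerSeries (Fin n) k) :=
      (linAut c hc).toRingEquiv.trans (MvPowerSeries.finSuccEquiv k n).toRingEquiv with hE
    set P' : Ideal (PowerSeries (MvPowerSeries (Fin n) k)) := P.comap E.symm.toRingHom with hP'
    have hP'p : P'.IsPrime := Ideal.IsPrime.comap _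
    have hmem : E f ∈ P' := by
      rw [hP', Ideal.mem_comap]
      change E.symm (E f) ∈ P
      rw [E.symm_apply_apply]; exact hfP
    have hred : (E f).map (residue (MvPowerSeries (Fin n) k)) ≠ 0 := by
      intro h0
      apply hsl
      ext D
      have h1 : PowerSeries.coeff D ((E f).map (residue (MvPowerSeries (Fin n) k))) = 0 := by
        rw [h0]; simp
      rw [PowerSeries.coeff_map, residue_eq_zero_iff, mem_maximalIdeal, mem_nonunits_iff,
        MvPowerSeries.isUnit_iff_constantCoeff, isUnit_iff_ne_zero, not_not] at h1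
      rw [map_zero]
      exact h1
    obtain ⟨q, hq, hqp⟩ := exists_prime_mem hred P' hmem
    refine ⟨E.symm q, hq, ?_⟩
    exact (MulEquiv.prime_iff E.symm.toMulEquiv).2 hqp

end Crest.Agent.R271.UFD243
end

-- ▼ part R271/UfdC_243

set_option autoImplicit false

/-!
# Row 271, part (B3), step 3: descent of factoriality along flat local homomorphisms
-/

namespace Crest.Agent.R271.UFD243

open IsLocalRing TensorProduct

section Descent

variable {R S : Type*} [CommRing R] [CommRing S] [Algebra R S] [Module.Flat R S]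

/-- Relations `b • s = a • t` over a flat algebra. -/
theorem exists_of_smul_eq {a b : R} {s t : S}
    (h : algebraMap R S b * s = algebraMap R S a * t) :
    ∃ (κ : ℕ) (u v : Fin κ → R) (y : Fin κ → S),
      (∀ j, b * u j = a * v j) ∧ s = ∑ j, algebraMap R S (u j) * y j ∧
        t = ∑ j, algebraMap R S (v j) * y j := by
  obtain ⟨κ, A, y, h1, h2⟩ := Module.Flat.isTrivialRelation_of_sum_smul_eq_zero
    (f := (![b, -a] : Fin 2 → R)) (x := (![s, t] : Fin 2 → S)) (by
      simp [Fin.sum_univ_two, Algebra.smul_def, h])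
  refine ⟨κ, fun j => A 0 j, fun j => A 1 j, y, ?_, ?_, ?_⟩
  · intro j
    have := h2 j
    simp only [Fin.sum_univ_two, Matrix.cons_val_zero, Matrix.cons_val_one, neg_mul] at this
    linear_combination this
  · have := h1 0
    simpa [Algebra.smul_def] using this
  · have := h1 1
    simpa [Algebra.smul_def] using this

variable [IsLocalRing R] [IsLocalRing S] [IsLocalHom (algebraMap R S)]

omit [IsLocalRing R] in
/-- Divisibility descends along flat local homomorphisms. -/
theorem dvd_of_algebraMap_dvd {a b : R} (h : algebraMap R S a ∣ algebraMap R S b) : a ∣ b := by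
  obtain ⟨t, ht⟩ := h
  obtain ⟨κ, u, v, y, h1, h2, h3⟩ := exists_of_smul_eq (R := R) (S := S) (a := a) (b := b)
    (s := 1) (t := t) (by rw [mul_one, ht])
  -- some u j is a unit
  obtain ⟨j, hj⟩ : ∃ j, IsUnit (u j) := by
    by_contra hcon
    push Not at hcon
    have hmem : (1 : S) ∈ maximalIdeal S := by
      rw [h2]
      refine Ideal.sum_mem _ (fun j _ => Ideal.mul_mem_right _ _ ?_)
      rw [mem_maximalIdeal, mem_nonunits_iff]
      intro hu
      exact hcon j (isUnit_of_map_unit (algebraMap R S) _ hu)
    exact (Ideal.ne_top_iff_one _).1 (maximalIdeal.isMaximal S).ne_top hmem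
  obtain ⟨w, hw⟩ := hj
  refine ⟨v j * ↑w⁻¹, ?_⟩
  have := h1 j
  rw [← hw] at this
  calc b = b * w * ↑w⁻¹ := by rw [mul_assoc, Units.mul_inv, mul_one]
    _ = a * (v j * ↑w⁻¹) := by rw [this]; ring

/-- The colon ideal `(a) : (b)`. -/
def colon (a b : R) : Ideal R where
  carrier := {r | a ∣ r * b}
  add_mem' := by
    intro x y hx hy
    simp only [Set.mem_ofPred_eq] at *
    rw [add_mul]; exact dvd_add hx hy
  zero_mem' := by simp
  smul_mem' := by
    intro c x hx
    simp only [Set.mem_ofPred_eq, smul_eq_mul] at *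
    rw [mul_assoc]; exact hx.mul_left c

omit [Module.Flat R S] [IsLocalRing R] [IsLocalRing S] [IsLocalHom (algebraMap R S)] [Algebra R S]
  [CommRing S] in
theorem mem_colon {a b r : R} : r ∈ colon a b ↔ a ∣ r * b := Iff.rfl

variable (S) in
/-- Main descent step: colon ideals are principal. -/
theorem colon_principal [IsDomain R] [IsDomain S] [UniqueFactorizationMonoid S]
    (hinj : Function.Injective (algebraMap R S)) (a b : R) (ha : a ≠ 0) :
    ∃ r ∈ colon a b, ∀ x ∈ colon a b, r ∣ x := by
  classical
  let _ : GCDMonoid S := UniqueFactorizationMonoid.toGCDMonoid S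
  set α := algebraMap R S a with hα
  set β := algebraMap R S b with hβ
  have hα0 : α ≠ 0 := by
    rw [hα]; exact (map_ne_zero_iff _ hinj).2 ha
  obtain ⟨α', β', hα', hβ', hrel⟩ := extract_gcd α β
  -- α = gcd * α', β = gcd * β'
  set g := gcd α β with hg
  have hg0 : g ≠ 0 := by
    intro h
    rw [h, zero_mul] at hα'
    exact hα0 hα'
  have hα'0 : α' ≠ 0 := by
    intro h
    rw [h, mul_zero] at hα'
    exact hα0 hα'
  have hkey : ∀ s : S, α ∣ s * β ↔ α' ∣ s := by
    intro s
    constructor
    · intro h
      rw [hα', hβ'] at h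
      have h1 : α' ∣ s * β' := by
        have : g * α' ∣ g * (s * β') := by
          convert h using 1
          ring
        exact (mul_dvd_mul_iff_left hg0).1 this
      have h2 : IsUnit (gcd α' β') := hrel
      exact ((gcd_isUnit_iff_isRelPrime).1 h2).dvd_of_dvd_mul_right h1
    · rintro ⟨c, rfl⟩
      rw [hα', hβ']
      exact ⟨c * β', by ring⟩
  -- α' is a combination of images of elements of the colon ideal
  have hmem : α ∣ α' * β := (hkey α').2 dvd_rfl
  obtain ⟨t, ht⟩ := hmem
  obtain ⟨κ, u, v, y, h1, h2, h3⟩ := exists_of_smul_eq (R := R) (S := S) (a := a) (b := b)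
    (s := α') (t := t) (by rw [← hα, ← hβ, mul_comm, ht])
  have hu : ∀ j, u j ∈ colon a b := by
    intro j
    rw [mem_colon]
    exact ⟨v j, by rw [mul_comm]; exact h1 j⟩
  have hdiv : ∀ x ∈ colon a b, α' ∣ algebraMap R S x := by
    intro x hx
    rw [← hkey, hα, hβ, ← map_mul]
    exact map_dvd _ hx
  -- write algebraMap (u j) = α' * c j
  choose c hc using fun j => hdiv (u j) (hu j)
  have hone : ∑ j, c j * y j = 1 := by
    have h4 : α' * ∑ j, c j * y j = α' * 1 := by
      rw [mul_one, Finset.mul_sum]
      conv_rhs => rw [h2]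
      exact Finset.sum_congr rfl (fun j _ => by rw [hc j]; ring)
    exact mul_left_cancel₀ hα'0 h4
  obtain ⟨j, hj⟩ : ∃ j, IsUnit (c j) := by
    by_contra hcon
    push Not at hcon
    have hmem : (1 : S) ∈ maximalIdeal S := by
      rw [← hone]
      refine Ideal.sum_mem _ (fun j _ => Ideal.mul_mem_right _ _ ?_)
      rw [mem_maximalIdeal, mem_nonunits_iff]
      exact hcon j
    exact (Ideal.ne_top_iff_one _).1 (maximalIdeal.isMaximal S).ne_top hmem
  refine ⟨u j, hu j, ?_⟩
  intro x hx
  apply dvd_of_algebraMap_dvd (S := S)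
  have h5 : algebraMap R S (u j) ∣ α' := by
    rw [hc j]
    obtain ⟨w, hw⟩ := hj
    rw [← hw]
    exact ⟨↑w⁻¹, by rw [mul_assoc, Units.mul_inv, mul_one]⟩
  exact h5.trans (hdiv x hx)

variable (R S) in
/-- Factoriality descends along flat local homomorphisms from Noetherian domains. -/
theorem ufd_of_flat_local [IsDomain R] [IsNoetherianRing R] [IsDomain S]
    [UniqueFactorizationMonoid S] : UniqueFactorizationMonoid R := by
  have hinj : Function.Injective (algebraMap R S) := by
    rw [injective_iff_map_eq_zero]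
    intro a ha
    have : (0 : R) ∣ a := dvd_of_algebraMap_dvd (S := S) (by rw [ha]; exact dvd_zero _)
    exact zero_dvd_iff.1 this
  have hirr : ∀ {p : R}, Irreducible p → Prime p := by
    intro p hp
    refine ⟨hp.ne_zero, hp.not_isUnit, ?_⟩
    intro b c hbc
    by_cases hb : p ∣ b
    · exact Or.inl hb
    right
    obtain ⟨r, hr, hr2⟩ := colon_principal (R := R) S hinj p b hp.ne_zero
    have h1 : r ∣ p := hr2 p (by rw [mem_colon]; exact dvd_mul_right p b)
    have h2 : r ∣ c := hr2 c (by rw [mem_colon, mul_comm]; exact hbc)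
    obtain ⟨e, he⟩ := h1
    rcases hp.isUnit_or_isUnit he with h | h
    · exfalso
      apply hb
      rw [mem_colon] at hr
      obtain ⟨w, hw⟩ := h
      rw [← hw] at hr
      exact (Units.dvd_mul_left).1 hr
    · have : p ∣ r := by
        obtain ⟨w, hw⟩ := h
        exact ⟨↑w⁻¹, by rw [he, ← hw, mul_assoc, Units.mul_inv, mul_one]⟩
      exact this.trans h2
  exact { (inferInstance : IsWellFounded R DvdNotUnit) with
    irreducible_iff_prime := ⟨hirr, fun h => h.irreducible⟩ }

end Descent

end Crest.Agent.R271.UFD243
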