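import Mathlib
import Crest.Agent.R271.UfdC_243

-- ▼ part R271/UfdD_243
section

set_option autoImplicit false

/-!
# Row 271, part (B3), step 4: local rings of étale algebras over `k[t_1..t_n]` at rational points
-/

namespace Crest.Agent.R271.UFD243

open IsLocalRing TensorProduct

/-- If `B → A` is étale, `B → S` flat and `A → S` is compatible, then `A → S` is flat. -/
theorem flat_of_etale {B A S : Type*} [CommRing B] [CommRing A] [CommRing S] [Algebra B A]
    [Algebra B S] [Algebra A S] [IsScalarTower B A S] [Algebra.Etale B A] [Module.Flat B S] :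
    Module.Flat A S := by
  let φ : A ⊗[B] S →ₐ[A] S :=
    Algebra.TensorProduct.lift (Algebra.ofId A S) (AlgHom.id B S)
      (fun _ _ => Commute.all _ _)
  algebraize [φ.toRingHom]
  let _ : Algebra S (A ⊗[B] S) := Algebra.TensorProduct.rightAlgebra
  have h1 : IsScalarTower S (A ⊗[B] S) S := by
    refine IsScalarTower.of_algebraMap_eq' ?_
    ext x
    change x = φ ((1 : A) ⊗ₜ[B] x)
    simp [φ]
  have h2 : Algebra.Etale S (A ⊗[B] S) :=
    Algebra.Etale.of_equiv (Algebra.TensorProduct.commRight B S A)
  have h3 : Algebra.Etale (A ⊗[B] S) S := .of_restrictScalars S _ _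
  have h4 : Module.Flat (A ⊗[B] S) S := Algebra.Smooth.flat (A ⊗[B] S) S
  have h5 : Module.Flat A (A ⊗[B] S) := inferInstance
  have h6 : IsScalarTower A (A ⊗[B] S) S := by
    refine IsScalarTower.of_algebraMap_eq' ?_
    ext x
    change algebraMap A S x = φ (x ⊗ₜ[B] (1 : S))
    simp [φ, Algebra.ofId_apply]
  exact Module.Flat.trans A (A ⊗[B] S) S

/-- `k[[z]]` is flat over `k[z]`. -/
theorem flat_mvPowerSeries (k : Type*) [Field k] (n : ℕ) :
    Module.Flat (MvPolynomial (Fin n) k) (MvPowerSeries (Fin n) k) :=
  Module.Flat.of_linearEquiv (MvPowerSeries.toAdicCompletionAlgEquiv (Fin n) k).toLinearEquiv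

section Point

universe u

variable {k : Type u} [Field k] {n : ℕ} {A : Type u} [CommRing A] [Algebra k A]

/-- Translation `X_i ↦ X_i - a_i` on the polynomial ring. -/
noncomputable def translate (a : Fin n → k) :
    MvPolynomial (Fin n) k ≃ₐ[k] MvPolynomial (Fin n) k :=
  AlgEquiv.ofAlgHom
    (MvPolynomial.aeval (fun i => MvPolynomial.X i - MvPolynomial.C (a i)))
    (MvPolynomial.aeval (fun i => MvPolynomial.X i + MvPolynomial.C (a i)))
    (by ext i; simp)
    (by ext i; simp)

theorem translate_X (a : Fin n → k) (i : Fin n) :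
    translate a (MvPolynomial.X i) = MvPolynomial.X i - MvPolynomial.C (a i) := by
  simp [translate]

/-- The formal expansion at a rational point of an étale algebra over `k[t_1, …, t_n]`:
a flat homomorphism to `k[[z]]` sending `t_i` to `ev t_i + z_i` and compatible with `ev`. -/
theorem exists_expansion (g : MvPolynomial (Fin n) k →ₐ[k] A) (hg : g.toRingHom.Etale)
    (ev : A →ₐ[k] k) :
    ∃ h : A →ₐ[k] MvPowerSeries (Fin n) k,
      (∀ i, h (g (MvPolynomial.X i)) =
        MvPowerSeries.C (ev (g (MvPolynomial.X i))) + MvPowerSeries.X i) ∧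
      (∀ a, MvPowerSeries.constantCoeff (h a) = ev a) ∧ h.toRingHom.Flat := by
  set a : Fin n → k := fun i => ev (g (MvPolynomial.X i)) with ha
  set g' : MvPolynomial (Fin n) k →ₐ[k] A := g.comp (translate a).toAlgHom with hg'
  have hg'X : ∀ i, g' (MvPolynomial.X i) = g (MvPolynomial.X i) - algebraMap k A (a i) := by
    intro i
    have h1 : g' (MvPolynomial.X i) = g (translate a (MvPolynomial.X i)) := rfl
    rw [h1, translate_X, map_sub]
    congr 1
    exact g.commutes _
  have het : g'.toRingHom.Etale := by
    have h1 : g'.toRingHom = g.toRingHom.comp (translate a).toRingEquiv.toRingHom := rfl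
    rw [h1]
    exact RingHom.Etale.stableUnderComposition (translate a).toRingEquiv.toRingHom g.toRingHom
      (RingHom.Etale.of_bijective (translate a).bijective) hg
  algebraize [g'.toRingHom]
  have hst : IsScalarTower k (MvPolynomial (Fin n) k) A := by
    refine IsScalarTower.of_algebraMap_eq' ?_
    ext c
    exact (g'.commutes c).symm
  -- the residual map
  have hev : ∀ b : MvPolynomial (Fin n) k,
      ev (algebraMap (MvPolynomial (Fin n) k) A b) = MvPolynomial.constantCoeff b := by
    intro b
    have h1 : (ev.comp g') = (MvPolynomial.aeval (fun _ => (0 : k))) := by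
      ext i
      rw [AlgHom.comp_apply, hg'X, map_sub, MvPolynomial.aeval_X]
      simp [ha]
    have h2 := congrArg (fun f => f b) h1
    simp only [AlgHom.comp_apply] at h2
    change ev (g' b) = _
    rw [h2]
    simp [MvPolynomial.aeval_eq_constantCoeff_of_vars, MvPolynomial.constantCoeff_eq]
  set m := maximalIdeal (MvPowerSeries (Fin n) k) with hm
  have hmem : ∀ f : MvPowerSeries (Fin n) k, f ∈ m ↔ MvPowerSeries.constantCoeff f = 0 := by
    intro f
    rw [hm, maximalIdeal_eq_span, mem_span_range_X_iff]
  let f : A →ₐ[MvPolynomial (Fin n) k] MvPowerSeries (Fin n) k ⧸ m :=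
    { toRingHom := (Ideal.Quotient.mk m).comp ((MvPowerSeries.C (σ := Fin n) (R := k)).comp
        ev.toRingHom)
      commutes' := by
        intro b
        change Ideal.Quotient.mk m (MvPowerSeries.C (ev (algebraMap _ A b))) =
          Ideal.Quotient.mk m (algebraMap (MvPolynomial (Fin n) k) (MvPowerSeries (Fin n) k) b)
        rw [hev, Ideal.Quotient.eq, hmem, map_sub]
        have h3 : algebraMap (MvPolynomial (Fin n) k) (MvPowerSeries (Fin n) k) b =
            (b : MvPowerSeries (Fin n) k) := by
          simp [MvPowerSeries.algebraMap_apply']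
        rw [h3, MvPowerSeries.constantCoeff_C, sub_eq_zero]
        rw [← MvPowerSeries.coeff_zero_eq_constantCoeff_apply, MvPolynomial.coeff_coe,
          MvPolynomial.constantCoeff_eq] }
  obtain ⟨h, hh⟩ := Algebra.FormallySmooth.exists_mkₐ_comp_eq_of_isAdicComplete
    (R := MvPolynomial (Fin n) k) (A := A) (I := m) f
  have hcc : ∀ x, MvPowerSeries.constantCoeff (h x) = ev x := by
    intro x
    have h4 : (Ideal.Quotient.mkₐ (MvPolynomial (Fin n) k) m) (h x) = f x := by
      rw [← hh]; rfl
    have h5 : Ideal.Quotient.mk m (h x) = Ideal.Quotient.mk m (MvPowerSeries.C (ev x)) := h4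
    rw [Ideal.Quotient.eq, hmem, map_sub, MvPowerSeries.constantCoeff_C, sub_eq_zero] at h5
    exact h5
  have hcomm : ∀ b : MvPolynomial (Fin n) k, h (g' b) = (b : MvPowerSeries (Fin n) k) := by
    intro b
    have := h.commutes b
    have h3 : algebraMap (MvPolynomial (Fin n) k) (MvPowerSeries (Fin n) k) b =
        (b : MvPowerSeries (Fin n) k) := by
      simp [MvPowerSeries.algebraMap_apply']
    rw [h3] at this
    exact this
  let h' : A →ₐ[k] MvPowerSeries (Fin n) k :=
    { toRingHom := h.toRingHom
      commutes' := by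
        intro c
        change h (algebraMap k A c) = _
        have h6 : algebraMap k A c = g' (MvPolynomial.C c) := (g'.commutes c).symm
        rw [h6, hcomm, MvPolynomial.coe_C]
        rfl }
  refine ⟨h', ?_, hcc, ?_⟩
  · intro i
    have h7 : g (MvPolynomial.X i) = g' (MvPolynomial.X i) + g' (MvPolynomial.C (a i)) := by
      rw [hg'X]
      have : g' (MvPolynomial.C (a i)) = algebraMap k A (a i) := g'.commutes _
      rw [this]; ring
    have h8 : h (g (MvPolynomial.X i)) = MvPowerSeries.C (a i) + MvPowerSeries.X i := by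
      rw [h7, map_add, hcomm, hcomm, MvPolynomial.coe_C, MvPolynomial.coe_X, add_comm]
    exact h8
  · algebraize [h.toRingHom]
    have hst2 : IsScalarTower (MvPolynomial (Fin n) k) A (MvPowerSeries (Fin n) k) := by
      refine IsScalarTower.of_algebraMap_eq' ?_
      ext x
      · exact (congrArg _ (h.commutes _)).symm
      · exact (congrArg _ (h.commutes _)).symm
    have := flat_mvPowerSeries k n
    exact flat_of_etale (B := MvPolynomial (Fin n) k) (A := A) (S := MvPowerSeries (Fin n) k)

end Point

end Crest.Agent.R271.UFD243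
end

-- ▼ part R271/UfdE_243
section

set_option autoImplicit false

/-!
# Row 271, part (B3), step 5: local rings at rational points of étale `k[t_1..t_n]`-algebras
-/

namespace Crest.Agent.R271.UFD243

open IsLocalRing TensorProduct

universe u

section Local

variable {k : Type u} [Field k] {n : ℕ} {A : Type u} [CommRing A] [Algebra k A]
  (g : MvPolynomial (Fin n) k →ₐ[k] A) (hg : g.toRingHom.Etale) (ev : A →ₐ[k] k)
  (P : Ideal A) [P.IsPrime] (hP : RingHom.ker ev = P)
  (R : Type u) [CommRing R] [Algebra A R] [IsLocalization.AtPrime R P]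

include hg hP in
/-- The formal expansion on the local ring at a rational point: a faithfully flat local
homomorphism `R → k[[z]]`. -/
theorem exists_expansion_local [IsLocalRing R] :
    ∃ h : R →+* MvPowerSeries (Fin n) k,
      (∀ i, h (algebraMap A R (g (MvPolynomial.X i))) =
        MvPowerSeries.C (ev (g (MvPolynomial.X i))) + MvPowerSeries.X i) ∧
      (∀ c : k, h (algebraMap A R (algebraMap k A c)) = MvPowerSeries.C c) ∧
      (∀ a : A, MvPowerSeries.constantCoeff (h (algebraMap A R a)) = ev a) ∧
      h.Flat ∧ IsLocalHom h := by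
  subst hP
  obtain ⟨h, h1, h2, h3⟩ := exists_expansion g hg ev
  have hunit : ∀ y : (RingHom.ker ev).primeCompl, IsUnit (h.toRingHom y) := by
    rintro ⟨y, hy⟩
    rw [MvPowerSeries.isUnit_iff_constantCoeff, isUnit_iff_ne_zero]
    change MvPowerSeries.constantCoeff (h y) ≠ 0
    rw [h2]
    intro h0
    exact hy (by rw [SetLike.mem_coe, RingHom.mem_ker]; exact h0)
  set H : R →+* MvPowerSeries (Fin n) k := IsLocalization.lift hunit with hH
  have hHa : ∀ a : A, H (algebraMap A R a) = h a := fun a => IsLocalization.lift_eq hunit a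
  refine ⟨H, ?_, ?_, ?_, ?_, ?_⟩
  · intro i; rw [hHa]; exact h1 i
  · intro c; rw [hHa, h.commutes]; rfl
  · intro a; rw [hHa]; exact h2 a
  · algebraize [h.toRingHom, H]
    have : IsScalarTower A R (MvPowerSeries (Fin n) k) := by
      refine IsScalarTower.of_algebraMap_eq' ?_
      ext a : 1
      exact (hHa a).symm
    exact (Module.flat_iff_of_isLocalization (R := A) R (RingHom.ker ev).primeCompl _).2 h3
  · refine ⟨fun r hr => ?_⟩
    obtain ⟨a, s, rfl⟩ := IsLocalization.exists_mk'_eq (RingHom.ker ev).primeCompl r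
    have h4 : H (IsLocalization.mk' R a s) * H (algebraMap A R s) = h a := by
      rw [← map_mul, IsLocalization.mk'_spec, hHa]
    have h5 : IsUnit (h a) := by
      rw [← h4, hHa]
      exact hr.mul (hunit s)
    rw [MvPowerSeries.isUnit_iff_constantCoeff, isUnit_iff_ne_zero, h2] at h5
    have h6 : a ∈ (RingHom.ker ev).primeCompl := by
      intro h0
      rw [SetLike.mem_coe, RingHom.mem_ker] at h0
      exact h5 h0
    rw [IsLocalization.AtPrime.isUnit_mk'_iff (S := R) (I := RingHom.ker ev)]
    exact h6

include hg hP in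
/-- The local ring at a rational point of an étale `k[t_1, …, t_n]`-algebra is a UFD. -/
theorem etale_point_ufd [Infinite k] [IsLocalRing R] [IsDomain R] [IsNoetherianRing R] :
    UniqueFactorizationMonoid R := by
  obtain ⟨h, _, _, _, h4, h5⟩ := exists_expansion_local g hg ev P hP R
  algebraize [h]
  have := mvPowerSeries_ufd (k := k) n
  exact ufd_of_flat_local R (MvPowerSeries (Fin n) k)

include hg hP in
/-- The maximal ideal is generated by the `t_i - t_i(x)`. -/
theorem etale_point_maximalIdeal [IsLocalRing R] :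
    maximalIdeal R = Ideal.span (Set.range fun i => algebraMap A R
      (g (MvPolynomial.X i) - algebraMap k A (ev (g (MvPolynomial.X i))))) := by
  obtain ⟨h, h1, h2, h3, h4, h5⟩ := exists_expansion_local g hg ev P hP R
  algebraize [h]
  have hff : Module.FaithfullyFlat R (MvPowerSeries (Fin n) k) :=
    Module.FaithfullyFlat.of_flat_of_isLocalHom
  set I := Ideal.span (Set.range fun i => algebraMap A R
      (g (MvPolynomial.X i) - algebraMap k A (ev (g (MvPolynomial.X i))))) with hI
  have hmap : I.map (algebraMap R (MvPowerSeries (Fin n) k)) =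
      maximalIdeal (MvPowerSeries (Fin n) k) := by
    rw [hI, Ideal.map_span, maximalIdeal_eq_span, ← Set.range_comp]
    congr 1
    congr 1
    funext i
    change h (algebraMap A R _) = _
    rw [map_sub, map_sub, h1, h2]
    ring
  have h6 : I = (maximalIdeal (MvPowerSeries (Fin n) k)).comap
      (algebraMap R (MvPowerSeries (Fin n) k)) := by
    rw [← hmap, Ideal.comap_map_eq_self_of_faithfullyFlat]
  rw [h6]
  have h7 := ((local_hom_TFAE (algebraMap R (MvPowerSeries (Fin n) k))).out 0 4).1 h5
  exact h7.symm

include hg hP in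
/-- Powers of the maximal ideal are detected on the formal expansion. -/
theorem exists_expansion_pow [IsLocalRing R] :
    ∃ h : R →+* MvPowerSeries (Fin n) k,
      (∀ i, h (algebraMap A R (g (MvPolynomial.X i))) =
        MvPowerSeries.C (ev (g (MvPolynomial.X i))) + MvPowerSeries.X i) ∧
      (∀ c : k, h (algebraMap A R (algebraMap k A c)) = MvPowerSeries.C c) ∧
      (∀ a : A, MvPowerSeries.constantCoeff (h (algebraMap A R a)) = ev a) ∧
      Function.Injective h ∧
      (∀ (e : ℕ) (r : R), r ∈ maximalIdeal R ^ e ↔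
        h r ∈ Ideal.span (Set.range (MvPowerSeries.X : Fin n → MvPowerSeries (Fin n) k)) ^ e) := by
  obtain ⟨h, h1, h2, h3, h4, h5⟩ := exists_expansion_local g hg ev P hP R
  refine ⟨h, h1, h2, h3, ?_, ?_⟩
  · algebraize [h]
    have hff : Module.FaithfullyFlat R (MvPowerSeries (Fin n) k) :=
      Module.FaithfullyFlat.of_flat_of_isLocalHom
    exact FaithfulSMul.algebraMap_injective R (MvPowerSeries (Fin n) k)
  · intro e r
    algebraize [h]
    have hff : Module.FaithfullyFlat R (MvPowerSeries (Fin n) k) :=
      Module.FaithfullyFlat.of_flat_of_isLocalHom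
    have hmap : (maximalIdeal R).map (algebraMap R (MvPowerSeries (Fin n) k)) =
        Ideal.span (Set.range (MvPowerSeries.X : Fin n → MvPowerSeries (Fin n) k)) := by
      rw [etale_point_maximalIdeal g hg ev P hP R, Ideal.map_span, ← Set.range_comp]
      congr 1
      congr 1
      funext i
      change h (algebraMap A R _) = _
      rw [map_sub, map_sub, h1, h2]
      ring
    have h6 : maximalIdeal R ^ e = (Ideal.span (Set.range
        (MvPowerSeries.X : Fin n → MvPowerSeries (Fin n) k)) ^ e).comap
        (algebraMap R (MvPowerSeries (Fin n) k)) := by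
      rw [← hmap, ← Ideal.map_pow, Ideal.comap_map_eq_self_of_faithfullyFlat]
    rw [h6]
    rfl

end Local

end Crest.Agent.R271.UFD243
end

-- ▼ part R271/UfdF_243

set_option autoImplicit false

/-!
# Row 271, part (B3), step 6: all local rings of étale `ℂ[t_1..t_n]`-algebras are UFDs
-/

namespace Crest.Agent.R271.UFD243

open IsLocalRing

/-- Localisations of UFDs (away from 0) are UFDs. -/
theorem ufd_localization {R S : Type*} [CommRing R] [IsDomain R] [UniqueFactorizationMonoid R]
    [CommRing S] [IsDomain S] [Algebra R S] (M : Submonoid R) (hM : M ≤ nonZeroDivisors R)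
    [IsLocalization M S] : UniqueFactorizationMonoid S := by
  rw [UniqueFactorizationMonoid.iff_exists_prime_mem_of_isPrime]
  intro Q hQ hQp
  have hinj : Function.Injective (algebraMap R S) := IsLocalization.injective S hM
  set Q' : Ideal R := Q.comap (algebraMap R S) with hQ'
  have hQ'p : Q'.IsPrime := Ideal.IsPrime.comap _
  have hQ'ne : Q' ≠ ⊥ := by
    intro h
    apply hQ
    have h1 : Ideal.map (algebraMap R S) Q' = Q := IsLocalization.map_under M S Q
    rw [← h1, h, Ideal.map_bot]
  obtain ⟨p, hp, hpp⟩ := hQ'p.exists_mem_prime_of_ne_bot hQ'ne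
  refine ⟨algebraMap R S p, hp, ?_⟩
  have hsp : (Ideal.span {p}).IsPrime := (Ideal.span_singleton_prime hpp.ne_zero).2 hpp
  have hdisj : Disjoint (M : Set R) (Ideal.span {p} : Ideal R) := by
    rw [Set.disjoint_left]
    intro m hm hmp
    have h2 : m ∈ Q' := by
      have : Ideal.span {p} ≤ Q' := by
        rw [Ideal.span_singleton_le_iff_mem]; exact hp
      exact this hmp
    have h3 : IsUnit (algebraMap R S m) := IsLocalization.map_units S ⟨m, hm⟩
    exact hQp.ne_top (Ideal.eq_top_of_isUnit_mem _ h2 h3)
  have h4 := IsLocalization.isPrime_of_isPrime_disjoint M S (Ideal.span {p}) hsp hdisj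
  rw [Ideal.map_span, Set.image_singleton] at h4
  exact (Ideal.span_singleton_prime ((map_ne_zero_iff _ hinj).2 hpp.ne_zero)).1 h4

section Chart

variable {n : ℕ} {A : Type} [CommRing A] [IsDomain A] [Algebra ℂ A]
  (g : MvPolynomial (Fin n) ℂ →ₐ[ℂ] A) (hg : g.toRingHom.Etale)

omit [IsDomain A] in
include hg in
theorem finiteType_of_etale : Algebra.FiniteType ℂ A := by
  algebraize [g.toRingHom]
  have : IsScalarTower ℂ (MvPolynomial (Fin n) ℂ) A := by
    refine IsScalarTower.of_algebraMap_eq' ?_
    ext c
    exact (g.commutes c).symm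
  exact Algebra.FiniteType.trans (S := MvPolynomial (Fin n) ℂ) inferInstance inferInstance

/-- The rational point of a maximal ideal (Nullstellensatz). -/
theorem exists_ev (A : Type) [CommRing A] [Algebra ℂ A] [Algebra.FiniteType ℂ A] (m : Ideal A)
    [m.IsMaximal] : ∃ ev : A →ₐ[ℂ] ℂ, RingHom.ker ev = m := by
  let _ := Ideal.Quotient.field m
  have h1 : Module.Finite ℂ (A ⧸ m) := finite_of_finite_type_of_isJacobsonRing ℂ (A ⧸ m)
  have h2 : Function.Bijective (algebraMap ℂ (A ⧸ m)) :=
    IsAlgClosed.algebraMap_bijective_of_isIntegral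
  let e : ℂ ≃ₐ[ℂ] (A ⧸ m) := AlgEquiv.ofBijective (Algebra.ofId ℂ (A ⧸ m)) h2
  refine ⟨e.symm.toAlgHom.comp (Ideal.Quotient.mkₐ ℂ m), ?_⟩
  ext a
  rw [RingHom.mem_ker]
  change e.symm (Ideal.Quotient.mk m a) = 0 ↔ _
  rw [map_eq_zero_iff _ e.symm.injective, Ideal.Quotient.eq_zero_iff_mem]

include hg in
/-- All local rings of an étale `ℂ[t_1, …, t_n]`-algebra (domain) are UFDs. -/
theorem chart_ufd (P : Ideal A) [P.IsPrime] (R : Type) [CommRing R] [Algebra A R] [IsDomain R]
    [IsLocalization.AtPrime R P] : UniqueFactorizationMonoid R := by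
  have hft : Algebra.FiniteType ℂ A := finiteType_of_etale g hg
  have hN : IsNoetherianRing A := Algebra.FiniteType.isNoetherianRing ℂ A
  obtain ⟨m, hm, hPm⟩ := P.exists_le_maximal (Ideal.IsPrime.ne_top ‹_›)
  obtain ⟨ev, hev⟩ := exists_ev A m
  set R1 := Localization.AtPrime m with hR1
  have hM1 : m.primeCompl ≤ nonZeroDivisors A := m.primeCompl_le_nonZeroDivisors
  have hdom : IsDomain R1 := IsLocalization.isDomain_localization hM1
  have hNR : IsNoetherianRing R1 := IsLocalization.isNoetherianRing m.primeCompl R1 hN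
  have hufd : UniqueFactorizationMonoid R1 := etale_point_ufd g hg ev m hev R1
  have hle : m.primeCompl ≤ P.primeCompl := by
    intro a ha haP
    exact ha (hPm haP)
  let _ : Algebra R1 R := IsLocalization.localizationAlgebraOfSubmonoidLe R1 R m.primeCompl
    P.primeCompl hle
  have hst : IsScalarTower A R1 R :=
    IsLocalization.localization_isScalarTower_of_submonoid_le R1 R m.primeCompl P.primeCompl hle
  have hloc : IsLocalization (P.primeCompl.map (algebraMap A R1)) R :=
    IsLocalization.isLocalization_of_submonoid_le R1 R m.primeCompl P.primeCompl hle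
  refine ufd_localization (R := R1) (P.primeCompl.map (algebraMap A R1)) ?_
  rintro _ ⟨a, ha, rfl⟩
  rw [mem_nonZeroDivisors_iff_ne_zero]
  have hinj : Function.Injective (algebraMap A R1) := IsLocalization.injective R1 hM1
  rw [Ne, map_eq_zero_iff _ hinj]
  rintro rfl
  exact ha P.zero_mem

end Chart

/-- A Noetherian local UFD of Krull dimension one is a DVR. -/
theorem isDVR_of_ufd_of_dim_one (R : Type*) [CommRing R] [IsDomain R] [IsLocalRing R]
    [IsNoetherianRing R] [UniqueFactorizationMonoid R] (hdim : ringKrullDim R = 1) :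
    IsDiscreteValuationRing R := by
  have hnf : ¬ IsField R := by
    intro h
    rw [ringKrullDim_eq_zero_of_isField h] at hdim
    exact absurd hdim (by norm_num)
  have hne : maximalIdeal R ≠ ⊥ := by
    intro h
    exact hnf (isField_iff_maximalIdeal_eq.2 h)
  obtain ⟨p, hp, hpp⟩ := (maximalIdeal.isMaximal R).isPrime.exists_mem_prime_of_ne_bot hne
  have hsp : (Ideal.span {p}).IsPrime := (Ideal.span_singleton_prime hpp.ne_zero).2 hpp
  have hdl : Ring.KrullDimLE 1 R := by
    rw [Ring.krullDimLE_iff, hdim]
    rfl
  have hspm : (Ideal.span {p}).IsMaximal :=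
    Ring.krullDimLE_one_iff_of_noZeroDivisors.1 hdl _ (by
      rw [Ne, Ideal.span_singleton_eq_bot]; exact hpp.ne_zero) hsp
  have heq : maximalIdeal R = Ideal.span {p} := (eq_maximalIdeal hspm).symm
  have hpr : (maximalIdeal R).IsPrincipal := ⟨p, heq⟩
  exact ((IsDiscreteValuationRing.TFAE R hnf).out 0 4).2 hpr

end Crest.Agent.R271.UFD243
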