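import Mathlib

/-!
# Row 271, sub-team L (local theory): elementary integrals (helper934)

* `lintegral_comp_smul` : scaling of the lower integral
* `lintegral_add_sq_le` : `∫ (A + ‖x‖²)^{-c} ≤ C A^{-(c - dim/2)}`, `C` independent of `A > 0`
* `lintegral_ball_norm_eq_top` : `‖x‖^{-dim}` is not integrable near `0`
* `exponent_lt_of_integrable` : `‖x‖^{-b}` integrable near `0` implies `b < dim`
* `lintegral_ball_norm_lt_top` : converse
-/

set_option autoImplicit false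
open MeasureTheory Filter Topology Set Metric
open scoped ENNReal NNReal

namespace Crest.Agent.R271.L934

variable {V : Type*} [NormedAddCommGroup V] [NormedSpace ℝ V] [FiniteDimensional ℝ V]
  [MeasurableSpace V] [BorelSpace V] (μ : Measure V) [μ.IsAddHaarMeasure]

/-- scaling of the (lower) integral -/
theorem lintegral_comp_smul {r : ℝ} (hr : r ≠ 0) (f : V → ℝ≥0∞) :
    ∫⁻ x, f (r • x) ∂μ = ENNReal.ofReal |(r ^ Module.finrank ℝ V)⁻¹| * ∫⁻ x, f x ∂μ := by
  have h := (Homeomorph.smulOfNeZero r hr : V ≃ₜ V).measurableEmbedding.lintegral_map (μ := μ) f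
  have e : (⇑(Homeomorph.smulOfNeZero r hr : V ≃ₜ V)) = fun x => r • x := rfl
  rw [e, Measure.map_addHaar_smul μ hr, lintegral_smul_measure] at h
  exact h.symm

/-- `∫ (A + ‖x‖^2)^{-c} ≤ C A^{-(c - dim/2)}` -/
theorem lintegral_add_sq_le {c : ℝ} (hc : (Module.finrank ℝ V : ℝ) < 2 * c) :
    ∃ C : ℝ≥0∞, C ≠ ∞ ∧ ∀ A : ℝ, 0 < A →
      ∫⁻ x, ENNReal.ofReal ((A + ‖x‖ ^ 2) ^ (-c)) ∂μ ≤
        C * ENNReal.ofReal (A ^ (-(c - (Module.finrank ℝ V : ℝ) / 2))) := by
  have hc0 : 0 < c := by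
    have : (0 : ℝ) ≤ Module.finrank ℝ V := Nat.cast_nonneg _
    linarith
  refine ⟨∫⁻ x, ENNReal.ofReal ((1 + ‖x‖ ^ 2) ^ (-c)) ∂μ, ?_, ?_⟩
  · have h1 := finite_integral_one_add_norm (μ := μ) hc
    refine (lt_of_le_of_lt (lintegral_mono (g := fun x =>
      ENNReal.ofReal (2 ^ c) * ENNReal.ofReal ((1 + ‖x‖) ^ (-(2 * c)))) ?_) ?_).ne
    · intro x
      dsimp only
      rw [← ENNReal.ofReal_mul (by positivity)]
      apply ENNReal.ofReal_le_ofReal
      have h2 : (1 + ‖x‖) ^ 2 ≤ 2 * (1 + ‖x‖ ^ 2) := by nlinarith [sq_nonneg (‖x‖ - 1)]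
      have h3 : (1 + ‖x‖) ^ (-(2 * c)) = ((1 + ‖x‖) ^ 2) ^ (-c) := by
        rw [← Real.rpow_natCast, ← Real.rpow_mul (by positivity)]
        congr 1; push_cast; ring
      rw [h3]
      calc (1 + ‖x‖ ^ 2) ^ (-c) = 2 ^ c * (2 * (1 + ‖x‖ ^ 2)) ^ (-c) := by
            rw [Real.mul_rpow (by norm_num) (by positivity), ← mul_assoc,
              ← Real.rpow_add (by norm_num)]
            simp
        _ ≤ 2 ^ c * ((1 + ‖x‖) ^ 2) ^ (-c) := by
            apply mul_le_mul_of_nonneg_left _ (by positivity)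
            exact Real.rpow_le_rpow_of_nonpos (by positivity) h2 (by linarith)
    · rw [lintegral_const_mul' _ _ ENNReal.ofReal_ne_top]
      exact ENNReal.mul_lt_top ENNReal.ofReal_lt_top h1
  · intro A hA
    have hs : Real.sqrt A ≠ 0 := (Real.sqrt_pos.2 hA).ne'
    have h := lintegral_comp_smul μ hs (fun x => ENNReal.ofReal ((A + ‖x‖ ^ 2) ^ (-c)))
    have hsq : Real.sqrt A ^ 2 = A := Real.sq_sqrt hA.le
    have e1 : ∀ x : V, ENNReal.ofReal ((A + ‖Real.sqrt A • x‖ ^ 2) ^ (-c)) =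
        ENNReal.ofReal (A ^ (-c)) * ENNReal.ofReal ((1 + ‖x‖ ^ 2) ^ (-c)) := by
      intro x
      rw [← ENNReal.ofReal_mul (by positivity), norm_smul, mul_pow, Real.norm_eq_abs, sq_abs, hsq,
        show A + A * ‖x‖ ^ 2 = A * (1 + ‖x‖ ^ 2) by ring, Real.mul_rpow hA.le (by positivity)]
    simp only [e1] at h
    rw [lintegral_const_mul' _ _ ENNReal.ofReal_ne_top] at h
    have hk : ENNReal.ofReal (Real.sqrt A ^ Module.finrank ℝ V) *
        ENNReal.ofReal |(Real.sqrt A ^ Module.finrank ℝ V)⁻¹| = 1 := by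
      rw [← ENNReal.ofReal_mul (by positivity), abs_of_nonneg (by positivity),
        mul_inv_cancel₀ (by positivity), ENNReal.ofReal_one]
    have h4 := congrArg (fun t => ENNReal.ofReal (Real.sqrt A ^ Module.finrank ℝ V) * t) h
    simp only [← mul_assoc] at h4
    rw [hk, one_mul] at h4
    rw [← h4, mul_comm (∫⁻ x, ENNReal.ofReal ((1 + ‖x‖ ^ 2) ^ (-c)) ∂μ)]
    apply le_of_eq
    congr 1
    rw [← ENNReal.ofReal_mul (by positivity)]
    congr 1
    rw [Real.sqrt_eq_rpow, ← Real.rpow_natCast, ← Real.rpow_mul hA.le, ← Real.rpow_add hA]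
    congr 1
    ring

/-- the same with `ENNReal` powers and any `A ≠ 0` -/
theorem lintegral_add_sq_le' {c : ℝ} (hc : (Module.finrank ℝ V : ℝ) < 2 * c) :
    ∃ C : ℝ≥0∞, C ≠ ∞ ∧ ∀ A : ℝ,  0 ≤ A →
      ∫⁻ x, (ENNReal.ofReal (A + ‖x‖ ^ 2)) ^ (-c) ∂μ ≤
        C * (ENNReal.ofReal A) ^ (-(c - (Module.finrank ℝ V : ℝ) / 2)) := by
  obtain ⟨C, hC, h⟩ := lintegral_add_sq_le μ hc
  refine ⟨C + 1, by simp [hC], fun A hA => ?_⟩
  rcases hA.eq_or_lt with rfl | hA
  · rw [ENNReal.ofReal_zero, ENNReal.zero_rpow_of_neg (by linarith), ENNReal.mul_top (by simp)]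
    exact le_top
  · calc ∫⁻ x, (ENNReal.ofReal (A + ‖x‖ ^ 2)) ^ (-c) ∂μ
        = ∫⁻ x, ENNReal.ofReal ((A + ‖x‖ ^ 2) ^ (-c)) ∂μ := by
          apply lintegral_congr; intro x
          rw [ENNReal.ofReal_rpow_of_pos (by positivity)]
      _ ≤ C * ENNReal.ofReal (A ^ (-(c - (Module.finrank ℝ V : ℝ) / 2))) := h A hA
      _ ≤ (C + 1) * (ENNReal.ofReal A) ^ (-(c - (Module.finrank ℝ V : ℝ) / 2)) := by
          rw [ENNReal.ofReal_rpow_of_pos hA]
          gcongr
          exact le_self_add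

/-- `‖x‖^{-dim}` is not integrable on any ball around `0`, in a nontrivial space. -/
theorem lintegral_ball_norm_eq_top (hV : 0 < Module.finrank ℝ V) {r : ℝ} (hr : 0 < r) :
    ∫⁻ x in ball (0 : V) r, (ENNReal.ofReal ‖x‖) ^ (-(Module.finrank ℝ V : ℝ)) ∂μ = ∞ := by
  set n := Module.finrank ℝ V with hn
  set g : V → ℝ≥0∞ := fun x => (ENNReal.ofReal ‖x‖) ^ (-(n : ℝ)) with hg
  have : Nontrivial V := Module.finrank_pos_iff.1 hV
  have hgm : Measurable g := by
    apply Measurable.pow_const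
    exact ENNReal.measurable_ofReal.comp measurable_norm
  by_contra hfin
  have h := lintegral_comp_smul μ (r := (1/2 : ℝ)) (by norm_num) (Set.indicator (ball (0:V) (r/2)) g)
  have e1 : (fun x : V => (Set.indicator (ball (0:V) (r/2)) g) ((1/2 : ℝ) • x)) =
      fun x => ENNReal.ofReal ((2:ℝ)^n) * (Set.indicator (ball (0:V) r) g) x := by
    funext x
    by_cases hx : x ∈ ball (0:V) r
    · have hx' : (1/2 : ℝ) • x ∈ ball (0:V) (r/2) := by
        rw [mem_ball_zero_iff] at hx ⊢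
        rw [norm_smul]; norm_num; linarith
      rw [indicator_of_mem hx, indicator_of_mem hx']
      simp only [hg, norm_smul]
      rw [ENNReal.ofReal_mul (by positivity)]
      have h2 : ENNReal.ofReal ‖(1/2 : ℝ)‖ = (2:ℝ≥0∞)⁻¹ := by
        rw [show ‖(1/2 : ℝ)‖ = (2:ℝ)⁻¹ by norm_num, ENNReal.ofReal_inv_of_pos (by norm_num)]
        norm_num
      rw [h2]
      have h3 : ((2:ℝ≥0∞)⁻¹ * ENNReal.ofReal ‖x‖) ^ (-(n:ℝ)) =
          ((2:ℝ≥0∞)⁻¹) ^ (-(n:ℝ)) * (ENNReal.ofReal ‖x‖) ^ (-(n:ℝ)) := by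
        rcases eq_or_ne (ENNReal.ofReal ‖x‖) 0 with h0 | h0
        · rw [h0, mul_zero, ENNReal.zero_rpow_of_neg (by
            have : (0:ℝ) < n := by exact_mod_cast hV
            linarith), ENNReal.mul_top]
          simp
        · rw [ENNReal.mul_rpow_of_ne_zero (by simp) h0]
      rw [h3]
      congr 1
      rw [ENNReal.inv_rpow, ENNReal.rpow_neg, inv_inv, ENNReal.rpow_natCast, ENNReal.ofReal_pow (by norm_num)]
      norm_num
    · have hx' : (1/2 : ℝ) • x ∉ ball (0:V) (r/2) := by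
        rw [mem_ball_zero_iff] at hx ⊢
        rw [norm_smul]; norm_num; linarith
      rw [indicator_of_notMem hx, indicator_of_notMem hx', mul_zero]
  rw [e1, lintegral_const_mul' _ _ ENNReal.ofReal_ne_top, lintegral_indicator measurableSet_ball,
    lintegral_indicator measurableSet_ball] at h
  have e2 : ENNReal.ofReal |((1/2:ℝ) ^ n)⁻¹| = ENNReal.ofReal ((2:ℝ)^n) := by
    congr 1
    rw [abs_of_pos (by positivity)]
    rw [one_div, inv_pow, inv_inv]
  rw [e2] at h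
  have h2n : ENNReal.ofReal ((2:ℝ)^n) ≠ 0 := by
    simp
  have heq : ∫⁻ x in ball (0:V) r, g x ∂μ = ∫⁻ x in ball (0:V) (r/2), g x ∂μ :=
    (ENNReal.mul_right_inj h2n ENNReal.ofReal_ne_top).1 h
  have hsub : ball (0:V) (r/2) ⊆ ball (0:V) r := ball_subset_ball (by linarith)
  have hsplit : ∫⁻ x in ball (0:V) r, g x ∂μ =
      ∫⁻ x in ball (0:V) (r/2), g x ∂μ + ∫⁻ x in ball (0:V) r \ ball (0:V) (r/2), g x ∂μ := by
    rw [← lintegral_inter_add_sdiff g (ball (0:V) r) (measurableSet_ball (x := (0:V)) (ε := r/2)),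
      inter_eq_self_of_subset_right hsub]
  have hz : ∫⁻ x in ball (0:V) r \ ball (0:V) (r/2), g x ∂μ = 0 := by
    rw [← heq] at hsplit
    have : ∫⁻ x in ball (0:V) r, g x ∂μ + 0 = ∫⁻ x in ball (0:V) r, g x ∂μ +
      ∫⁻ x in ball (0:V) r \ ball (0:V) (r/2), g x ∂μ := by rw [add_zero]; exact hsplit
    exact ((ENNReal.add_right_inj hfin).1 this).symm
  rw [lintegral_eq_zero_iff hgm] at hz
  have hpos : 0 < μ (ball (0:V) r \ closedBall (0:V) (r/2)) := by
    have hop : IsOpen (ball (0:V) r \ closedBall (0:V) (r/2)) := isOpen_ball.sdiff isClosed_closedBall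
    apply hop.measure_pos μ
    obtain ⟨v, hv⟩ := exists_norm_eq V (show (0:ℝ) ≤ 3*r/4 by linarith)
    exact ⟨v, by rw [mem_ball_zero_iff, hv]; linarith, by rw [mem_closedBall_zero_iff, hv]; linarith⟩
  have hsub2 : ball (0:V) r \ closedBall (0:V) (r/2) ⊆ ball (0:V) r \ ball (0:V) (r/2) :=
    sdiff_subset_sdiff_right ball_subset_closedBall
  have hz2 : ∀ᵐ x ∂(μ.restrict (ball (0:V) r \ ball (0:V) (r/2))), g x = 0 := hz
  rw [ae_restrict_iff' (measurableSet_ball.diff measurableSet_ball)] at hz2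
  have : μ (ball (0:V) r \ ball (0:V) (r/2)) = 0 := by
    apply measure_mono_null _ hz2
    intro x hx
    simp only [mem_compl_iff, mem_ofPred_eq, Classical.not_imp]
    refine ⟨hx, ?_⟩
    simp only [hg]
    intro h0
    rw [ENNReal.rpow_eq_zero_iff] at h0
    rcases h0 with ⟨_, h1⟩ | ⟨h1, _⟩
    · have : (0:ℝ) < n := by exact_mod_cast hV
      linarith
    · exact ENNReal.ofReal_ne_top h1
  exact absurd (measure_mono_null hsub2 this) hpos.ne'

/-- if `‖x‖^{-b}` is integrable near `0` in a space of positive dimension then `b < dim` -/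
theorem exponent_lt_of_integrable (hV : 0 < Module.finrank ℝ V) {b : ℝ} {U : Set V}
    (hU : U ∈ 𝓝 (0 : V)) (h : ∫⁻ x in U, (ENNReal.ofReal ‖x‖) ^ (-b) ∂μ < ∞) :
    b < Module.finrank ℝ V := by
  by_contra hb
  push Not at hb
  obtain ⟨r, hr, hrU⟩ := Metric.mem_nhds_iff.1 hU
  have hr' : 0 < min r 1 := lt_min hr one_pos
  have h1 := lintegral_ball_norm_eq_top μ hV hr'
  have h2 : ∫⁻ x in ball (0 : V) (min r 1), (ENNReal.ofReal ‖x‖) ^ (-(Module.finrank ℝ V : ℝ)) ∂μ ≤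
      ∫⁻ x in U, (ENNReal.ofReal ‖x‖) ^ (-b) ∂μ := by
    calc _ ≤ ∫⁻ x in ball (0 : V) (min r 1), (ENNReal.ofReal ‖x‖) ^ (-b) ∂μ := by
          apply setLIntegral_mono' measurableSet_ball
          intro x hx
          have hx1 : ENNReal.ofReal ‖x‖ ≤ 1 := by
            rw [← ENNReal.ofReal_one]
            apply ENNReal.ofReal_le_ofReal
            have := mem_ball_zero_iff.1 hx
            exact (this.trans_le (min_le_right _ _)).le
          exact ENNReal.rpow_le_rpow_of_exponent_ge hx1 (by linarith)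
      _ ≤ _ := lintegral_mono_set ((ball_subset_ball (min_le_left _ _)).trans hrU)
  rw [h1, top_le_iff] at h2
  exact h.ne h2


end Crest.Agent.R271.L934
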