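import Mathlib
import Crest.Agent.R271.RExt2_747
import Crest.Agent.R271.Defs_710
import Crest.Agent.R271.Jet_956
import Crest.Agent.R271.Rd3_692
import Crest.Agent.R271.KrullTrdeg_661
import Crest.Agent.R271.GSpec_792
import Crest.Agent.R271.Null_956
import Crest.Agent.R271.Ord_969
import Crest.Agent.R271.Growth_255

-- ▼ part R271/RExt3_747
section

/-!
Row 271, team G: entire functions of several variables with `L²` polynomial growth are polynomials
(helper747).
-/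

set_option autoImplicit false

open Set Filter Topology Metric MeasureTheory Complex
open scoped Real ENNReal NNReal

noncomputable section

namespace Crest.Agent.R271.RExt747

variable {n : ℕ}

/-- homogeneous parts of multilinear maps are polynomials -/
theorem exists_poly_multilinear {k : ℕ}
    (M : ContinuousMultilinearMap ℂ (fun _ : Fin k => Fin n → ℂ) ℂ) :
    ∃ p : MvPolynomial (Fin n) ℂ, p.totalDegree ≤ k ∧
      ∀ y : Fin n → ℂ, MvPolynomial.eval y p = M (fun _ => y) := by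
  classical
  refine ⟨∑ r : Fin k → Fin n, MvPolynomial.C (M (fun i => Pi.single (r i) 1)) *
    ∏ i, MvPolynomial.X (r i), ?_, fun y => ?_⟩
  · refine MvPolynomial.totalDegree_finsetSum_le (fun r _ => ?_)
    refine (MvPolynomial.totalDegree_mul _ _).trans ?_
    rw [MvPolynomial.totalDegree_C, zero_add]
    refine (MvPolynomial.totalDegree_finsetProd _ _).trans ?_
    refine (Finset.sum_le_sum (fun i _ => (MvPolynomial.totalDegree_X (R := ℂ) (r i)).le)).trans ?_
    simp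
  · have hy : y = ∑ j, y j • (Pi.single j (1 : ℂ) : Fin n → ℂ) := by
      funext l
      simp [Finset.sum_apply, Pi.single_apply]
    have h1 : M (fun _ => y) = M (fun _ : Fin k => ∑ j, y j • (Pi.single j (1 : ℂ) : Fin n → ℂ)) := by
      rw [← hy]
    rw [h1, M.map_sum]
    rw [map_sum]
    refine Finset.sum_congr rfl fun r _ => ?_
    rw [M.map_smul_univ]
    simp only [map_mul, MvPolynomial.eval_C, map_prod, MvPolynomial.eval_X, smul_eq_mul]
    ring

/-- one variable: entire functions of polynomial growth have vanishing higher derivatives -/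
theorem iteratedDeriv_eq_zero_of_growth {φ : ℂ → ℂ} (hφ : Differentiable ℂ φ) {C : ℝ} {N : ℕ}
    (hg : ∀ ζ, ‖φ ζ‖ ≤ C * (1 + ‖ζ‖) ^ N) {k : ℕ} (hk : N < k) : iteratedDeriv k φ 0 = 0 := by
  have hC : 0 ≤ C := by
    have := hg 0
    simp at this
    exact (norm_nonneg _).trans this
  have h1 : ∀ R : ℝ, 1 ≤ R → ‖iteratedDeriv k φ 0‖ ≤ k.factorial * (C * 2 ^ N) / R := by
    intro R hR
    have hR0 : 0 < R := by linarith
    have h2 : ∀ z ∈ sphere (0 : ℂ) R, ‖φ z‖ ≤ C * (1 + R) ^ N := by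
      intro z hz
      have : ‖z‖ = R := by simpa using hz
      rw [← this]; exact hg z
    have h3 := Complex.norm_iteratedDeriv_le_of_forall_mem_sphere_norm_le (n := k) hR0
      hφ.diffContOnCl h2
    refine h3.trans ?_
    have h4 : (1 + R) ^ N ≤ 2 ^ N * R ^ N := by
      rw [← mul_pow]
      exact pow_le_pow_left₀ (by positivity) (by linarith) N
    have h5 : R ^ N * R ≤ R ^ k := by
      rw [← pow_succ]
      exact pow_le_pow_right₀ hR hk
    rw [div_le_div_iff₀ (by positivity) hR0]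
    have h6 : (0 : ℝ) ≤ k.factorial := by positivity
    calc (k.factorial : ℝ) * (C * (1 + R) ^ N) * R ≤ k.factorial * (C * (2 ^ N * R ^ N)) * R := by
          gcongr
      _ = k.factorial * (C * 2 ^ N) * (R ^ N * R) := by ring
      _ ≤ k.factorial * (C * 2 ^ N) * R ^ k := by gcongr
  have h7 : Tendsto (fun R : ℝ => k.factorial * (C * 2 ^ N) / R) atTop (𝓝 0) :=
    tendsto_const_nhds.div_atTop tendsto_id
  have h8 : ‖iteratedDeriv k φ 0‖ ≤ 0 :=
    ge_of_tendsto h7 (by filter_upwards [eventually_ge_atTop 1] with R hR using h1 R hR)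
  exact norm_le_zero_iff.1 h8

/-- pointwise polynomial growth implies polynomial -/
theorem poly_of_growth {g : (Fin n → ℂ) → ℂ} (hg : Differentiable ℂ g) {C : ℝ} {N : ℕ}
    (hb : ∀ z, ‖g z‖ ≤ C * (1 + ‖z‖) ^ N) :
    ∃ p : MvPolynomial (Fin n) ℂ, p.totalDegree ≤ N ∧ ∀ z, g z = MvPolynomial.eval z p := by
  classical
  have hC : 0 ≤ C := by
    have := hb 0
    simp at this
    exact (norm_nonneg _).trans this
  have hA : AnalyticAt ℂ g 0 :=
    Crest.Agent.R266.SCV.analyticOnNhd_of_differentiableOn isOpen_univ hg.differentiableOn 0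
      (mem_univ _)
  obtain ⟨q, hq⟩ := hA
  choose P hPd hP using fun k => exists_poly_multilinear (q k)
  refine ⟨∑ k ∈ Finset.range (N + 1), P k, ?_, fun z => ?_⟩
  · refine MvPolynomial.totalDegree_finsetSum_le (fun k hk => ?_)
    exact (hPd k).trans (Nat.lt_succ_iff.1 (Finset.mem_range.1 hk))
  -- restriction to the line through `z`
  set φ : ℂ → ℂ := fun ζ => g (ζ • z) with hφ
  have hφd : Differentiable ℂ φ := hg.comp (by fun_prop)
  have hφg : ∀ ζ, ‖φ ζ‖ ≤ (C * (1 + ‖z‖) ^ N) * (1 + ‖ζ‖) ^ N := by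
    intro ζ
    refine (hb _).trans ?_
    rw [mul_assoc, ← mul_pow]
    gcongr
    rw [norm_smul]
    nlinarith [norm_nonneg z, norm_nonneg ζ]
  have hzero : ∀ k, N < k → iteratedDeriv k φ 0 = 0 := fun k hk =>
    iteratedDeriv_eq_zero_of_growth hφd hφg hk
  have hsum := Complex.hasSum_taylorSeries_of_entire hφd 0 1
  have h1 : φ 1 = ∑ k ∈ Finset.range (N + 1), (k.factorial : ℂ)⁻¹ • iteratedDeriv k φ 0 := by
    have h2 : HasSum (fun k : ℕ => (k.factorial : ℂ)⁻¹ • (1 - 0 : ℂ) ^ k • iteratedDeriv k φ 0)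
        (∑ k ∈ Finset.range (N + 1), (k.factorial : ℂ)⁻¹ • (1 - 0 : ℂ) ^ k •
          iteratedDeriv k φ 0) := by
      refine hasSum_sum_of_ne_finset_zero (fun k hk => ?_)
      have hk' : N < k := by
        rw [Finset.mem_range, not_lt] at hk
        exact hk
      rw [hzero k hk']
      simp
    have h3 := hsum.unique h2
    rw [h3]
    refine Finset.sum_congr rfl (fun k _ => ?_)
    simp
  have h4 : ∀ k, (k.factorial : ℂ)⁻¹ • iteratedDeriv k φ 0 = q k (fun _ => z) := by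
    intro k
    -- power series of `φ` at `0`
    set L : ℂ →L[ℂ] (Fin n → ℂ) := (ContinuousLinearMap.id ℂ ℂ).smulRight z with hL
    have hLφ : φ = g ∘ L := by
      funext ζ; simp [hφ, hL]
    have hq0 : HasFPowerSeriesAt g q (L 0) := by simpa [hL] using hq
    have hcomp : HasFPowerSeriesAt φ (q.compContinuousLinearMap L) 0 := by
      rw [hLφ]
      obtain ⟨r, hr⟩ := hq0
      exact ⟨_, hr.compContinuousLinearMap⟩
    have h5 := hcomp.eq_formalMultilinearSeries
      (hφd.analyticAt 0).hasFPowerSeriesAt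
    have h6 : (q.compContinuousLinearMap L) k (fun _ => 1) = q k (fun _ => z) := by
      rw [FormalMultilinearSeries.compContinuousLinearMap_apply]
      congr 1
      funext i
      simp [hL]
    rw [← h6, h5]
    simp [FormalMultilinearSeries.ofScalars, div_eq_inv_mul]
  have h7 : g z = φ 1 := by simp [hφ]
  rw [h7, h1, map_sum]
  refine Finset.sum_congr rfl (fun k _ => ?_)
  rw [h4, hP]

/-- **`L²` Liouville theorem**: an entire function on `ℂⁿ` which is square integrable for the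
weight `(1 + ‖z‖)^{-2N}` is a polynomial of degree `≤ N`. -/
theorem poly_of_sq_growth {g : (Fin n → ℂ) → ℂ} (hg : Differentiable ℂ g) {N : ℕ}
    (hL : ∫⁻ z, ‖g z‖ₑ ^ 2 * ENNReal.ofReal ((1 + ‖z‖) ^ (2 * N))⁻¹ < ⊤) :
    ∃ p : MvPolynomial (Fin n) ℂ, p.totalDegree ≤ N ∧ ∀ z, g z = MvPolynomial.eval z p := by
  set I := ∫⁻ z, ‖g z‖ₑ ^ 2 * ENNReal.ofReal ((1 + ‖z‖) ^ (2 * N))⁻¹ with hI
  set b : ℝ := volume.real (closedBall (0 : Fin n → ℂ) 1) with hb
  have hbpos : 0 < b := by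
    rw [hb, Measure.real]
    exact ENNReal.toReal_pos (measure_closedBall_pos _ _ one_pos).ne'
      measure_closedBall_lt_top.ne
  have hvol : ∀ z : Fin n → ℂ, volume (closedBall z 1) = ENNReal.ofReal b := by
    intro z
    rw [hb, ofReal_measureReal measure_closedBall_lt_top.ne, Measure.addHaar_closedBall_center]
  have key : ∀ z, b * ‖g z‖ ^ 2 ≤ (2 + ‖z‖) ^ (2 * N) * I.toReal := by
    intro z
    have h1 := submean (f := g) (x := z) (r := 1) isOpen_univ hg.differentiableOn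
      (subset_univ _)
    rw [hvol z] at h1
    have h2 : ∫⁻ y in closedBall z 1, ‖g y‖ₑ ^ 2 ≤
        ENNReal.ofReal ((2 + ‖z‖) ^ (2 * N)) * I := by
      rw [hI, ← lintegral_const_mul' _ _ ENNReal.ofReal_ne_top]
      refine (lintegral_mono_ae ?_).trans (setLIntegral_le_lintegral (closedBall z 1) _)
      rw [ae_restrict_iff' measurableSet_closedBall]
      refine Eventually.of_forall (fun y hy => ?_)
      have hy1 : ‖y‖ ≤ 1 + ‖z‖ := by
        have h3 : ‖y - z‖ ≤ 1 := by simpa [dist_eq_norm] using hy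
        have h4 : ‖y‖ ≤ ‖y - z‖ + ‖z‖ := by
          have : y = (y - z) + z := by abel
          conv_lhs => rw [this]
          exact norm_add_le _ _
        linarith
      have h5 : (1 : ℝ) ≤ (2 + ‖z‖) ^ (2 * N) * ((1 + ‖y‖) ^ (2 * N))⁻¹ := by
        rw [← div_eq_mul_inv, le_div_iff₀ (by positivity), one_mul]
        exact pow_le_pow_left₀ (by positivity) (by linarith) _
      calc ‖g y‖ₑ ^ 2 = 1 * ‖g y‖ₑ ^ 2 := (one_mul _).symm
        _ ≤ ENNReal.ofReal ((2 + ‖z‖) ^ (2 * N) * ((1 + ‖y‖) ^ (2 * N))⁻¹) * ‖g y‖ₑ ^ 2 := by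
            gcongr
            rw [← ENNReal.ofReal_one]
            exact ENNReal.ofReal_le_ofReal h5
        _ = _ := by
            rw [ENNReal.ofReal_mul (by positivity)]
            ring
    have h6 := h1.trans h2
    have h7 : ENNReal.ofReal b * ‖g z‖ₑ ^ 2 = ENNReal.ofReal (b * ‖g z‖ ^ 2) := by
      rw [← ofReal_norm (g z), ← ENNReal.ofReal_pow (norm_nonneg _),
        ← ENNReal.ofReal_mul hbpos.le]
    have h8 : I = ENNReal.ofReal I.toReal := (ENNReal.ofReal_toReal hL.ne).symm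
    rw [h7, h8, ← ENNReal.ofReal_mul (by positivity), ENNReal.ofReal_le_ofReal_iff
      (by positivity)] at h6
    exact h6
  refine poly_of_growth hg (C := 2 ^ N * Real.sqrt (I.toReal / b)) (N := N) (fun z => ?_)
  have h1 : ‖g z‖ ^ 2 ≤ ((2 + ‖z‖) ^ N) ^ 2 * (I.toReal / b) := by
    rw [← pow_mul, mul_comm N 2, mul_div_assoc', le_div_iff₀ hbpos]
    linarith [key z]
  have h2 : ‖g z‖ ≤ (2 + ‖z‖) ^ N * Real.sqrt (I.toReal / b) := by
    have h3 : (0 : ℝ) ≤ I.toReal / b := by positivity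
    refine abs_le_of_sq_le_sq' ?_ (by positivity) |>.2
    rw [mul_pow, Real.sq_sqrt h3]
    exact h1
  refine h2.trans ?_
  have h4 : (2 + ‖z‖) ^ N ≤ 2 ^ N * (1 + ‖z‖) ^ N := by
    rw [← mul_pow]
    exact pow_le_pow_left₀ (by positivity) (by linarith [norm_nonneg z]) N
  calc (2 + ‖z‖) ^ N * Real.sqrt (I.toReal / b) ≤
      (2 ^ N * (1 + ‖z‖) ^ N) * Real.sqrt (I.toReal / b) := by gcongr
    _ = 2 ^ N * Real.sqrt (I.toReal / b) * (1 + ‖z‖) ^ N := by ring

end Crest.Agent.R271.RExt747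
end
end

-- ▼ part R271/AlgB_956
section

/-!
Row 271, G2 part 2 (helper956): fibre sums.
-/

set_option autoImplicit false

open Topology Filter Asymptotics MeasureTheory
open scoped ENNReal
open Crest.Agent.R271.Defs710

noncomputable section

namespace Crest.Agent.R271.AlgB956

variable {n : ℕ} {B : Type} [CommRing B] [Algebra ℂ B]

/-- the fibre over `ζ` -/
abbrev Fib (z : Fin n → B) (ζ : Cn n) : Type := {y : B →ₐ[ℂ] ℂ // ∀ i, y (z i) = ζ i}

/-- The algebraic data (A): a primitive element and its minimal polynomial. -/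
structure FibData (z : Fin n → B) (θ : B) (μ : Polynomial (MvPolynomial (Fin n) ℂ))
    (g : MvPolynomial (Fin n) ℂ) : Prop where
  monic : μ.Monic
  g_ne : g ≠ 0
  root : Polynomial.eval₂ ((MvPolynomial.aeval z : MvPolynomial (Fin n) ℂ →ₐ[ℂ] B) :
      MvPolynomial (Fin n) ℂ →+* B) θ μ = 0
  der : Polynomial.eval₂ ((MvPolynomial.aeval z : MvPolynomial (Fin n) ℂ →ₐ[ℂ] B) :
      MvPolynomial (Fin n) ℂ →+* B) θ (Polynomial.derivative μ) ≠ 0
  sep : ∀ ζ : Cn n, MvPolynomial.eval ζ g ≠ 0 → (μ.map (MvPolynomial.eval ζ)).Separable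
  bij : ∀ ζ : Cn n, MvPolynomial.eval ζ g ≠ 0 →
    Set.BijOn (fun y : B →ₐ[ℂ] ℂ => y θ) {y | ∀ i, y (z i) = ζ i}
      {t | (μ.map (MvPolynomial.eval ζ)).eval t = 0}

section

variable {z : Fin n → B} {θ : B} {μ : Polynomial (MvPolynomial (Fin n) ℂ)}
  {g : MvPolynomial (Fin n) ℂ}

/-- the image of `μ` in `B[T]` -/
def muB (z : Fin n → B) (μ : Polynomial (MvPolynomial (Fin n) ℂ)) : Polynomial B :=
  μ.map ((MvPolynomial.aeval z : MvPolynomial (Fin n) ℂ →ₐ[ℂ] B) :
      MvPolynomial (Fin n) ℂ →+* B)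

/-- `Q = μ / (T - θ)` -/
def qq (z : Fin n → B) (θ : B) (μ : Polynomial (MvPolynomial (Fin n) ℂ)) : Polynomial B :=
  muB z μ /ₘ (Polynomial.X - Polynomial.C θ)

/-- `μ'(θ)` -/
def dd (z : Fin n → B) (θ : B) (μ : Polynomial (MvPolynomial (Fin n) ℂ)) : B :=
  Polynomial.eval₂ ((MvPolynomial.aeval z : MvPolynomial (Fin n) ℂ →ₐ[ℂ] B) :
      MvPolynomial (Fin n) ℂ →+* B) θ (Polynomial.derivative μ)

lemma comp_aeval (y : B →ₐ[ℂ] ℂ) {ζ : Cn n} (hy : ∀ i, y (z i) = ζ i)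
    (P : MvPolynomial (Fin n) ℂ) : y (MvPolynomial.aeval z P) = MvPolynomial.eval ζ P := by
  have h1 : (y.comp (MvPolynomial.aeval z) : MvPolynomial (Fin n) ℂ →ₐ[ℂ] ℂ) =
      MvPolynomial.aeval ζ := by
    apply MvPolynomial.algHom_ext
    intro i
    simp [hy i]
  have h2 := congrArg (fun g => g P) h1
  simp only [AlgHom.comp_apply] at h2
  rw [h2]
  simp

lemma comp_aeval' (y : B →ₐ[ℂ] ℂ) (P : MvPolynomial (Fin n) ℂ) :
    y (MvPolynomial.aeval z P) = MvPolynomial.eval (fun i => y (z i)) P :=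
  comp_aeval y (fun _ => rfl) P

lemma map_muB (y : B →ₐ[ℂ] ℂ) {ζ : Cn n} (hy : ∀ i, y (z i) = ζ i) :
    (muB z μ).map (y : B →+* ℂ) = μ.map (MvPolynomial.eval ζ) := by
  rw [muB, Polynomial.map_map]
  congr 1
  ext P
  · simp
  · simp [hy]

lemma qq_spec (hroot : Polynomial.eval₂ ((MvPolynomial.aeval z : MvPolynomial (Fin n) ℂ →ₐ[ℂ] B) :
      MvPolynomial (Fin n) ℂ →+* B) θ μ = 0) :
    (Polynomial.X - Polynomial.C θ) * qq z θ μ = muB z μ := by
  rw [qq, Polynomial.mul_divByMonic_eq_iff_isRoot, Polynomial.IsRoot.def, muB,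
    Polynomial.eval_map]
  exact hroot

lemma qq_eval (hroot : Polynomial.eval₂ ((MvPolynomial.aeval z : MvPolynomial (Fin n) ℂ →ₐ[ℂ] B) :
      MvPolynomial (Fin n) ℂ →+* B) θ μ = 0) : (qq z θ μ).eval θ = dd z θ μ := by
  have h1 := congrArg (fun p => (Polynomial.derivative p).eval θ) (qq_spec hroot)
  simp only [Polynomial.derivative_mul, Polynomial.derivative_sub, Polynomial.derivative_X,
    Polynomial.derivative_C, sub_zero, one_mul, Polynomial.eval_add, Polynomial.eval_mul,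
    Polynomial.eval_sub, Polynomial.eval_X, Polynomial.eval_C, sub_self, zero_mul, add_zero] at h1
  rw [h1, muB, Polynomial.derivative_map, Polynomial.eval_map]
  rfl

lemma qq_map_eval (hF : FibData z θ μ g) {ζ : Cn n} (hζ : MvPolynomial.eval ζ g ≠ 0)
    (y y0 : B →ₐ[ℂ] ℂ) (hy : ∀ i, y (z i) = ζ i) (hy0 : ∀ i, y0 (z i) = ζ i) (hne : y ≠ y0) :
    ((qq z θ μ).map (y : B →+* ℂ)).eval (y0 θ) = 0 := by
  have h1 := congrArg (fun p => (Polynomial.map (y : B →+* ℂ) p).eval (y0 θ)) (qq_spec hF.root)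
  simp only [Polynomial.map_mul, Polynomial.map_sub, Polynomial.map_X, Polynomial.map_C,
    Polynomial.eval_mul, Polynomial.eval_sub, Polynomial.eval_X, Polynomial.eval_C,
    map_muB y hy] at h1
  have h2 : (μ.map (MvPolynomial.eval ζ)).eval (y0 θ) = 0 := (hF.bij ζ hζ).mapsTo hy0
  rw [h2] at h1
  rcases mul_eq_zero.mp h1 with h3 | h3
  · exfalso
    apply hne
    exact (hF.bij ζ hζ).injOn hy hy0 (sub_eq_zero.mp h3).symm
  · exact h3

lemma natCard_fib (hF : FibData z θ μ g) {ζ : Cn n} (hζ : MvPolynomial.eval ζ g ≠ 0) :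
    Nat.card (Fib z ζ) = μ.natDegree ∧ Finite (Fib z ζ) := by
  have h1 : Nat.card (Fib z ζ) =
      Nat.card {t : ℂ | (μ.map (MvPolynomial.eval ζ)).eval t = 0} :=
    Nat.card_congr (hF.bij ζ hζ).equiv
  have hm : (μ.map (MvPolynomial.eval ζ)) ≠ 0 := (hF.monic.map _).ne_zero
  have h2 : {t : ℂ | (μ.map (MvPolynomial.eval ζ)).eval t = 0} =
      (μ.map (MvPolynomial.eval ζ)).rootSet ℂ := by
    ext t
    rw [Polynomial.mem_rootSet]
    simp [hm]
  have h3 : Fintype.card ((μ.map (MvPolynomial.eval ζ)).rootSet ℂ) =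
      (μ.map (MvPolynomial.eval ζ)).natDegree :=
    Polynomial.card_rootSet_eq_natDegree (hF.sep ζ hζ) (IsAlgClosed.splits _)
  refine ⟨?_, ?_⟩
  · rw [h1, h2, Nat.card_eq_fintype_card, h3, hF.monic.natDegree_map]
  · have : Finite {t : ℂ | (μ.map (MvPolynomial.eval ζ)).eval t = 0} := by
      rw [h2]; infer_instance
    exact Finite.of_equiv _ (hF.bij ζ hζ).equiv.symm

open Classical in
/-- the fibre sums -/
def HH (z : Fin n → B) (θ : B) (μ : Polynomial (MvPolynomial (Fin n) ℂ))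
    (g : MvPolynomial (Fin n) ℂ) (G : (B →ₐ[ℂ] ℂ) → ℂ) (k : ℕ) (ζ : Cn n) : ℂ :=
  if MvPolynomial.eval ζ g ≠ 0 then
    ∑' y : Fib z ζ, G y.1 * y.1 ((qq z θ μ).coeff k) else 0

lemma HH_eq (hF : FibData z θ μ g) (G : (B →ₐ[ℂ] ℂ) → ℂ) (k : ℕ) {ζ : Cn n}
    (hζ : MvPolynomial.eval ζ g ≠ 0) [Fintype (Fib z ζ)] :
    HH z θ μ g G k ζ = ∑ y : Fib z ζ, G y.1 * y.1 ((qq z θ μ).coeff k) := by
  rw [HH, if_pos hζ, tsum_fintype]

/-- Lagrange interpolation -/
theorem interp (hF : FibData z θ μ g) (G : (B →ₐ[ℂ] ℂ) → ℂ) {ζ : Cn n}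
    (hζ : MvPolynomial.eval ζ g ≠ 0) (y0 : B →ₐ[ℂ] ℂ) (hy0 : ∀ i, y0 (z i) = ζ i) :
    G y0 * y0 (dd z θ μ) =
      ∑ k ∈ Finset.range ((qq z θ μ).natDegree + 1), HH z θ μ g G k ζ * y0 θ ^ k := by
  have := (natCard_fib hF hζ).2
  have : Fintype (Fib z ζ) := Fintype.ofFinite _
  simp only [HH_eq hF G _ hζ, Finset.sum_mul]
  rw [Finset.sum_comm]
  have h1 : ∀ y : Fib z ζ, ∑ k ∈ Finset.range ((qq z θ μ).natDegree + 1),
      G y.1 * y.1 ((qq z θ μ).coeff k) * y0 θ ^ k =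
        G y.1 * ((qq z θ μ).map (y.1 : B →+* ℂ)).eval (y0 θ) := by
    intro y
    rw [Polynomial.eval_map, Polynomial.eval₂_eq_sum_range, Finset.mul_sum]
    refine Finset.sum_congr rfl fun k _ => ?_
    rw [mul_assoc]
    rfl
  simp only [h1]
  rw [Finset.sum_eq_single (⟨y0, hy0⟩ : Fib z ζ)]
  · simp only
    congr 1
    rw [Polynomial.eval_map, ← qq_eval hF.root]
    have := Polynomial.hom_eval₂ (qq z θ μ) (RingHom.id B) (y0 : B →+* ℂ) θ
    simp only [RingHom.comp_id] at this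
    rw [Polynomial.eval]
    exact this
  · intro y _ hne
    rw [qq_map_eval hF hζ y.1 y0 y.2 hy0 (fun h => hne (Subtype.ext h)), mul_zero]
  · intro h
    exact absurd (Finset.mem_univ _) h

/-- charts give nearby points of the fibres -/
def mv {ζ0 : Cn n} (C : ∀ y : Fib z ζ0, Chart z y.1) (ζ : Cn n)
    (hζ : ∀ y, ζ - ζ0 ∈ Metric.ball (0 : Cn n) (C y).r) (y : Fib z ζ0) : Fib z ζ :=
  ⟨(C y).s (ζ - ζ0), fun i => by
    rw [(C y).s_z _ (hζ y) i, y.2 i]; simp⟩

/-- the fibre sums are holomorphic off the discriminant -/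
theorem HH_differentiableAt (hF : FibData z θ μ g)
    (hC : ∀ y : B →ₐ[ℂ] ℂ, Nonempty (Chart z y)) {G : (B →ₐ[ℂ] ℂ) → ℂ}
    (hG : ∀ (y : B →ₐ[ℂ] ℂ) (C : Chart z y), AnalyticAt ℂ (fun ζ => G (C.s ζ)) 0) (k : ℕ)
    {ζ0 : Cn n} (hζ0 : MvPolynomial.eval ζ0 g ≠ 0) : DifferentiableAt ℂ (HH z θ μ g G k) ζ0 := by
  have hfin := (natCard_fib hF hζ0).2
  have hft : Fintype (Fib z ζ0) := Fintype.ofFinite _
  let C : ∀ y : Fib z ζ0, Chart z y.1 := fun y => (hC y.1).some
  have hsub : Tendsto (fun ζ : Cn n => ζ - ζ0) (𝓝 ζ0) (𝓝 0) := by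
    have : Continuous (fun ζ : Cn n => ζ - ζ0) := by fun_prop
    simpa using this.tendsto ζ0
  have h1 : ∀ᶠ ζ in 𝓝 ζ0, ∀ y, ζ - ζ0 ∈ Metric.ball (0 : Cn n) (C y).r := by
    rw [eventually_all]
    intro y
    exact hsub.eventually (Metric.ball_mem_nhds 0 (C y).r_pos)
  have hcont : ∀ (y : Fib z ζ0) (b : B),
      Tendsto (fun ζ : Cn n => (C y).s (ζ - ζ0) b) (𝓝 ζ0) (𝓝 (y.1 b)) := by
    intro y b
    have h2 := (Jet956.germ_analyticAt (C y) b).continuousAt.tendsto
    simp only [(C y).s_zero] at h2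
    exact h2.comp hsub
  have h2 : ∀ᶠ ζ in 𝓝 ζ0, ∀ y y' : Fib z ζ0, y ≠ y' →
      (C y).s (ζ - ζ0) θ ≠ (C y').s (ζ - ζ0) θ := by
    rw [eventually_all]; intro y
    rw [eventually_all]; intro y'
    by_cases hyy : y = y'
    · simp [hyy]
    · have h3 : y.1 θ ≠ y'.1 θ := by
        intro h
        exact hyy (Subtype.ext ((hF.bij ζ0 hζ0).injOn y.2 y'.2 h))
      have h4 := (hcont y θ).sub (hcont y' θ)
      have h5 := h4.eventually_ne (sub_ne_zero.mpr h3)
      filter_upwards [h5] with ζ hζ _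
      exact sub_ne_zero.mp hζ
  have h3 : ∀ᶠ ζ in 𝓝 ζ0, MvPolynomial.eval ζ g ≠ 0 := by
    have := (RExt747.analyticAt_eval g ζ0).continuousAt
    exact this.eventually_ne hζ0
  have h4 : HH z θ μ g G k =ᶠ[𝓝 ζ0] fun ζ => ∑ y : Fib z ζ0,
      G ((C y).s (ζ - ζ0)) * (C y).s (ζ - ζ0) ((qq z θ μ).coeff k) := by
    filter_upwards [h1, h2, h3] with ζ hζ1 hζ2 hζ3
    have hfin' := (natCard_fib hF hζ3).2
    have hft' : Fintype (Fib z ζ) := Fintype.ofFinite _
    rw [HH_eq hF G k hζ3]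
    have hinj : Function.Injective (mv C ζ hζ1) := by
      intro y y' hyy
      by_contra hne
      apply hζ2 y y' hne
      have := congrArg (fun w : Fib z ζ => w.1 θ) hyy
      exact this
    have hcard : Fintype.card (Fib z ζ0) = Fintype.card (Fib z ζ) := by
      rw [← Nat.card_eq_fintype_card, ← Nat.card_eq_fintype_card, (natCard_fib hF hζ0).1,
        (natCard_fib hF hζ3).1]
    have hbij : Function.Bijective (mv C ζ hζ1) :=
      (Fintype.bijective_iff_injective_and_card _).mpr ⟨hinj, hcard⟩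
    exact (Function.Bijective.sum_comp hbij
      (fun y : Fib z ζ => G y.1 * y.1 ((qq z θ μ).coeff k))).symm
  refine DifferentiableAt.congr_of_eventuallyEq ?_ h4
  refine DifferentiableAt.fun_sum fun y _ => ?_
  have h5 : AnalyticAt ℂ (fun ζ => G ((C y).s ζ) * (C y).s ζ ((qq z θ μ).coeff k)) 0 :=
    (hG y.1 (C y)).mul (Jet956.germ_analyticAt (C y) _)
  have h6 : DifferentiableAt ℂ (fun ζ => G ((C y).s ζ) * (C y).s ζ ((qq z θ μ).coeff k))
      (ζ0 - ζ0) := by
    rw [sub_self]; exact h5.differentiableAt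
  exact h6.comp ζ0 (f := fun ζ : Cn n => ζ - ζ0) (by fun_prop)

/-- Cauchy–Schwarz for the fibre sums -/
theorem HH_bound (hF : FibData z θ μ g) (G : (B →ₐ[ℂ] ℂ) → ℂ) (k : ℕ) {A : ℝ} {K : ℕ}
    (hA : 0 ≤ A) (hgr : ∀ y : B →ₐ[ℂ] ℂ, ‖y ((qq z θ μ).coeff k)‖ ≤
      A * (1 + ∑ i, ‖y (z i)‖ ^ 2) ^ K) (ζ : Cn n) (hζ : MvPolynomial.eval ζ g ≠ 0) :
    ‖HH z θ μ g G k ζ‖ₑ ^ 2 ≤
      ENNReal.ofReal (μ.natDegree * (A * (1 + ∑ i, ‖ζ i‖ ^ 2) ^ K) ^ 2) *
        ∑' y : Fib z ζ, ENNReal.ofReal (‖G y.1‖ ^ 2) := by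
  have hfin := (natCard_fib hF hζ).2
  have hft : Fintype (Fib z ζ) := Fintype.ofFinite _
  rw [HH_eq hF G k hζ, tsum_fintype, ← ENNReal.ofReal_sum_of_nonneg (fun _ _ => by positivity),
    ← ENNReal.ofReal_mul (by positivity), ← ofReal_norm, ← ENNReal.ofReal_pow (norm_nonneg _)]
  apply ENNReal.ofReal_le_ofReal
  set T := A * (1 + ∑ i, ‖ζ i‖ ^ 2) ^ K with hT
  have hT0 : 0 ≤ T := by positivity
  have h1 : ‖∑ y : Fib z ζ, G y.1 * y.1 ((qq z θ μ).coeff k)‖ ≤ ∑ y : Fib z ζ, ‖G y.1‖ * T := by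
    refine (norm_sum_le _ _).trans (Finset.sum_le_sum fun y _ => ?_)
    rw [norm_mul]
    gcongr
    have h2 := hgr y.1
    simp only [y.2] at h2
    exact h2
  have hcard : (Finset.univ : Finset (Fib z ζ)).card = μ.natDegree := by
    rw [Finset.card_univ, ← Nat.card_eq_fintype_card, (natCard_fib hF hζ).1]
  calc ‖∑ y : Fib z ζ, G y.1 * y.1 ((qq z θ μ).coeff k)‖ ^ 2
      ≤ (∑ y : Fib z ζ, ‖G y.1‖ * T) ^ 2 := by gcongr
    _ = (∑ y : Fib z ζ, ‖G y.1‖) ^ 2 * T ^ 2 := by rw [← Finset.sum_mul, mul_pow]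
    _ ≤ ((Finset.univ : Finset (Fib z ζ)).card * ∑ y : Fib z ζ, ‖G y.1‖ ^ 2) * T ^ 2 := by
        gcongr
        exact sq_sum_le_card_mul_sum_sq
    _ = _ := by rw [hcard]; ring

end

end Crest.Agent.R271.AlgB956
end
end

-- ▼ part R271/AlgC_956
section

/-!
Row 271, G2 part 3 (helper956): polynomiality of the fibre sums, end game, algebraicity.
-/

set_option autoImplicit false

open Topology Filter Asymptotics MeasureTheory
open scoped ENNReal
open Crest.Agent.R271.Defs710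

noncomputable section

namespace Crest.Agent.R271.AlgC956

open Crest.Agent.R271.AlgB956

variable {n : ℕ} {B : Type} [CommRing B] [Algebra ℂ B]
variable {z : Fin n → B}

lemma one_add_sum_le (ζ : Cn n) : 1 + ∑ i, ‖ζ i‖ ^ 2 ≤ (n + 1 : ℝ) * (1 + ‖ζ‖) ^ 2 := by
  have h1 : ∑ i : Fin n, ‖ζ i‖ ^ 2 ≤ ∑ _i : Fin n, ‖ζ‖ ^ 2 :=
    Finset.sum_le_sum fun i _ => by
      have := norm_le_pi_norm ζ i
      gcongr
  rw [Finset.sum_const, Finset.card_univ, Fintype.card_fin, nsmul_eq_mul] at h1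
  have h2 : 0 ≤ ‖ζ‖ := norm_nonneg _
  have h3 : (0 : ℝ) ≤ n := Nat.cast_nonneg n
  nlinarith [mul_nonneg h3 h2]

/-- pointwise bound of the fibre sums by the integrand of `lintM` -/
theorem HH_bound' {θ : B} {μ : Polynomial (MvPolynomial (Fin n) ℂ)}
    {g : MvPolynomial (Fin n) ℂ} (hF : FibData z θ μ g) (G : (B →ₐ[ℂ] ℂ) → ℂ) (k : ℕ) {A : ℝ}
    {K : ℕ} (M : ℕ) (hA : 0 ≤ A) (hgr : ∀ y : B →ₐ[ℂ] ℂ, ‖y ((qq z θ μ).coeff k)‖ ≤
      A * (1 + ∑ i, ‖y (z i)‖ ^ 2) ^ K) :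
    ∃ (c : ℝ) (L : ℕ), 0 ≤ c ∧ ∀ ζ : Cn n, MvPolynomial.eval ζ g ≠ 0 →
      ‖HH z θ μ g G k ζ‖ₑ ^ 2 ≤ ENNReal.ofReal (c * (1 + ‖ζ‖) ^ (2 * L)) *
        ∑' y : Fib z ζ, ENNReal.ofReal (‖G y.1‖ ^ 2 / (1 + ∑ i, ‖y.1 (z i)‖ ^ 2) ^ M) := by
  refine ⟨μ.natDegree * A ^ 2 * (n + 1 : ℝ) ^ (2 * K + M), 2 * K + M, by positivity, ?_⟩
  intro ζ hζ
  refine (HH_bound hF G k hA hgr ζ hζ).trans ?_
  set S : ℝ := 1 + ∑ i, ‖ζ i‖ ^ 2 with hS
  have hS0 : 0 < S := by positivity
  have h1 : ∀ y : Fib z ζ, ENNReal.ofReal (‖G y.1‖ ^ 2) = ENNReal.ofReal (S ^ M) *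
      ENNReal.ofReal (‖G y.1‖ ^ 2 / (1 + ∑ i, ‖y.1 (z i)‖ ^ 2) ^ M) := by
    intro y
    have h2 : (1 + ∑ i, ‖y.1 (z i)‖ ^ 2) = S := by simp only [y.2, hS]
    rw [h2, ← ENNReal.ofReal_mul (by positivity)]
    congr 1
    field_simp
  simp only [h1]
  rw [ENNReal.tsum_mul_left, ← mul_assoc, ← ENNReal.ofReal_mul (by positivity)]
  refine mul_le_mul' (ENNReal.ofReal_le_ofReal ?_) le_rfl
  have h3 : S ≤ (n + 1 : ℝ) * (1 + ‖ζ‖) ^ 2 := one_add_sum_le ζ
  calc (μ.natDegree : ℝ) * (A * S ^ K) ^ 2 * S ^ M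
      = μ.natDegree * A ^ 2 * S ^ (2 * K + M) := by ring
    _ ≤ μ.natDegree * A ^ 2 * ((n + 1 : ℝ) * (1 + ‖ζ‖) ^ 2) ^ (2 * K + M) := by gcongr
    _ = _ := by rw [mul_pow, ← pow_mul]; ring

/-- the fibre sums are polynomials -/
theorem HH_poly {θ : B} {μ : Polynomial (MvPolynomial (Fin n) ℂ)}
    {g : MvPolynomial (Fin n) ℂ} (hF : FibData z θ μ g)
    (hC : ∀ y : B →ₐ[ℂ] ℂ, Nonempty (Chart z y)) {G : (B →ₐ[ℂ] ℂ) → ℂ}
    (hG : ∀ (y : B →ₐ[ℂ] ℂ) (C : Chart z y), AnalyticAt ℂ (fun ζ => G (C.s ζ)) 0) (k : ℕ)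
    {A : ℝ} {K : ℕ} (M : ℕ) (hA : 0 ≤ A) (hgr : ∀ y : B →ₐ[ℂ] ℂ, ‖y ((qq z θ μ).coeff k)‖ ≤
      A * (1 + ∑ i, ‖y (z i)‖ ^ 2) ^ K)
    (hint : lintM z (fun y => ENNReal.ofReal (‖G y‖ ^ 2 / (1 + ∑ i, ‖y (z i)‖ ^ 2) ^ M)) < ∞) :
    ∃ P : MvPolynomial (Fin n) ℂ, ∀ ζ : Cn n, MvPolynomial.eval ζ g ≠ 0 →
      HH z θ μ g G k ζ = MvPolynomial.eval ζ P := by
  obtain ⟨c, L, hc, hb⟩ := HH_bound' hF G k M hA hgr
  rw [lintM] at hint
  set Ψ : Cn n → ℝ≥0∞ := fun ζ => ∑' y : Fib z ζ,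
    ENNReal.ofReal (‖G y.1‖ ^ 2 / (1 + ∑ i, ‖y.1 (z i)‖ ^ 2) ^ M) with hΨ
  have hopen : IsOpen {ζ : Cn n | MvPolynomial.eval ζ g ≠ 0} :=
    isOpen_ne.preimage (MvPolynomial.continuous_eval g)
  obtain ⟨E, hE, hEH⟩ := RExt747.riemann_ext_poly (f := HH z θ μ g G k) hF.g_ne
    (fun ζ hζ => (HH_differentiableAt hF hC hG k hζ).differentiableWithinAt) (by
      intro a
      refine ⟨Metric.ball a 1, Metric.ball_mem_nhds a one_pos, ?_⟩
      have hm : MeasurableSet (Metric.ball a 1 ∩ {ζ : Cn n | MvPolynomial.eval ζ g ≠ 0}) :=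
        Metric.isOpen_ball.measurableSet.inter hopen.measurableSet
      calc ∫⁻ ζ in Metric.ball a 1 ∩ {ζ : Cn n | MvPolynomial.eval ζ g ≠ 0},
            ‖HH z θ μ g G k ζ‖ₑ ^ 2
          ≤ ∫⁻ ζ in Metric.ball a 1 ∩ {ζ : Cn n | MvPolynomial.eval ζ g ≠ 0},
            ENNReal.ofReal (c * (2 + ‖a‖) ^ (2 * L)) * Ψ ζ := by
            refine setLIntegral_mono' hm ?_
            rintro ζ ⟨hζ1, hζ2⟩
            refine (hb ζ hζ2).trans ?_
            have h1 : ‖ζ - a‖ < 1 := by simpa [dist_eq_norm] using hζ1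
            have h2 : ‖ζ‖ ≤ ‖ζ - a‖ + ‖a‖ := by
              have : ζ = (ζ - a) + a := by abel
              conv_lhs => rw [this]
              exact norm_add_le _ _
            have h3 : 1 + ‖ζ‖ ≤ 2 + ‖a‖ := by linarith
            exact mul_le_mul' (ENNReal.ofReal_le_ofReal (mul_le_mul_of_nonneg_left
              (pow_le_pow_left₀ (by positivity) h3 _) hc)) le_rfl
        _ ≤ ∫⁻ ζ, ENNReal.ofReal (c * (2 + ‖a‖) ^ (2 * L)) * Ψ ζ :=
            setLIntegral_le_lintegral _ _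
        _ = ENNReal.ofReal (c * (2 + ‖a‖) ^ (2 * L)) * ∫⁻ ζ, Ψ ζ :=
            lintegral_const_mul' _ _ ENNReal.ofReal_ne_top
        _ < ∞ := ENNReal.mul_lt_top ENNReal.ofReal_lt_top hint)
  obtain ⟨P, -, hP⟩ := RExt747.poly_of_sq_growth (g := E) hE (N := L) (by
    calc ∫⁻ ζ, ‖E ζ‖ₑ ^ 2 * ENNReal.ofReal ((1 + ‖ζ‖) ^ (2 * L))⁻¹
        ≤ ∫⁻ ζ, ENNReal.ofReal c * Ψ ζ := by
          refine lintegral_mono_ae ?_
          filter_upwards [Null956.ae_eval_ne hF.g_ne] with ζ hζ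
          rw [hEH ζ hζ]
          calc ‖HH z θ μ g G k ζ‖ₑ ^ 2 * ENNReal.ofReal ((1 + ‖ζ‖) ^ (2 * L))⁻¹
              ≤ (ENNReal.ofReal (c * (1 + ‖ζ‖) ^ (2 * L)) * Ψ ζ) *
                ENNReal.ofReal ((1 + ‖ζ‖) ^ (2 * L))⁻¹ := by
                gcongr
                exact hb ζ hζ
            _ = (ENNReal.ofReal (c * (1 + ‖ζ‖) ^ (2 * L)) *
                ENNReal.ofReal ((1 + ‖ζ‖) ^ (2 * L))⁻¹) * Ψ ζ := by ring
            _ = ENNReal.ofReal c * Ψ ζ := by
                rw [← ENNReal.ofReal_mul (by positivity)]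
                congr 2
                field_simp
      _ = ENNReal.ofReal c * ∫⁻ ζ, Ψ ζ := lintegral_const_mul' _ _ ENNReal.ofReal_ne_top
      _ < ∞ := ENNReal.mul_lt_top ENNReal.ofReal_lt_top hint)
  exact ⟨P, fun ζ hζ => by rw [← hEH ζ hζ, hP]⟩

/-- continuous functions which agree frequently near a point agree at the point -/
lemma eq_of_frequently {φ1 φ2 : Cn n → ℂ} (h1 : ContinuousAt φ1 0) (h2 : ContinuousAt φ2 0)
    (h : ∃ᶠ ζ in 𝓝 (0 : Cn n), φ1 ζ = φ2 ζ) : φ1 0 = φ2 0 := by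
  by_contra hne
  have h3 := (h1.sub h2).eventually_ne (sub_ne_zero.mpr hne)
  apply h
  filter_upwards [h3] with ζ hζ
  exact sub_ne_zero.mp hζ

lemma frequently_eval_ne {g : MvPolynomial (Fin n) ℂ} (hg : g ≠ 0) (a : Cn n) :
    ∃ᶠ ζ in 𝓝 (0 : Cn n), MvPolynomial.eval (a + ζ) g ≠ 0 := by
  intro h
  apply RExt747.poly_not_eventually_zero hg a
  have h1 : Tendsto (fun w : Cn n => w - a) (𝓝 a) (𝓝 0) := by
    have : Continuous (fun w : Cn n => w - a) := by fun_prop
    simpa using this.tendsto a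
  filter_upwards [h1.eventually h] with w hw
  simpa using hw

/-- END GAME: a holomorphic function `F` with `F v = a` off `{g = 0}` is in `B` -/
theorem end_game [IsDomain B] [Algebra.FiniteType ℂ B]
    (het : RingHom.Etale ((MvPolynomial.aeval z : MvPolynomial (Fin n) ℂ →ₐ[ℂ] B) :
      MvPolynomial (Fin n) ℂ →+* B)) {F : (B →ₐ[ℂ] ℂ) → ℂ}
    (hFan : ∀ (y : B →ₐ[ℂ] ℂ) (C : Chart z y), AnalyticAt ℂ (fun ζ => F (C.s ζ)) 0)
    {g : MvPolynomial (Fin n) ℂ} (hg : g ≠ 0) {v a : B} (hv : v ≠ 0)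
    (h : ∀ y : B →ₐ[ℂ] ℂ, MvPolynomial.eval (fun i => y (z i)) g ≠ 0 → F y * y v = y a) :
    ∃ b : B, ∀ y : B →ₐ[ℂ] ℂ, F y = y b := by
  have hnoeth : IsNoetherianRing B := Algebra.FiniteType.isNoetherianRing ℂ B
  have step1 : ∀ y : B →ₐ[ℂ] ℂ, F y * y v = y a := by
    intro y
    obtain ⟨C⟩ := Rd692.nonempty_chart z het y
    have h1 : ∃ᶠ ζ in 𝓝 (0 : Cn n), F (C.s ζ) * C.s ζ v = C.s ζ a := by
      refine ((frequently_eval_ne hg (fun i => y (z i))).and_eventually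
        (Jet956.ball_mem C)).mono ?_
      rintro ζ ⟨hζ1, hζ2⟩
      apply h
      convert! hζ1 using 3
      ext i
      exact C.s_z ζ hζ2 i
    have h2 := eq_of_frequently (φ1 := fun ζ => F (C.s ζ) * C.s ζ v)
      (φ2 := fun ζ => C.s ζ a)
      ((hFan y C).continuousAt.mul (Jet956.germ_analyticAt C v).continuousAt)
      (Jet956.germ_analyticAt C a).continuousAt h1
    simpa [C.s_zero] using h2
  have step2 : ∀ y : B →ₐ[ℂ] ℂ, ∃ t : B, y t ≠ 0 ∧ t * a ∈ Ideal.span {v} := by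
    intro y
    obtain ⟨C⟩ := Rd692.nonempty_chart z het y
    exact Jet956.local_div het C v a (fun ζ => F (C.s ζ)) (hFan y C)
      (Filter.Eventually.of_forall fun ζ => step1 (C.s ζ))
  have step3 : a ∈ Ideal.span {v} := by
    set I : Ideal B := Submodule.comap (LinearMap.mulRight B a) (Ideal.span {v} : Ideal B) with hI
    have hIm : ∀ t : B, t ∈ I ↔ t * a ∈ Ideal.span {v} := fun t => Iff.rfl
    by_cases hIt : I = ⊤
    · have : (1 : B) ∈ I := by rw [hIt]; trivial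
      rw [hIm, one_mul] at this
      exact this
    · obtain ⟨y, hy⟩ := KT661.exists_point_of_ne_top I hIt
      obtain ⟨t, ht1, ht2⟩ := step2 y
      exact absurd (hy t ((hIm t).mpr ht2)) ht1
  obtain ⟨b, rfl⟩ := Ideal.mem_span_singleton'.mp step3
  refine ⟨b, fun y => ?_⟩
  obtain ⟨C⟩ := Rd692.nonempty_chart z het y
  have h1 : ∃ᶠ ζ in 𝓝 (0 : Cn n), C.s ζ v ≠ 0 := by
    intro hz
    exact hv (Ord969.eq_zero_of_eventually C (Ord969.mI_le_of_unramified z y het) (by simpa using hz))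
  have h2 : ∃ᶠ ζ in 𝓝 (0 : Cn n), F (C.s ζ) = C.s ζ b := by
    refine h1.mono fun ζ hζ => ?_
    have h3 := step1 (C.s ζ)
    rw [map_mul] at h3
    exact mul_right_cancel₀ hζ h3
  have h4 := eq_of_frequently (φ1 := fun ζ => F (C.s ζ)) (φ2 := fun ζ => C.s ζ b)
      (hFan y C).continuousAt (Jet956.germ_analyticAt C b).continuousAt h2
  simpa [C.s_zero] using h4

/-- ALGEBRAICITY, general form -/
theorem alg_general [IsDomain B] [Algebra.FiniteType ℂ B]
    (het : RingHom.Etale ((MvPolynomial.aeval z : MvPolynomial (Fin n) ℂ →ₐ[ℂ] B) :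
      MvPolynomial (Fin n) ℂ →+* B)) {θ : B} {μ : Polynomial (MvPolynomial (Fin n) ℂ)}
    {g : MvPolynomial (Fin n) ℂ} (hD : FibData z θ μ g)
    (hgr : ∀ k, ∃ (A : ℝ) (K : ℕ), 0 ≤ A ∧ ∀ y : B →ₐ[ℂ] ℂ, ‖y ((qq z θ μ).coeff k)‖ ≤
      A * (1 + ∑ i, ‖y (z i)‖ ^ 2) ^ K)
    {F : (B →ₐ[ℂ] ℂ) → ℂ}
    (hFan : ∀ (y : B →ₐ[ℂ] ℂ) (C : Chart z y), AnalyticAt ℂ (fun ζ => F (C.s ζ)) 0)
    {u : B} (hu : u ≠ 0) (N M : ℕ)
    (hint : lintM z (fun y => ENNReal.ofReal
      (‖F y‖ ^ 2 * ‖y u‖ ^ (2 * N) / (1 + ∑ i, ‖y (z i)‖ ^ 2) ^ M)) < ∞) :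
    ∃ b : B, ∀ y : B →ₐ[ℂ] ℂ, F y = y b := by
  set G : (B →ₐ[ℂ] ℂ) → ℂ := fun y => F y * y u ^ N with hGdef
  have hGan : ∀ (y : B →ₐ[ℂ] ℂ) (C : Chart z y), AnalyticAt ℂ (fun ζ => G (C.s ζ)) 0 :=
    fun y C => (hFan y C).mul ((Jet956.germ_analyticAt C u).pow N)
  have hint' : lintM z (fun y => ENNReal.ofReal
      (‖G y‖ ^ 2 / (1 + ∑ i, ‖y (z i)‖ ^ 2) ^ M)) < ∞ := by
    have : (fun y : B →ₐ[ℂ] ℂ => ENNReal.ofReal
        (‖G y‖ ^ 2 / (1 + ∑ i, ‖y (z i)‖ ^ 2) ^ M)) = (fun y => ENNReal.ofReal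
        (‖F y‖ ^ 2 * ‖y u‖ ^ (2 * N) / (1 + ∑ i, ‖y (z i)‖ ^ 2) ^ M)) := by
      funext y
      congr 2
      rw [hGdef]
      simp only [norm_mul, norm_pow]
      ring
    rw [this]; exact hint
  have hP : ∀ k, ∃ P : MvPolynomial (Fin n) ℂ, ∀ ζ : Cn n, MvPolynomial.eval ζ g ≠ 0 →
      HH z θ μ g G k ζ = MvPolynomial.eval ζ P := by
    intro k
    obtain ⟨A, K, hA, hAK⟩ := hgr k
    exact HH_poly hD (Rd692.nonempty_chart z het) hGan k M hA hAK hint'
  choose P hP using hP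
  set a : B := ∑ k ∈ Finset.range ((qq z θ μ).natDegree + 1),
    MvPolynomial.aeval z (P k) * θ ^ k with ha
  refine end_game (a := a) het hFan hD.g_ne (v := u ^ N * dd z θ μ)
    (mul_ne_zero (pow_ne_zero _ hu) hD.der) ?_
  intro y hy
  have h1 := interp hD G hy y (fun _ => rfl)
  rw [ha, map_sum, map_mul, map_pow, ← mul_assoc]
  rw [show F y * y u ^ N = G y from rfl, h1]
  refine Finset.sum_congr rfl fun k _ => ?_
  rw [hP k _ hy, map_mul, map_pow, comp_aeval']

end Crest.Agent.R271.AlgC956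
end
end

-- ▼ part R271/AlgD_956
section

/-!
Row 271, G2 part 4 (helper956): growth of the coefficients; algebraicity from the existence of
fibre data.
-/

set_option autoImplicit false

open Topology Filter Asymptotics MeasureTheory
open scoped ENNReal
open Crest.Agent.R271.Defs710

noncomputable section

namespace Crest.Agent.R271.AlgD956

open Crest.Agent.R271.AlgB956 Crest.Agent.R271.AlgC956 Crest.Agent.R271.Alg255

variable {n : ℕ} {B : Type} [CommRing B] [Algebra ℂ B]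
variable {z : Fin n → B} {θ : B} {μ : Polynomial (MvPolynomial (Fin n) ℂ)}
  {g : MvPolynomial (Fin n) ℂ}

lemma PG_aeval (z : Fin n → B) (P : MvPolynomial (Fin n) ℂ) : PG z (MvPolynomial.aeval z P) := by
  apply PG.adjoin
  rw [Algebra.adjoin_range_eq_range_aeval]
  exact ⟨P, rfl⟩

lemma isIntegral_theta (hm : μ.Monic)
    (hr : Polynomial.eval₂ ((MvPolynomial.aeval z : MvPolynomial (Fin n) ℂ →ₐ[ℂ] B) :
      MvPolynomial (Fin n) ℂ →+* B) θ μ = 0) :
    IsIntegral (Algebra.adjoin ℂ (Set.range z)) θ := by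
  let φ : MvPolynomial (Fin n) ℂ →ₐ[ℂ] Algebra.adjoin ℂ (Set.range z) :=
    MvPolynomial.aeval (fun i => (⟨z i, Algebra.subset_adjoin ⟨i, rfl⟩⟩ :
      Algebra.adjoin ℂ (Set.range z)))
  have hφ : (algebraMap (Algebra.adjoin ℂ (Set.range z)) B).comp (φ : MvPolynomial (Fin n) ℂ →+* _) =
      ((MvPolynomial.aeval z : MvPolynomial (Fin n) ℂ →ₐ[ℂ] B) :
      MvPolynomial (Fin n) ℂ →+* B) := by
    apply MvPolynomial.ringHom_ext
    · intro r
      simp [φ]
    · intro i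
      simp [φ]
  refine ⟨μ.map (φ : MvPolynomial (Fin n) ℂ →+* _), hm.map _, ?_⟩
  rw [Polynomial.eval₂_map, hφ]
  exact hr

lemma PG_pow {b : B} (hb : PG z b) (k : ℕ) : PG z (b ^ k) := by
  induction k with
  | zero =>
    rw [pow_zero, ← map_one (algebraMap ℂ B)]
    exact PG.const z 1
  | succ k ih => rw [pow_succ]; exact ih.mul hb

lemma PG_sum {ι : Type*} (s : Finset ι) (f : ι → B) (h : ∀ i ∈ s, PG z (f i)) :
    PG z (∑ i ∈ s, f i) := by
  classical
  induction s using Finset.induction_on with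
  | empty =>
    rw [Finset.sum_empty, ← map_zero (algebraMap ℂ B)]
    exact PG.const z 0
  | insert a s ha ih =>
    rw [Finset.sum_insert ha]
    exact (h a (Finset.mem_insert_self _ _)).add
      (ih fun i hi => h i (Finset.mem_insert_of_mem hi))

lemma PG_coeff (hm : μ.Monic)
    (hr : Polynomial.eval₂ ((MvPolynomial.aeval z : MvPolynomial (Fin n) ℂ →ₐ[ℂ] B) :
      MvPolynomial (Fin n) ℂ →+* B) θ μ = 0) (k : ℕ) : PG z ((qq z θ μ).coeff k) := by
  rw [qq, Polynomial.coeff_divByMonic_X_sub_C]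
  refine PG_sum _ _ fun i _ => ?_
  refine PG.mul (PG_pow (growthI (isIntegral_theta hm hr)) _) ?_
  rw [muB, Polynomial.coeff_map]
  exact PG_aeval z _

/-- algebraicity from fibre data -/
theorem alg_of_fibData [IsDomain B] [Algebra.FiniteType ℂ B]
    (het : RingHom.Etale ((MvPolynomial.aeval z : MvPolynomial (Fin n) ℂ →ₐ[ℂ] B) :
      MvPolynomial (Fin n) ℂ →+* B)) (hD : FibData z θ μ g)
    {F : (B →ₐ[ℂ] ℂ) → ℂ}
    (hFan : ∀ (y : B →ₐ[ℂ] ℂ) (C : Chart z y), AnalyticAt ℂ (fun ζ => F (C.s ζ)) 0)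
    {u : B} (hu : u ≠ 0) (N M : ℕ)
    (hint : lintM z (fun y => ENNReal.ofReal
      (‖F y‖ ^ 2 * ‖y u‖ ^ (2 * N) / (1 + ∑ i, ‖y (z i)‖ ^ 2) ^ M)) < ∞) :
    ∃ b : B, ∀ y : B →ₐ[ℂ] ℂ, F y = y b := by
  refine alg_general het hD (fun k => ?_) hFan hu N M hint
  obtain ⟨C, K, hC, h⟩ := PG_coeff hD.monic hD.root k
  exact ⟨C, K, hC, h⟩

theorem algStmt_of (X : FCtx n) (hfib : ∃ θ μ g, FibData X.z θ μ g) : GSpec792.AlgStmt X := by
  obtain ⟨θ, μ, g, hD⟩ := hfib
  have := X.ft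
  intro F N M hF hint
  exact alg_of_fibData X.etale hD hF X.h_unit.ne_zero N M hint

end Crest.Agent.R271.AlgD956
end
end

-- ▼ part R271/AlgA_255

/-!
# Row 271, (A1): primitive element, fibres of `M → ℂⁿ` (helper255)
-/

set_option autoImplicit false

noncomputable section

open scoped BigOperators
open Polynomial

namespace Crest.Agent.R271.Alg255

section gen

variable (R B : Type) [CommRing R] [IsDomain R] [IsIntegrallyClosed R] [CharZero R]
  [CommRing B] [IsDomain B] [Algebra R B] [Module.IsTorsionFree R B] [Algebra.IsAlgebraic R B]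
  [Algebra.FiniteType R B]

theorem exists_theta : ∃ (θ : B) (g : R), g ≠ 0 ∧ IsIntegral R θ ∧
    aeval θ (derivative (minpoly R θ)) ≠ 0 ∧
    (∃ a b : R[X], a * minpoly R θ + b * derivative (minpoly R θ) = C g) ∧
    ∀ b : B, ∃ (k : ℕ) (q : R[X]), algebraMap R B (g ^ k) * b = aeval θ q := by
  let K := FractionRing R
  let L := FractionRing B
  let _ : Algebra K L := FractionRing.liftAlgebra R L
  have : IsScalarTower R K L := FractionRing.isScalarTower_liftAlgebra R L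
  have : Algebra.IsAlgebraic R L := (IsFractionRing.isAlgebraic_iff' R B L).1 inferInstance
  have : Algebra.IsAlgebraic K L := IsFractionRing.comap_isAlgebraic_iff (A := R).1 inferInstance
  have : Algebra.EssFiniteType R B := inferInstance
  have : Algebra.EssFiniteType B L := .of_isLocalization _ (nonZeroDivisors B)
  have : Algebra.EssFiniteType R L := .comp R B L
  have : Algebra.EssFiniteType K L := .of_comp R K L
  have : CharZero K := inferInstance
  have : FiniteDimensional K L := by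
    obtain ⟨s, hs⟩ := IntermediateField.fg_top K L
    have h1 : FiniteDimensional K (IntermediateField.adjoin K (s : Set L)) :=
      IntermediateField.finiteDimensional_adjoin fun x _ => Algebra.IsIntegral.isIntegral x
    rw [hs] at h1
    exact Module.Finite.equiv (IntermediateField.topEquiv (F := K) (E := L)).toLinearEquiv
  obtain ⟨α, hα⟩ := Field.exists_primitive_element K L
  have hinj : Function.Injective (algebraMap B L) := IsFractionRing.injective B L
  have hinjR : Function.Injective (algebraMap R B) := FaithfulSMul.algebraMap_injective R B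
  have hinjK : Function.Injective (algebraMap R K) := IsFractionRing.injective R K
  obtain ⟨b, c, hc, hbc⟩ := IsFractionRing.div_surjective (A := B) α
  have hc0 : c ≠ 0 := nonZeroDivisors.ne_zero hc
  obtain ⟨r, hr0, c', hc'⟩ := (Algebra.IsAlgebraic.isAlgebraic (R := R) c).exists_nonzero_dvd hc
  obtain ⟨y, hy0, hy⟩ := (Algebra.IsAlgebraic.isAlgebraic (R := R) (b * c')).exists_integral_multiple
  set θ : B := y • (b * c') with hθ
  have hcL : algebraMap B L c ≠ 0 := by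
    rw [Ne, map_eq_zero_iff _ hinj]; exact hc0
  have hθL : algebraMap B L θ = algebraMap R L (y * r) * α := by
    have e : algebraMap R L r = algebraMap B L c * algebraMap B L c' := by
      rw [IsScalarTower.algebraMap_apply R B L r, hc', map_mul]
    rw [hθ, Algebra.smul_def, map_mul, map_mul, ← hbc, map_mul, ← IsScalarTower.algebraMap_apply,
      e, div_eq_mul_inv]
    linear_combination (-(algebraMap R L y * algebraMap B L b * algebraMap B L c')) *
      (mul_inv_cancel₀ hcL)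
  have hyr : algebraMap R L (y * r) ≠ 0 := by
    rw [IsScalarTower.algebraMap_apply R B L, Ne, map_eq_zero_iff _ hinj, map_eq_zero_iff _ hinjR]
    exact mul_ne_zero hy0 hr0
  set t : L := algebraMap B L θ with ht
  have htop : IntermediateField.adjoin K {t} = ⊤ := by
    rw [eq_top_iff, ← hα, IntermediateField.adjoin_simple_le_iff]
    have h1 : α = (algebraMap K L (algebraMap R K (y * r)))⁻¹ * t := by
      rw [← IsScalarTower.algebraMap_apply, hθL, inv_mul_cancel_left₀ hyr]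
    rw [h1]
    exact mul_mem (inv_mem (IntermediateField.algebraMap_mem _ _))
      (IntermediateField.mem_adjoin_simple_self K t)
  have hμ : minpoly K t = (minpoly R θ).map (algebraMap R K) :=
    minpoly.isIntegrallyClosed_eq_field_fractions K L hy
  have hsep : (minpoly K t).Separable := Algebra.IsSeparable.isSeparable K t
  -- Bezout
  obtain ⟨a, b', hab⟩ := hsep
  obtain ⟨ra, hra', hra⟩ := IsLocalization.integerNormalization_spec (nonZeroDivisors R) a
  obtain ⟨rb, hrb', hrb⟩ := IsLocalization.integerNormalization_spec (nonZeroDivisors R) b'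
  have hra0 : (ra : R) ≠ 0 := nonZeroDivisors.ne_zero hra'
  have hrb0 : (rb : R) ≠ 0 := nonZeroDivisors.ne_zero hrb'
  set a0 := IsLocalization.integerNormalization (nonZeroDivisors R) a
  set b0 := IsLocalization.integerNormalization (nonZeroDivisors R) b'
  have hbez : (C (rb : R) * a0) * minpoly R θ + (C (ra : R) * b0) * derivative (minpoly R θ) =
      C ((ra : R) * rb) := by
    apply Polynomial.map_injective _ hinjK
    rw [Polynomial.map_add, Polynomial.map_mul, Polynomial.map_mul, Polynomial.map_mul,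
      Polynomial.map_mul, Polynomial.map_C, Polynomial.map_C, Polynomial.map_C,
      ← Polynomial.derivative_map, ← hμ, hra, hrb, map_mul, map_mul]
    have e1 : (ra : R) • a = C (algebraMap R K ra) * a := by
      rw [← Polynomial.smul_eq_C_mul, algebraMap_smul]
    have e2 : (rb : R) • b' = C (algebraMap R K rb) * b' := by
      rw [← Polynomial.smul_eq_C_mul, algebraMap_smul]
    rw [e1, e2]
    linear_combination (C (algebraMap R K ra) * C (algebraMap R K rb)) * hab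
  -- elements of `B`
  have hel : ∀ b : B, ∃ r : R, r ≠ 0 ∧ ∃ q : R[X], algebraMap R B r * b = aeval θ q := by
    intro b
    have h1 : algebraMap B L b ∈ Algebra.adjoin K {t} := by
      have h2 : (IntermediateField.adjoin K {t}).toSubalgebra = Algebra.adjoin K {t} :=
        IntermediateField.adjoin_simple_toSubalgebra_of_isAlgebraic
          (Algebra.IsAlgebraic.isAlgebraic t)
      rw [← h2, htop]
      trivial
    rw [Algebra.adjoin_singleton_eq_range_aeval] at h1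
    obtain ⟨q, hq⟩ := h1
    obtain ⟨rq, hrq', hrq⟩ := IsLocalization.integerNormalization_spec (nonZeroDivisors R) q
    refine ⟨rq, nonZeroDivisors.ne_zero hrq',
      IsLocalization.integerNormalization (nonZeroDivisors R) q, ?_⟩
    apply hinj
    rw [map_mul, ← Polynomial.aeval_algebraMap_apply, ← ht,
      ← Polynomial.aeval_map_algebraMap K, hrq, ← IsScalarTower.algebraMap_apply]
    have hq' : aeval t q = algebraMap B L b := hq
    rw [← hq', ← algebraMap_smul K (rq : R) q, map_smul, Algebra.smul_def,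
      ← IsScalarTower.algebraMap_apply]
  choose r hr0 q hq using hel
  obtain ⟨S, hS⟩ := Algebra.FiniteType.out (R := R) (A := B)
  set g2 : R := ∏ s ∈ S, r s with hg2
  have hg20 : g2 ≠ 0 := Finset.prod_ne_zero_iff.mpr fun s _ => hr0 s
  have hgen : ∀ b : B, ∃ (k : ℕ) (q : R[X]), algebraMap R B (g2 ^ k) * b = aeval θ q := by
    intro b
    have hb : b ∈ Algebra.adjoin R (S : Set B) := by rw [hS]; trivial
    induction hb using Algebra.adjoin_induction with
    | mem s hs =>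
      have h1 : r s ∣ g2 := Finset.dvd_prod_of_mem r hs
      obtain ⟨e, he⟩ := h1
      refine ⟨1, C e * q s, ?_⟩
      rw [pow_one, he, map_mul, map_mul, ← hq s, aeval_C]
      ring
    | algebraMap x =>
      refine ⟨0, C x, ?_⟩
      simp
    | add x y _ _ hx hy =>
      obtain ⟨k, q1, h1⟩ := hx
      obtain ⟨k', q2, h2⟩ := hy
      refine ⟨k + k', C (g2 ^ k') * q1 + C (g2 ^ k) * q2, ?_⟩
      rw [map_add, map_mul, map_mul, aeval_C, aeval_C, ← h1, ← h2, pow_add, map_mul]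
      ring
    | mul x y _ _ hx hy =>
      obtain ⟨k, q1, h1⟩ := hx
      obtain ⟨k', q2, h2⟩ := hy
      refine ⟨k + k', q1 * q2, ?_⟩
      rw [map_mul, ← h1, ← h2, pow_add, map_mul]
      ring
  refine ⟨θ, ((ra : R) * rb) * g2, mul_ne_zero (mul_ne_zero hra0 hrb0) hg20, hy, ?_,
    ⟨C g2 * (C (rb : R) * a0), C g2 * (C (ra : R) * b0), ?_⟩, fun b => ?_⟩
  · intro h0
    have h1 := congrArg (aeval θ) hbez
    rw [map_add, map_mul (aeval θ) (C (rb : R) * a0), map_mul (aeval θ) (C (ra : R) * b0),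
      minpoly.aeval, h0, mul_zero, mul_zero, add_zero, aeval_C] at h1
    have h2 : (ra : R) * rb = 0 := (map_eq_zero_iff _ hinjR).1 h1.symm
    exact mul_ne_zero hra0 hrb0 h2
  · calc C g2 * (C (rb : R) * a0) * minpoly R θ + C g2 * (C (ra : R) * b0) *
          derivative (minpoly R θ) = C g2 * ((C (rb : R) * a0) * minpoly R θ +
          (C (ra : R) * b0) * derivative (minpoly R θ)) := by ring
      _ = _ := by rw [hbez, ← C_mul, mul_comm]
  · obtain ⟨k, q', h1⟩ := hgen b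
    refine ⟨k, C (((ra : R) * rb) ^ k) * q', ?_⟩
    rw [mul_pow, map_mul, map_mul, aeval_C, ← h1]
    ring

end gen

section fib

variable {n : ℕ} {B : Type} [CommRing B] [IsDomain B] [Algebra ℂ B]

omit [IsDomain B] in
/-- Nullstellensatz -/
lemma exists_point [Algebra.FiniteType ℂ B] (I : Ideal B) (hI : I ≠ ⊤) :
    ∃ y : B →ₐ[ℂ] ℂ, ∀ b ∈ I, y b = 0 := by
  obtain ⟨m, hm, hIm⟩ := Ideal.exists_le_maximal I hI
  let _ := Ideal.Quotient.field m
  have h1 : Module.Finite ℂ (B ⧸ m) := finite_of_finite_type_of_isJacobsonRing ℂ (B ⧸ m)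
  have h2 : Algebra.IsAlgebraic ℂ (B ⧸ m) := inferInstance
  let f : (B ⧸ m) →ₐ[ℂ] ℂ := IsAlgClosed.lift
  refine ⟨f.comp (Ideal.Quotient.mkₐ ℂ m), fun b hb => ?_⟩
  have h3 : Ideal.Quotient.mkₐ ℂ m b = 0 := by
    rw [Ideal.Quotient.mkₐ_eq_mk]
    exact Ideal.Quotient.eq_zero_iff_mem.mpr (hIm hb)
  rw [AlgHom.comp_apply, h3, map_zero]

/-- the ring map `ℂ[z] → B` -/
abbrev az (z : Fin n → B) : MvPolynomial (Fin n) ℂ →+* B :=
  ((MvPolynomial.aeval z : MvPolynomial (Fin n) ℂ →ₐ[ℂ] B) : MvPolynomial (Fin n) ℂ →+* B)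

omit [IsDomain B] in
lemma apply_az (z : Fin n → B) (y : B →ₐ[ℂ] ℂ) (ζ : Fin n → ℂ) (hy : ∀ i, y (z i) = ζ i)
    (p : MvPolynomial (Fin n) ℂ) : y (az z p) = MvPolynomial.eval ζ p := by
  have h1 : y.comp (MvPolynomial.aeval z) = MvPolynomial.aeval ζ := by
    apply MvPolynomial.algHom_ext
    intro i
    simp [hy]
  have h2 := congrArg (fun f => f p) h1
  simpa [MvPolynomial.aeval_eq_eval] using h2

/-- **(A1)** general form -/
theorem A1_gen (z : Fin n → B) (hft : Algebra.FiniteType ℂ B)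
    (hinj : Function.Injective (az z))
    (halg : ∀ b : B, ∃ p : Polynomial (MvPolynomial (Fin n) ℂ), p ≠ 0 ∧
      Polynomial.eval₂ (az z) b p = 0) :
    ∃ (θ : B) (μ : Polynomial (MvPolynomial (Fin n) ℂ)) (g : MvPolynomial (Fin n) ℂ),
      μ.Monic ∧ g ≠ 0 ∧ Polynomial.eval₂ (az z) θ μ = 0 ∧
      Polynomial.eval₂ (az z) θ (derivative μ) ≠ 0 ∧
      ∀ ζ : Fin n → ℂ, MvPolynomial.eval ζ g ≠ 0 →
        (μ.map (MvPolynomial.eval ζ)).Separable ∧
        Set.BijOn (fun y : B →ₐ[ℂ] ℂ => y θ) {y | ∀ i, y (z i) = ζ i}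
          {t | (μ.map (MvPolynomial.eval ζ)).eval t = 0} := by
  let _ : Algebra (MvPolynomial (Fin n) ℂ) B := (az z).toAlgebra
  have hmap : algebraMap (MvPolynomial (Fin n) ℂ) B = az z := rfl
  have : IsScalarTower ℂ (MvPolynomial (Fin n) ℂ) B := by
    refine IsScalarTower.of_algebraMap_eq fun c => ?_
    rw [hmap, MvPolynomial.algebraMap_eq]
    simp [az]
  have : FaithfulSMul (MvPolynomial (Fin n) ℂ) B :=
    (faithfulSMul_iff_algebraMap_injective _ _).mpr hinj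
  have : Module.IsTorsionFree (MvPolynomial (Fin n) ℂ) B := inferInstance
  have : Algebra.IsAlgebraic (MvPolynomial (Fin n) ℂ) B := ⟨fun b => by
    obtain ⟨p, hp, hp0⟩ := halg b
    exact ⟨p, hp, hp0⟩⟩
  have : Algebra.FiniteType (MvPolynomial (Fin n) ℂ) B :=
    Algebra.FiniteType.of_restrictScalars_finiteType ℂ _ _
  obtain ⟨θ, g, hg, hθ, hder, ⟨a, b, hab⟩, hgen⟩ := exists_theta (MvPolynomial (Fin n) ℂ) B
  set μ := minpoly (MvPolynomial (Fin n) ℂ) θ with hμ
  have hμm : μ.Monic := minpoly.monic hθ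
  have hμ0 : Polynomial.eval₂ (az z) θ μ = 0 := minpoly.aeval _ θ
  have hpush : ∀ (y : B →ₐ[ℂ] ℂ) (ζ : Fin n → ℂ), (∀ i, y (z i) = ζ i) →
      ∀ q : Polynomial (MvPolynomial (Fin n) ℂ),
        y (aeval θ q) = (q.map (MvPolynomial.eval ζ)).eval (y θ) := by
    intro y ζ hy q
    have h1 : aeval θ q = Polynomial.eval₂ (az z) θ q := rfl
    rw [h1, Polynomial.eval_map]
    have h2 : y (Polynomial.eval₂ (az z) θ q) =
        Polynomial.eval₂ ((y : B →+* ℂ).comp (az z)) (y θ) q :=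
      Polynomial.hom_eval₂ q (az z) (y : B →+* ℂ) θ
    have h3 : (y : B →+* ℂ).comp (az z) = MvPolynomial.eval ζ :=
      RingHom.ext fun p => apply_az z y ζ hy p
    rw [h2, h3]
  refine ⟨θ, μ, g, hμm, hg, hμ0, hder, fun ζ hζ => ⟨?_, ?_, ?_, ?_⟩⟩
  · -- separable
    have h1 := congrArg (Polynomial.map (MvPolynomial.eval ζ)) hab
    rw [Polynomial.map_add, Polynomial.map_mul, Polynomial.map_mul, Polynomial.map_C,
      ← Polynomial.derivative_map] at h1
    refine ⟨C (MvPolynomial.eval ζ g)⁻¹ * a.map (MvPolynomial.eval ζ),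
      C (MvPolynomial.eval ζ g)⁻¹ * b.map (MvPolynomial.eval ζ), ?_⟩
    have h2 : C (MvPolynomial.eval ζ g)⁻¹ * C (MvPolynomial.eval ζ g) = (1 : Polynomial ℂ) := by
      rw [← C_mul, inv_mul_cancel₀ hζ, C_1]
    linear_combination (C (MvPolynomial.eval ζ g)⁻¹) * h1 + h2
  · -- maps to roots
    intro y hy
    have h1 := hpush y ζ hy μ
    have h2 : aeval θ μ = 0 := hμ0
    rw [h2, map_zero] at h1
    exact h1.symm
  · -- injective on fibres
    intro y hy y' hy' h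
    ext b
    obtain ⟨k, q, hq⟩ := hgen b
    have e1 := hpush y ζ hy q
    have e2 := hpush y' ζ hy' q
    rw [← hq, map_mul, hmap, apply_az z y ζ hy] at e1
    rw [← hq, map_mul, hmap, apply_az z y' ζ hy'] at e2
    have h' : y θ = y' θ := h
    rw [h', ← e2, map_pow] at e1
    exact mul_left_cancel₀ (pow_ne_zero k hζ) e1
  · -- surjective
    intro t ht
    have ht' : (μ.map (MvPolynomial.eval ζ)).eval t = 0 := ht
    -- evaluation on `ℂ[z][T]`
    let φ : Polynomial (MvPolynomial (Fin n) ℂ) →+* ℂ :=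
      Polynomial.eval₂RingHom (MvPolynomial.eval ζ) t
    have hφμ : φ μ = 0 := by
      rw [Polynomial.eval_map] at ht'
      exact ht'
    -- the ideal
    let I : Ideal B := Ideal.span (Set.range (fun i => z i - algebraMap ℂ B (ζ i)) ∪
      {θ - algebraMap ℂ B t})
    -- every element of `I` times a power of `g` comes from a polynomial killed by `φ`
    have hI : ∀ b ∈ I, ∃ (k : ℕ) (q : Polynomial (MvPolynomial (Fin n) ℂ)),
        algebraMap (MvPolynomial (Fin n) ℂ) B (g ^ k) * b = aeval θ q ∧ φ q = 0 := by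
      intro b hb
      induction hb using Submodule.span_induction with
      | mem x hx =>
        rcases hx with ⟨i, rfl⟩ | hx
        · refine ⟨0, C (MvPolynomial.X i - MvPolynomial.C (ζ i)), ?_, ?_⟩
          · rw [pow_zero, map_one, one_mul, aeval_C, hmap]
            simp [az]
          · simp [φ]
        · rw [Set.mem_singleton_iff] at hx
          refine ⟨0, X - C (MvPolynomial.C t), ?_, ?_⟩
          · rw [pow_zero, map_one, one_mul, hx, map_sub, aeval_X, aeval_C, hmap]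
            simp [az]
          · simp [φ]
      | zero => exact ⟨0, 0, by simp, by simp⟩
      | add x y _ _ hx hy =>
        obtain ⟨k, q1, h1, h1'⟩ := hx
        obtain ⟨k', q2, h2, h2'⟩ := hy
        refine ⟨k + k', C (g ^ k') * q1 + C (g ^ k) * q2, ?_, ?_⟩
        · rw [map_add, map_mul (aeval θ), map_mul (aeval θ), aeval_C, aeval_C, ← h1, ← h2,
            pow_add, map_mul]
          ring
        · rw [map_add, map_mul, map_mul, h1', h2', mul_zero, mul_zero, add_zero]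
      | smul a x _ hx =>
        obtain ⟨k, q1, h1, h1'⟩ := hx
        obtain ⟨k', q2, h2⟩ := hgen a
        refine ⟨k + k', q1 * q2, ?_, ?_⟩
        · rw [map_mul (aeval θ), ← h1, ← h2, pow_add, map_mul, smul_eq_mul]
          ring
        · rw [map_mul, h1', zero_mul]
    have hItop : I ≠ ⊤ := by
      intro htop
      obtain ⟨k, q, hq, hφq⟩ := hI 1 (by rw [htop]; trivial)
      rw [mul_one] at hq
      have h1 : aeval θ (C (g ^ k) - q) = 0 := by
        rw [map_sub, aeval_C, hq, sub_self]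
      have h2 : μ ∣ C (g ^ k) - q := minpoly.isIntegrallyClosed_dvd hθ h1
      obtain ⟨e, he⟩ := h2
      have h3 := congrArg φ he
      rw [map_mul, hφμ, zero_mul, map_sub, hφq, sub_zero] at h3
      have h4 : φ (C (g ^ k)) = (MvPolynomial.eval ζ g) ^ k := by
        rw [← map_pow]
        exact Polynomial.eval₂_C _ _
      rw [h4] at h3
      exact pow_ne_zero k hζ h3
    obtain ⟨y, hy⟩ := exists_point I hItop
    refine ⟨y, fun i => ?_, ?_⟩
    · have h1 := hy (z i - algebraMap ℂ B (ζ i)) (Ideal.subset_span (Or.inl ⟨i, rfl⟩))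
      rw [map_sub, AlgHom.commutes] at h1
      simpa [sub_eq_zero] using h1
    · have h1 := hy (θ - algebraMap ℂ B t) (Ideal.subset_span (Or.inr rfl))
      rw [map_sub, AlgHom.commutes] at h1
      simpa [sub_eq_zero] using h1

/-- `ℂ[z] → B` étale ⟹ injective -/
lemma az_injective {z : Fin n → B} (h : RingHom.Etale (az z)) : Function.Injective (az z) := by
  let _ : Algebra (MvPolynomial (Fin n) ℂ) B := (az z).toAlgebra
  have hE : Algebra.Etale (MvPolynomial (Fin n) ℂ) B := h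
  have hF : Module.Flat (MvPolynomial (Fin n) ℂ) B := inferInstance
  rw [injective_iff_map_eq_zero]
  intro p hp
  by_contra hp0
  have h2 : IsSMulRegular B p := Module.Flat.isSMulRegular_of_nonZeroDivisors
    (mem_nonZeroDivisors_of_ne_zero hp0)
  have h3 : p • (1 : B) = p • (0 : B) := by
    rw [smul_zero, Algebra.smul_def, mul_one]
    exact hp
  exact one_ne_zero (h2 h3)

end fib

section ctx

variable {n : ℕ} (X : Defs710.FCtx n)

lemma az_inj : Function.Injective (az X.z) := az_injective X.etale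

/-- every element of `B` is algebraic over `ℂ[z]` -/
lemma alg_over (b : X.B) : ∃ p : Polynomial (MvPolynomial (Fin n) ℂ), p ≠ 0 ∧
    Polynomial.eval₂ (az X.z) b p = 0 := by
  let _ : Algebra (MvPolynomial (Fin n) ℂ) X.B := (az X.z).toAlgebra
  have hint : ∀ a ∈ X.A, IsIntegral (MvPolynomial (Fin n) ℂ) a := by
    intro a ha
    obtain ⟨p, hp, hpa⟩ := X.A_int a ha
    have hr : ∀ c : Algebra.adjoin ℂ (Set.range X.z), ∃ q : MvPolynomial (Fin n) ℂ,
        az X.z q = c := by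
      rintro ⟨c, hc⟩
      rw [Algebra.adjoin_range_eq_range_aeval] at hc
      exact hc
    -- lift the polynomial
    let f : MvPolynomial (Fin n) ℂ →+* Algebra.adjoin ℂ (Set.range X.z) :=
      (az X.z).codRestrict (Algebra.adjoin ℂ (Set.range X.z)) (fun q => by
        rw [Algebra.adjoin_range_eq_range_aeval]
        exact ⟨q, rfl⟩)
    have hf : Function.Surjective f := by
      intro c
      obtain ⟨q, hq⟩ := hr c
      exact ⟨q, Subtype.ext hq⟩
    have hl : p ∈ Polynomial.lifts f := by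
      rw [Polynomial.lifts_iff_coeff_lifts]
      intro k
      exact hf _
    obtain ⟨q, hq, _, hqm⟩ := Polynomial.lifts_and_natDegree_eq_and_monic hl hp
    refine ⟨q, hqm, ?_⟩
    have h2 : algebraMap (MvPolynomial (Fin n) ℂ) X.B =
        (algebraMap (Algebra.adjoin ℂ (Set.range X.z)) X.B).comp f := rfl
    rw [h2, ← Polynomial.eval₂_map, hq]
    exact hpa
  obtain ⟨N, hN⟩ := X.h_loc b
  have h1 : IsAlgebraic (MvPolynomial (Fin n) ℂ) (X.h ^ N * b) := (hint _ hN).isAlgebraic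
  have h2 : IsAlgebraic (MvPolynomial (Fin n) ℂ) (X.h ^ N) :=
    ((hint _ X.h_mem).pow N).isAlgebraic
  have h3 : X.h ^ N ∈ nonZeroDivisors X.B :=
    mem_nonZeroDivisors_of_ne_zero (pow_ne_zero N X.h_unit.ne_zero)
  obtain ⟨p, hp, hp0⟩ := IsAlgebraic.of_mul h3 h2 h1
  exact ⟨p, hp, hp0⟩

/-- **(A1)** for the context; the root `θ` is integral over `ℂ[z]` -/
theorem A1 : ∃ (θ : X.B) (μ : Polynomial (MvPolynomial (Fin n) ℂ)) (g : MvPolynomial (Fin n) ℂ),
    μ.Monic ∧ g ≠ 0 ∧ Polynomial.eval₂ (az X.z) θ μ = 0 ∧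
    Polynomial.eval₂ (az X.z) θ (derivative μ) ≠ 0 ∧
    ∀ ζ : Fin n → ℂ, MvPolynomial.eval ζ g ≠ 0 →
      (μ.map (MvPolynomial.eval ζ)).Separable ∧
      Set.BijOn (fun y : X.B →ₐ[ℂ] ℂ => y θ) {y | ∀ i, y (X.z i) = ζ i}
        {t | (μ.map (MvPolynomial.eval ζ)).eval t = 0} :=
  A1_gen X.z X.ft (az_inj X) (alg_over X)

omit X in
/-- a root of a monic polynomial over `ℂ[z]` has polynomial growth -/
theorem growth_root {B : Type} [CommRing B] [Algebra ℂ B] {z : Fin n → B} {θ : B}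
    {μ : Polynomial (MvPolynomial (Fin n) ℂ)} (hμ : μ.Monic)
    (h0 : Polynomial.eval₂ (az z) θ μ = 0) : PG z θ := by
  apply growthI
  let f : MvPolynomial (Fin n) ℂ →+* Algebra.adjoin ℂ (Set.range z) :=
    (az z).codRestrict (Algebra.adjoin ℂ (Set.range z)) (fun q => by
      rw [Algebra.adjoin_range_eq_range_aeval]
      exact ⟨q, rfl⟩)
  refine ⟨μ.map f, hμ.map f, ?_⟩
  have h2 : az z = (algebraMap (Algebra.adjoin ℂ (Set.range z)) B).comp f := rfl
  rw [Polynomial.eval₂_map, ← h2]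
  exact h0

end ctx

end Crest.Agent.R271.Alg255
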