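import Mathlib

-- ▼ part R271/AF5a_785
section

/-!
Row 271, (AF5), one variable part: sublevel sets and local integrability of `|g|^{-2c}`,
uniformly, from a lower bound on divided differences.
-/

set_option autoImplicit false

open scoped ENNReal NNReal Topology BigOperators
open MeasureTheory

noncomputable section

namespace Crest.Agent.R271.AF5x785

/-- a set without `q+1` points of mutual distance `≥ r` is covered by `q` balls of radius `r` -/
theorem cover (q : ℕ) (r : ℝ) (hr : 0 < r) : ∀ (S : Set ℂ),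
    (∀ t : Fin (q + 1) → ℂ, (∀ i, t i ∈ S) → ∃ i j, i ≠ j ∧ dist (t i) (t j) < r) →
    ∃ T : Finset ℂ, T.card ≤ q ∧ S ⊆ ⋃ x ∈ T, Metric.ball x r := by
  induction q with
  | zero =>
    intro S h
    refine ⟨∅, by simp, ?_⟩
    intro x hx
    obtain ⟨i, j, hij, -⟩ := h (fun _ => x) (fun _ => hx)
    exact absurd (Fin.ext (by omega)) hij
  | succ q ih =>
    intro S h
    by_cases hS : ∃ x, x ∈ S
    · obtain ⟨x, hx⟩ := hS
      obtain ⟨T, hT, hST⟩ := ih (S \ Metric.ball x r) (by
        intro t ht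
        obtain ⟨i, j, hij, hd⟩ := h (Fin.cons x t) (by
          intro i
          refine Fin.cases ?_ ?_ i
          · simpa using hx
          · intro i; simpa using (ht i).1)
        revert hij hd
        refine Fin.cases ?_ ?_ i
        · refine Fin.cases ?_ ?_ j
          · intro hij; exact absurd rfl hij
          · intro j _ hd
            exfalso
            have := (ht j).2
            simp only [Fin.cons_zero, Fin.cons_succ, Metric.mem_ball] at hd this
            rw [dist_comm] at hd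
            exact this hd
        · intro i
          refine Fin.cases ?_ ?_ j
          · intro _ hd
            exfalso
            have := (ht i).2
            simp only [Fin.cons_zero, Fin.cons_succ, Metric.mem_ball] at hd this
            exact this hd
          · intro j hij hd
            exact ⟨i, j, fun h => hij (by rw [h]), by simpa using hd⟩)
      refine ⟨insert x T, (Finset.card_insert_le _ _).trans (by omega), ?_⟩
      intro y hy
      by_cases hyx : y ∈ Metric.ball x r
      · exact Set.mem_biUnion (Finset.mem_insert_self x T) hyx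
      · have := hST ⟨hy, hyx⟩
        obtain ⟨z, hz, hyz⟩ := Set.mem_iUnion₂.1 this
        exact Set.mem_biUnion (Finset.mem_insert_of_mem hz) hyz
    · push Not at hS
      refine ⟨∅, by simp, ?_⟩
      intro x hx
      exact absurd hx (hS x)

/-- divided difference -/
def dd {q : ℕ} (t : Fin (q + 1) → ℂ) (g : ℂ → ℂ) : ℂ :=
  ∑ i, Lagrange.nodalWeight Finset.univ t i * g (t i)

theorem norm_nodalWeight_le {q : ℕ} (t : Fin (q + 1) → ℂ) {r : ℝ} (hr : 0 < r)
    (h : ∀ i j, i ≠ j → r ≤ dist (t i) (t j)) (i : Fin (q + 1)) :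
    ‖Lagrange.nodalWeight Finset.univ t i‖ ≤ (r ^ q)⁻¹ := by
  unfold Lagrange.nodalWeight
  rw [norm_prod]
  calc ∏ j ∈ Finset.univ.erase i, ‖(t i - t j)⁻¹‖ ≤ ∏ j ∈ Finset.univ.erase i, r⁻¹ := by
        refine Finset.prod_le_prod (fun _ _ => norm_nonneg _) ?_
        intro j hj
        rw [norm_inv]
        refine inv_anti₀ hr ?_
        rw [← dist_eq_norm]
        exact h i j (Finset.ne_of_mem_erase hj).symm
    _ = (r ^ q)⁻¹ := by
        rw [Finset.prod_const, Finset.card_erase_of_mem (Finset.mem_univ i)]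
        simp

/-- sublevel sets -/
theorem sublevel {q : ℕ} (hq : 1 ≤ q) {α ρ ε : ℝ} (hα : 0 < α) (hε : 0 < ε) (g : ℂ → ℂ)
    (h : ∀ t : Fin (q + 1) → ℂ, (∀ i, ‖t i‖ < ρ) → Function.Injective t → α ≤ ‖dd t g‖) :
    volume {t : ℂ | ‖t‖ < ρ ∧ ‖g t‖ < ε} ≤
      ENNReal.ofReal (q * Real.pi * (2 * (q + 1) * ε / α) ^ ((2 : ℝ) / q)) := by
  set r : ℝ := (2 * (q + 1) * ε / α) ^ ((1 : ℝ) / q) with hrdef
  have hb : 0 < 2 * ((q : ℝ) + 1) * ε / α := by positivity
  have hr : 0 < r := Real.rpow_pos_of_pos hb _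
  have hq0 : (q : ℝ) ≠ 0 := by positivity
  have hrq : r ^ q = 2 * ((q : ℝ) + 1) * ε / α := by
    rw [hrdef, ← Real.rpow_natCast, ← Real.rpow_mul hb.le, one_div, inv_mul_cancel₀ hq0,
      Real.rpow_one]
  obtain ⟨T, hT, hST⟩ := cover q r hr {t : ℂ | ‖t‖ < ρ ∧ ‖g t‖ < ε} (by
    intro t ht
    by_contra hcon
    push Not at hcon
    have hinj : Function.Injective t := by
      intro i j hij
      by_contra hne
      have := hcon i j hne
      rw [hij, dist_self] at this
      linarith
    have h1 := h t (fun i => (ht i).1) hinj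
    have h2 : ‖dd t g‖ ≤ (q + 1) * ((r ^ q)⁻¹ * ε) := by
      unfold dd
      refine (norm_sum_le _ _).trans ?_
      have : ∀ i ∈ (Finset.univ : Finset (Fin (q + 1))),
          ‖Lagrange.nodalWeight Finset.univ t i * g (t i)‖ ≤ (r ^ q)⁻¹ * ε := by
        intro i _
        rw [norm_mul]
        refine mul_le_mul (norm_nodalWeight_le t hr hcon i) (ht i).2.le (norm_nonneg _)
          (by positivity)
      refine (Finset.sum_le_sum this).trans ?_
      simp
    have h3 : ((q : ℝ) + 1) * ((r ^ q)⁻¹ * ε) = α / 2 := by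
      rw [hrq]
      field_simp
    rw [h3] at h2
    linarith)
  calc volume {t : ℂ | ‖t‖ < ρ ∧ ‖g t‖ < ε} ≤ volume (⋃ x ∈ T, Metric.ball x r) :=
        measure_mono hST
    _ ≤ ∑ x ∈ T, volume (Metric.ball x r) := measure_biUnion_finset_le _ _
    _ = T.card • (ENNReal.ofReal r ^ 2 * NNReal.pi) := by
        rw [Finset.sum_congr rfl (fun x _ => Complex.volume_ball x r), Finset.sum_const]
    _ ≤ q • (ENNReal.ofReal r ^ 2 * NNReal.pi) := by
        exact nsmul_le_nsmul_left (by positivity) hT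
    _ = ENNReal.ofReal (q * Real.pi * (2 * (q + 1) * ε / α) ^ ((2 : ℝ) / q)) := by
        have h4 : (2 * ((q : ℝ) + 1) * ε / α) ^ ((2 : ℝ) / q) = r ^ 2 := by
          rw [hrdef, ← Real.rpow_natCast, ← Real.rpow_mul hb.le]
          congr 1
          push_cast
          ring
        have h5 : (NNReal.pi : ℝ≥0∞) = ENNReal.ofReal Real.pi := by
          rw [ENNReal.ofReal, ← NNReal.coe_real_pi, Real.toNNReal_coe]
        rw [h4, nsmul_eq_mul, h5, ← ENNReal.ofReal_pow hr.le, ← ENNReal.ofReal_mul (by positivity),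
          ← ENNReal.ofReal_natCast, ← ENNReal.ofReal_mul (by positivity)]
        congr 1
        ring

/-- pointwise dyadic majorant -/
theorem dyadic {u c : ℝ} (hu : 0 ≤ u) (hc : 0 ≤ c) :
    (ENNReal.ofReal (u ^ 2)) ^ (-c) ≤
      1 + ∑' k : ℕ, (if u < 2 * (1 / 2) ^ k then
        ENNReal.ofReal ((2 : ℝ) ^ (2 * c * (k + 1))) else 0) := by
  rcases eq_or_lt_of_le hu with h0 | h0
  · -- u = 0
    subst h0
    have : ∑' k : ℕ, (if (0 : ℝ) < 2 * (1 / 2) ^ k then
        ENNReal.ofReal ((2 : ℝ) ^ (2 * c * (k + 1))) else 0) = ∞ := by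
      rw [eq_top_iff, ← ENNReal.tsum_const_eq_top_of_ne_zero (α := ℕ) one_ne_zero]
      refine ENNReal.tsum_le_tsum ?_
      intro k
      rw [if_pos (by positivity)]
      rw [← ENNReal.ofReal_one]
      refine ENNReal.ofReal_le_ofReal ?_
      exact Real.one_le_rpow (by norm_num) (by positivity)
    rw [this]
    simp
  · by_cases h1 : 1 ≤ u
    · refine le_trans ?_ le_self_add
      rcases eq_or_lt_of_le hc with hc0 | hc0
      · rw [← hc0]; simp
      · refine ENNReal.rpow_le_one_of_one_le_of_neg ?_ (by linarith)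
        rw [← ENNReal.ofReal_one]
        exact ENNReal.ofReal_le_ofReal (by nlinarith)
    · push Not at h1
      obtain ⟨k, hk1, hk2⟩ := exists_nat_pow_near_of_lt_one h0 h1.le
        (show (0 : ℝ) < 1 / 2 by norm_num) (by norm_num)
      refine le_trans ?_ le_add_self
      refine le_trans ?_ (ENNReal.le_tsum k)
      rw [if_pos (by nlinarith [pow_pos (show (0 : ℝ) < 1 / 2 by norm_num) k])]
      rw [ENNReal.ofReal_rpow_of_pos (by positivity)]
      refine ENNReal.ofReal_le_ofReal ?_
      have h2 : (2 : ℝ) ^ (2 * c * (k + 1)) = (((1 / 2 : ℝ) ^ (k + 1)) ^ 2) ^ (-c) := by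
        rw [← pow_mul, ← Real.rpow_natCast, ← Real.rpow_mul (by norm_num), one_div,
          Real.inv_rpow (by norm_num), ← Real.rpow_neg (by norm_num)]
        congr 1
        push_cast
        ring
      rw [h2]
      refine Real.rpow_le_rpow_of_nonpos (by positivity) ?_ (by linarith)
      exact pow_le_pow_left₀ (by positivity) hk1.le 2

/-- the one variable integral bound -/
theorem lint_one (q : ℕ) (hq : 1 ≤ q) {α ρ c : ℝ} (hα : 0 < α) (hc : 0 ≤ c) (hcq : c * q < 1) :
    ∃ C : ℝ≥0∞, C < ∞ ∧ ∀ g : ℂ → ℂ, Measurable g →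
    (∀ t : Fin (q + 1) → ℂ, (∀ i, ‖t i‖ < ρ) → Function.Injective t → α ≤ ‖dd t g‖) →
    ∫⁻ t in Metric.ball (0 : ℂ) ρ, (ENNReal.ofReal (‖g t‖ ^ 2)) ^ (-c) ≤ C := by
  have hq0 : (0 : ℝ) < q := by positivity
  set K : ℝ := q * Real.pi * (4 * (q + 1) / α) ^ ((2 : ℝ) / q) * 2 ^ (2 * c) with hK
  have hK0 : 0 ≤ K := by positivity
  set b : ℝ := (2 : ℝ) ^ (2 * c - 2 / q) with hb
  have hb0 : 0 ≤ b := by positivity
  have hb1 : b < 1 := by
    refine Real.rpow_lt_one_of_one_lt_of_neg (by norm_num) ?_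
    have : c < 1 / q := by rwa [lt_div_iff₀ hq0]
    have h2 : (2 : ℝ) / q = 2 * (1 / q) := by ring
    rw [h2]; linarith
  refine ⟨volume (Metric.ball (0 : ℂ) ρ) + ∑' k : ℕ, ENNReal.ofReal (K * b ^ k), ?_, ?_⟩
  · refine ENNReal.add_lt_top.2 ⟨measure_ball_lt_top, ?_⟩
    have hs : Summable fun k : ℕ => K * b ^ k :=
      (summable_geometric_of_lt_one hb0 hb1).mul_left K
    rw [← ENNReal.ofReal_tsum_of_nonneg (fun k => by positivity) hs]
    exact ENNReal.ofReal_lt_top
  · intro g hg h
    calc ∫⁻ t in Metric.ball (0 : ℂ) ρ, (ENNReal.ofReal (‖g t‖ ^ 2)) ^ (-c)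
        ≤ ∫⁻ t in Metric.ball (0 : ℂ) ρ, (1 + ∑' k : ℕ, (if ‖g t‖ < 2 * (1 / 2) ^ k then
          ENNReal.ofReal ((2 : ℝ) ^ (2 * c * (k + 1))) else 0)) :=
          lintegral_mono (fun t => dyadic (norm_nonneg _) hc)
      _ = volume (Metric.ball (0 : ℂ) ρ) + ∑' k : ℕ, ENNReal.ofReal ((2 : ℝ) ^ (2 * c * (k + 1))) *
          volume {t : ℂ | ‖t‖ < ρ ∧ ‖g t‖ < 2 * (1 / 2) ^ k} := by
          have hm : ∀ k : ℕ, MeasurableSet {t : ℂ | ‖g t‖ < 2 * (1 / 2) ^ k} := fun k =>
            measurableSet_lt hg.norm measurable_const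
          have hm2 : ∀ k : ℕ, Measurable fun t : ℂ => (if ‖g t‖ < 2 * (1 / 2) ^ k then
            ENNReal.ofReal ((2 : ℝ) ^ (2 * c * (k + 1))) else 0) := fun k =>
            Measurable.ite (hm k) measurable_const measurable_const
          rw [lintegral_add_left measurable_const, setLIntegral_one,
            lintegral_tsum (fun k => (hm2 k).aemeasurable)]
          congr 1
          refine tsum_congr fun k => ?_
          have : (fun t : ℂ => (if ‖g t‖ < 2 * (1 / 2) ^ k then
            ENNReal.ofReal ((2 : ℝ) ^ (2 * c * (k + 1))) else 0)) =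
            Set.indicator {t : ℂ | ‖g t‖ < 2 * (1 / 2) ^ k}
              (fun _ => ENNReal.ofReal ((2 : ℝ) ^ (2 * c * (k + 1)))) := by
            ext t; simp [Set.indicator_apply]
          rw [this, lintegral_indicator_const (hm k), Measure.restrict_apply (hm k)]
          congr 2
          ext t
          simp [and_comm]
      _ ≤ volume (Metric.ball (0 : ℂ) ρ) + ∑' k : ℕ, ENNReal.ofReal (K * b ^ k) := by
          refine add_le_add le_rfl (ENNReal.tsum_le_tsum fun k => ?_)
          have h1 := sublevel hq hα (show 0 < 2 * (1 / 2 : ℝ) ^ k by positivity) g h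
          refine (mul_le_mul' le_rfl h1).trans ?_
          rw [← ENNReal.ofReal_mul (by positivity)]
          refine ENNReal.ofReal_le_ofReal (le_of_eq ?_)
          have h3 : 2 * ((q : ℝ) + 1) * (2 * (1 / 2) ^ k) / α =
              (4 * (q + 1) / α) * (1 / 2) ^ k := by ring
          rw [h3, Real.mul_rpow (by positivity) (by positivity), hK, hb]
          have h4 : ((1 / 2 : ℝ) ^ k) ^ ((2 : ℝ) / q) = (2 : ℝ) ^ (-(2 / q * k) : ℝ) := by
            rw [← Real.rpow_natCast, ← Real.rpow_mul (by norm_num), one_div,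
              Real.inv_rpow (by norm_num), ← Real.rpow_neg (by norm_num)]
            congr 1
            ring
          have h5 : ((2 : ℝ) ^ (2 * c - 2 / q)) ^ k = (2 : ℝ) ^ (2 * c * k - 2 / q * k) := by
            rw [← Real.rpow_natCast, ← Real.rpow_mul (by norm_num)]
            congr 1
            ring
          rw [h4, h5]
          have h6 : (2 : ℝ) ^ (2 * c * (k + 1)) = 2 ^ (2 * c * k) * 2 ^ (2 * c) := by
            rw [← Real.rpow_add (by norm_num)]
            congr 1
            ring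
          have h7 : (2 : ℝ) ^ (2 * c * k - 2 / q * k) = 2 ^ (2 * c * k) * 2 ^ (-(2 / q * k) : ℝ) := by
            rw [← Real.rpow_add (by norm_num)]
            congr 1
          rw [h6, h7]
          ring

end Crest.Agent.R271.AF5x785
end
end

-- ▼ part R271/AF5_785

/-!
Row 271, (AF5), flat form: if `f` is analytic at `a ∈ ℂⁿ` and is not `O(‖z - a‖^{e+1})` then
`|f|^{-2c}` is integrable near `a` for `0 ≤ c`, `c e < 1`.
-/

set_option autoImplicit false

open scoped ENNReal NNReal Topology BigOperators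
open MeasureTheory Metric

noncomputable section

namespace Crest.Agent.R271.AF5x785

theorem sum_nodal {q : ℕ} (t : Fin (q + 1) → ℂ) (ht : Function.Injective t) (x : ℂ)
    (hx : ∀ i, x ≠ t i) :
    ∑ i, Lagrange.nodalWeight Finset.univ t i * (x - t i)⁻¹ = (∏ i, (x - t i))⁻¹ := by
  have h1 := Lagrange.eval_interpolate_not_at_node (s := Finset.univ) (v := t) (x := x)
    (1 : Fin (q + 1) → ℂ) (fun i _ => hx i)
  rw [Lagrange.interpolate_one ht.injOn Finset.univ_nonempty, Polynomial.eval_one,
    Lagrange.eval_nodal] at h1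
  have h2 : ∏ i, (x - t i) ≠ 0 := Finset.prod_ne_zero_iff.2 fun i _ => sub_ne_zero.2 (hx i)
  simp only [Pi.one_apply, mul_one] at h1
  rw [eq_comm, inv_eq_of_mul_eq_one_right h1.symm]

theorem dd_eq {q : ℕ} (t : Fin (q + 1) → ℂ) (ht : Function.Injective t) (ht1 : ∀ i, ‖t i‖ < 1)
    (g : ℂ → ℂ) (hg : DifferentiableOn ℂ g (closedBall 0 1)) :
    (2 * Real.pi * Complex.I) * dd t g = ∮ z in C(0, 1), (∏ i, (z - t i))⁻¹ * g z := by
  have hne : ∀ i, ∀ z ∈ sphere (0 : ℂ) 1, z ≠ t i := by
    intro i z hz h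
    rw [mem_sphere_zero_iff_norm, h] at hz
    exact absurd hz (ht1 i).ne
  have hci : ∀ i, ContinuousOn (fun z => (z - t i)⁻¹ * g z) (sphere 0 1) := by
    intro i
    refine ContinuousOn.mul ?_ (hg.continuousOn.mono sphere_subset_closedBall)
    exact ContinuousOn.inv₀ (by fun_prop) (fun z hz => sub_ne_zero.2 (hne i z hz))
  unfold dd
  rw [Finset.mul_sum]
  have h1 : ∀ i, (2 * Real.pi * Complex.I) * (Lagrange.nodalWeight Finset.univ t i * g (t i)) =
      ∮ z in C(0, 1), Lagrange.nodalWeight Finset.univ t i * ((z - t i)⁻¹ * g z) := by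
    intro i
    rw [circleIntegral.integral_const_mul]
    have := hg.circleIntegral_sub_inv_smul (w := t i) (by simpa using ht1 i)
    simp only [smul_eq_mul] at this
    rw [this]
    ring
  rw [Finset.sum_congr rfl (fun i _ => h1 i), ← circleIntegral.integral_fun_sum]
  · refine circleIntegral.integral_congr (by norm_num) ?_
    intro z hz
    simp only
    rw [← sum_nodal t ht z (fun i => hne i z hz), Finset.sum_mul]
    refine Finset.sum_congr rfl fun i _ => by ring
  · intro i _
    exact ContinuousOn.circleIntegrable (by norm_num) (continuousOn_const.mul (hci i))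

/-- the parametrised Cauchy integral -/
def Phi {n : ℕ} (f : (Fin n → ℂ) → ℂ) (v : Fin n → ℂ) (q : ℕ)
    (p : (Fin n → ℂ) × (Fin (q + 1) → ℂ)) : ℂ :=
  ∮ z in C(0, 1), (∏ i, (z - p.2 i))⁻¹ * f (p.1 + z • v)

theorem continuousAt_Phi {n : ℕ} {f : (Fin n → ℂ) → ℂ} {r : ℝ} (hr : 0 < r)
    (hf : ContinuousOn f (ball 0 (2 * r))) {v : Fin n → ℂ} (hv : ‖v‖ ≤ r / 2) (q : ℕ) :
    ContinuousAt (Phi f v q) (0, 0) := by
  obtain ⟨M, hM⟩ := (isCompact_closedBall (0 : Fin n → ℂ) r).exists_bound_of_continuousOn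
    (hf.mono (closedBall_subset_ball (by linarith)))
  have hM0 : 0 ≤ M := (norm_nonneg _).trans (hM 0 (by simp [hr.le]))
  have hmem : ∀ z : ℂ, ‖z‖ = 1 → ∀ x : Fin n → ℂ, ‖x‖ < r / 2 → x + z • v ∈ ball (0 : Fin n → ℂ) r := by
    intro z hz x hx
    rw [mem_ball_zero_iff]
    calc ‖x + z • v‖ ≤ ‖x‖ + ‖z • v‖ := norm_add_le _ _
      _ = ‖x‖ + ‖v‖ := by rw [norm_smul, hz, one_mul]
      _ < r := by linarith
  have hcm : ∀ θ : ℝ, ‖circleMap 0 1 θ‖ = 1 := by
    intro θ; simp [circleMap]
  have hev : ∀ᶠ p : (Fin n → ℂ) × (Fin (q + 1) → ℂ) in 𝓝 (0, 0), ‖p.1‖ < r / 2 ∧ ‖p.2‖ < 1 / 2 := by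
    have h1 : ∀ᶠ p : (Fin n → ℂ) × (Fin (q + 1) → ℂ) in 𝓝 (0, 0), ‖p.1‖ < r / 2 := by
      have : ContinuousAt (fun p : (Fin n → ℂ) × (Fin (q + 1) → ℂ) => ‖p.1‖) (0, 0) := by fun_prop
      exact this.eventually_lt continuousAt_const (by simpa using by positivity)
    have h2 : ∀ᶠ p : (Fin n → ℂ) × (Fin (q + 1) → ℂ) in 𝓝 (0, 0), ‖p.2‖ < 1 / 2 := by
      have : ContinuousAt (fun p : (Fin n → ℂ) × (Fin (q + 1) → ℂ) => ‖p.2‖) (0, 0) := by fun_prop
      exact this.eventually_lt continuousAt_const (by simp)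
    exact h1.and h2
  have hlow : ∀ (p2 : Fin (q + 1) → ℂ), ‖p2‖ < 1 / 2 → ∀ z : ℂ, ‖z‖ = 1 → ∀ i, 1 / 2 ≤ ‖z - p2 i‖ := by
    intro p2 hp2 z hz i
    have h1 := norm_sub_norm_le z (p2 i)
    have h2 := norm_le_pi_norm p2 i
    linarith
  have hdc : Continuous (fun θ => deriv (circleMap 0 1) θ) := by
    simp only [deriv_circleMap]
    fun_prop
  unfold Phi circleIntegral
  refine intervalIntegral.continuousAt_of_dominated_interval (bound := fun _ => 2 ^ (q + 1) * M)
    ?_ ?_ intervalIntegrable_const ?_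
  · filter_upwards [hev] with p hp
    refine ContinuousOn.aestronglyMeasurable ?_ measurableSet_uIoc
    refine ContinuousOn.smul hdc.continuousOn ?_
    refine ContinuousOn.mul ?_ ?_
    · refine ContinuousOn.inv₀ (by fun_prop) ?_
      intro θ _
      refine Finset.prod_ne_zero_iff.2 fun i _ => ?_
      have := hlow p.2 hp.2 _ (hcm θ) i
      intro h0
      rw [h0, norm_zero] at this
      linarith
    · refine hf.comp (by fun_prop) ?_
      intro θ _
      exact ball_subset_ball (by linarith) (hmem _ (hcm θ) _ hp.1)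
  · filter_upwards [hev] with p hp
    refine Filter.Eventually.of_forall fun θ _ => ?_
    rw [norm_smul, norm_mul, norm_inv, norm_prod]
    have h1 : ‖deriv (circleMap 0 1) θ‖ = 1 := by simp [deriv_circleMap, circleMap]
    rw [h1, one_mul]
    refine mul_le_mul ?_ (hM _ (ball_subset_closedBall (hmem _ (hcm θ) _ hp.1))) (norm_nonneg _)
      (by positivity)
    rw [← Finset.prod_inv_distrib]
    calc ∏ i, ‖circleMap 0 1 θ - p.2 i‖⁻¹ ≤ ∏ _i : Fin (q + 1), (2 : ℝ) := by
          refine Finset.prod_le_prod (fun _ _ => by positivity) ?_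
          intro i _
          have := hlow p.2 hp.2 _ (hcm θ) i
          calc ‖circleMap 0 1 θ - p.2 i‖⁻¹ ≤ (1 / 2)⁻¹ := inv_anti₀ (by norm_num) this
            _ = 2 := by norm_num
      _ = 2 ^ (q + 1) := by simp
  · refine Filter.Eventually.of_forall fun θ _ => ?_
    refine ContinuousAt.smul (f := fun _ => deriv (circleMap 0 1) θ) continuousAt_const ?_
    refine ContinuousAt.mul ?_ ?_
    · refine ContinuousAt.inv₀ (by fun_prop) ?_
      refine Finset.prod_ne_zero_iff.2 fun i _ => ?_
      have := hlow 0 (by simp) _ (hcm θ) i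
      intro h0
      simp only at h0
      rw [h0, norm_zero] at this
      linarith
    · have h1 : (0 : Fin n → ℂ) + circleMap 0 1 θ • v ∈ ball (0 : Fin n → ℂ) (2 * r) :=
        ball_subset_ball (by linarith) (hmem _ (hcm θ) 0 (by simpa using by positivity))
      have h2 : ContinuousAt f ((0 : Fin n → ℂ) + circleMap 0 1 θ • v) :=
        hf.continuousAt (isOpen_ball.mem_nhds h1)
      exact ContinuousAt.comp (f := fun p : (Fin n → ℂ) × (Fin (q + 1) → ℂ) =>
        p.1 + circleMap 0 1 θ • v) h2 (by fun_prop)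

/-- a polynomial direction: if `f` is not `O(‖z‖^{e+1})` then some Taylor coefficient of order
`q ≤ e` along a small vector `v` is non-zero -/
theorem exists_dir {n : ℕ} {f : (Fin n → ℂ) → ℂ} {e : ℕ} {r : ℝ} (hr : 0 < r)
    (hf : AnalyticOnNhd ℂ f (ball 0 (2 * r)))
    (he : ¬ f =O[𝓝 0] fun z => ‖z‖ ^ (e + 1)) :
    ∃ q ≤ e, ∃ v : Fin n → ℂ, ‖v‖ ≤ r / 2 ∧ Phi f v q (0, 0) ≠ 0 := by
  obtain ⟨p, hp⟩ := hf 0 (by simpa using hr)
  have h1 : ∃ q ≤ e, ∃ z : Fin n → ℂ, p q (fun _ => z) ≠ 0 := by
    by_contra hcon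
    push Not at hcon
    apply he
    have h2 := hp.isBigO_sub_partialSum_pow (e + 1)
    refine h2.congr_left ?_
    intro z
    have : p.partialSum (e + 1) z = 0 := by
      unfold FormalMultilinearSeries.partialSum
      refine Finset.sum_eq_zero fun k hk => ?_
      exact hcon k (by have := Finset.mem_range.1 hk; omega) z
    rw [this, zero_add, sub_zero]
  obtain ⟨q, hq, z, hz⟩ := h1
  refine ⟨q, hq, ((r / 2 / (‖z‖ + 1) : ℝ) : ℂ) • z, ?_, ?_⟩
  · rw [norm_smul, Complex.norm_real, Real.norm_of_nonneg (by positivity)]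
    rw [div_mul_eq_mul_div, div_le_iff₀ (by positivity)]
    nlinarith [norm_nonneg z]
  · set s : ℂ := ((r / 2 / (‖z‖ + 1) : ℝ) : ℂ) with hs
    have hs0 : s ≠ 0 := by
      rw [hs]
      have : r / 2 / (‖z‖ + 1) ≠ 0 := by positivity
      exact_mod_cast this
    set v := s • z with hv
    have hvn : ‖v‖ ≤ r / 2 := by
      rw [hv, norm_smul, hs, Complex.norm_real, Real.norm_of_nonneg (by positivity)]
      rw [div_mul_eq_mul_div, div_le_iff₀ (by positivity)]
      nlinarith [norm_nonneg z]
    let u : ℂ →L[ℂ] (Fin n → ℂ) := ContinuousLinearMap.toSpanSingleton ℂ v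
    have hu : ∀ w : ℂ, u w = w • v := fun w => by simp [u, ContinuousLinearMap.toSpanSingleton_apply]
    have hA : HasFPowerSeriesAt (f ∘ u) (p.compContinuousLinearMap u) 0 := by
      refine HasFPowerSeriesAt.compContinuousLinearMap ?_
      rw [map_zero]; exact hp
    have hd : DifferentiableOn ℂ (f ∘ u) (closedBall 0 1) := by
      intro w hw
      refine DifferentiableAt.differentiableWithinAt ?_
      refine DifferentiableAt.comp w (hf (u w) ?_).differentiableAt u.differentiableAt
      rw [hu, mem_ball_zero_iff, norm_smul]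
      have : ‖w‖ ≤ 1 := by simpa using hw
      nlinarith [norm_nonneg v]
    have hB : HasFPowerSeriesAt (f ∘ u) (cauchyPowerSeries (f ∘ u) 0 1) 0 := by
      have := DifferentiableOn.hasFPowerSeriesOnBall (R := 1) (c := 0) (f := f ∘ u)
        (by simpa using hd) (by norm_num)
      exact this.hasFPowerSeriesAt
    have hAB := hA.eq_formalMultilinearSeries hB
    have h3 : (p.compContinuousLinearMap u) q (fun _ => (1 : ℂ)) = s ^ q * p q (fun _ => z) := by
      rw [FormalMultilinearSeries.compContinuousLinearMap_apply]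
      have : (u ∘ fun _ : Fin q => (1 : ℂ)) = fun _ => s • z := by
        ext i
        simp [hu, hv]
      rw [this]
      have := (p q).map_smul_univ (fun _ => s) (fun _ => z)
      simp only [Finset.prod_const, Finset.card_univ, Fintype.card_fin, smul_eq_mul] at this
      exact this
    rw [hAB, cauchyPowerSeries_apply] at h3
    intro h0
    have h4 : (∮ w in C(0, 1), (1 / (w - 0)) ^ q • (w - 0)⁻¹ • (f ∘ u) w) = 0 := by
      refine Eq.trans ?_ h0
      unfold Phi
      apply circleIntegral.integral_congr zero_le_one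
      intro w hw
      simp only [sub_zero, Pi.zero_apply, Finset.prod_const, Finset.card_univ, Fintype.card_fin,
        smul_eq_mul, Function.comp, hu, zero_add]
      rw [pow_succ, mul_inv, one_div, inv_pow]
      ring
    rw [h4, smul_zero] at h3
    exact mul_ne_zero (pow_ne_zero _ hs0) hz h3.symm

/-- (AF5), at the origin -/
theorem af5_zero {n : ℕ} {f : (Fin n → ℂ) → ℂ} {e : ℕ} (hf : AnalyticAt ℂ f 0)
    (he : ¬ f =O[𝓝 0] fun z => ‖z‖ ^ (e + 1)) {c : ℝ} (hc : 0 ≤ c) (hce : c * e < 1) :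
    ∃ U ∈ 𝓝 (0 : Fin n → ℂ), ∫⁻ ζ in U, (ENNReal.ofReal (‖f ζ‖ ^ 2)) ^ (-c) < ∞ := by
  by_cases h0 : f 0 = 0
  swap
  · -- non-vanishing case
    have h1 : ∀ᶠ ζ in 𝓝 (0 : Fin n → ℂ), ‖f 0‖ / 2 < ‖f ζ‖ := by
      refine Filter.Tendsto.eventually_const_lt ?_ hf.continuousAt.norm.tendsto
      have := norm_pos_iff.2 h0
      linarith
    obtain ⟨δ, hδ, hball⟩ := Metric.eventually_nhds_iff_ball.1 h1
    refine ⟨ball 0 δ, ball_mem_nhds _ hδ, ?_⟩
    have h2 : ∀ ζ ∈ ball (0 : Fin n → ℂ) δ, (ENNReal.ofReal (‖f ζ‖ ^ 2)) ^ (-c) ≤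
        (ENNReal.ofReal ((‖f 0‖ / 2) ^ 2)) ^ (-c) := by
      intro ζ hζ
      rw [ENNReal.rpow_neg, ENNReal.rpow_neg]
      refine ENNReal.inv_le_inv.2 (ENNReal.rpow_le_rpow ?_ hc)
      refine ENNReal.ofReal_le_ofReal ?_
      exact pow_le_pow_left₀ (by positivity) (hball ζ hζ).le 2
    refine (setLIntegral_mono' measurableSet_ball h2).trans_lt ?_
    rw [setLIntegral_const]
    refine ENNReal.mul_lt_top ?_ measure_ball_lt_top
    have h3 : ENNReal.ofReal ((‖f 0‖ / 2) ^ 2) ≠ 0 := by
      have := norm_pos_iff.2 h0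
      simp only [ne_eq, ENNReal.ofReal_eq_zero, not_le]
      positivity
    rw [lt_top_iff_ne_top]
    exact ENNReal.rpow_ne_top_of_ne_zero h3 ENNReal.ofReal_ne_top
  · obtain ⟨r', hr', hA⟩ := hf.exists_ball_analyticOnNhd
    set r := r' / 2 with hrdef
    have hr : 0 < r := by positivity
    have hA' : AnalyticOnNhd ℂ f (ball 0 (2 * r)) := by
      have : 2 * r = r' := by rw [hrdef]; ring
      rw [this]; exact hA
    obtain ⟨q, hqe, v, hv, hPhi⟩ := exists_dir hr hA' he
    have hq1 : 1 ≤ q := by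
      rcases Nat.eq_zero_or_pos q with h | h
      · exfalso
        subst h
        apply hPhi
        have hg : DifferentiableOn ℂ (fun z : ℂ => f (z • v)) (closedBall 0 1) := by
          intro w hw
          refine DifferentiableAt.differentiableWithinAt ?_
          refine DifferentiableAt.comp (g := f) w (hA' (w • v) ?_).differentiableAt (by fun_prop)
          rw [mem_ball_zero_iff, norm_smul]
          have : ‖w‖ ≤ 1 := by simpa using hw
          nlinarith [norm_nonneg v]
        have := dd_eq (q := 0) (fun _ => 0) (fun i j _ => Fin.ext (by omega)) (by simp) _ hg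
        unfold Phi
        simp only [zero_add]
        have h2 : (fun z : ℂ => (∏ i : Fin (0 + 1), (z - (0 : Fin (0 + 1) → ℂ) i))⁻¹ * f (z • v)) =
          (fun z : ℂ => (∏ i : Fin (0 + 1), (z - (fun _ => (0 : ℂ)) i))⁻¹ * f (z • v)) := by
          ext z; simp
        rw [h2, ← this]
        simp [dd, h0]
      · exact h
    have hcont := continuousAt_Phi hr hA'.continuousOn hv q
    have hcq : c * q < 1 := by
      have : (q : ℝ) ≤ e := by exact_mod_cast hqe
      nlinarith
    -- uniform lower bound for divided differences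
    set α : ℝ := ‖Phi f v q (0, 0)‖ / 2 / (2 * Real.pi) with hαdef
    have hα : 0 < α := by
      have := norm_pos_iff.2 hPhi
      positivity
    have hev : ∀ᶠ p : (Fin n → ℂ) × (Fin (q + 1) → ℂ) in 𝓝 (0, 0),
        ‖Phi f v q (0, 0)‖ / 2 < ‖Phi f v q p‖ := by
      refine Filter.Tendsto.eventually_const_lt ?_ hcont.norm.tendsto
      have := norm_pos_iff.2 hPhi
      linarith
    obtain ⟨δ0, hδ0, hball⟩ := Metric.eventually_nhds_iff_ball.1 hev
    obtain ⟨δ, hδ, hδ1, hδr⟩ : ∃ δ > 0, δ ≤ δ0 ∧ δ ≤ r / 2 := ⟨min δ0 (r / 2), by positivity,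
      min_le_left _ _, min_le_right _ _⟩
    obtain ⟨ρ, hρ, hρ1, hρ2, hρ3⟩ : ∃ ρ > 0, ρ ≤ δ0 ∧ ρ ≤ 1 ∧ ρ * ‖v‖ ≤ δ / 2 := by
      refine ⟨min (min δ0 1) (δ / 2 / (‖v‖ + 1)), by positivity, ?_, ?_, ?_⟩
      · exact (min_le_left _ _).trans (min_le_left _ _)
      · exact (min_le_left _ _).trans (min_le_right _ _)
      · calc min (min δ0 1) (δ / 2 / (‖v‖ + 1)) * ‖v‖ ≤ (δ / 2 / (‖v‖ + 1)) * ‖v‖ := by
              exact mul_le_mul_of_nonneg_right (min_le_right _ _) (norm_nonneg _)
          _ ≤ δ / 2 := by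
              rw [div_mul_eq_mul_div, div_le_iff₀ (by positivity)]
              nlinarith [norm_nonneg v]
    have hdd : ∀ z : Fin n → ℂ, ‖z‖ < δ → ∀ t : Fin (q + 1) → ℂ, (∀ i, ‖t i‖ < ρ) →
        Function.Injective t → α ≤ ‖dd t (fun s => f (z + s • v))‖ := by
      intro z hz t ht hinj
      have hg : DifferentiableOn ℂ (fun s : ℂ => f (z + s • v)) (closedBall 0 1) := by
        intro w hw
        refine DifferentiableAt.differentiableWithinAt ?_
        refine DifferentiableAt.comp (g := f) w (hA' (z + w • v) ?_).differentiableAt (by fun_prop)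
        rw [mem_ball_zero_iff]
        have h1 : ‖w‖ ≤ 1 := by simpa using hw
        calc ‖z + w • v‖ ≤ ‖z‖ + ‖w‖ * ‖v‖ := by
              refine (norm_add_le _ _).trans ?_
              rw [norm_smul]
          _ < 2 * r := by nlinarith [norm_nonneg v]
      have h1 := dd_eq t hinj (fun i => (ht i).trans_le hρ2) _ hg
      have h2 := hball (z, t) (by
        rw [mem_ball, Prod.dist_eq, max_lt_iff]
        refine ⟨by simpa using hz.trans_le hδ1, ?_⟩
        simp only [dist_zero_right]
        rw [pi_norm_lt_iff hδ0]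
        exact fun i => (ht i).trans_le hρ1)
      have h3 : Phi f v q (z, t) = (2 * Real.pi * Complex.I) * dd t (fun s => f (z + s • v)) := by
        rw [h1]; rfl
      rw [h3, norm_mul] at h2
      have h4 : ‖(2 * Real.pi * Complex.I : ℂ)‖ = 2 * Real.pi := by
        simp [abs_of_pos Real.pi_pos]
      rw [h4] at h2
      rw [hαdef, div_le_iff₀ (by positivity)]
      linarith
    obtain ⟨C, hC, hint⟩ := lint_one q hq1 (ρ := ρ) hα hc hcq
    -- measurable extension
    set F : (Fin n → ℂ) → ℂ := (ball (0 : Fin n → ℂ) (2 * r)).indicator f with hF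
    have hFm : Measurable F := by
      classical
      have := ContinuousOn.measurable_piecewise (s := ball (0 : Fin n → ℂ) (2 * r)) (f := f)
        (g := (0 : (Fin n → ℂ) → ℂ)) hA'.continuousOn continuousOn_const measurableSet_ball
      rwa [Set.piecewise_eq_indicator] at this
    have hFeq : ∀ z, ‖z‖ < 2 * r → F z = f z := fun z hz =>
      Set.indicator_of_mem (by simpa using hz) f
    set W : (Fin n → ℂ) → ℝ≥0∞ := fun z => (ENNReal.ofReal (‖F z‖ ^ 2)) ^ (-c) with hW
    have hWm : Measurable W := by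
      rw [hW]
      exact ((hFm.norm.pow_const 2).ennreal_ofReal).pow_const _
    set U : Set (Fin n → ℂ) := ball 0 (δ / 2) with hU
    refine ⟨U, ball_mem_nhds _ (by positivity), ?_⟩
    have hUF : ∫⁻ ζ in U, (ENNReal.ofReal (‖f ζ‖ ^ 2)) ^ (-c) = ∫⁻ ζ, U.indicator W ζ := by
      rw [lintegral_indicator measurableSet_ball]
      refine setLIntegral_congr_fun measurableSet_ball ?_
      intro ζ hζ
      have : ‖ζ‖ < 2 * r := by
        have h : ‖ζ‖ < δ / 2 := by simpa [hU] using hζ
        linarith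
      simp only [hW, hFeq ζ this]
    rw [hUF]
    have hUm : Measurable (U.indicator W) := hWm.indicator measurableSet_ball
    have key : volume (ball (0 : ℂ) ρ) * ∫⁻ ζ, U.indicator W ζ ≤
        volume (ball (0 : Fin n → ℂ) δ) * C := by
      calc volume (ball (0 : ℂ) ρ) * ∫⁻ ζ, U.indicator W ζ
          = ∫⁻ _ in ball (0 : ℂ) ρ, (∫⁻ ζ, U.indicator W ζ) := by
            rw [setLIntegral_const, mul_comm]
        _ = ∫⁻ t in ball (0 : ℂ) ρ, (∫⁻ ζ, U.indicator W (ζ + t • v)) := by
            refine lintegral_congr fun t => ?_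
            rw [lintegral_add_right_eq_self]
        _ = ∫⁻ ζ, (∫⁻ t in ball (0 : ℂ) ρ, U.indicator W (ζ + t • v)) := by
            refine lintegral_lintegral_swap ?_
            refine Measurable.aemeasurable ?_
            exact hUm.comp (by fun_prop)
        _ ≤ ∫⁻ ζ, (ball (0 : Fin n → ℂ) δ).indicator (fun _ => C) ζ := by
            refine lintegral_mono fun ζ => ?_
            by_cases hζ : ζ ∈ ball (0 : Fin n → ℂ) δ
            · rw [Set.indicator_of_mem hζ]
              have hζ' : ‖ζ‖ < δ := by simpa using hζ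
              calc ∫⁻ t in ball (0 : ℂ) ρ, U.indicator W (ζ + t • v)
                  ≤ ∫⁻ t in ball (0 : ℂ) ρ, (ENNReal.ofReal (‖F (ζ + t • v)‖ ^ 2)) ^ (-c) :=
                    lintegral_mono fun t => Set.indicator_le_self _ _ _
                _ ≤ C := by
                    refine hint (fun t => F (ζ + t • v)) (hFm.comp (by fun_prop)) ?_
                    intro t ht hinj
                    refine (hdd ζ hζ' t ht hinj).trans (le_of_eq ?_)
                    unfold dd
                    congr 1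
                    refine Finset.sum_congr rfl fun i _ => ?_
                    show _ * f (ζ + t i • v) = _ * F (ζ + t i • v)
                    rw [hFeq]
                    calc ‖ζ + t i • v‖ ≤ ‖ζ‖ + ‖t i‖ * ‖v‖ := by
                          refine (norm_add_le _ _).trans ?_
                          rw [norm_smul]
                      _ < 2 * r := by
                          have := ht i
                          nlinarith [norm_nonneg v, norm_nonneg (t i)]
            · rw [Set.indicator_of_notMem hζ]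
              refine le_of_eq ?_
              have h1 : ∫⁻ t in ball (0 : ℂ) ρ, U.indicator W (ζ + t • v) =
                  ∫⁻ _ in ball (0 : ℂ) ρ, 0 := by
                refine setLIntegral_congr_fun measurableSet_ball ?_
                intro t ht
                refine Set.indicator_of_notMem ?_ _
                intro hmem
                apply hζ
                rw [mem_ball_zero_iff]
                have h2 : ‖ζ + t • v‖ < δ / 2 := by simpa [hU] using hmem
                have h3 : ‖t‖ < ρ := by simpa using ht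
                calc ‖ζ‖ = ‖(ζ + t • v) - t • v‖ := by simp
                  _ ≤ ‖ζ + t • v‖ + ‖t‖ * ‖v‖ := by
                      refine (norm_sub_le _ _).trans ?_
                      rw [norm_smul]
                  _ < δ := by nlinarith [norm_nonneg v, norm_nonneg t]
              rw [h1]; simp
        _ = volume (ball (0 : Fin n → ℂ) δ) * C := by
            rw [lintegral_indicator_const measurableSet_ball, mul_comm]
    have hlt : volume (ball (0 : ℂ) ρ) * ∫⁻ ζ, U.indicator W ζ < ∞ :=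
      key.trans_lt (ENNReal.mul_lt_top measure_ball_lt_top hC)
    rcases ENNReal.mul_lt_top_iff.1 hlt with h | h | h
    · exact h.2
    · exact absurd h (measure_ball_pos _ _ hρ).ne'
    · rw [h]; exact ENNReal.zero_lt_top

/-- (AF5), at a point `a` -/
theorem af5 {n : ℕ} {f : (Fin n → ℂ) → ℂ} {a : Fin n → ℂ} {e : ℕ} (hf : AnalyticAt ℂ f a)
    (he : ¬ (fun z => f (a + z)) =O[𝓝 0] fun z : Fin n → ℂ => ‖z‖ ^ (e + 1)) {c : ℝ} (hc : 0 ≤ c)
    (hce : c * e < 1) :
    ∃ U ∈ 𝓝 a, ∫⁻ ζ in U, (ENNReal.ofReal (‖f ζ‖ ^ 2)) ^ (-c) < ∞ := by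
  have hf' : AnalyticAt ℂ (fun z => f (a + z)) 0 := by
    have h1 : AnalyticAt ℂ f ((fun z : Fin n → ℂ => a + z) 0) := by simpa using hf
    exact h1.comp (by fun_prop)
  obtain ⟨U, hU, hint⟩ := af5_zero hf' he hc hce
  obtain ⟨δ, hδ, hball⟩ := Metric.mem_nhds_iff.1 hU
  refine ⟨ball a δ, ball_mem_nhds _ hδ, ?_⟩
  set G : (Fin n → ℂ) → ℝ≥0∞ := fun ζ => (ENNReal.ofReal (‖f ζ‖ ^ 2)) ^ (-c) with hG
  calc ∫⁻ ζ in ball a δ, G ζ = ∫⁻ ζ, (ball a δ).indicator G ζ := by
        rw [lintegral_indicator measurableSet_ball]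
    _ = ∫⁻ ζ, (ball a δ).indicator G (a + ζ) := by
        rw [lintegral_add_left_eq_self]
    _ = ∫⁻ ζ, (ball (0 : Fin n → ℂ) δ).indicator (fun z => G (a + z)) ζ := by
        refine lintegral_congr fun ζ => ?_
        by_cases h : ζ ∈ ball (0 : Fin n → ℂ) δ
        · rw [Set.indicator_of_mem h, Set.indicator_of_mem]
          simpa [mem_ball, dist_eq_norm] using h
        · rw [Set.indicator_of_notMem h, Set.indicator_of_notMem]
          simpa [mem_ball, dist_eq_norm] using h
    _ = ∫⁻ ζ in ball (0 : Fin n → ℂ) δ, G (a + ζ) := by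
        rw [lintegral_indicator measurableSet_ball]
    _ ≤ ∫⁻ ζ in U, G (a + ζ) := lintegral_mono_set hball
    _ < ∞ := hint

end Crest.Agent.R271.AF5x785
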