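import Crest.Prelude.Def_SmoothDivisors

set_option autoImplicit false

open AlgebraicGeometry Order CategoryTheory Crest.AlgGeometry.Divisors

namespace Crest.Agent.R271.Br958

set_option warn.classDefReducibility false in
attribute [local instance] fnFieldAlgebra

/-- all stalks at prime divisors are discrete valuation rings -/
class StalkDVR (X : Scheme.{0}) [IsIntegral X] : Prop where
  dvr : ∀ z : X, coheight z = 1 → IsDiscreteValuationRing (X.presheaf.stalk z)

variable {X : Scheme.{0}} [Algebra ℂ Γ(X, ⊤)] [IsIntegral X] [IsLocallyNoetherian X]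

set_option linter.unusedSectionVars false

instance topNonempty {X : Scheme.{0}} [IsIntegral X] : Nonempty (⊤ : X.Opens) :=
  ⟨⟨genericPoint X, trivial⟩⟩

lemma algebraMap_eq_germ (c : ℂ) :
    algebraMap ℂ X.functionField c = X.germToFunctionField ⊤ (algebraMap ℂ Γ(X, ⊤) c) := by
  simp only [RingHom.algebraMap_toAlgebra]
  rfl

lemma ord_algebraMap (c : ℂ) (hc : c ≠ 0) (z : X) :
    Scheme.ord (algebraMap ℂ X.functionField c) z = 0 := by
  rw [algebraMap_eq_germ]
  exact Scheme.ord_of_isUnit ((IsUnit.mk0 c hc).map (algebraMap ℂ Γ(X, ⊤))) (Set.mem_univ z)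

lemma ord_smul (c : ℂ) (hc : c ≠ 0) (f : X.functionField) (z : X) :
    Scheme.ord (c • f) z = Scheme.ord f z := by
  by_cases hf : f = 0
  · simp [hf]
  rw [Algebra.smul_def, Scheme.ord_mul _ hf, ord_algebraMap c hc z, zero_add]
  exact (map_ne_zero _).mpr hc

lemma ord_add' [StalkDVR X] {z : X} (hz : coheight z = 1) {f g : X.functionField}
    (hfg : f + g ≠ 0) : min (Scheme.ord f z) (Scheme.ord g z) ≤ Scheme.ord (f + g) z := by
  have := StalkDVR.dvr z hz
  exact Scheme.ord_add hfg

lemma ord_one (z : X) : Scheme.ord (1 : X.functionField) z = 0 := by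
  have := ord_algebraMap (X := X) 1 one_ne_zero z
  simpa using this

lemma ord_inv {f : X.functionField} (hf : f ≠ 0) (z : X) :
    Scheme.ord f⁻¹ z = - Scheme.ord f z := by
  have h := Scheme.ord_mul (x := z) hf (inv_ne_zero hf)
  rw [mul_inv_cancel₀ hf, ord_one] at h
  linarith

lemma ord_div {f g : X.functionField} (hf : f ≠ 0) (hg : g ≠ 0) (z : X) :
    Scheme.ord (f / g) z = Scheme.ord f z - Scheme.ord g z := by
  rw [div_eq_mul_inv, Scheme.ord_mul hf (inv_ne_zero hg), ord_inv hg]
  ring

lemma ord_pow {f : X.functionField} (hf : f ≠ 0) (n : ℕ) (z : X) :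
    Scheme.ord (f ^ n) z = n * Scheme.ord f z := by
  induction n with
  | zero => simp [ord_one]
  | succ n ih =>
    rw [pow_succ, Scheme.ord_mul (pow_ne_zero n hf) hf, ih]
    push_cast
    ring

/-- The complex vector space `H⁰(X, 𝒪(D))`. -/
noncomputable def H0 [StalkDVR X] (D : WeilDiv X) : Submodule ℂ X.functionField where
  carrier := {f | f = 0 ∨ IsSection D f}
  zero_mem' := Or.inl rfl
  add_mem' := by
    intro f g hf hg
    by_cases hfg : f + g = 0
    · exact Or.inl hfg
    rcases hf with rfl | hf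
    · simpa using hg
    rcases hg with rfl | hg
    · simpa using Or.inr hf
    refine Or.inr ⟨hfg, fun z => ?_⟩
    have h1 := ord_add' (X := X) z.2 hfg
    have h2 := hf.2 z
    have h3 := hg.2 z
    rcases min_le_iff.mp h1 with h | h <;> omega
  smul_mem' := by
    intro c f hf
    by_cases hc : c = 0
    · left; simp [hc]
    rcases hf with rfl | hf
    · left; simp
    refine Or.inr ⟨?_, fun z => ?_⟩
    · rw [Algebra.smul_def]
      exact mul_ne_zero ((map_ne_zero _).mpr hc) hf.1
    · rw [ord_smul c hc]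
      exact hf.2 z


lemma isSection_of_mem [StalkDVR X] {D : WeilDiv X} {f : X.functionField} (hf : f ∈ H0 D)
    (h0 : f ≠ 0) : IsSection D f := hf.resolve_left h0

lemma mul_mem_H0 [StalkDVR X] {D E : WeilDiv X} {f g : X.functionField} (hf : f ∈ H0 D)
    (hg : g ∈ H0 E) : f * g ∈ H0 (D + E) := by
  rcases hf with rfl | hf
  · left; simp
  rcases hg with rfl | hg
  · left; simp
  refine Or.inr ⟨mul_ne_zero hf.1 hg.1, fun z => ?_⟩
  rw [Scheme.ord_mul hf.1 hg.1, Finsupp.add_apply]
  have h2 := hf.2 z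
  have h3 := hg.2 z
  omega

lemma one_mem_H0 [StalkDVR X] : (1 : X.functionField) ∈ H0 (0 : WeilDiv X) := by
  refine Or.inr ⟨one_ne_zero, fun z => ?_⟩
  rw [ord_one]; simp

lemma pow_mem_H0 [StalkDVR X] {D : WeilDiv X} {f : X.functionField} (hf : f ∈ H0 D) (n : ℕ) :
    f ^ n ∈ H0 (n • D) := by
  induction n with
  | zero => simpa using one_mem_H0
  | succ n ih =>
    rw [pow_succ, succ_nsmul]
    exact mul_mem_H0 ih hf

end Crest.Agent.R271.Br958
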