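import Crest.Agent.R271.Br1_958
import Crest.Agent.R271.Br2_958

-- ▼ part R271/Br3_958
section

set_option autoImplicit false
set_option linter.unusedSectionVars false

open AlgebraicGeometry Order CategoryTheory Crest.AlgGeometry.Divisors TopologicalSpace

namespace Crest.Agent.R271.Br958

variable {X : Scheme.{0}} [IsIntegral X] [IsLocallyNoetherian X]

/-- a rational function with nonnegative order at a point with DVR stalk is regular there -/
lemma mem_stalk_of_ord_nonneg {z : X} (hz : coheight z = 1)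
    [IsDiscreteValuationRing (X.presheaf.stalk z)] {f : X.functionField} (hf0 : f ≠ 0)
    (hf : 0 ≤ Scheme.ord f z) : ∃ a : X.presheaf.stalk z, algebraMap _ X.functionField a = f := by
  have h1 := (Scheme.le_ord_iff hz hf0 (n := 0)).mp hf
  have h2 : (1 : WithZero (Multiplicative ℤ)) ≤ Ring.ordFrac (X.presheaf.stalk z) f := by
    simpa [Scheme.ordHom] using h1
  rw [Ring.ordFrac_eq_valuation_inv] at h2
  apply IsDiscreteValuationRing.exists_lift_of_le_one
  have hv0 : (IsDiscreteValuationRing.maximalIdeal (X.presheaf.stalk z)).valuation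
      X.functionField f ≠ 0 := by simpa using hf0
  rw [one_le_inv₀ (zero_lt_iff.mpr hv0)] at h2
  exact h2

/-- regular functions have nonnegative order -/
lemma ord_nonneg_of_mem_stalk {z : X} (hz : coheight z = 1) (a : X.presheaf.stalk z) :
    0 ≤ Scheme.ord (algebraMap _ X.functionField a) z := by
  by_cases ha : a = 0
  · subst ha; simp
  have : Ring.KrullDimLE 1 (X.presheaf.stalk z) := krullDimLE_of_coheight_le hz.le
  rw [Scheme.le_ord_iff hz (by simpa using ha)]
  have := Ring.ordFrac_ge_one_of_ne_zero (R := X.presheaf.stalk z) (K := X.functionField) ha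
  simpa [Scheme.ordHom] using this


lemma coheight_fromSpec {U : X.Opens} (hU : IsAffineOpen U) (q : PrimeSpectrum Γ(X, U)) :
    coheight (hU.fromSpec q) = q.asIdeal.height := by
  rw [idealHeight_eq_coheight (CommRingCat.of Γ(X, U)) q]
  exact coheight_eq_of_isOpenImmersion hU.fromSpec

lemma fromSpec_mem {U : X.Opens} (hU : IsAffineOpen U) (q : PrimeSpectrum Γ(X, U)) :
    hU.fromSpec q ∈ U := by
  have : hU.fromSpec q ∈ Set.range hU.fromSpec := ⟨q, rfl⟩
  rw [hU.range_fromSpec] at this
  exact this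

lemma fromSpec_specializes {U : X.Opens} (hU : IsAffineOpen U) (q : PrimeSpectrum Γ(X, U))
    (x : U) (hq : q.asIdeal ≤ (hU.primeIdealOf x).asIdeal) : hU.fromSpec q ⤳ (x : X) := by
  rw [← hU.fromSpec_primeIdealOf x]
  exact ((PrimeSpectrum.le_iff_specializes q (hU.primeIdealOf x)).mp hq).map hU.fromSpec.continuous

/-- a rational function regular at the point given by the prime `q` of an affine chart is a fraction
with denominator outside `q`. -/
lemma exists_frac_of_mem_stalk {U : X.Opens} (hU : IsAffineOpen U) (q : PrimeSpectrum Γ(X, U))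
    (a : X.presheaf.stalk (hU.fromSpec q)) :
    haveI : Nonempty U := ⟨⟨_, fromSpec_mem hU q⟩⟩
    ∃ b c : Γ(X, U), c ∉ q.asIdeal ∧
      algebraMap Γ(X, U) X.functionField c * algebraMap _ X.functionField a =
        algebraMap Γ(X, U) X.functionField b := by
  have hne : Nonempty U := ⟨⟨_, fromSpec_mem hU q⟩⟩
  let _ : Algebra Γ(X, U) (X.presheaf.stalk (hU.fromSpec q)) :=
    TopCat.Presheaf.algebra_section_stalk X.presheaf (⟨hU.fromSpec q, fromSpec_mem hU q⟩ : U)
  have hloc : IsLocalization.AtPrime (X.presheaf.stalk (hU.fromSpec q)) q.asIdeal :=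
    hU.isLocalization_stalk' q (fromSpec_mem hU q)
  obtain ⟨⟨b, c⟩, hbc⟩ := IsLocalization.surj (S := X.presheaf.stalk (hU.fromSpec q))
    q.asIdeal.primeCompl a
  refine ⟨b, c.1, c.2, ?_⟩
  have := congrArg (algebraMap _ X.functionField) hbc
  rw [map_mul] at this
  have key : ∀ s : Γ(X, U), algebraMap (X.presheaf.stalk (hU.fromSpec q)) X.functionField
      (algebraMap Γ(X, U) (X.presheaf.stalk (hU.fromSpec q)) s) =
      algebraMap Γ(X, U) X.functionField s := by
    intro s
    exact Scheme.algebraMap_germ_eq_germToFunctionField X (fromSpec_mem hU q) s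
  rw [key, key] at this
  rw [mul_comm]
  exact this


/-- `X` is normal -/
class NormalSch (X : Scheme.{0}) [IsIntegral X] : Prop where
  normal : ∀ x : X, IsIntegrallyClosed (X.presheaf.stalk x)

lemma dvr_of_normal [NormalSch X] (z : X) (hz : coheight z = 1) :
    IsDiscreteValuationRing (X.presheaf.stalk z) := by
  have hn := NormalSch.normal z
  have hd : ringKrullDim (X.presheaf.stalk z) = 1 := by
    rw [ringKrullDim_stalk_eq_coheight, hz]; rfl
  have hle : Ring.KrullDimLE 1 (X.presheaf.stalk z) := krullDimLE_of_coheight_le hz.le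
  have h2 : ¬ IsField (X.presheaf.stalk z) := by
    intro h
    have := ringKrullDim_eq_zero_of_isField h
    rw [hd] at this
    exact one_ne_zero this
  have hmb : IsLocalRing.maximalIdeal (X.presheaf.stalk z) ≠ ⊥ :=
    IsLocalRing.isField_iff_maximalIdeal_eq.not.mp h2
  have h03 : IsDiscreteValuationRing (X.presheaf.stalk z) ↔
      (IsIntegrallyClosed (X.presheaf.stalk z) ∧
        ∃! P : Ideal (X.presheaf.stalk z), P ≠ ⊥ ∧ P.IsPrime) :=
    (IsDiscreteValuationRing.TFAE (X.presheaf.stalk z) h2).out 0 3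
  refine h03.mpr ⟨hn, IsLocalRing.maximalIdeal _, ⟨hmb, inferInstance⟩, ?_⟩
  rintro p ⟨hp, hp'⟩
  exact IsLocalRing.eq_maximalIdeal (Ideal.IsPrime.isMaximal_of_ne_bot hp' hp)

instance [NormalSch X] : StalkDVR X := ⟨dvr_of_normal⟩

/-- stalk version of Hartogs -/
theorem mem_stalk_of_ord_nonneg_all [NormalSch X] (x : X) (f : X.functionField) (hf0 : f ≠ 0)
    (hf : ∀ z : X, coheight z = 1 → z ⤳ x → 0 ≤ Scheme.ord f z) :
    ∃ a : X.presheaf.stalk x, algebraMap _ X.functionField a = f := by
  have hn := NormalSch.normal x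
  obtain ⟨U, hU, hxU, -⟩ := exists_isAffineOpen_mem_and_subset (X := X) (x := x) (U := ⊤) trivial
  have hne : Nonempty U := ⟨⟨x, hxU⟩⟩
  apply hartogs (A := X.presheaf.stalk x)
  intro p hp hp1
  let _ : Algebra Γ(X, U) (X.presheaf.stalk x) :=
    TopCat.Presheaf.algebra_section_stalk X.presheaf (⟨x, hxU⟩ : U)
  have hloc : IsLocalization.AtPrime (X.presheaf.stalk x) (hU.primeIdealOf ⟨x, hxU⟩).asIdeal :=
    hU.isLocalization_stalk ⟨x, hxU⟩
  have hq1 : (p.under Γ(X, U)).height = 1 := by
    rw [IsLocalization.height_under (hU.primeIdealOf ⟨x, hxU⟩).asIdeal.primeCompl p, hp1]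
  have hqle : p.under Γ(X, U) ≤ (hU.primeIdealOf ⟨x, hxU⟩).asIdeal := by
    rw [← IsLocalization.AtPrime.under_maximalIdeal (X.presheaf.stalk x)
      (hU.primeIdealOf ⟨x, hxU⟩).asIdeal]
    exact Ideal.comap_mono (IsLocalRing.le_maximalIdeal hp.ne_top)
  have hqp : (p.under Γ(X, U)).IsPrime := inferInstance
  let q : PrimeSpectrum Γ(X, U) := ⟨p.under Γ(X, U), hqp⟩
  have hz1 : coheight (hU.fromSpec q) = 1 := by rw [coheight_fromSpec hU q]; exact hq1
  have hzx : hU.fromSpec q ⤳ x := fromSpec_specializes hU q ⟨x, hxU⟩ hqle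
  have hdv := dvr_of_normal (X := X) _ hz1
  obtain ⟨a, ha⟩ := mem_stalk_of_ord_nonneg hz1 hf0 (hf _ hz1 hzx)
  obtain ⟨b, c, hc, hbc⟩ := exists_frac_of_mem_stalk hU q a
  rw [ha] at hbc
  have key : ∀ s : Γ(X, U), algebraMap (X.presheaf.stalk x) X.functionField
      (algebraMap Γ(X, U) (X.presheaf.stalk x) s) = algebraMap Γ(X, U) X.functionField s := by
    intro s
    exact Scheme.algebraMap_germ_eq_germToFunctionField X hxU s
  refine ⟨algebraMap _ _ b, algebraMap _ _ c, hc, ?_⟩
  rw [key, key]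
  exact hbc

end Crest.Agent.R271.Br958
end

-- ▼ part R271/Br4_958

set_option autoImplicit false
set_option linter.unusedSectionVars false

open AlgebraicGeometry Order CategoryTheory Crest.AlgGeometry.Divisors TopologicalSpace

namespace Crest.Agent.R271.Br958

variable {X : Scheme.{0}} [IsIntegral X] [IsLocallyNoetherian X]

/-- Hartogs on affine opens -/
theorem mem_section_of_ord_nonneg [NormalSch X] {U : X.Opens} (hU : IsAffineOpen U) [Nonempty U]
    (f : X.functionField) (hf0 : f ≠ 0)
    (hf : ∀ z : X, coheight z = 1 → z ∈ U → 0 ≤ Scheme.ord f z) :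
    ∃ a : Γ(X, U), algebraMap _ X.functionField a = f := by
  let I : Ideal Γ(X, U) :=
    { carrier := {c | ∃ b : Γ(X, U), algebraMap Γ(X, U) X.functionField c * f =
        algebraMap Γ(X, U) X.functionField b}
      add_mem' := by
        rintro c d ⟨b, hb⟩ ⟨e, he⟩
        exact ⟨b + e, by rw [map_add, map_add, add_mul, hb, he]⟩
      zero_mem' := ⟨0, by simp⟩
      smul_mem' := by
        rintro c d ⟨b, hb⟩
        exact ⟨c * b, by rw [smul_eq_mul, map_mul, map_mul, mul_assoc, hb]⟩ }
  have hI : I = ⊤ := by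
    by_contra hne
    obtain ⟨M, hM, hIM⟩ := Ideal.exists_le_maximal I hne
    let q : PrimeSpectrum Γ(X, U) := ⟨M, hM.isPrime⟩
    obtain ⟨a, ha⟩ := mem_stalk_of_ord_nonneg_all (hU.fromSpec q) f hf0 (by
      intro z hz hzx
      exact hf z hz (hzx.mem_open U.isOpen (fromSpec_mem hU q)))
    obtain ⟨b, c, hc, hbc⟩ := exists_frac_of_mem_stalk hU q a
    rw [ha] at hbc
    exact hc (hIM ⟨b, hbc⟩)
  have h1 : (1 : Γ(X, U)) ∈ I := hI ▸ Submodule.mem_top
  obtain ⟨b, hb⟩ := h1
  exact ⟨b, by rw [← hb]; simp⟩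

lemma ord_section_nonneg {U : X.Opens} [Nonempty U] (a : Γ(X, U)) {z : X} (hz : coheight z = 1)
    (hzU : z ∈ U) : 0 ≤ Scheme.ord (algebraMap Γ(X, U) X.functionField a) z := by
  have := ord_nonneg_of_mem_stalk hz (X.presheaf.germ U z hzU a)
  rwa [Scheme.algebraMap_germ_eq_germToFunctionField X hzU] at this

lemma coheight_succ_le_of_specializes {z z' : X} (h : z' ⤳ z) (hne : z' ≠ z) :
    coheight z' + 1 ≤ coheight z := by
  apply Order.coheight_add_one_le
  rw [lt_iff_le_not_ge]
  refine ⟨h, fun h' => hne ?_⟩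
  exact (h.antisymm h').eq

lemma eq_of_specializes_of_coheight {z z' : X} (h : z' ⤳ z) (hz' : coheight z' = 1)
    (hz : coheight z = 1) : z' = z := by
  by_contra hne
  have := coheight_succ_le_of_specializes h hne
  rw [hz, hz'] at this
  exact absurd this (by decide)

lemma one_le_coheight_of_ne_genericPoint {z : X} (hz : z ≠ genericPoint X) : 1 ≤ coheight z := by
  have h : genericPoint X ⤳ z := genericPoint_specializes z
  have := coheight_succ_le_of_specializes h hz.symm
  exact le_trans (by simp) this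

/-- there are only finitely many prime divisors outside of a nonempty open set -/
lemma finite_primeDivisor_compl [CompactSpace X] (U : X.Opens) (hU : (U : Set X).Nonempty) :
    {z : X | coheight z = 1 ∧ z ∉ U}.Finite := by
  have : IsNoetherian X := {}
  have : NoetherianSpace X := inferInstance
  obtain ⟨S, hS, hcl, hirr, hSU⟩ :=
    NoetherianSpace.exists_finite_set_isClosed_irreducible (s := (U : Set X)ᶜ) U.isOpen.isClosed_compl
  have hgen : ∀ t ∈ S, ∃ η : X, IsGenericPoint η t := fun t ht =>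
    QuasiSober.sober (hirr t ht) (hcl t ht)
  choose! η hη using hgen
  apply (hS.image η).subset
  rintro z ⟨hz1, hzU⟩
  have hz : z ∈ (U : Set X)ᶜ := hzU
  rw [hSU] at hz
  obtain ⟨t, ht, hzt⟩ := hz
  refine ⟨t, ht, ?_⟩
  have hsp : η t ⤳ z := (hη t ht).specializes hzt
  by_contra hne
  have h1 := coheight_succ_le_of_specializes hsp hne
  have h2 : η t ≠ genericPoint X := by
    intro h
    have h3 : η t ∈ (U : Set X)ᶜ := by
      rw [hSU]; exact ⟨t, ht, (hη t ht).mem⟩
    apply h3
    rw [h]
    obtain ⟨y, hy⟩ := hU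
    exact (genericPoint_specializes y).mem_open U.isOpen hy
  have h3 := one_le_coheight_of_ne_genericPoint h2
  rw [hz1] at h1
  have : (1 : ℕ∞) + 1 ≤ 1 := le_trans (add_le_add_left h3 1) h1
  exact absurd this (by decide)


lemma nonvanishingAt_genericPoint (D : WeilDiv X) (s : X.functionField) :
    NonvanishingAt D s (genericPoint X) := by
  intro z hz
  exfalso
  have h1 : z.1 = genericPoint X := (hz.antisymm (genericPoint_specializes z.1)).eq
  have h2 := z.2
  have h3 : ¬ (z.1 < genericPoint X) := by rw [h1]; exact lt_irrefl _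
  have h4 : coheight (genericPoint X) = 0 := by
    rw [Order.coheight_eq_zero]
    intro y hy
    exact genericPoint_specializes y
  rw [h1, h4] at h2
  exact absurd h2 (by decide)

lemma ord_add_eq_zero_of_nonvanishing {D : WeilDiv X} {s : X.functionField} {x : X}
    (h : NonvanishingAt D s x) (z : PrimeDivisor X) (hz : z.1 ⤳ x) :
    Scheme.ord s z.1 + D z = 0 := h z hz

lemma one_le_of_vanishing {D : WeilDiv X} {s : X.functionField} (hs : IsSection D s)
    (z : PrimeDivisor X) (h : ¬ NonvanishingAt D s z.1) : 1 ≤ Scheme.ord s z.1 + D z := by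
  unfold NonvanishingAt at h
  push Not at h
  obtain ⟨z', hz', hne⟩ := h
  have : z'.1 = z.1 := eq_of_specializes_of_coheight hz' z'.2 z.2
  have hzz : z' = z := Subtype.ext this
  subst hzz
  have := hs.2 z'
  omega

variable [Algebra ℂ Γ(X, ⊤)]

/-- a function regular on the nonvanishing locus of a section becomes a section after multiplication
with a power. -/
theorem mul_pow_mem_H0 [CompactSpace X] [StalkDVR X] {D : WeilDiv X} {s : X.functionField}
    (hs : IsSection D s) {U : X.Opens} (hU : (U : Set X) = {y | NonvanishingAt D s y})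
    (f : X.functionField) (hf : ∀ z : X, coheight z = 1 → z ∈ U → 0 ≤ Scheme.ord f z) :
    ∃ j : ℕ, ∀ i, j ≤ i → f * s ^ i ∈ H0 (i • D) := by
  by_cases hf0 : f = 0
  · exact ⟨0, fun i _ => by simp [hf0]⟩
  have hne : (U : Set X).Nonempty := by
    rw [hU]; exact ⟨_, nonvanishingAt_genericPoint D s⟩
  have hfin := finite_primeDivisor_compl U hne
  obtain ⟨j, hj⟩ : ∃ j : ℕ, ∀ z ∈ {z : X | coheight z = 1 ∧ z ∉ U}, - Scheme.ord f z ≤ j := by
    obtain ⟨b, hb⟩ := (hfin.image (fun z => - Scheme.ord f z)).bddAbove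
    refine ⟨b.toNat, fun z hz => le_trans (hb ⟨z, hz, rfl⟩) (Int.self_le_toNat b)⟩
  refine ⟨j, fun i hi => Or.inr ⟨mul_ne_zero hf0 (pow_ne_zero _ hs.1), fun z => ?_⟩⟩
  rw [Scheme.ord_mul hf0 (pow_ne_zero _ hs.1), ord_pow hs.1]
  have hDz : (i • D) z = i * D z := by simp
  rw [hDz]
  have h0 := hs.2 z
  by_cases hzU : z.1 ∈ U
  · have h1 := hf z.1 z.2 hzU
    nlinarith
  · have h1 := hj z.1 ⟨z.2, hzU⟩
    have h2 : ¬ NonvanishingAt D s z.1 := by
      intro h
      apply hzU
      have : z.1 ∈ (U : Set X) := by rw [hU]; exact h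
      exact this
    have h3 := one_le_of_vanishing hs z h2
    have h4 : (i : ℤ) ≥ j := by exact_mod_cast hi
    nlinarith

/-- sections divided by powers of `s` are regular where `s` does not vanish -/
lemma ord_div_pow_nonneg {D E : WeilDiv X} {s h : X.functionField} (hs0 : s ≠ 0)
    (hh : IsSection E h) {i : ℕ} (z : PrimeDivisor X) (hz : Scheme.ord s z.1 + D z = 0)
    (hE : E z = i * D z) : 0 ≤ Scheme.ord (h / s ^ i) z.1 := by
  rw [ord_div hh.1 (pow_ne_zero _ hs0), ord_pow hs0]
  have h1 := hh.2 z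
  rw [hE] at h1
  have h2 : Scheme.ord s z.1 = - D z := by omega
  rw [h2]
  linarith

end Crest.Agent.R271.Br958
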