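import Mathlib
import Crest.Agent.R271.Defs_710

/-!
Row 271, team N (Part 8, the non-isolated case): exact statements of all pieces and the glue.
Pieces (owner):
* `GenFact` (helper86), `DiscFact` (helper846): see `Defs_710`;
* `P2Stmt` (helper161);
* `GenFiltStmt` (helper593);
* `MatrixStmt` (helper91), `KernelLimitStmt` (helper735); together `LimitStmt`;
* `PerturbStmt` from the previous ones and `SpecFact` (helper969);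
* `CountStmt` (helper857);
* `NonIsoStmt` from `PerturbStmt` and `CountStmt` (helper241);
* `CenterStmt` (Part 7, team F, helper140).
-/

set_option autoImplicit false

open scoped ENNReal NNReal Topology BigOperators
open MeasureTheory

noncomputable section

namespace Crest.Agent.R271.N647

open Crest.Agent.R271.Defs710

/-! ### Definitions -/

section defs

variable {n : ℕ} {B : Type} [CommRing B] [Algebra ℂ B] {V : ℕ → Submodule ℂ B}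

/-- `F(m,>a)` -/
def Fgt (F : Filt V) (m : ℕ) (a : ℝ) : Submodule ℂ B := ⨆ l : Set.Ioi a, F.F m l

/-- `𝔞_{>a}` -/
def idlGt (F : Filt V) (a : ℝ) : Ideal B := ⨆ l : Set.Ioi a, idl F l

/-- `U_{m,a,e}(y) = {f ∈ F(m,a) : f ∈ m_y^e 𝔞_a + P 𝔞_a + 𝔞_{>a}}` -/
def U (F : Filt V) (P : Ideal B) (y : B →ₐ[ℂ] ℂ) (m : ℕ) (a : ℝ) (e : ℕ) : Submodule ℂ B :=
  F.F m a ⊓ (mI y ^ e * idl F a ⊔ P * idl F a ⊔ idlGt F a).restrictScalars ℂ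

/-- `W_l = ∑_{a + σ b + s e ≥ l} 𝔞_a P^b m_y^e` -/
def Wl (F : Filt V) (P : Ideal B) (y : B →ₐ[ℂ] ℂ) (σ s l : ℝ) : Ideal B :=
  ⨆ (b : ℕ) (e : ℕ), idl F (l - σ * b - s * e) * P ^ b * mI y ^ e

end defs

section pieces

variable {n : ℕ}

/-- Output of (7.1), (8.0): `P` is a component (of dimension `d`) through `x` of
`Y₀ = {y : A_y(F) ≤ A}`. -/
structure Center (X : FCtx n) (F : Filt X.V) (A : ℝ) (P : Ideal X.B) (d : ℕ) : Prop where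
  prime : P.IsPrime
  dim : ringKrullDim (X.B ⧸ P) = d
  ne_bot : P ≠ ⊥
  le : P ≤ mI X.x
  A_pos : 0 < A
  idl_ne : ∀ l : ℝ, idl F l ≠ ⊥
  good_le : ∀ y : X.B →ₐ[ℂ] ℂ, P ≤ mI y → ∀ l : ℝ, Good X.z F y l → l ≤ A
  comp : ∃ (l₁ : ℝ) (k₁ K : ℕ) (h₀ : X.B), A < l₁ ∧ 1 ≤ k₁ ∧ 1 ≤ K ∧ h₀ ∉ P ∧
    ∀ y : X.B →ₐ[ℂ] ℂ, P ≤ mI y → y h₀ ≠ 0 →
      IInt X.z y ![idl F (k₁ * l₁), P] ![1 / (k₁ : ℝ), -(K : ℝ)]

/-- (8.1) + (8.2) -/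
def P2Stmt (X : FCtx n) : Prop :=
  ∀ (F : Filt X.V) (A : ℝ) (P : Ideal X.B) (d : ℕ) (y : X.B →ₐ[ℂ] ℂ) (l₁ : ℝ) (k₁ K : ℕ)
    (σ s : ℝ), P ≠ ⊥ → (∀ l : ℝ, idl F l ≠ ⊥) → 0 < A → A < l₁ → 1 ≤ k₁ → 1 ≤ K → P ≤ mI y →
    Adapted d P y n → (∀ l : ℝ, Good X.z F y l → l ≤ A) →
    IInt X.z y ![idl F (k₁ * l₁), P] ![1 / (k₁ : ℝ), -(K : ℝ)] →
    0 < s → s ≤ σ → σ ≤ (l₁ - A) / K →
    ∀ (k : ℕ) (l : ℝ), 1 ≤ k →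
      IInt X.z y (fun _ : Unit => Wl F P y σ s (k * l)) (fun _ => 1 / (k : ℝ)) →
      l ≤ A + s * d

/-- (8.4), generated filtration: `U i` (of degree `m i ≥ 1`, inside `F (m i) (a i)`) is put at level
`lev i ∈ [a i, a i + σ]`. -/
def GenFiltStmt : Prop :=
  ∀ (B : Type) [CommRing B] [Algebra ℂ B] (V : ℕ → Submodule ℂ B) (F : Filt V),
    (∀ m, FiniteDimensional ℂ (V m)) → V 0 = 1 →
    (∀ m l a b, a ∈ V m → b ∈ V l → a * b ∈ V (m + l)) →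
    ∀ (ι : Type) [Fintype ι] (m : ι → ℕ) (a lev : ι → ℝ) (σ : ℝ) (W : ι → Submodule ℂ B),
    (∀ i, 1 ≤ m i) → (∀ i, 0 ≤ a i) → (∀ i, a i ≤ lev i) → (∀ i, lev i ≤ a i + σ) → 0 ≤ σ →
    (∀ i, W i ≤ F.F (m i) (a i)) →
    ∃ G : Filt V, (∀ m l, F.F m l ≤ G.F m l) ∧ (∀ i, W i ≤ G.F (m i) (lev i)) ∧
      (∀ m l, G.F m l ≤ F.F m (l - σ * m)) ∧
      ∀ l, idl G l = ⨆ ν : ι → ℕ, idl F (l - ∑ i, (ν i : ℝ) * lev i) *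
        ∏ i, (Ideal.span (W i : Set B)) ^ ν i

/-- (8.3) matrix description (with denominators cleared) and constancy of the rank of the spaces
`U_{m,a,e}(y)` at general points of `V(P)`. -/
def MatrixStmt (X : FCtx n) : Prop :=
  ∀ (F : Filt X.V) (P : Ideal X.B), P.IsPrime → ∀ (m : ℕ) (a : ℝ) (e : ℕ) (q : ℕ)
    (b : Fin q → X.B), LinearIndependent ℂ b → Submodule.span ℂ (Set.range b) = F.F m a →
    ∃ (h : X.B) (N : ℕ) (c : Matrix (Fin N) (Fin q) X.B) (ρ : ℕ), h ∉ P ∧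
      ∀ y : X.B →ₐ[ℂ] ℂ, P ≤ mI y → y h ≠ 0 →
        (c.map y).rank = ρ ∧
        ∀ v : Fin q → ℂ, (∑ j, v j • b j ∈ U F P y m a e ↔ (c.map y).mulVec v = 0)

/-- flat linear algebra over germs of holomorphic functions of one variable -/
def KernelLimitStmt : Prop :=
  ∀ (N q ρ : ℕ) (c : Matrix (Fin N) (Fin q) (ℂ → ℂ)), (∀ i j, AnalyticAt ℂ (c i j) 0) →
    (∀ᶠ τ in 𝓝[≠] (0 : ℂ), (Matrix.of fun i j => c i j τ).rank = ρ) →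
    ∃ (co : Fin (q - ρ) → Fin q → ℂ → ℂ), (∀ i j, AnalyticAt ℂ (co i j) 0) ∧
      LinearIndependent ℂ (fun i => fun j => co i j 0) ∧
      ∀ᶠ τ in 𝓝[≠] (0 : ℂ), ∀ i, (Matrix.of fun i j => c i j τ).mulVec (fun j => co i j τ) = 0

/-- (8.3) + (8.5): constancy and limits along a disc -/
def LimitStmt (X : FCtx n) : Prop :=
  ∀ (F : Filt X.V) (P : Ideal X.B), P.IsPrime → ∀ (ι : Type) [Fintype ι] (m : ι → ℕ)
    (a : ι → ℝ) (e : ι → ℕ), ∃ (h : X.B) (r : ι → ℕ), h ∉ P ∧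
      (∀ y : X.B →ₐ[ℂ] ℂ, P ≤ mI y → y h ≠ 0 →
        ∀ i, Module.finrank ℂ (U F P y (m i) (a i) (e i)) = r i) ∧
      ∀ γ : ℂ → (X.B →ₐ[ℂ] ℂ), (∀ f : X.B, AnalyticAt ℂ (fun τ => γ τ f) 0) →
        (∀ᶠ τ in 𝓝[≠] (0 : ℂ), (∀ f ∈ P, γ τ f = 0) ∧ γ τ h ≠ 0) →
        ∃ (q : ι → ℕ) (b : ∀ i, Fin (q i) → X.B) (co : ∀ i, Fin (r i) → Fin (q i) → ℂ → ℂ),
          (∀ i j, b i j ∈ F.F (m i) (a i)) ∧ (∀ i j k, AnalyticAt ℂ (co i j k) 0) ∧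
          (∀ i, LinearIndependent ℂ (fun j => ∑ k, co i j k 0 • b i k)) ∧
          ∀ᶠ τ in 𝓝[≠] (0 : ℂ), ∀ i j, ∑ k, co i j k τ • b i k ∈ U F P (γ τ) (m i) (a i) (e i)

/-- (8.1)–(8.5) summary: the perturbed filtration `F''_x` -/
def PerturbStmt (X : FCtx n) : Prop :=
  ∀ (F : Filt X.V) (A : ℝ) (P : Ideal X.B) (d : ℕ), 1 ≤ d → Center X F A P d →
    ∀ (ι : Type) [Fintype ι] (m : ι → ℕ) (a : ι → ℝ) (e : ι → ℕ) (p : ℕ),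
      (∀ i, 1 ≤ m i ∧ 0 ≤ a i ∧ e i ≤ p) → 1 ≤ p →
      ∃ (h : X.B) (r : ι → ℕ), h ∉ P ∧
        (∀ y : X.B →ₐ[ℂ] ℂ, P ≤ mI y → y h ≠ 0 →
          ∀ i, Module.finrank ℂ (U F P y (m i) (a i) (e i)) = r i) ∧
        ∃ s₀ : ℝ, 0 < s₀ ∧ ∀ s : ℝ, 0 < s → s ≤ s₀ →
          ∃ G : Filt X.V, (∀ m l, F.F m l ≤ G.F m l) ∧
            (∀ m l, G.F m l ≤ F.F m (l - (s * p) * m)) ∧
            (∀ i, r i ≤ Module.finrank ℂ (G.F (m i) (a i + s * e i))) ∧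
            ∀ l : ℝ, Good X.z G X.x l → l ≤ A + s * d

/-- (8.7), for each level `a` separately, at a general point of `V(P)` (counting bridge) -/
def CountStmt (X : FCtx n) : Prop :=
  ∀ (d : ℕ) (e₁ : ℝ), 1 ≤ d → 0 < e₁ → ∃ τ₀ C₁ : ℝ, 0 < τ₀ ∧ 0 < C₁ ∧
    ∀ τ : ℝ, 0 < τ → τ ≤ τ₀ → ∀ p : ℕ, C₁ / τ ≤ p →
    ∀ (F : Filt X.V) (P : Ideal X.B), P.IsPrime → ringKrullDim (X.B ⧸ P) = d →
    ∀ a : ℝ, ∃ h : X.B, h ∉ P ∧ ∀ y : X.B →ₐ[ℂ] ℂ, P ≤ mI y → y h ≠ 0 →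
      (1 - e₁) * (d / τ) * ∑' m : ℕ, Real.exp (-τ * m) *
          ((Module.finrank ℂ (F.F m a) : ℝ) - Module.finrank ℂ (Fgt F m a)) ≤
        ∑' m : ℕ, Real.exp (-τ * m) * ∑ e ∈ Finset.Icc 1 p,
          ((Module.finrank ℂ (U F P y m a e) : ℝ) - Module.finrank ℂ (Fgt F m a))

/-- The Ekeland inequality (4.5) at `F`, `A = A_x(F)`; `ρ` bounds the distance. -/
def EkelandAt (X : FCtx n) (F : Filt X.V) (A ε t κ : ℝ) : Prop :=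
  ∀ (F' : Filt X.V) (ρ A' : ℝ), 0 ≤ ρ → 0 ≤ A' →
    (∀ m l, F.F m l ≤ F'.F m (l - ρ * m) ∧ F'.F m l ≤ F.F m (l - ρ * m)) →
    (∀ l : ℝ, Good X.z F' X.x l → l ≤ A') →
    A + Real.log (ZZ F t κ) ≤ A' + Real.log (ZZ F' t κ) + ε * ρ

/-- Part 8: the non-isolated case is impossible -/
def NonIsoStmt (X : FCtx n) : Prop :=
  ∀ κ : ℝ, 1 / 2 ≤ κ → κ < 1 → ∃ t₀ : ℝ, 0 < t₀ ∧ ∀ t : ℝ, 0 < t → t ≤ t₀ →
    ∃ ε₀ : ℝ, 0 < ε₀ ∧ ∀ ε : ℝ, 0 < ε → ε ≤ ε₀ → ∀ (F : Filt X.V) (A : ℝ),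
      EkelandAt X F A ε t κ → ∀ (P : Ideal X.B) (d : ℕ), 1 ≤ d → ¬ Center X F A P d


end pieces

end Crest.Agent.R271.N647
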