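import Crest.Agent.R271.Gibbs_302
import Crest.Agent.R271.Defs_710
import Crest.Agent.R271.Gibbs2_302

-- ▼ part R271/GrowthNum_302
section

/-!
# R271, (4.2): generating function bounds from polynomial growth
-/

set_option autoImplicit false

open Real Finset

namespace Crest.Agent.R271.Gibbs302

lemma half_le_one_sub_exp {s : ℝ} (hs : 0 < s) (hs1 : s ≤ 1) : s / 2 ≤ 1 - exp (-s) := by
  -- `exp (-s) ≤ 1/(1+s)`
  have h1 := add_one_le_exp s
  have h2 : exp (-s) * exp s = 1 := by rw [← exp_add]; simp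
  have h3 : exp (-s) ≤ 1 / (1 + s) := by
    rw [le_div_iff₀ (by linarith)]
    calc exp (-s) * (1 + s) ≤ exp (-s) * exp s :=
          mul_le_mul_of_nonneg_left (by linarith) (exp_pos _).le
      _ = 1 := h2
  have h4 : 1 / (1 + s) ≤ 1 - s / 2 := by
    rw [div_le_iff₀ (by linarith)]
    nlinarith
  linarith

lemma pow_le_choose (m n : ℕ) : ((m : ℝ) + 1) ^ n ≤ n.factorial * ((m + n).choose n : ℝ) := by
  have h1 : (m + 1) ^ n ≤ (m + 1).ascFactorial n := Nat.pow_succ_le_ascFactorial (m + 1) n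
  rw [Nat.ascFactorial_eq_factorial_mul_choose] at h1
  exact_mod_cast h1

/-- summability of `(m+1)^n exp (-s m)` -/
lemma summable_pow_exp (n : ℕ) {s : ℝ} (hs : 0 < s) :
    Summable fun m : ℕ => ((m : ℝ) + 1) ^ n * exp (-(s * m)) := by
  have hr : ‖exp (-s)‖ < 1 := by
    rw [Real.norm_eq_abs, abs_of_pos (exp_pos _)]
    exact exp_lt_one_iff.mpr (by linarith)
  have h1 := (summable_choose_mul_geometric_of_norm_lt_one n hr).mul_left (n.factorial : ℝ)
  refine Summable.of_nonneg_of_le (fun m => by positivity) (fun m => ?_) h1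
  have h2 : exp (-(s * m)) = exp (-s) ^ m := by
    rw [← exp_nat_mul]; congr 1; ring
  rw [h2, ← mul_assoc]
  exact mul_le_mul_of_nonneg_right (pow_le_choose m n) (by positivity)

lemma tsum_pow_exp_le (n : ℕ) {s : ℝ} (hs : 0 < s) (hs1 : s ≤ 1) :
    ∑' m : ℕ, ((m : ℝ) + 1) ^ n * exp (-(s * m)) ≤ (n.factorial * 2 ^ (n + 1)) / s ^ (n + 1) := by
  have hr : ‖exp (-s)‖ < 1 := by
    rw [Real.norm_eq_abs, abs_of_pos (exp_pos _)]
    exact exp_lt_one_iff.mpr (by linarith)
  have h0 := (summable_choose_mul_geometric_of_norm_lt_one n hr).mul_left (n.factorial : ℝ)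
  have h1 := (summable_pow_exp n hs).tsum_le_tsum (fun m => ?_) h0
  · rw [tsum_mul_left, tsum_choose_mul_geometric_of_norm_lt_one n hr] at h1
    refine h1.trans ?_
    have h2 := half_le_one_sub_exp hs hs1
    have h3 : (s / 2) ^ (n + 1) ≤ (1 - exp (-s)) ^ (n + 1) :=
      pow_le_pow_left₀ (by positivity) h2 _
    rw [mul_div_assoc]
    apply mul_le_mul_of_nonneg_left _ (by positivity)
    rw [div_le_div_iff₀ (by apply pow_pos; linarith) (by positivity)]
    rw [div_pow] at h3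
    have h4 : s ^ (n + 1) ≤ 2 ^ (n + 1) * (1 - exp (-s)) ^ (n + 1) := by
      rw [div_le_iff₀ (by positivity)] at h3
      linarith
    linarith
  · have h2 : exp (-(s * m)) = exp (-s) ^ m := by
      rw [← exp_nat_mul]; congr 1; ring
    rw [h2, ← mul_assoc]
    exact mul_le_mul_of_nonneg_right (pow_le_choose m n) (by positivity)

/-- Growth structure from polynomial bounds for the dimensions `N m`. -/
theorem growth_of_bounds (N : ℕ → ℕ) (n : ℕ) (Cu : ℝ) (hCu : ∀ m : ℕ, (N m : ℝ) ≤ Cu * ((m : ℝ) + 1) ^ n)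
    (cl : ℝ) (hcl : 0 < cl) (m1 : ℕ) (hl : ∀ m : ℕ, m1 ≤ m → cl * (m : ℝ) ^ n ≤ N m)
    (h0 : 1 ≤ N 0) :
    ∃ c C : ℝ, Growth (fun p : (Σ m : ℕ, Fin (N m)) => (p.1 : ℝ)) n c C := by
  classical
  have hCu0 : 0 ≤ Cu := by
    have h := hCu 0
    simp only [Nat.cast_zero, zero_add, one_pow, mul_one] at h
    have : (0 : ℝ) ≤ N 0 := Nat.cast_nonneg _
    linarith
  have hfib : ∀ (s : ℝ) (m : ℕ), (∑' _ : Fin (N m), exp (-(s * (m : ℝ)))) = N m * exp (-(s * m)) := by
    intro s m
    rw [tsum_fintype]; simp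
  have hsum1 : ∀ s : ℝ, 0 < s → Summable fun m : ℕ => (N m : ℝ) * exp (-(s * m)) := by
    intro s hs
    have h1 := (summable_pow_exp n hs).mul_left Cu
    refine Summable.of_nonneg_of_le (fun m => by positivity) (fun m => ?_) h1
    rw [← mul_assoc]
    exact mul_le_mul_of_nonneg_right (hCu m) (exp_pos _).le
  have hsum : ∀ s : ℝ, 0 < s →
      Summable fun p : (Σ m : ℕ, Fin (N m)) => exp (-(s * (p.1 : ℝ))) := by
    intro s hs
    rw [summable_sigma_of_nonneg (fun p => (exp_pos _).le)]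
    refine ⟨fun m => (hasSum_fintype _).summable, ?_⟩
    simpa only [hfib] using hsum1 s hs
  have htsum : ∀ s : ℝ, 0 < s →
      ∑' p : (Σ m : ℕ, Fin (N m)), exp (-(s * (p.1 : ℝ))) = ∑' m : ℕ, (N m : ℝ) * exp (-(s * m)) := by
    intro s hs
    rw [(hsum s hs).tsum_sigma' (fun m => (hasSum_fintype _).summable)]
    exact tsum_congr (fun m => hfib s m)
  -- lower constants
  set s0 : ℝ := 1 / ((m1 : ℝ) + 1) with hs0
  have hs0pos : 0 < s0 := by positivity
  have hs01 : s0 ≤ 1 := by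
    rw [hs0, div_le_iff₀ (by positivity)]
    have : (0 : ℝ) ≤ m1 := Nat.cast_nonneg _
    linarith
  refine ⟨min (s0 ^ (n + 1)) (cl * exp (-4)), Cu * (n.factorial * 2 ^ (n + 1)), ?_, ?_, hsum, ?_, ?_⟩
  · exact lt_min (by positivity) (by positivity)
  · intro p; exact Nat.cast_nonneg _
  · intro s hs hs1
    rw [htsum s hs]
    have h1 : ∑' m : ℕ, (N m : ℝ) * exp (-(s * m))
        ≤ ∑' m : ℕ, Cu * (((m : ℝ) + 1) ^ n * exp (-(s * m))) := by
      refine (hsum1 s hs).tsum_le_tsum (fun m => ?_) ((summable_pow_exp n hs).mul_left Cu)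
      rw [← mul_assoc]
      exact mul_le_mul_of_nonneg_right (hCu m) (exp_pos _).le
    rw [tsum_mul_left] at h1
    refine h1.trans ?_
    rw [mul_div_assoc]
    exact mul_le_mul_of_nonneg_left (tsum_pow_exp_le n hs hs1) hCu0
  · intro s hs
    rw [htsum s hs]
    rcases le_total s0 s with hcase | hcase
    · -- `N 0 ≥ 1`
      have h1 : (1 : ℝ) ≤ ∑' m : ℕ, (N m : ℝ) * exp (-(s * m)) := by
        have h2 := (hsum1 s hs).sum_le_tsum {0} (fun m _ => by positivity)
        simp only [Finset.sum_singleton, Nat.cast_zero, mul_zero, neg_zero, exp_zero, mul_one] at h2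
        have h3 : (1 : ℝ) ≤ N 0 := by exact_mod_cast h0
        linarith
      refine le_trans ?_ h1
      rw [div_le_one (by positivity)]
      exact (min_le_left _ _).trans (pow_le_pow_left₀ hs0pos.le hcase _)
    · -- block `[M, 2M)`, `M = ⌈1/s⌉`
      set M : ℕ := ⌈1 / s⌉₊ with hM
      have hM1 : 1 / s ≤ M := Nat.le_ceil _
      have hM2 : (M : ℝ) < 1 / s + 1 := Nat.ceil_lt_add_one (by positivity)
      have hMm : m1 ≤ M := by
        have h3 : (m1 : ℝ) + 1 ≤ 1 / s := by
          rw [le_div_iff₀ hs]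
          rw [hs0, le_div_iff₀ (by positivity)] at hcase
          linarith
        have h4 : (m1 : ℝ) ≤ M := by linarith
        exact_mod_cast h4
      have hMs : (M : ℝ) * s ≤ 2 := by
        have h5 : (M : ℝ) * s < (1 / s + 1) * s := mul_lt_mul_of_pos_right hM2 hs
        have h6 : (1 / s + 1) * s = 1 + s := by field_simp
        have h7 : s ≤ 1 := hcase.trans hs01
        linarith
      have h1 := (hsum1 s hs).sum_le_tsum (Finset.Ico M (2 * M)) (fun m _ => by positivity)
      refine le_trans ?_ h1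
      have h2 : ∀ m ∈ Finset.Ico M (2 * M), cl * (M : ℝ) ^ n * exp (-4) ≤ (N m : ℝ) * exp (-(s * m)) := by
        intro m hm
        rw [Finset.mem_Ico] at hm
        have h3 : cl * (M : ℝ) ^ n ≤ N m := by
          refine le_trans ?_ (hl m (hMm.trans hm.1))
          apply mul_le_mul_of_nonneg_left _ hcl.le
          apply pow_le_pow_left₀ (Nat.cast_nonneg _)
          exact_mod_cast hm.1
        have h4 : exp (-4) ≤ exp (-(s * m)) := by
          apply exp_le_exp.mpr
          have h5 : (m : ℝ) ≤ 2 * M := by exact_mod_cast hm.2.le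
          nlinarith [mul_le_mul_of_nonneg_left h5 hs.le]
        exact mul_le_mul h3 h4 (exp_pos _).le (Nat.cast_nonneg _)
      have h3 := Finset.card_nsmul_le_sum _ _ _ h2
      rw [Nat.card_Ico, nsmul_eq_mul] at h3
      refine le_trans ?_ h3
      have h4 : ((2 * M - M : ℕ) : ℝ) = M := by
        congr 1; omega
      rw [h4]
      calc min (s0 ^ (n + 1)) (cl * exp (-4)) / s ^ (n + 1)
          ≤ cl * exp (-4) / s ^ (n + 1) :=
            div_le_div_of_nonneg_right (min_le_right _ _) (by positivity)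
        _ = cl * exp (-4) * (1 / s) ^ (n + 1) := by
            rw [one_div, inv_pow, div_eq_mul_inv]
        _ ≤ cl * exp (-4) * (M : ℝ) ^ (n + 1) := by
            apply mul_le_mul_of_nonneg_left _ (by positivity)
            exact pow_le_pow_left₀ (by positivity) hM1 _
        _ = (M : ℝ) * (cl * (M : ℝ) ^ n * exp (-4)) := by ring

end Crest.Agent.R271.Gibbs302
end

-- ▼ part R271/Growth_302
section

/-!
# R271: polynomial growth of `dim V m` from the context
-/

set_option autoImplicit false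

open Finset Module
open Crest.Agent.R271.Defs710

namespace Crest.Agent.R271.Growth302

noncomputable section

variable {n : ℕ} (X : FCtx n)

/-- local coordinates at `y` -/
def wc (y : X.B →ₐ[ℂ] ℂ) (i : Fin n) : X.B := X.z i - algebraMap ℂ X.B (y (X.z i))

lemma sub_mem_mI {B : Type} [CommRing B] [Algebra ℂ B] (y : B →ₐ[ℂ] ℂ) (b : B) :
    b - algebraMap ℂ B (y b) ∈ mI y := by
  simp [mI, RingHom.mem_ker]

lemma wc_mem (y : X.B →ₐ[ℂ] ℂ) (i : Fin n) : wc X y i ∈ mI y := sub_mem_mI y _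

/-- étaleness: the maximal ideal of `y` is generated by the coordinates modulo its square -/
lemma mI_le (y : X.B →ₐ[ℂ] ℂ) : mI y ≤ Ideal.span (Set.range (wc X y)) ⊔ mI y ^ 2 := by
  classical
  set J : Ideal X.B := Ideal.span (Set.range (wc X y)) ⊔ mI y ^ 2 with hJ
  let algA : Algebra (MvPolynomial (Fin n) ℂ) X.B :=
    ((MvPolynomial.aeval X.z : MvPolynomial (Fin n) ℂ →ₐ[ℂ] X.B) :
      MvPolynomial (Fin n) ℂ →+* X.B).toAlgebra
  have het : Algebra.Etale (MvPolynomial (Fin n) ℂ) X.B := X.etale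
  have halg : ∀ p : MvPolynomial (Fin n) ℂ, algebraMap (MvPolynomial (Fin n) ℂ) X.B p
      = MvPolynomial.aeval X.z p := fun p => rfl
  -- second map
  have hcomm : ∀ p : MvPolynomial (Fin n) ℂ,
      algebraMap ℂ (X.B ⧸ J) (y (MvPolynomial.aeval X.z p))
        = Ideal.Quotient.mk J (MvPolynomial.aeval X.z p) := by
    intro p
    have h1 : ((Algebra.ofId ℂ (X.B ⧸ J)).comp (y.comp (MvPolynomial.aeval X.z)))
        = (Ideal.Quotient.mkₐ ℂ J).comp (MvPolynomial.aeval X.z) := by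
      apply MvPolynomial.algHom_ext
      intro i
      simp only [AlgHom.comp_apply, MvPolynomial.aeval_X]
      have h2 : (Ideal.Quotient.mkₐ ℂ J) (wc X y i) = 0 := by
        rw [Ideal.Quotient.mkₐ_eq_mk, Ideal.Quotient.eq_zero_iff_mem]
        exact Ideal.mem_sup_left (Ideal.subset_span ⟨i, rfl⟩)
      unfold wc at h2
      rw [map_sub, sub_eq_zero] at h2
      rw [h2]
      rfl
    exact DFunLike.congr_fun h1 p
  let g₁ : X.B →ₐ[MvPolynomial (Fin n) ℂ] (X.B ⧸ J) := Ideal.Quotient.mkₐ _ J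
  let g₂ : X.B →ₐ[MvPolynomial (Fin n) ℂ] (X.B ⧸ J) :=
    { toRingHom := (algebraMap ℂ (X.B ⧸ J)).comp (y : X.B →+* ℂ)
      commutes' := fun p => by
        change algebraMap ℂ (X.B ⧸ J) (y (algebraMap (MvPolynomial (Fin n) ℂ) X.B p)) = _
        rw [halg, hcomm]
        rfl }
  have hI : IsNilpotent ((mI y).map (Ideal.Quotient.mk J)) := by
    refine ⟨2, ?_⟩
    rw [← Ideal.map_pow, Ideal.zero_eq_bot, Ideal.map_eq_bot_iff_le_ker, Ideal.mk_ker]
    exact le_sup_right
  have hext : g₁ = g₂ := by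
    refine Algebra.FormallyUnramified.ext (R := MvPolynomial (Fin n) ℂ)
      ((mI y).map (Ideal.Quotient.mk J)) hI (fun b => ?_)
    rw [Ideal.Quotient.eq]
    have h3 : g₁ b - g₂ b = Ideal.Quotient.mk J (b - algebraMap ℂ X.B (y b)) := by
      rw [map_sub]; rfl
    rw [h3]
    exact Ideal.mem_map_of_mem _ (sub_mem_mI y b)
  intro b hb
  have h4 : g₁ b = g₂ b := by rw [hext]
  have h5 : g₂ b = 0 := by
    change algebraMap ℂ (X.B ⧸ J) (y b) = 0
    have h6 : y b = 0 := by simpa [mI, RingHom.mem_ker] using hb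
    rw [h6, map_zero]
  rw [h5] at h4
  have h7 : Ideal.Quotient.mk J b = 0 := h4
  rwa [Ideal.Quotient.eq_zero_iff_mem] at h7

/-- `m^k ≤ W^k + m^{k+1}` -/
lemma mI_pow_le (y : X.B →ₐ[ℂ] ℂ) (k : ℕ) :
    mI y ^ k ≤ Ideal.span (Set.range (wc X y)) ^ k ⊔ mI y ^ (k + 1) := by
  induction k with
  | zero => simp
  | succ k ih =>
    set W := Ideal.span (Set.range (wc X y)) with hW
    have hWm : W ≤ mI y := by
      rw [hW, Ideal.span_le]
      rintro _ ⟨i, rfl⟩
      exact wc_mem X y i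
    calc mI y ^ (k + 1) = mI y ^ k * mI y := pow_succ _ _
      _ ≤ (W ^ k ⊔ mI y ^ (k + 1)) * (W ⊔ mI y ^ 2) := Ideal.mul_mono ih (mI_le X y)
      _ ≤ W ^ (k + 1) ⊔ mI y ^ (k + 1 + 1) := by
          rw [Ideal.sup_mul, Ideal.mul_sup, Ideal.mul_sup]
          refine sup_le (sup_le ?_ ?_) (sup_le ?_ ?_)
          · rw [← pow_succ]; exact le_sup_left
          · refine le_trans ?_ le_sup_right
            rw [show k + 1 + 1 = k + 2 by ring, pow_add]
            exact Ideal.mul_mono (Ideal.pow_right_mono hWm k) le_rfl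
          · refine le_trans ?_ le_sup_right
            rw [pow_succ (mI y) (k + 1)]
            exact Ideal.mul_mono le_rfl hWm
          · refine le_trans ?_ le_sup_right
            rw [← pow_add]
            exact Ideal.pow_le_pow_right (by omega)

/-- monomials in the local coordinates -/
def mon (y : X.B →ₐ[ℂ] ℂ) (α : Fin n → ℕ) : X.B := ∏ i, wc X y i ^ α i

lemma mon_mem (y : X.B →ₐ[ℂ] ℂ) (α : Fin n → ℕ) : mon X y α ∈ mI y ^ (∑ i, α i) := by
  unfold mon
  rw [← Finset.prod_pow_eq_pow_sum]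
  exact Ideal.prod_mem_prod (fun i _ => Ideal.pow_mem_pow (wc_mem X y i) _)

/-- every function is a polynomial in the coordinates of degree `≤ e` modulo `m^{e+1}` -/
lemma mem_span_mon (y : X.B →ₐ[ℂ] ℂ) (e : ℕ) (b : X.B) :
    b ∈ Submodule.span ℂ {c | ∃ α : Fin n → ℕ, ∑ i, α i ≤ e ∧ mon X y α = c}
      ⊔ (mI y ^ (e + 1)).restrictScalars ℂ := by
  induction e with
  | zero =>
    have h1 : b = algebraMap ℂ X.B (y b) + (b - algebraMap ℂ X.B (y b)) := by ring
    rw [h1]
    refine Submodule.add_mem_sup ?_ ?_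
    · rw [Algebra.algebraMap_eq_smul_one]
      refine Submodule.smul_mem _ _ (Submodule.subset_span ⟨0, by simp, ?_⟩)
      simp [mon]
    · rw [Submodule.restrictScalars_mem, zero_add, pow_one]
      exact sub_mem_mI y b
  | succ e ih =>
    obtain ⟨t, ht, r, hr, rfl⟩ := Submodule.mem_sup.mp ih
    rw [Submodule.restrictScalars_mem] at hr
    obtain ⟨r₁, hr₁, r₂, hr₂, rfl⟩ := Submodule.mem_sup.mp (mI_pow_le X y (e + 1) hr)
    refine Submodule.add_mem _ ?_ (Submodule.add_mem _ ?_ ?_)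
    · refine Submodule.mem_sup_left (Submodule.span_mono ?_ ht)
      rintro c ⟨α, hα, rfl⟩
      exact ⟨α, by omega, rfl⟩
    · rw [Ideal.mem_span_pow_iff_exists_isHomogeneous] at hr₁
      obtain ⟨p, hp, rfl⟩ := hr₁
      rw [MvPolynomial.eval_eq]
      refine Submodule.sum_mem _ (fun α hα => ?_)
      have hα' : ∑ i, α i = e + 1 := by
        have h2 := hp (MvPolynomial.mem_support_iff.mp hα)
        rw [Finsupp.weight_apply, Finsupp.sum_fintype] at h2
        · simpa using h2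
        · intro i; simp
      have hprod : (∏ i ∈ α.support, wc X y i ^ α i) = mon X y α := by
        unfold mon
        refine Finset.prod_subset (Finset.subset_univ _) (fun i _ hi => ?_)
        rw [Finsupp.notMem_support_iff] at hi
        rw [hi, pow_zero]
      rw [hprod]
      set cc := MvPolynomial.coeff α p
      have h3 : cc * mon X y α = algebraMap ℂ X.B (y cc) * mon X y α
          + (cc - algebraMap ℂ X.B (y cc)) * mon X y α := by ring
      rw [h3]
      refine Submodule.add_mem_sup ?_ ?_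
      · rw [← Algebra.smul_def]
        exact Submodule.smul_mem _ _ (Submodule.subset_span ⟨α, hα'.le, rfl⟩)
      · rw [Submodule.restrictScalars_mem, pow_succ']
        refine Ideal.mul_mem_mul (sub_mem_mI y cc) ?_
        rw [← hα']
        exact mon_mem X y α
    · exact Submodule.mem_sup_right hr₂

/-- `dim V ≤ (e+1)^n` for a subspace `V` meeting `m^{e+1}` trivially -/
lemma finrank_le_of_inf_eq_bot (y : X.B →ₐ[ℂ] ℂ) (e : ℕ) (W : Submodule ℂ X.B)
    (hW : ∀ f ∈ W, f ∈ mI y ^ (e + 1) → f = 0) : finrank ℂ W ≤ (e + 1) ^ n := by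
  classical
  set K : Submodule ℂ X.B := (mI y ^ (e + 1)).restrictScalars ℂ with hK
  let v : (Fin n → Fin (e + 1)) → X.B ⧸ K := fun α => K.mkQ (mon X y (fun i => (α i : ℕ)))
  have htop : Submodule.span ℂ (Set.range v) = ⊤ := by
    rw [eq_top_iff]
    rintro q -
    obtain ⟨b, rfl⟩ := K.mkQ_surjective q
    obtain ⟨t, ht, r, hr, rfl⟩ := Submodule.mem_sup.mp (mem_span_mon X y e b)
    rw [map_add]
    have h1 : K.mkQ r = 0 := by
      rw [Submodule.mkQ_apply, Submodule.Quotient.mk_eq_zero]; exact hr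
    rw [h1, add_zero]
    have h2 : K.mkQ t ∈ (Submodule.span ℂ
        {c | ∃ α : Fin n → ℕ, ∑ i, α i ≤ e ∧ mon X y α = c}).map K.mkQ :=
      Submodule.mem_map_of_mem ht
    rw [Submodule.map_span] at h2
    refine Submodule.span_mono ?_ h2
    rintro _ ⟨_, ⟨α, hα, rfl⟩, rfl⟩
    have h3 : ∀ i, α i < e + 1 := fun i => by
      have := Finset.single_le_sum (f := α) (fun i _ => Nat.zero_le _) (Finset.mem_univ i)
      omega
    exact ⟨fun i => ⟨α i, h3 i⟩, rfl⟩
  have hfin : Module.Finite ℂ (X.B ⧸ K) := by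
    refine Module.finite_def.mpr ⟨Finset.univ.image v, ?_⟩
    rw [Finset.coe_image, Finset.coe_univ, Set.image_univ]
    exact htop
  have hdim : finrank ℂ (X.B ⧸ K) ≤ (e + 1) ^ n := by
    have h4 := finrank_range_le_card (R := ℂ) v
    rw [Set.finrank, htop, finrank_top] at h4
    simpa using h4
  refine le_trans ?_ hdim
  refine LinearMap.finrank_le_finrank_of_injective (f := K.mkQ.comp W.subtype) ?_
  rw [← LinearMap.ker_eq_bot, LinearMap.ker_eq_bot']
  intro f hf
  rw [LinearMap.comp_apply, Submodule.mkQ_apply, Submodule.Quotient.mk_eq_zero] at hf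
  exact Subtype.ext (hW f.1 f.2 hf)

/-- (U) upper bound for `dim V m` -/
theorem finrank_V_le : ∃ C : ℝ, 0 < C ∧ ∀ m : ℕ,
    (finrank ℂ (X.V m) : ℝ) ≤ C * ((m : ℝ) + 1) ^ n := by
  obtain ⟨C₁, hC₁⟩ := X.ordbd
  refine ⟨((C₁ : ℝ) + 1) ^ n, by positivity, fun m => ?_⟩
  have h1 := finrank_le_of_inf_eq_bot X X.x (C₁ * m) (X.V m) (fun f hf hf2 => by
    by_contra hne
    have := hC₁ m f hf hne X.x _ hf2
    omega)
  have h2 : (finrank ℂ (X.V m) : ℝ) ≤ ((C₁ * m + 1 : ℕ) : ℝ) ^ n := by exact_mod_cast h1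
  refine h2.trans ?_
  rw [← mul_pow]
  apply pow_le_pow_left₀ (Nat.cast_nonneg _)
  push_cast
  have hm : (0 : ℝ) ≤ m := Nat.cast_nonneg _
  have hc : (0 : ℝ) ≤ C₁ := Nat.cast_nonneg _
  nlinarith [mul_nonneg hm hc]

/-! ### lower bound -/

/-- the coordinates are algebraically independent -/
lemma aeval_injective : Function.Injective (MvPolynomial.aeval X.z :
    MvPolynomial (Fin n) ℂ →ₐ[ℂ] X.B) := by
  let algA : Algebra (MvPolynomial (Fin n) ℂ) X.B :=
    ((MvPolynomial.aeval X.z : MvPolynomial (Fin n) ℂ →ₐ[ℂ] X.B) :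
      MvPolynomial (Fin n) ℂ →+* X.B).toAlgebra
  have het : Algebra.Etale (MvPolynomial (Fin n) ℂ) X.B := X.etale
  have hflat : Module.Flat (MvPolynomial (Fin n) ℂ) X.B := inferInstance
  rw [injective_iff_map_eq_zero]
  intro p hp
  by_contra hne
  have hreg : IsRegular p := IsRegular.of_ne_zero hne
  have hsm : IsSMulRegular X.B p := Module.Flat.isSMulRegular_of_isRegular hreg
  have h1 : p • (1 : X.B) = p • (0 : X.B) := by
    rw [smul_zero, Algebra.smul_def, mul_one]
    exact hp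
  exact one_ne_zero (hsm h1)

lemma V_one_mem : (1 : X.B) ∈ X.V 0 := by
  rw [X.V_zero]; exact Submodule.one_le.mp le_rfl

lemma V_pow_mem {m : ℕ} {a : X.B} (ha : a ∈ X.V m) (j : ℕ) : a ^ j ∈ X.V (m * j) := by
  induction j with
  | zero => simpa using V_one_mem X
  | succ j ih =>
    rw [pow_succ, Nat.mul_succ]
    exact X.V_mul _ _ _ _ ih ha

lemma V_prod_mem {ι : Type} (s : Finset ι) (m : ι → ℕ) (a : ι → X.B)
    (ha : ∀ i ∈ s, a i ∈ X.V (m i)) : ∏ i ∈ s, a i ∈ X.V (∑ i ∈ s, m i) := by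
  classical
  induction s using Finset.induction_on with
  | empty => simpa using V_one_mem X
  | insert i s hi ih =>
    rw [Finset.prod_insert hi, Finset.sum_insert hi]
    exact X.V_mul _ _ _ _ (ha i (Finset.mem_insert_self _ _))
      (ih (fun j hj => ha j (Finset.mem_insert_of_mem hj)))

/-- `r^n ≤ dim V (k q)` if `n r ≤ q` -/
lemma pow_le_finrank (q r : ℕ) (hr : n * r ≤ q) : r ^ n ≤ finrank ℂ (X.V (X.k * q)) := by
  classical
  have := X.V_fin
  -- the family `Y₀^q z^α`
  have hmem : ∀ α : Fin n → Fin r, X.Y 0 ^ q * ∏ i, X.z i ^ (α i : ℕ) ∈ X.V (X.k * q) := by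
    intro α
    set s := ∑ i, (α i : ℕ) with hs
    have hsq : s ≤ q := by
      refine le_trans ?_ hr
      calc s ≤ ∑ _i : Fin n, r := Finset.sum_le_sum (fun i _ => (α i).2.le)
        _ = n * r := by simp
    have h1 : X.Y 0 ^ q * ∏ i, X.z i ^ (α i : ℕ)
        = X.Y 0 ^ (q - s) * ∏ i, X.Y i.succ ^ (α i : ℕ) := by
      have h2 : ∏ i, X.Y i.succ ^ (α i : ℕ) = X.Y 0 ^ s * ∏ i, X.z i ^ (α i : ℕ) := by
        rw [hs, ← Finset.prod_pow_eq_pow_sum, ← Finset.prod_mul_distrib]
        refine Finset.prod_congr rfl (fun i _ => ?_)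
        rw [← X.Y_z i, mul_pow, mul_comm]
      rw [h2, ← mul_assoc, ← pow_add]
      congr 2
      omega
    rw [h1]
    have h3 : X.k * q = X.k * (q - s) + ∑ i, X.k * (α i : ℕ) := by
      rw [← Finset.mul_sum, ← Nat.mul_add]
      congr 1
      omega
    rw [h3]
    exact X.V_mul _ _ _ _ (V_pow_mem X (X.Y_mem 0) _)
      (V_prod_mem X _ _ _ (fun i _ => V_pow_mem X (X.Y_mem _) _))
  have hli : LinearIndependent ℂ (fun α : Fin n → Fin r =>
      (⟨X.Y 0 ^ q * ∏ i, X.z i ^ (α i : ℕ), hmem α⟩ : X.V (X.k * q))) := by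
    have hli1 : LinearIndependent ℂ (fun α : Fin n → Fin r =>
        (MvPolynomial.monomial (Finsupp.equivFunOnFinite.symm (fun i => (α i : ℕ))) (1 : ℂ))) := by
      have h4 := (MvPolynomial.basisMonomials (Fin n) ℂ).linearIndependent
      have h5 : Function.Injective (fun α : Fin n → Fin r =>
          Finsupp.equivFunOnFinite.symm (fun i => (α i : ℕ))) := by
        intro α β hαβ
        have h6 := Finsupp.equivFunOnFinite.symm.injective hαβ
        funext i
        exact Fin.ext (congrFun h6 i)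
      have h7 := h4.comp _ h5
      have h8 : (fun α : Fin n → Fin r =>
          (MvPolynomial.monomial (Finsupp.equivFunOnFinite.symm (fun i => (α i : ℕ))) (1 : ℂ)))
          = (MvPolynomial.basisMonomials (Fin n) ℂ) ∘ (fun α : Fin n → Fin r =>
          Finsupp.equivFunOnFinite.symm (fun i => (α i : ℕ))) := by
        funext α
        simp
      rw [h8]
      exact h7
    let Φ : MvPolynomial (Fin n) ℂ →ₗ[ℂ] X.B :=
      (LinearMap.mulLeft ℂ (X.Y 0 ^ q)).comp (MvPolynomial.aeval X.z).toLinearMap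
    have hΦ : LinearMap.ker Φ = ⊥ := by
      rw [LinearMap.ker_eq_bot]
      have hu : IsUnit (X.Y 0 ^ q) := X.Y_unit.pow q
      have h10 : (Φ : MvPolynomial (Fin n) ℂ → X.B)
          = (fun b => X.Y 0 ^ q * b) ∘ (MvPolynomial.aeval X.z) := rfl
      rw [h10]
      exact Function.Injective.comp hu.mul_right_injective (aeval_injective X)
    have h8 := hli1.map' Φ hΦ
    refine LinearIndependent.of_comp (X.V (X.k * q)).subtype ?_
    have h11 : ((X.V (X.k * q)).subtype ∘ fun α : Fin n → Fin r =>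
        (⟨X.Y 0 ^ q * ∏ i, X.z i ^ (α i : ℕ), hmem α⟩ : X.V (X.k * q)))
        = (Φ ∘ fun α : Fin n → Fin r =>
        (MvPolynomial.monomial (Finsupp.equivFunOnFinite.symm (fun i => (α i : ℕ))) (1 : ℂ))) := by
      funext α
      simp [Φ, MvPolynomial.aeval_monomial, Finsupp.prod_fintype]
    rw [h11]
    exact h8
  have h9 := hli.fintype_card_le_finrank
  simpa using h9

/-- multiplication by a nonzero section -/
lemma finrank_le_add {m r : ℕ} {f : X.B} (hf : f ∈ X.V r) (hne : f ≠ 0) :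
    finrank ℂ (X.V m) ≤ finrank ℂ (X.V (m + r)) := by
  have := X.V_fin
  let Ψ : X.V m →ₗ[ℂ] X.V (m + r) :=
    { toFun := fun a => ⟨a.1 * f, X.V_mul _ _ _ _ a.2 hf⟩
      map_add' := fun a b => Subtype.ext (by simp [add_mul])
      map_smul' := fun c a => Subtype.ext (by simp) }
  refine LinearMap.finrank_le_finrank_of_injective (f := Ψ) ?_
  intro a b hab
  have h1 : a.1 * f = b.1 * f := congrArg Subtype.val hab
  exact Subtype.ext (mul_right_cancel₀ hne h1)

/-- sections not vanishing at `y` exist in all large degrees -/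
lemma exists_nonvanishing : ∃ j₀ : ℕ, ∀ j, j₀ ≤ j → ∀ y : X.B →ₐ[ℂ] ℂ, ∃ f ∈ X.V j, y f ≠ 0 := by
  obtain ⟨j₀, hj₀⟩ := X.jets 0
  refine ⟨j₀, fun j hj y => ?_⟩
  obtain ⟨f, hf, hf1⟩ := hj₀ j hj y 1
  refine ⟨f, hf, ?_⟩
  rw [zero_add, pow_one] at hf1
  have h1 : y (f - 1) = 0 := hf1
  rw [map_sub, map_one, sub_eq_zero] at h1
  rw [h1]
  exact one_ne_zero

/-- (Lo) lower bound for `dim V m` -/
theorem le_finrank_V : ∃ (c : ℝ) (m₁ : ℕ), 0 < c ∧ ∀ m : ℕ, m₁ ≤ m →
    c * (m : ℝ) ^ n ≤ (finrank ℂ (X.V m) : ℝ) := by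
  obtain ⟨j₀, hj₀⟩ := exists_nonvanishing X
  have hk := X.k_pos
  have hk' : (1 : ℝ) ≤ X.k := by exact_mod_cast hk
  refine ⟨(1 / (2 * X.k * (n + 1))) ^ n, 2 * (j₀ + X.k + n * X.k), by positivity, fun m hm => ?_⟩
  set q := (m - j₀) / X.k with hq
  set r := q / (n + 1) with hr
  have h1 : X.k * q ≤ m - j₀ := Nat.mul_div_le _ _
  have h2 : m - j₀ < X.k * (q + 1) := by
    rw [hq, Nat.mul_add, mul_one]
    exact Nat.lt_mul_div_succ _ (by omega)
  have h3 : (n + 1) * r ≤ q := Nat.mul_div_le _ _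
  have h4 : q < (n + 1) * (r + 1) := by
    rw [hr, Nat.mul_add, mul_one]
    exact Nat.lt_mul_div_succ _ (by omega)
  have hnr : n * r ≤ q := le_trans (Nat.mul_le_mul_right r (Nat.le_succ n)) h3
  obtain ⟨f, hf, hfx⟩ := hj₀ (m - X.k * q) (by omega) X.x
  have hfne : f ≠ 0 := by
    rintro rfl
    exact hfx (map_zero _)
  have h5 : r ^ n ≤ finrank ℂ (X.V m) := by
    have h6 := finrank_le_add X (m := X.k * q) hf hfne
    have h7 : X.k * q + (m - X.k * q) = m := by omega
    rw [h7] at h6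
    exact (pow_le_finrank X q r hnr).trans h6
  have h8 : ((r : ℝ)) ^ n ≤ (finrank ℂ (X.V m) : ℝ) := by exact_mod_cast h5
  refine le_trans ?_ h8
  rw [← mul_pow]
  apply pow_le_pow_left₀ (by positivity)
  rw [div_mul_eq_mul_div, one_mul, div_le_iff₀ (by positivity)]
  -- `m ≤ r * (2 k (n+1))`
  have h9 : m ≤ j₀ + X.k * (q + 1) := by omega
  have h9' : (m : ℝ) ≤ j₀ + X.k * (q + 1) := by exact_mod_cast h9
  have h10 : (q : ℝ) + 1 ≤ (n + 1) * (r + 1) := by exact_mod_cast h4
  have h11 : (m : ℝ) ≤ j₀ + X.k * ((n + 1) * (r + 1)) :=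
    h9'.trans (by
      have := mul_le_mul_of_nonneg_left h10 (by linarith : (0 : ℝ) ≤ X.k)
      linarith)
  have h12 : 2 * ((j₀ : ℝ) + X.k + n * X.k) ≤ m := by exact_mod_cast hm
  nlinarith [h11, h12]

/-- the growth structure for the index set of the jumps -/
theorem growth_V : ∃ c C : ℝ, Gibbs302.Growth
    (fun p : (Σ m : ℕ, Fin (finrank ℂ (X.V m))) => (p.1 : ℝ)) n c C := by
  obtain ⟨Cu, -, hCu⟩ := finrank_V_le X
  obtain ⟨cl, m₁, hcl, hl⟩ := le_finrank_V X
  refine Gibbs302.growth_of_bounds (fun m => finrank ℂ (X.V m)) n Cu hCu cl hcl m₁ hl ?_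
  have := X.V_fin 0
  rw [Nat.one_le_iff_ne_zero]
  intro h0
  have h1 : X.V 0 = ⊥ := Submodule.finrank_eq_zero.mp h0
  have h2 := V_one_mem X
  rw [h1, Submodule.mem_bot] at h2
  exact one_ne_zero h2

end

end Crest.Agent.R271.Growth302
end

-- ▼ part R271/Jump_302
section

/-!
# R271, (4.1): jumps of a filtration
-/

set_option autoImplicit false

open Real Finset Module
open Crest.Agent.R271.Defs710

namespace Crest.Agent.R271.Jump302

noncomputable section

variable {B : Type} [CommRing B] [Algebra ℂ B] {V : ℕ → Submodule ℂ B}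

/-- the `i`-th jump of `F` on `V m` (decreasing order, `i < finrank (V m)`) -/
def jump (F : Filt V) (m i : ℕ) : ℝ := sSup {l : ℝ | i < finrank ℂ (F.F m l)}

/-- index set of the jumps -/
abbrev Idx (V : ℕ → Submodule ℂ B) : Type := Σ m : ℕ, Fin (finrank ℂ (V m))

/-- degree of an index -/
def deg (p : Idx V) : ℝ := (p.1 : ℝ)

/-- jump function of a filtration -/
def LL (F : Filt V) (p : Idx V) : ℝ := jump F p.1 p.2

lemma F_fin (F : Filt V) (m : ℕ) (l : ℝ) [FiniteDimensional ℂ (V m)] :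
    FiniteDimensional ℂ (F.F m l) :=
  Submodule.finiteDimensional_of_le (F.le_V m l)

lemma finrank_anti (F : Filt V) (m : ℕ) [FiniteDimensional ℂ (V m)] {l l' : ℝ} (h : l ≤ l') :
    finrank ℂ (F.F m l') ≤ finrank ℂ (F.F m l) := by
  have := F_fin F m l
  exact Submodule.finrank_mono (F.anti m h)

lemma finrank_le (F : Filt V) (m : ℕ) [FiniteDimensional ℂ (V m)] (l : ℝ) :
    finrank ℂ (F.F m l) ≤ finrank ℂ (V m) :=
  Submodule.finrank_mono (F.le_V m l)

/-- left-continuity for finite dimensional `V m`: `F m` is constant on some `[l', l]`, `l' < l` -/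
lemma exists_left_const (F : Filt V) (m : ℕ) [FiniteDimensional ℂ (V m)] (l : ℝ) :
    ∃ l' < l, F.F m l' = F.F m l := by
  classical
  -- minimise `finrank (F m l')` over `l' < l`
  have hne : ∃ d : ℕ, ∃ l' < l, finrank ℂ (F.F m l') = d :=
    ⟨_, l - 1, by linarith, rfl⟩
  obtain ⟨l', hl', hd⟩ := Nat.find_spec hne
  have hmin : ∀ l'' < l, finrank ℂ (F.F m l') ≤ finrank ℂ (F.F m l'') := by
    intro l'' hl''
    rw [hd]
    exact Nat.find_min' hne ⟨l'', hl'', rfl⟩
  refine ⟨l', hl', le_antisymm ?_ (F.anti m hl'.le)⟩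
  intro b hb
  refine F.cont m l b (fun l'' hl'' => ?_)
  rcases le_total l'' l' with h | h
  · exact F.anti m h hb
  · have := F_fin F m l'
    have heq : F.F m l'' = F.F m l' :=
      Submodule.eq_of_le_of_finrank_le (F.anti m h) (hmin l'' hl'')
    rw [heq]; exact hb

lemma set_bddAbove (F : Filt V) (m i : ℕ) : BddAbove {l : ℝ | i < finrank ℂ (F.F m l)} := by
  obtain ⟨C, hC⟩ := F.bdd
  refine ⟨C * m, fun l hl => ?_⟩
  by_contra hcon
  push Not at hcon
  have h0 := hC m l hcon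
  simp only [Set.mem_ofPred_eq] at hl
  rw [h0] at hl
  simp at hl

lemma zero_mem (F : Filt V) {m i : ℕ} (hi : i < finrank ℂ (V m)) {l : ℝ} (hl : l ≤ 0) :
    l ∈ {l : ℝ | i < finrank ℂ (F.F m l)} := by
  simp only [Set.mem_ofPred_eq]
  rw [F.zero m l hl]; exact hi

/-- `l ≤ jump i ↔ i < dim F(m,l)` -/
lemma le_jump_iff (F : Filt V) {m i : ℕ} [FiniteDimensional ℂ (V m)] (hi : i < finrank ℂ (V m))
    (l : ℝ) : l ≤ jump F m i ↔ i < finrank ℂ (F.F m l) := by
  constructor
  · intro h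
    obtain ⟨l', hl', heq⟩ := exists_left_const F m l
    have hlt : l' < jump F m i := lt_of_lt_of_le hl' h
    obtain ⟨l'', hl''mem, hl''⟩ := exists_lt_of_lt_csSup ⟨0, zero_mem F hi le_rfl⟩ hlt
    rw [← heq]
    exact lt_of_lt_of_le hl''mem (finrank_anti F m hl''.le)
  · intro h
    exact le_csSup (set_bddAbove F m i) h

lemma jump_nonneg (F : Filt V) {m i : ℕ} [FiniteDimensional ℂ (V m)] (hi : i < finrank ℂ (V m)) :
    0 ≤ jump F m i := by
  rw [le_jump_iff F hi, F.zero m 0 le_rfl]; exact hi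

lemma LL_nonneg [∀ m, FiniteDimensional ℂ (V m)] (F : Filt V) (p : Idx V) : 0 ≤ LL F p :=
  jump_nonneg F p.2.2

lemma deg_nonneg (p : Idx V) : 0 ≤ deg p := Nat.cast_nonneg _

/-- upper bound of the jumps -/
lemma jump_le (F : Filt V) {m i : ℕ} [FiniteDimensional ℂ (V m)] (hi : i < finrank ℂ (V m))
    {a : ℝ} (h : ∀ l, a < l → F.F m l = ⊥) : jump F m i ≤ a := by
  by_contra hcon
  push Not at hcon
  have h1 := (le_jump_iff F hi (jump F m i)).mp le_rfl
  rw [h _ hcon] at h1
  simp at h1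

lemma exists_LL_le [∀ m, FiniteDimensional ℂ (V m)] (F : Filt V) :
    ∃ a : ℝ, 0 ≤ a ∧ ∀ p : Idx V, LL F p ≤ a * deg p := by
  obtain ⟨C, hC⟩ := F.bdd
  refine ⟨max C 0, le_max_right _ _, fun p => ?_⟩
  refine (jump_le F p.2.2 (hC p.1)).trans ?_
  exact mul_le_mul_of_nonneg_right (le_max_left _ _) (deg_nonneg p)

/-- comparison of jumps: dimension inequality with shift -/
lemma jump_shift {F G : Filt V} {m i : ℕ} [FiniteDimensional ℂ (V m)] (hi : i < finrank ℂ (V m))
    {a : ℝ} (h : ∀ l, F.F m l ≤ G.F m (l - a)) : jump F m i - a ≤ jump G m i := by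
  rw [le_jump_iff G hi]
  have h1 := (le_jump_iff F hi (jump F m i)).mp le_rfl
  have := F_fin G m (jump F m i - a)
  exact lt_of_lt_of_le h1 (Submodule.finrank_mono (h _))

/-- number of jumps `≥ l` -/
lemma card_jump_ge (F : Filt V) (m : ℕ) [FiniteDimensional ℂ (V m)] (l : ℝ) :
    (Finset.univ.filter (fun i : Fin (finrank ℂ (V m)) => l ≤ jump F m i.1)).card
      = finrank ℂ (F.F m l) := by
  have h1 : (Finset.univ.filter (fun i : Fin (finrank ℂ (V m)) => l ≤ jump F m i.1))
      = Finset.univ.filter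
        (fun i : Fin (finrank ℂ (V m)) => i.1 < finrank ℂ (F.F m l)) := by
    ext i
    simp only [Finset.mem_filter, Finset.mem_univ, true_and]
    exact le_jump_iff F i.2 l
  rw [h1, Fin.card_filter_val_lt]
  exact min_eq_right (finrank_le F m l)


/-! ### stochastic dominance -/



end

end Crest.Agent.R271.Jump302
end

-- ▼ part R271/ZZ_593

/-!
Row 271: the integral form `Zm`, `ZZ` of `Defs_710` equals the sum over the jumps (`Jump_302`).
-/

set_option autoImplicit false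

open Module MeasureTheory Set

namespace Crest.Agent.R271.ZZ593

open Crest.Agent.R271.Defs710 Crest.Agent.R271.Jump302

variable {B : Type} [CommRing B] [Algebra ℂ B] {V : ℕ → Submodule ℂ B}

/-- `N_m - dim F(m,l) = ∑ᵢ 1_{jump i < l}` -/
lemma sub_finrank (F : Filt V) (m : ℕ) [FiniteDimensional ℂ (V m)] (l : ℝ) :
    (finrank ℂ (V m) : ℝ) - finrank ℂ (F.F m l) =
      ∑ i : Fin (finrank ℂ (V m)), (Ioi (jump F m i)).indicator (fun _ => (1 : ℝ)) l := by
  classical
  have h1 := card_jump_ge F m l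
  have h2 : ∀ i : Fin (finrank ℂ (V m)), (Ioi (jump F m i)).indicator (fun _ => (1 : ℝ)) l
      = 1 - (if l ≤ jump F m i then 1 else 0) := by
    intro i
    by_cases h : l ≤ jump F m i
    · simp [indicator, h]
    · simp only [indicator, mem_Ioi, not_le.mp h, h, if_true, if_false]; ring
  simp only [h2, Finset.sum_sub_distrib, Finset.sum_const, Finset.card_univ, Fintype.card_fin,
    nsmul_eq_mul, mul_one]
  congr 1
  rw [← h1, Finset.card_filter]
  push_cast
  rfl

lemma integral_one {t : ℝ} (ht : 0 < t) {a : ℝ} (ha : 0 ≤ a) :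
    ∫ l in Ioi (0 : ℝ), t * Real.exp (-t * l) * (Ioi a).indicator (fun _ => (1 : ℝ)) l =
      Real.exp (-(t * a)) := by
  have h1 : ∀ l : ℝ, t * Real.exp (-t * l) * (Ioi a).indicator (fun _ => (1 : ℝ)) l =
      (Ioi a).indicator (fun l => t * Real.exp (-t * l)) l := by
    intro l
    by_cases h : l ∈ Ioi a <;> simp [h]
  simp only [h1]
  rw [setIntegral_indicator measurableSet_Ioi, Ioi_inter_Ioi, sup_eq_right.mpr ha,
    integral_const_mul, integral_exp_mul_Ioi (by linarith : -t < 0)]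
  rw [neg_div_neg_eq, mul_div_assoc', mul_div_cancel_left₀ _ ht.ne']
  congr 1; ring

lemma integrable_one {t : ℝ} (ht : 0 < t) (a : ℝ) :
    IntegrableOn (fun l : ℝ => t * Real.exp (-t * l) * (Ioi a).indicator (fun _ => (1 : ℝ)) l)
      (Ioi 0) := by
  have h0 : IntegrableOn (fun l : ℝ => t * Real.exp (-t * l)) (Ioi 0) :=
    (integrableOn_exp_mul_Ioi (by linarith : -t < 0) 0).const_mul t
  have h1 : ∀ l : ℝ, t * Real.exp (-t * l) * (Ioi a).indicator (fun _ => (1 : ℝ)) l =
      (Ioi a).indicator (fun l => t * Real.exp (-t * l)) l := by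
    intro l
    by_cases h : l ∈ Ioi a <;> simp [h]
  simp only [h1]
  exact h0.indicator measurableSet_Ioi

/-- `Zm = ∑ᵢ exp (-t jump i)` -/
theorem Zm_eq [∀ m, FiniteDimensional ℂ (V m)] (F : Filt V) {t : ℝ} (ht : 0 < t) (m : ℕ) :
    Zm F t m = ∑ i : Fin (finrank ℂ (V m)), Real.exp (-(t * jump F m i)) := by
  unfold Zm
  have h1 : ∀ l : ℝ, t * Real.exp (-t * l) *
      ((finrank ℂ (V m) : ℝ) - (finrank ℂ (F.F m l) : ℝ)) =
      ∑ i : Fin (finrank ℂ (V m)), t * Real.exp (-t * l) *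
        (Ioi (jump F m i)).indicator (fun _ => (1 : ℝ)) l := by
    intro l
    rw [sub_finrank, Finset.mul_sum]
  simp only [h1]
  rw [integral_finsetSum _ (fun i _ => integrable_one ht _)]
  exact Finset.sum_congr rfl fun i _ => integral_one ht (jump_nonneg F i.2)

/-- `ZZ = ∑ over all jumps` -/
theorem ZZ_eq [∀ m, FiniteDimensional ℂ (V m)] (F : Filt V) {t κ : ℝ} (ht : 0 < t)
    (hs : Summable (Gibbs302.w (deg : Idx V → ℝ) κ t (LL F))) :
    ZZ F t κ = Gibbs302.Z (deg : Idx V → ℝ) κ t (LL F) := by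
  unfold ZZ Gibbs302.Z
  rw [hs.tsum_sigma' (fun m => (hasSum_fintype _).summable)]
  refine tsum_congr fun m => ?_
  rw [Zm_eq F ht, tsum_fintype, Finset.mul_sum]
  refine Finset.sum_congr rfl fun i _ => ?_
  unfold Gibbs302.w deg LL
  rw [← Real.exp_add]
  congr 1
  ring

end Crest.Agent.R271.ZZ593
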