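import Crest.Agent.R271.NSpec_647
import Mathlib
import Crest.Agent.R271.Defs_710
import Crest.Agent.R271.ZZ_593_Mg
import Crest.Agent.R271.Filt_140
import Crest.Agent.R271.N0b_710

-- ▼ part R271/N3_593
section

/-!
# Row 271, team N, piece N3: generated filtrations (Blueprint (8.3), (8.4))

`gen F0 mi lam U` is the multiplicative family generated by `F0` and the subspaces `U i`
(of degree `mi i`) put at the level `lam i`.
-/

set_option autoImplicit false

open Submodule

namespace Crest.Agent.R271.N593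

variable {B : Type*} [CommRing B] [Algebra ℂ B]

section Gen

variable {ι : Type*} [Fintype ι]

/-- total degree of a multi-index -/
def dg (mi : ι → ℕ) (ν : ι → ℕ) : ℕ := ∑ i, ν i * mi i

/-- total level of a multi-index -/
def lv (lam : ι → ℝ) (ν : ι → ℕ) : ℝ := ∑ i, (ν i : ℝ) * lam i

/-- product of powers -/
def Upow (U : ι → Submodule ℂ B) (ν : ι → ℕ) : Submodule ℂ B := ∏ i, U i ^ ν i

lemma dg_zero (mi : ι → ℕ) : dg mi 0 = 0 := by simp [dg]

lemma lv_zero (lam : ι → ℝ) : lv lam 0 = 0 := by simp [lv]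

lemma Upow_zero (U : ι → Submodule ℂ B) : Upow U 0 = 1 := by simp [Upow]

lemma dg_add (mi : ι → ℕ) (ν μ : ι → ℕ) : dg mi (ν + μ) = dg mi ν + dg mi μ := by
  simp [dg, add_mul, Finset.sum_add_distrib]

lemma lv_add (lam : ι → ℝ) (ν μ : ι → ℕ) : lv lam (ν + μ) = lv lam ν + lv lam μ := by
  simp [lv, add_mul, Finset.sum_add_distrib]

lemma Upow_add (U : ι → Submodule ℂ B) (ν μ : ι → ℕ) :
    Upow U (ν + μ) = Upow U ν * Upow U μ := by
  simp [Upow, pow_add, Finset.prod_mul_distrib]

variable [DecidableEq ι]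

lemma dg_single (mi : ι → ℕ) (i : ι) : dg mi (Pi.single i 1) = mi i := by
  simp [dg, Pi.single_apply]

lemma lv_single (lam : ι → ℝ) (i : ι) : lv lam (Pi.single i 1) = lam i := by
  simp [lv, Pi.single_apply]

lemma Upow_single (U : ι → Submodule ℂ B) (i : ι) : Upow U (Pi.single i 1) = U i := by
  unfold Upow
  rw [Finset.prod_eq_single i]
  · simp
  · intro j _ hj; simp [hj]
  · intro h; exact absurd (Finset.mem_univ i) h

omit [DecidableEq ι] in
/-- a level of a multi-index is bounded below by its degree etc. -/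
lemma le_dg (mi : ι → ℕ) (h1 : ∀ i, 1 ≤ mi i) (ν : ι → ℕ) (i : ι) : ν i ≤ dg mi ν := by
  unfold dg
  calc ν i ≤ ν i * mi i := Nat.le_mul_of_pos_right _ (h1 i)
    _ ≤ ∑ j, ν j * mi j := Finset.single_le_sum (f := fun j => ν j * mi j)
        (fun _ _ => Nat.zero_le _) (Finset.mem_univ i)

/-- the generated family -/
def gen (F0 : ℕ → ℝ → Submodule ℂ B) (mi : ι → ℕ) (lam : ι → ℝ) (U : ι → Submodule ℂ B)
    (m : ℕ) (l : ℝ) : Submodule ℂ B :=
  ⨆ ν : ι → ℕ, ⨆ _ : dg mi ν ≤ m, F0 (m - dg mi ν) (l - lv lam ν) * Upow U ν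

variable {F0 : ℕ → ℝ → Submodule ℂ B} {mi : ι → ℕ} {lam : ι → ℝ} {U : ι → Submodule ℂ B}

omit [DecidableEq ι] in
lemma term_le_gen (ν : ι → ℕ) {m : ℕ} {l : ℝ} (h : dg mi ν ≤ m) :
    F0 (m - dg mi ν) (l - lv lam ν) * Upow U ν ≤ gen F0 mi lam U m l :=
  le_iSup₂_of_le ν h le_rfl

omit [DecidableEq ι] in
lemma term_le_gen' (ν : ι → ℕ) (m0 : ℕ) (l0 : ℝ) :
    F0 m0 l0 * Upow U ν ≤ gen F0 mi lam U (m0 + dg mi ν) (l0 + lv lam ν) := by
  have := term_le_gen (F0 := F0) (mi := mi) (lam := lam) (U := U) ν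
    (m := m0 + dg mi ν) (l := l0 + lv lam ν) (Nat.le_add_left _ _)
  simpa using this

omit [DecidableEq ι] in
lemma F0_le_gen (m : ℕ) (l : ℝ) : F0 m l ≤ gen F0 mi lam U m l := by
  have := term_le_gen' (F0 := F0) (mi := mi) (lam := lam) (U := U) 0 m l
  simpa [dg_zero, lv_zero, Upow_zero] using this

lemma U_le_gen (h1 : (1 : B) ∈ F0 0 0) (i : ι) : U i ≤ gen F0 mi lam U (mi i) (lam i) := by
  have := term_le_gen' (F0 := F0) (mi := mi) (lam := lam) (U := U) (Pi.single i 1) 0 0
  rw [dg_single, lv_single, Upow_single, zero_add, zero_add] at this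
  refine le_trans ?_ this
  intro u hu
  simpa using Submodule.mul_mem_mul h1 hu

omit [DecidableEq ι] in
lemma gen_anti (hanti : ∀ m l l', l ≤ l' → F0 m l' ≤ F0 m l) (m : ℕ) {l l' : ℝ} (h : l ≤ l') :
    gen F0 mi lam U m l' ≤ gen F0 mi lam U m l := by
  refine iSup₂_le fun ν hν => ?_
  refine le_trans (mul_le_mul_left ?_ _) (term_le_gen ν hν)
  exact hanti _ _ _ (by linarith)

omit [DecidableEq ι] in
lemma gen_mul (hmul : ∀ m l m' l', F0 m l * F0 m' l' ≤ F0 (m + m') (l + l'))
    (m : ℕ) (l : ℝ) (m' : ℕ) (l' : ℝ) :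
    gen F0 mi lam U m l * gen F0 mi lam U m' l' ≤ gen F0 mi lam U (m + m') (l + l') := by
  unfold gen
  simp only [Submodule.iSup_mul, Submodule.mul_iSup]
  refine iSup₂_le fun μ hμ => iSup₂_le fun ν hν => ?_
  have h1 : F0 (m - dg mi ν) (l - lv lam ν) * Upow U ν * (F0 (m' - dg mi μ) (l' - lv lam μ) * Upow U μ)
      = (F0 (m - dg mi ν) (l - lv lam ν) * F0 (m' - dg mi μ) (l' - lv lam μ)) * Upow U (ν + μ) := by
    rw [Upow_add]; ring
  rw [h1]
  have h2 := hmul (m - dg mi ν) (l - lv lam ν) (m' - dg mi μ) (l' - lv lam μ)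
  have h3 : m - dg mi ν + (m' - dg mi μ) = m + m' - dg mi (ν + μ) := by rw [dg_add]; omega
  have h4 : l - lv lam ν + (l' - lv lam μ) = l + l' - lv lam (ν + μ) := by rw [lv_add]; ring
  rw [h3, h4] at h2
  exact le_trans (mul_le_mul_left h2 _)
    (term_le_gen (ν + μ) (by rw [dg_add]; omega))

omit [DecidableEq ι] in
/-- UNIVERSAL PROPERTY: a multiplicative family which contains `F0` and the generators contains
the generated family. -/
theorem gen_le {W : ℕ → ℝ → Submodule ℂ B}
    (hW1 : (1 : B) ∈ W 0 0)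
    (hWmul : ∀ m l m' l', W m l * W m' l' ≤ W (m + m') (l + l'))
    (hF : ∀ m l, F0 m l ≤ W m l) (hU : ∀ i, U i ≤ W (mi i) (lam i)) (m : ℕ) (l : ℝ) :
    gen F0 mi lam U m l ≤ W m l := by
  classical
  have hpow : ∀ (i : ι) (k : ℕ), U i ^ k ≤ W (k * mi i) (k * lam i) := by
    intro i k
    induction k with
    | zero =>
      simp only [pow_zero, Nat.cast_zero, zero_mul]
      rw [Submodule.one_le]
      exact hW1
    | succ k ih =>
      rw [pow_succ]
      refine le_trans (mul_le_mul' ih (hU i)) (le_trans (hWmul _ _ _ _) (le_of_eq ?_))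
      congr 1
      · ring
      · push_cast; ring
  have hprod : ∀ (ν : ι → ℕ) (s : Finset ι),
      (∏ i ∈ s, U i ^ ν i) ≤ W (∑ i ∈ s, ν i * mi i) (∑ i ∈ s, (ν i : ℝ) * lam i) := by
    intro ν s
    induction s using Finset.induction_on with
    | empty =>
      simp only [Finset.prod_empty, Finset.sum_empty]
      rw [Submodule.one_le]
      exact hW1
    | insert a s ha ih =>
      rw [Finset.prod_insert ha, Finset.sum_insert ha, Finset.sum_insert ha]
      exact le_trans (mul_le_mul' (hpow a (ν a)) ih) (hWmul _ _ _ _)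
  refine iSup₂_le fun ν hν => ?_
  refine le_trans (mul_le_mul' (hF _ _) (hprod ν Finset.univ)) ?_
  refine le_trans (hWmul _ _ _ _) (le_of_eq ?_)
  congr 1
  · exact Nat.sub_add_cancel hν
  · simp [lv]

omit [DecidableEq ι] in
/-- finiteness: only finitely many multi-indices occur in degree `m` -/
lemma finite_dg (h1 : ∀ i, 1 ≤ mi i) (m : ℕ) : {ν : ι → ℕ | dg mi ν ≤ m}.Finite := by
  refine (Set.Finite.pi' (fun _ : ι => Set.finite_Iic m)).subset ?_
  intro ν hν i
  exact (le_dg mi h1 ν i).trans hν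

omit [DecidableEq ι] in
/-- left-continuity of the generated family -/
theorem gen_leftCont (h1 : ∀ i, 1 ≤ mi i)
    (hanti : ∀ m l l', l ≤ l' → F0 m l' ≤ F0 m l)
    (hlc : ∀ m l, ∃ δ : ℝ, 0 < δ ∧ F0 m (l - δ) = F0 m l) (m : ℕ) (l : ℝ) :
    ∃ δ : ℝ, 0 < δ ∧ gen F0 mi lam U m (l - δ) = gen F0 mi lam U m l := by
  classical
  have hfin := finite_dg (ι := ι) h1 m
  choose δ hδ0 hδ using fun ν : ι → ℕ => hlc (m - dg mi ν) (l - lv lam ν)
  obtain ⟨δ0, h0, hle⟩ : ∃ δ0 : ℝ, 0 < δ0 ∧ ∀ ν ∈ {ν : ι → ℕ | dg mi ν ≤ m}, δ0 ≤ δ ν := by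
    rcases hfin.toFinset.eq_empty_or_nonempty with he | hne
    · refine ⟨1, one_pos, fun ν hν => ?_⟩
      have : ν ∈ hfin.toFinset := by simpa using hν
      rw [he] at this; simp at this
    · obtain ⟨ν0, hν0, hmin⟩ := hfin.toFinset.exists_min_image δ hne
      exact ⟨δ ν0, hδ0 ν0, fun ν hν => hmin ν (by simpa using hν)⟩
  refine ⟨δ0, h0, le_antisymm ?_ (gen_anti hanti m (by linarith))⟩
  refine iSup₂_le fun ν hν => ?_
  refine le_trans (mul_le_mul_left ?_ _) (term_le_gen ν hν)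
  rw [← hδ ν]
  exact hanti _ _ _ (by have := hle ν hν; linarith)

omit [DecidableEq ι] in
/-- `d(F0, gen) ≤ σ` (upper half) -/
theorem gen_le_shift (hmul : ∀ m l m' l', F0 m l * F0 m' l' ≤ F0 (m + m') (l + l'))
    (h1 : (1 : B) ∈ F0 0 0) (hanti : ∀ m l l', l ≤ l' → F0 m l' ≤ F0 m l)
    {σ : ℝ} (hσ : 0 ≤ σ) (hU : ∀ i, U i ≤ F0 (mi i) (lam i - σ * mi i)) (m : ℕ) (l : ℝ) :
    gen F0 mi lam U m l ≤ F0 m (l - σ * m) := by
  refine gen_le (W := fun m l => F0 m (l - σ * m)) ?_ ?_ ?_ ?_ m l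
  · simpa using h1
  · intro m l m' l'
    refine le_trans (hmul _ _ _ _) (le_of_eq ?_)
    congr 1; push_cast; ring
  · intro m l
    exact hanti _ _ _ (by have : 0 ≤ σ * m := by positivity
                          linarith)
  · exact hU

end Gen

/-! ### Filtrations of `Defs_710` -/

section FiltPart

open Crest.Agent.R271.Defs710

variable {B : Type} [CommRing B] [Algebra ℂ B] {V : ℕ → Submodule ℂ B}

/-- for each `l` there is a left neighbourhood on which `F m` is constant -/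
lemma exists_left (F : Filt V) (hV : ∀ m, FiniteDimensional ℂ (V m)) (m : ℕ) (l : ℝ) :
    ∃ δ : ℝ, 0 < δ ∧ F.F m (l - δ) = F.F m l := by
  classical
  have := hV m
  have hfd : ∀ l', FiniteDimensional ℂ (F.F m l') := fun l' =>
    Submodule.finiteDimensional_of_le (F.le_V m l')
  -- minimal dimension to the left of `l`
  let S : Set ℕ := {k | ∃ l' < l, Module.finrank ℂ (F.F m l') = k}
  have hS : S.Nonempty := ⟨_, l - 1, by linarith, rfl⟩
  obtain ⟨l', hl', hk⟩ := Nat.sInf_mem hS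
  refine ⟨l - l', by linarith, ?_⟩
  have e1 : l - (l - l') = l' := by ring
  rw [e1]
  refine le_antisymm ?_ (F.anti m hl'.le)
  intro b hb
  refine F.cont m l b fun l'' hl'' => ?_
  rcases le_total l'' l' with h | h
  · exact F.anti m h hb
  · have hle : F.F m l'' ≤ F.F m l' := F.anti m h
    have hmin : Module.finrank ℂ (F.F m l') ≤ Module.finrank ℂ (F.F m l'') := by
      rw [hk]; exact Nat.sInf_le ⟨l'', hl'', rfl⟩
    have := hfd l'
    have : F.F m l'' = F.F m l' := Submodule.eq_of_le_of_finrank_le hle hmin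
    rw [this]; exact hb

lemma one_mem_zero (F : Filt V) (h1 : (1 : B) ∈ V 0) : (1 : B) ∈ F.F 0 0 := by
  rw [F.zero 0 0 le_rfl]; exact h1

lemma filt_mul (F : Filt V) (m : ℕ) (l : ℝ) (m' : ℕ) (l' : ℝ) :
    F.F m l * F.F m' l' ≤ F.F (m + m') (l + l') :=
  Submodule.mul_le.mpr fun a ha b hb => F.mul m l m' l' a b ha hb

variable {ι : Type*} [Fintype ι]

/-- the filtration generated by `F` and the subspaces `U i` at level `lam i` -/
def genFilt (F : Filt V) (mi : ι → ℕ) (lam : ι → ℝ) (U : ι → Submodule ℂ B)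
    (hV : ∀ m, FiniteDimensional ℂ (V m)) (h1 : (1 : B) ∈ V 0) (hmi : ∀ i, 1 ≤ mi i)
    (σ : ℝ) (hσ : 0 ≤ σ) (hU : ∀ i, U i ≤ F.F (mi i) (lam i - σ * mi i)) : Filt V where
  F := gen F.F mi lam U
  le_V m l := (gen_le_shift (filt_mul F) (one_mem_zero F h1) (fun m l l' h => F.anti m h) hσ hU m l).trans
    (F.le_V _ _)
  zero m l hl := by
    refine le_antisymm ((gen_le_shift (filt_mul F) (one_mem_zero F h1)
      (fun m l l' h => F.anti m h) hσ hU m l).trans (F.le_V _ _)) ?_
    rw [← F.zero m l hl]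
    exact F0_le_gen m l
  anti m _ _ h := gen_anti (fun m l l' h => F.anti m h) m h
  cont m l b hb := by
    obtain ⟨δ, hδ, he⟩ := gen_leftCont (U := U) (lam := lam) hmi (fun m l l' h => F.anti m h)
      (exists_left F hV) m l
    rw [← he]
    exact hb _ (by linarith)
  mul m l m' l' a b ha hb :=
    gen_mul (filt_mul F) m l m' l' (Submodule.mul_mem_mul ha hb)
  bdd := by
    obtain ⟨C, hC⟩ := F.bdd
    refine ⟨C + σ, fun m l hl => ?_⟩
    have h := gen_le_shift (filt_mul F) (one_mem_zero F h1) (fun m l l' h => F.anti m h) hσ hU m l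
    rw [hC m (l - σ * m) (by linarith)] at h
    exact le_bot_iff.mp h

section props

variable (F : Filt V) (mi : ι → ℕ) (lam : ι → ℝ) (U : ι → Submodule ℂ B)
    (hV : ∀ m, FiniteDimensional ℂ (V m)) (h1 : (1 : B) ∈ V 0) (hmi : ∀ i, 1 ≤ mi i)
    (σ : ℝ) (hσ : 0 ≤ σ) (hU : ∀ i, U i ≤ F.F (mi i) (lam i - σ * mi i))

theorem genFilt_F (m : ℕ) (l : ℝ) :
    (genFilt F mi lam U hV h1 hmi σ hσ hU).F m l = gen F.F mi lam U m l := rfl

theorem le_genFilt (m : ℕ) (l : ℝ) : F.F m l ≤ (genFilt F mi lam U hV h1 hmi σ hσ hU).F m l :=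
  F0_le_gen m l

theorem U_le_genFilt (i : ι) :
    U i ≤ (genFilt F mi lam U hV h1 hmi σ hσ hU).F (mi i) (lam i) := by
  classical
  exact U_le_gen (one_mem_zero F h1) i

theorem genFilt_le_shift (m : ℕ) (l : ℝ) :
    (genFilt F mi lam U hV h1 hmi σ hσ hU).F m l ≤ F.F m (l - σ * m) :=
  gen_le_shift (filt_mul F) (one_mem_zero F h1) (fun m l l' h => F.anti m h) hσ hU m l




end props

/-! ### The ideals of the generated filtration -/

section IdealPart

/-- `S ↦` the ideal generated by `S`, as a monoid homomorphism -/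
def spanHom (B : Type*) [CommRing B] [Algebra ℂ B] : Submodule ℂ B →* Ideal B where
  toFun S := Ideal.span (S : Set B)
  map_one' := by
    rw [Ideal.one_eq_top, Ideal.eq_top_iff_one]
    exact Ideal.subset_span (Submodule.one_le.mp le_rfl)
  map_mul' S T := by
    refine le_antisymm (Ideal.span_le.mpr ?_) ?_
    · intro b hb
      have h : S * T ≤ (Ideal.span (S : Set B) * Ideal.span (T : Set B)).restrictScalars ℂ := by
        rw [Submodule.mul_le]
        intro a ha b hb
        exact Ideal.mul_mem_mul (Ideal.subset_span ha) (Ideal.subset_span hb)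
      exact h hb
    · rw [Ideal.span_mul_span']
      refine Ideal.span_mono ?_
      rintro _ ⟨a, ha, b, hb, rfl⟩
      exact Submodule.mul_mem_mul ha hb


lemma span_iSup' {κ : Sort*} (S : κ → Submodule ℂ B) :
    Ideal.span ((⨆ i, S i : Submodule ℂ B) : Set B) = ⨆ i, Ideal.span (S i : Set B) := by
  refine le_antisymm (Ideal.span_le.mpr ?_) (iSup_le fun i => Ideal.span_mono (le_iSup S i))
  intro b hb
  have h : (⨆ i, S i) ≤ (⨆ i, Ideal.span (S i : Set B) : Ideal B).restrictScalars ℂ :=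
    iSup_le fun i b hb => (le_iSup (fun i => Ideal.span (S i : Set B)) i) (Ideal.subset_span hb)
  exact h hb

lemma idl_eq_iSup (F : Filt V) (l : ℝ) : idl F l = ⨆ m, Ideal.span (F.F m l : Set B) := by
  unfold idl
  refine le_antisymm (Ideal.span_le.mpr ?_) (iSup_le fun m => Ideal.span_mono fun b hb => ⟨m, hb⟩)
  rintro b ⟨m, hb⟩
  exact (le_iSup (fun m => Ideal.span (F.F m l : Set B)) m) (Ideal.subset_span hb)

lemma span_Upow (U : ι → Submodule ℂ B) (ν : ι → ℕ) :
    Ideal.span (Upow U ν : Set B) = ∏ i, Ideal.span (U i : Set B) ^ ν i := by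
  have h := map_prod (spanHom B) (fun i => U i ^ ν i) Finset.univ
  have h2 : ∀ i, spanHom B (U i ^ ν i) = (Ideal.span (U i : Set B)) ^ ν i := fun i => by
    rw [map_pow]; rfl
  simp only [h2] at h
  exact h

/-- the ideals of the generated filtration -/
theorem idl_genFilt (F : Filt V) (mi : ι → ℕ) (lam : ι → ℝ) (U : ι → Submodule ℂ B)
    (hV : ∀ m, FiniteDimensional ℂ (V m)) (h1 : (1 : B) ∈ V 0) (hmi : ∀ i, 1 ≤ mi i)
    (σ : ℝ) (hσ : 0 ≤ σ) (hU : ∀ i, U i ≤ F.F (mi i) (lam i - σ * mi i)) (l : ℝ) :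
    idl (genFilt F mi lam U hV h1 hmi σ hσ hU) l =
      ⨆ ν : ι → ℕ, idl F (l - ∑ i, (ν i : ℝ) * lam i) * ∏ i, (Ideal.span (U i : Set B)) ^ ν i := by
  rw [idl_eq_iSup]
  refine le_antisymm (iSup_le fun m => ?_) (iSup_le fun ν => ?_)
  · rw [genFilt_F]
    unfold gen
    rw [span_iSup']
    refine iSup_le fun ν => ?_
    rw [span_iSup']
    refine iSup_le fun hν => ?_
    refine le_trans (le_of_eq ((spanHom B).map_mul _ _)) ?_
    refine le_trans ?_ (le_iSup _ ν)
    refine Ideal.mul_mono ?_ (le_of_eq (span_Upow U ν))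
    rw [idl_eq_iSup]
    exact le_iSup (fun m => Ideal.span (F.F m (l - lv lam ν) : Set B)) (m - dg mi ν)
  · rw [idl_eq_iSup, Ideal.iSup_mul]
    refine iSup_le fun m => ?_
    rw [← span_Upow]
    refine le_trans (le_of_eq ((spanHom B).map_mul _ _).symm) ?_
    refine le_trans ?_ (le_iSup _ (m + dg mi ν))
    refine Ideal.span_mono ?_
    have h := term_le_gen' (F0 := F.F) (mi := mi) (lam := lam) (U := U) ν m (l - lv lam ν)
    rw [sub_add_cancel] at h
    exact h

end IdealPart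

end FiltPart

open Crest.Agent.R271.Defs710 in
/-- **(8.4)**, the exact statement of `NSpec_647` -/
theorem genFiltStmt : Crest.Agent.R271.N647.GenFiltStmt := by
  intro B _ _ V F hV hV0 _ ι _ m a lev σ W hm _ _ hlev hσ hW
  have h1 : (1 : B) ∈ V 0 := by rw [hV0]; exact Submodule.one_le.mp le_rfl
  have hU : ∀ i, W i ≤ F.F (m i) (lev i - σ * m i) := fun i =>
    (hW i).trans (F.anti _ (by
      have h3 : (1 : ℝ) ≤ (m i : ℝ) := by exact_mod_cast hm i
      nlinarith [mul_le_mul_of_nonneg_left h3 hσ, hlev i]))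
  exact ⟨genFilt F m lev W hV h1 hm σ hσ hU, le_genFilt F m lev W hV h1 hm σ hσ hU,
    U_le_genFilt F m lev W hV h1 hm σ hσ hU, genFilt_le_shift F m lev W hV h1 hm σ hσ hU,
    idl_genFilt F m lev W hV h1 hm σ hσ hU⟩

end Crest.Agent.R271.N593
end

-- ▼ part R271/N0_647
section

/-!
Row 271, team N: elementary lemmas on filtrations, the ideals `idl`, `idlGt`, the spaces `Fgt`, `U`.
-/

set_option autoImplicit false
set_option linter.style.haveILetI false

open scoped ENNReal NNReal Topology BigOperators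
open MeasureTheory

noncomputable section

namespace Crest.Agent.R271.N647

open Crest.Agent.R271.Defs710

section filt

variable {B : Type} [CommRing B] [Algebra ℂ B] {V : ℕ → Submodule ℂ B}


lemma mem_idl (F : Filt V) {m : ℕ} {l : ℝ} {b : B} (h : b ∈ F.F m l) : b ∈ idl F l :=
  Ideal.subset_span ⟨m, h⟩




lemma idl_le_idlGt (F : Filt V) {a l : ℝ} (h : a < l) : idl F l ≤ idlGt F a :=
  le_iSup (fun l : Set.Ioi a => idl F l) ⟨l, h⟩


lemma F_le_Fgt (F : Filt V) {m : ℕ} {a l : ℝ} (h : a < l) : F.F m l ≤ Fgt F m a :=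
  le_iSup (fun l : Set.Ioi a => F.F m l) ⟨l, h⟩

lemma Fgt_le (F : Filt V) (m : ℕ) (a : ℝ) : Fgt F m a ≤ F.F m a :=
  iSup_le fun l => F.anti m (le_of_lt l.2)

lemma U_le (F : Filt V) (P : Ideal B) (y : B →ₐ[ℂ] ℂ) (m : ℕ) (a : ℝ) (e : ℕ) :
    U F P y m a e ≤ F.F m a := inf_le_left

lemma Fgt_le_U (F : Filt V) (P : Ideal B) (y : B →ₐ[ℂ] ℂ) (m : ℕ) (a : ℝ) (e : ℕ) :
    Fgt F m a ≤ U F P y m a e := by
  refine le_inf (Fgt_le F m a) ?_
  refine iSup_le ?_
  rintro ⟨l, hl⟩ b hb
  exact (le_sup_right : idlGt F a ≤ mI y ^ e * idl F a ⊔ P * idl F a ⊔ idlGt F a)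
    (idl_le_idlGt F hl (mem_idl F hb))




lemma fd_of_le {S T : Submodule ℂ B} (hT : FiniteDimensional ℂ T) (h : S ≤ T) :
    FiniteDimensional ℂ S := Submodule.finiteDimensional_of_le h

/-- directed union of a decreasing family to the right of `a` is attained -/
lemma exists_delta_Fgt (F : Filt V) (m : ℕ) (hV : FiniteDimensional ℂ (V m)) (a : ℝ) :
    ∃ δ : ℝ, 0 < δ ∧ ∀ l, a < l → l ≤ a + δ → F.F m l = Fgt F m a := by
  classical
  haveI : FiniteDimensional ℂ (V m) := hV
  -- choose `l₀ > a` with maximal dimension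
  have hbound : ∀ l, Module.finrank ℂ (F.F m l) ≤ Module.finrank ℂ (V m) := fun l =>
    Submodule.finrank_mono (F.le_V m l)
  obtain ⟨l₀, hl₀, hmax⟩ : ∃ l₀, a < l₀ ∧ ∀ l, a < l →
      Module.finrank ℂ (F.F m l) ≤ Module.finrank ℂ (F.F m l₀) := by
    by_contra hcon
    push Not at hcon
    have : ∀ k : ℕ, ∃ l, a < l ∧ k ≤ Module.finrank ℂ (F.F m l) := by
      intro k
      induction k with
      | zero => exact ⟨a + 1, by linarith, Nat.zero_le _⟩
      | succ k ih =>
        obtain ⟨l, hl, hk⟩ := ih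
        obtain ⟨l', hl', hk'⟩ := hcon l hl
        exact ⟨l', hl', by omega⟩
    obtain ⟨l, _, hk⟩ := this (Module.finrank ℂ (V m) + 1)
    have := hbound l
    omega
  refine ⟨l₀ - a, by linarith, ?_⟩
  intro l hl hle
  have hl' : l ≤ l₀ := by linarith
  have key : ∀ l', a < l' → F.F m l' ≤ F.F m l := by
    intro l' hl''
    rcases le_total l' l with h | h
    · -- l' ≤ l ≤ l₀ : dimensions agree
      have h1 : F.F m l ≤ F.F m l' := F.anti m h
      have h2 : F.F m l₀ ≤ F.F m l := F.anti m hl'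
      haveI : FiniteDimensional ℂ (F.F m l') := fd_of_le hV (F.le_V m l')
      haveI : FiniteDimensional ℂ (F.F m l) := fd_of_le hV (F.le_V m l)
      have h3 := Submodule.finrank_mono h2
      have h4 := hmax l' hl''
      have : F.F m l = F.F m l' := Submodule.eq_of_le_of_finrank_le h1 (h4.trans h3)
      exact this.ge
    · exact F.anti m h
  exact le_antisymm (F_le_Fgt F hl) (iSup_le fun l' => key l' l'.2)


/-- the jumps of `F m` are finite in number -/
lemma jumps_finite (F : Filt V) (m : ℕ) (hV : FiniteDimensional ℂ (V m)) :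
    {a : ℝ | Fgt F m a ≠ F.F m a}.Finite := by
  classical
  haveI : FiniteDimensional ℂ (V m) := hV
  -- the map `a ↦ finrank (F m a)` is injective on the set of jumps
  have hfd : ∀ l, FiniteDimensional ℂ (F.F m l) := fun l => fd_of_le hV (F.le_V m l)
  have hinj : Set.InjOn (fun a => Module.finrank ℂ (F.F m a)) {a : ℝ | Fgt F m a ≠ F.F m a} := by
    intro a ha b hb hab
    simp only at hab
    by_contra hne
    wlog hlt : a < b generalizing a b
    · exact this hb ha hab.symm (Ne.symm hne) (lt_of_le_of_ne (not_lt.mp hlt) (Ne.symm hne))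
    have h1 : F.F m b ≤ Fgt F m a := F_le_Fgt F hlt
    have h2 : Fgt F m a ≤ F.F m a := Fgt_le F m a
    have : Fgt F m a = F.F m a := by
      haveI := hfd a
      refine Submodule.eq_of_le_of_finrank_le h2 ?_
      haveI : FiniteDimensional ℂ (Fgt F m a) := fd_of_le (hfd a) h2
      rw [hab]
      exact Submodule.finrank_mono h1
    exact ha this
  refine Set.Finite.of_finite_image (f := fun a => Module.finrank ℂ (F.F m a)) ?_ hinj
  refine (Set.finite_Iic (Module.finrank ℂ (V m))).subset ?_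
  rintro _ ⟨a, _, rfl⟩
  exact Submodule.finrank_mono (F.le_V m a)

lemma jump_nonneg (F : Filt V) (m : ℕ) {a : ℝ} (ha : Fgt F m a ≠ F.F m a) : 0 ≤ a := by
  by_contra hneg
  push Not at hneg
  apply ha
  refine le_antisymm (Fgt_le F m a) ?_
  rw [F.zero m a hneg.le, ← F.zero m 0 le_rfl]
  exact F_le_Fgt F hneg


instance noeth {n : ℕ} (X : FCtx n) : IsNoetherianRing X.B :=
  haveI := X.ft
  Algebra.FiniteType.isNoetherianRing ℂ X.B

end filt

section pts

variable {n : ℕ}





/-- an adapted nonzero ideal has dimension `< n` -/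
lemma adapted_lt {B : Type} [CommRing B] [IsDomain B] [Algebra ℂ B] {d : ℕ} {P : Ideal B}
    {y : B →ₐ[ℂ] ℂ} (h : Adapted d P y n) (hP : P ≠ ⊥) : d < n := by
  by_contra hcon
  push Not at hcon
  obtain ⟨w, _, _, g, hg, hgP, _⟩ := h
  have hempty : w '' {i : Fin n | d ≤ i.1} = ∅ := by
    rw [Set.image_eq_empty]
    ext i
    simp only [Set.mem_setOf_eq, Set.mem_empty_iff_false, iff_false, not_le]
    exact lt_of_lt_of_le i.2 hcon
  apply hP
  rw [eq_bot_iff]
  intro f hf
  have h1 := hgP f hf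
  rw [hempty, Ideal.span_empty, Ideal.mem_bot] at h1
  rcases mul_eq_zero.mp h1 with h2 | h2
  · exact absurd (by rw [h2]; simp) hg
  · simpa using h2


end pts

end Crest.Agent.R271.N647
end
end

-- ▼ part R271/N6a_241
section

/-!
Row 271, team N, piece N6 (part a): dimension functions of a filtration in one degree, the integral
`Zm`, the telescoping estimates and the gain of a perturbation.
-/

set_option autoImplicit false

open scoped ENNReal NNReal Topology BigOperators
open MeasureTheory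

noncomputable section

namespace Crest.Agent.R271.N6x241

open Crest.Agent.R271.Defs710 Crest.Agent.R271.N647

section onem

variable {B : Type} [CommRing B] [Algebra ℂ B] {V : ℕ → Submodule ℂ B}

/-- `dim F(m,l)` -/
def fd (F : Filt V) (m : ℕ) (l : ℝ) : ℝ := (Module.finrank ℂ (F.F m l) : ℝ)

/-- `dim F(m,>a)` -/
def fg (F : Filt V) (m : ℕ) (a : ℝ) : ℝ := (Module.finrank ℂ (Fgt F m a) : ℝ)

/-- `dim V m` -/
def NV (V : ℕ → Submodule ℂ B) (m : ℕ) : ℝ := (Module.finrank ℂ (V m) : ℝ)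


lemma fd_nonneg (F : Filt V) (m : ℕ) (l : ℝ) : 0 ≤ fd F m l := Nat.cast_nonneg _

lemma fg_nonneg (F : Filt V) (m : ℕ) (l : ℝ) : 0 ≤ fg F m l := Nat.cast_nonneg _

lemma fd_of_nonpos (F : Filt V) (m : ℕ) {l : ℝ} (h : l ≤ 0) : fd F m l = NV V m := by
  unfold fd NV
  rw [F.zero m l h]

variable (hV : ∀ m, FiniteDimensional ℂ (V m))

include hV

lemma fdF (F : Filt V) (m : ℕ) (l : ℝ) : FiniteDimensional ℂ (F.F m l) :=
  fd_of_le (hV m) (F.le_V m l)

lemma fd_anti (F : Filt V) (m : ℕ) : Antitone (fd F m) := by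
  intro a b h
  have := fdF hV F m a
  exact Nat.cast_le.2 <| Submodule.finrank_mono (F.anti m h)

lemma fd_le (F : Filt V) (m : ℕ) (l : ℝ) : fd F m l ≤ NV V m := by
  have := hV m
  exact Nat.cast_le.2 <| Submodule.finrank_mono (F.le_V m l)

lemma fd_mono {F G : Filt V} {m : ℕ} {l : ℝ} (h : F.F m l ≤ G.F m l) : fd F m l ≤ fd G m l := by
  have := fdF hV G m l
  exact Nat.cast_le.2 <| Submodule.finrank_mono h

lemma fg_le (F : Filt V) (m : ℕ) (a : ℝ) : fg F m a ≤ fd F m a := by
  have := fdF hV F m a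
  exact Nat.cast_le.2 <| Submodule.finrank_mono (Fgt_le F m a)

lemma le_fg (F : Filt V) (m : ℕ) {a l : ℝ} (h : a < l) : fd F m l ≤ fg F m a := by
  have : FiniteDimensional ℂ (Fgt F m a) := fd_of_le (fdF hV F m a) (Fgt_le F m a)
  exact Nat.cast_le.2 <| Submodule.finrank_mono (F_le_Fgt F h)

lemma fd_right (F : Filt V) (m : ℕ) (a : ℝ) :
    ∃ δ : ℝ, 0 < δ ∧ ∀ l, a < l → l ≤ a + δ → fd F m l = fg F m a := by
  obtain ⟨δ, hδ, h⟩ := exists_delta_Fgt F m (hV m) a
  refine ⟨δ, hδ, fun l hl hl' => ?_⟩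
  unfold fd fg
  rw [h l hl hl']

lemma fd_left (F : Filt V) (m : ℕ) (a : ℝ) :
    ∃ δ : ℝ, 0 < δ ∧ ∀ l, a - δ ≤ l → l ≤ a → fd F m l = fd F m a := by
  obtain ⟨δ, hδ, h⟩ := N593.exists_left F hV m a
  refine ⟨δ, hδ, fun l hl hl' => le_antisymm ?_ (fd_anti hV F m hl')⟩
  have h1 : fd F m (a - δ) = fd F m a := by
    unfold fd
    rw [h]
  rw [← h1]
  exact fd_anti hV F m hl

/-- telescoping upper bound -/
lemma sum_jumps_le_fg (F : Filt V) (m : ℕ) (S : Finset ℝ) :
    ∀ b : ℝ, (∀ x ∈ S, b < x) → ∑ a ∈ S, (fd F m a - fg F m a) ≤ fg F m b := by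
  refine Finset.induction_on_min S ?_ ?_
  · intro b _; simpa using fg_nonneg F m b
  · intro a s ha ih b hb
    rw [Finset.sum_insert (fun hmem => lt_irrefl a (ha a hmem))]
    have h1 := ih a ha
    have h2 : fd F m a ≤ fg F m b := le_fg hV F m (hb a (Finset.mem_insert_self a s))
    linarith

lemma fg_le_NV (F : Filt V) (m : ℕ) (a : ℝ) : fg F m a ≤ NV V m :=
  (fg_le hV F m a).trans (fd_le hV F m a)

lemma sum_jumps_le (F : Filt V) (m : ℕ) (S : Finset ℝ) :
    ∑ a ∈ S, (fd F m a - fg F m a) ≤ NV V m := by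
  obtain ⟨b, hb⟩ : ∃ b : ℝ, ∀ x ∈ S, b < x := by
    obtain ⟨b, hb⟩ := S.bddBelow
    exact ⟨b - 1, fun x hx => by
      have := hb (Finset.mem_coe.2 hx)
      linarith⟩
  exact (sum_jumps_le_fg hV F m S b hb).trans (fg_le_NV hV F m b)

/-- the finite set of jumps -/
def jmp (F : Filt V) (m : ℕ) : Finset ℝ := (jumps_finite F m (hV m)).toFinset

lemma mem_jmp (F : Filt V) (m : ℕ) (a : ℝ) : a ∈ jmp hV F m ↔ Fgt F m a ≠ F.F m a := by
  unfold jmp
  rw [Set.Finite.mem_toFinset]
  rfl

lemma jmp_nonneg (F : Filt V) {m : ℕ} {a : ℝ} (h : a ∈ jmp hV F m) : 0 ≤ a :=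
  jump_nonneg F m ((mem_jmp hV F m a).1 h)

lemma fd_eq_fg_of_not_mem (F : Filt V) {m : ℕ} {a : ℝ} (h : a ∉ jmp hV F m) :
    fd F m a = fg F m a := by
  rw [mem_jmp, not_not] at h
  unfold fd fg
  rw [h]


/-- `N - f(l) = ∑_{a<l} (f(a) - f(a+))` -/
lemma step_formula (F : Filt V) (m : ℕ) (l : ℝ) :
    fd F m l + ∑ a ∈ jmp hV F m, (if a < l then fd F m a - fg F m a else 0) = NV V m := by
  classical
  set J := jmp hV F m with hJ
  set c : ℝ → ℝ := fun a => fd F m a - fg F m a with hc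
  set g : ℝ → ℝ := fun l => fd F m l + ∑ a ∈ J, (if a < l then c a else 0) with hg
  have hloc : IsLocallyConstant g := by
    rw [IsLocallyConstant.iff_eventually_eq]
    intro x
    obtain ⟨δ, hδ, hr⟩ := fd_right hV F m x
    obtain ⟨δ', hδ', hl⟩ := fd_left hV F m x
    have h1 : ∀ᶠ y in 𝓝 x, ∀ a ∈ J, a ≠ x → ((a < y) ↔ (a < x)) := by
      rw [Filter.eventually_all_finset]
      intro a _
      by_cases hax : a = x
      · filter_upwards with y h
        exact absurd hax h
      · rcases lt_or_gt_of_ne hax with h | h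
        · filter_upwards [lt_mem_nhds h] with y hy _
          exact ⟨fun _ => h, fun _ => hy⟩
        · filter_upwards [gt_mem_nhds h] with y hy _
          exact ⟨fun h' => absurd (hy.trans h') (lt_irrefl _), fun h' => absurd (h.trans h')
            (lt_irrefl _)⟩
    have h2 : ∀ᶠ y in 𝓝 x, y < x + δ := gt_mem_nhds (by linarith)
    have h3 : ∀ᶠ y in 𝓝 x, x - δ' < y := lt_mem_nhds (by linarith)
    filter_upwards [h1, h2, h3] with y hy1 hy2 hy3
    rcases le_or_gt y x with hyx | hyx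
    · -- left
      have e1 : fd F m y = fd F m x := hl y hy3.le hyx
      have e2 : ∑ a ∈ J, (if a < y then c a else 0) = ∑ a ∈ J, (if a < x then c a else 0) := by
        refine Finset.sum_congr rfl fun a ha => ?_
        by_cases hax : a = x
        · subst hax
          rw [if_neg (not_lt.2 hyx), if_neg (lt_irrefl _)]
        · rw [if_congr (hy1 a ha hax) rfl rfl]
      simp only [hg, e1, e2]
    · -- right
      have e1 : fd F m y = fg F m x := hr y hyx hy2.le
      have e2 : ∑ a ∈ J, (if a < y then c a else 0) =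
          ∑ a ∈ J, (if a < x then c a else 0) + ∑ a ∈ J, (if a = x then c a else 0) := by
        rw [← Finset.sum_add_distrib]
        refine Finset.sum_congr rfl fun a ha => ?_
        by_cases hax : a = x
        · subst hax
          rw [if_pos hyx, if_neg (lt_irrefl _), if_pos rfl, zero_add]
        · rw [if_congr (hy1 a ha hax) rfl rfl, if_neg hax, add_zero]
      have e3 : ∑ a ∈ J, (if a = x then c a else 0) = c x := by
        rw [Finset.sum_ite_eq' J x c]
        split_ifs with hx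
        · rfl
        · simp only [hc]
          rw [fd_eq_fg_of_not_mem hV F hx, sub_self]
      have e4 : g y = fd F m y + ∑ a ∈ J, (if a < y then c a else 0) := rfl
      have e5 : g x = fd F m x + ∑ a ∈ J, (if a < x then c a else 0) := rfl
      rw [e4, e5, e1, e2, e3]
      simp only [hc]
      ring
  have h0 : g 0 = NV V m := by
    simp only [hg]
    rw [fd_of_nonpos F m le_rfl, Finset.sum_eq_zero, add_zero]
    intro a ha
    rw [if_neg (not_lt.2 (jmp_nonneg hV F ha))]
  have := hloc.apply_eq_of_preconnectedSpace l 0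
  rw [h0] at this
  exact this

/-! ### the integral `Zm` -/

omit hV in
lemma integrable_exp {t : ℝ} (ht : 0 < t) (c : ℝ) :
    IntegrableOn (fun l : ℝ => t * Real.exp (-t * l)) (Set.Ioi c) :=
  (integrableOn_exp_mul_Ioi (by linarith : -t < 0) c).const_mul t

omit hV in
lemma integral_exp {t : ℝ} (ht : 0 < t) (c : ℝ) :
    ∫ l in Set.Ioi c, t * Real.exp (-t * l) = Real.exp (-t * c) := by
  rw [integral_const_mul, integral_exp_mul_Ioi (by linarith : -t < 0) c]
  field_simp

lemma integrable_fd (F : Filt V) (m : ℕ) {t : ℝ} (ht : 0 < t) (c : ℝ) :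
    IntegrableOn (fun l : ℝ => t * Real.exp (-t * l) * fd F m l) (Set.Ioi c) := by
  have hmeas : Measurable (fd F m) := (fd_anti hV F m).measurable
  refine Integrable.mono' ((integrable_exp ht c).mul_const (NV V m)) ?_ ?_
  · exact ((by fun_prop : Measurable fun l : ℝ => t * Real.exp (-t * l)).mul
      hmeas).aestronglyMeasurable
  · filter_upwards with l
    rw [Real.norm_eq_abs, abs_of_nonneg (mul_nonneg (by positivity) (fd_nonneg F m l))]
    exact mul_le_mul_of_nonneg_left (fd_le hV F m l) (by positivity)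

lemma integrable_Zm (F : Filt V) (m : ℕ) {t : ℝ} (ht : 0 < t) (c : ℝ) :
    IntegrableOn (fun l : ℝ => t * Real.exp (-t * l) * (NV V m - fd F m l)) (Set.Ioi c) := by
  have h := ((integrable_exp ht c).mul_const (NV V m)).sub (integrable_fd hV F m ht c)
  refine h.congr ?_
  filter_upwards with l
  simp only [Pi.sub_apply]
  ring

omit hV in
lemma Zm_def (F : Filt V) (t : ℝ) (m : ℕ) :
    Zm F t m = ∫ l in Set.Ioi (0 : ℝ), t * Real.exp (-t * l) * (NV V m - fd F m l) := rfl

lemma Zm_nonneg (F : Filt V) (m : ℕ) {t : ℝ} (ht : 0 < t) : 0 ≤ Zm F t m := by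
  rw [Zm_def]
  refine integral_nonneg fun l => ?_
  exact mul_nonneg (by positivity) (sub_nonneg.2 (fd_le hV F m l))

lemma Zm_le_NV (F : Filt V) (m : ℕ) {t : ℝ} (ht : 0 < t) : Zm F t m ≤ NV V m := by
  rw [Zm_def]
  have h1 : ∫ l in Set.Ioi (0 : ℝ), t * Real.exp (-t * l) * NV V m = NV V m := by
    rw [integral_mul_const, integral_exp ht]; simp
  refine le_trans ?_ h1.le
  refine integral_mono (integrable_Zm hV F m ht 0) ((integrable_exp ht 0).mul_const _) fun l => ?_
  refine mul_le_mul_of_nonneg_left ?_ (by positivity)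
  linarith [fd_nonneg F m l]

lemma Zm_mono {F G : Filt V} {m : ℕ} (h : ∀ l, F.F m l ≤ G.F m l) {t : ℝ} (ht : 0 < t) :
    Zm G t m ≤ Zm F t m := by
  rw [Zm_def, Zm_def]
  refine integral_mono (integrable_Zm hV G m ht 0) (integrable_Zm hV F m ht 0) fun l => ?_
  refine mul_le_mul_of_nonneg_left ?_ (by positivity)
  linarith [fd_mono hV (h l)]

/-- if `F m l = 0` for `l > L` then `Zm ≥ e^{-tL} dim V m` -/
lemma Zm_ge (F : Filt V) (m : ℕ) {t : ℝ} (ht : 0 < t) {L : ℝ} (hL : 0 ≤ L)
    (h : ∀ l, L < l → F.F m l = ⊥) : Real.exp (-t * L) * NV V m ≤ Zm F t m := by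
  rw [Zm_def]
  have h1 : ∫ l in Set.Ioi L, t * Real.exp (-t * l) * (NV V m - fd F m l) =
      Real.exp (-t * L) * NV V m := by
    rw [← integral_exp ht L, ← integral_mul_const]
    refine setIntegral_congr_fun measurableSet_Ioi fun l hl => ?_
    have : fd F m l = 0 := by
      unfold fd
      rw [h l hl]; simp
    simp only [this, sub_zero]
  rw [← h1]
  refine setIntegral_mono_set (integrable_Zm hV F m ht 0) ?_ ?_
  · filter_upwards with l
    exact mul_nonneg (by positivity) (sub_nonneg.2 (fd_le hV F m l))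
  · exact (Set.Ioi_subset_Ioi hL).eventuallyLE

/-- `Zm ≤ ∑_a e^{-ta} (f(a) - f(a+))` -/
lemma Zm_le_sum (F : Filt V) (m : ℕ) {t : ℝ} (ht : 0 < t) :
    Zm F t m ≤ ∑ a ∈ jmp hV F m, Real.exp (-t * a) * (fd F m a - fg F m a) := by
  rw [Zm_def]
  have h1 : ∀ a ∈ jmp hV F m, ∫ l in Set.Ioi (0 : ℝ), (Set.Ioi a).indicator
      (fun l => t * Real.exp (-t * l) * (fd F m a - fg F m a)) l =
        Real.exp (-t * a) * (fd F m a - fg F m a) := by
    intro a ha
    rw [setIntegral_indicator measurableSet_Ioi, Set.inter_eq_self_of_subset_right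
      (Set.Ioi_subset_Ioi (jmp_nonneg hV F ha)), integral_mul_const, integral_exp ht]
  rw [← Finset.sum_congr rfl h1, ← integral_finsetSum]
  · refine le_of_eq (setIntegral_congr_fun measurableSet_Ioi fun l _ => ?_)
    have h2 := step_formula hV F m l
    have h3 : NV V m - fd F m l =
        ∑ a ∈ jmp hV F m, (if a < l then fd F m a - fg F m a else 0) := by linarith
    rw [h3, Finset.mul_sum]
    refine Finset.sum_congr rfl fun a _ => ?_
    rw [Set.indicator_apply]
    simp only [Set.mem_Ioi]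
    split_ifs <;> simp
  · intro a _
    exact ((integrable_exp ht 0).mul_const _).indicator measurableSet_Ioi

/-- the gain in one degree -/
lemma Zm_gain {F G : Filt V} {m : ℕ} (hFG : ∀ l, F.F m l ≤ G.F m l) {t : ℝ} (ht : 0 < t)
    {s : ℝ} (hs : 0 < s) (p : ℕ) (r : ℝ → ℕ → ℝ)
    (hδ : ∀ a ∈ jmp hV F m, ∀ l, a < l → l ≤ a + s * p → fd F m l = fg F m a)
    (hr : ∀ a ∈ jmp hV F m, ∀ e ∈ Finset.Icc 1 p, r a e ≤ fd G m (a + s * e))
    (hr0 : ∀ a ∈ jmp hV F m, ∀ e ∈ Finset.Icc 1 p, fg F m a ≤ r a e) :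
    ∑ a ∈ jmp hV F m, ∑ e ∈ Finset.Icc 1 p,
      s * (t * Real.exp (-t * (a + s * p)) * (r a e - fg F m a)) ≤ Zm F t m - Zm G t m := by
  classical
  -- the difference as an integral
  have h1 : Zm F t m - Zm G t m =
      ∫ l in Set.Ioi (0 : ℝ), t * Real.exp (-t * l) * (fd G m l - fd F m l) := by
    rw [Zm_def, Zm_def, ← integral_sub (integrable_Zm hV F m ht 0) (integrable_Zm hV G m ht 0)]
    refine integral_congr_ae (Filter.Eventually.of_forall fun l => ?_)
    simp only
    ring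
  have hint : IntegrableOn (fun l => t * Real.exp (-t * l) * (fd G m l - fd F m l))
      (Set.Ioi (0 : ℝ)) := by
    refine ((integrable_fd hV G m ht 0).sub (integrable_fd hV F m ht 0)).congr ?_
    filter_upwards with l
    simp only [Pi.sub_apply]
    ring
  rw [h1]
  set I : Finset (ℝ × ℕ) := jmp hV F m ×ˢ Finset.Icc 1 p with hI
  set S : ℝ × ℕ → Set ℝ := fun q => Set.Ioc (q.1 + s * (q.2 - 1 : ℝ)) (q.1 + s * q.2) with hS
  have hsub : ∀ q ∈ I, ∀ l ∈ S q, q.1 < l ∧ l ≤ q.1 + s * p := by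
    intro q hq l hl
    rw [hI, Finset.mem_product, Finset.mem_Icc] at hq
    have e1 : (1 : ℝ) ≤ q.2 := by exact_mod_cast hq.2.1
    have e2 : (q.2 : ℝ) ≤ p := by exact_mod_cast hq.2.2
    have e3 : 0 ≤ s * (q.2 - 1 : ℝ) := mul_nonneg hs.le (by linarith)
    have e4 : s * (q.2 : ℝ) ≤ s * p := mul_le_mul_of_nonneg_left e2 hs.le
    exact ⟨by linarith [hl.1], by linarith [hl.2]⟩
  have hjump : ∀ a ∈ jmp hV F m, ∀ a' ∈ jmp hV F m, a < a' → a + s * p ≤ a' := by
    intro a ha a' ha' haa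
    by_contra hcon
    push Not at hcon
    have e1 : fd F m a' = fg F m a := hδ a ha a' haa hcon.le
    have e2 : fd F m (a + s * p) = fg F m a := hδ a ha _ (haa.trans hcon) le_rfl
    have e3 : fd F m (a + s * p) ≤ fg F m a' := le_fg hV F m hcon
    have e4 : fg F m a' ≤ fd F m a' := fg_le hV F m a'
    rw [mem_jmp] at ha'
    apply ha'
    have := fdF hV F m a'
    have hfd : FiniteDimensional ℂ (Fgt F m a') := fd_of_le (fdF hV F m a') (Fgt_le F m a')
    refine Submodule.eq_of_le_of_finrank_le (Fgt_le F m a') ?_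
    have e5 : fd F m a' ≤ fg F m a' := by linarith
    exact Nat.cast_le.1 e5
  have hdisj : Set.Pairwise (I : Set (ℝ × ℕ)) (Function.onFun Disjoint S) := by
    intro q hq q' hq' hne
    rw [Function.onFun, Set.disjoint_left]
    intro l hl hl'
    have h2 := hsub q hq l hl
    have h3 := hsub q' hq' l hl'
    have hq1 : q.1 ∈ jmp hV F m := by
      have := hq
      rw [hI, Finset.mem_coe, Finset.mem_product] at this
      exact this.1
    have hq1' : q'.1 ∈ jmp hV F m := by
      have := hq'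
      rw [hI, Finset.mem_coe, Finset.mem_product] at this
      exact this.1
    have heq : q.1 = q'.1 := by
      rcases lt_trichotomy q.1 q'.1 with h | h | h
      · have := hjump _ hq1 _ hq1' h
        linarith
      · exact h
      · have := hjump _ hq1' _ hq1 h
        linarith
    have hne2 : q.2 ≠ q'.2 := fun h => hne (Prod.ext heq h)
    simp only [hS, Set.mem_Ioc, heq] at hl hl'
    rcases lt_or_gt_of_ne hne2 with h | h
    · have e1 : (q.2 : ℝ) ≤ q'.2 - 1 := by
        have : (q.2 : ℝ) + 1 ≤ q'.2 := by exact_mod_cast h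
        linarith
      have e2 : s * (q.2 : ℝ) ≤ s * (q'.2 - 1) := mul_le_mul_of_nonneg_left e1 hs.le
      linarith [hl.2, hl'.1]
    · have e1 : (q'.2 : ℝ) ≤ q.2 - 1 := by
        have : (q'.2 : ℝ) + 1 ≤ q.2 := by exact_mod_cast h
        linarith
      have e2 : s * (q'.2 : ℝ) ≤ s * (q.2 - 1) := mul_le_mul_of_nonneg_left e1 hs.le
      linarith [hl'.2, hl.1]
  have hsubset : (⋃ q ∈ I, S q) ⊆ Set.Ioi (0 : ℝ) := by
    intro l hl
    rw [Set.mem_iUnion₂] at hl
    obtain ⟨q, hq, hlq⟩ := hl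
    have h2 := hsub q hq l hlq
    have hq1 : q.1 ∈ jmp hV F m := by
      have := hq
      rw [hI, Finset.mem_product] at this
      exact this.1
    have := jmp_nonneg hV F hq1
    exact lt_of_le_of_lt this h2.1
  have hnn : ∀ l, 0 ≤ t * Real.exp (-t * l) * (fd G m l - fd F m l) := fun l =>
    mul_nonneg (by positivity) (sub_nonneg.2 (fd_mono hV (hFG l)))
  calc ∑ a ∈ jmp hV F m, ∑ e ∈ Finset.Icc 1 p,
        s * (t * Real.exp (-t * (a + s * p)) * (r a e - fg F m a))
      = ∑ q ∈ I, s * (t * Real.exp (-t * (q.1 + s * p)) * (r q.1 q.2 - fg F m q.1)) := by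
        rw [hI, Finset.sum_product]
    _ ≤ ∑ q ∈ I, ∫ l in S q, t * Real.exp (-t * l) * (fd G m l - fd F m l) := by
        refine Finset.sum_le_sum fun q hq => ?_
        have hq' := hq
        rw [hI, Finset.mem_product] at hq'
        have hvol : (volume : Measure ℝ).real (S q) = s := by
          simp only [hS]
          rw [Real.volume_real_Ioc]
          rw [max_eq_left]
          · ring
          · have : q.1 + s * (q.2 : ℝ) - (q.1 + s * (q.2 - 1 : ℝ)) = s := by ring
            rw [this]; exact hs.le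
        have h4 := setIntegral_ge_of_const_le_real (μ := volume) (s := S q)
          (f := fun l => t * Real.exp (-t * l) * (fd G m l - fd F m l))
          (c := t * Real.exp (-t * (q.1 + s * p)) * (r q.1 q.2 - fg F m q.1))
          measurableSet_Ioc (by simp only [hS]; rw [Real.volume_Ioc]; exact ENNReal.ofReal_ne_top)
          ?_ (hint.mono_set ((Set.subset_biUnion_of_mem (u := S) hq).trans hsubset))
        · rw [hvol] at h4
          linarith
        · intro l hl
          have h5 := hsub q hq l hl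
          have h6 : fd F m l = fg F m q.1 := hδ q.1 hq'.1 l h5.1 h5.2
          have h7 : r q.1 q.2 ≤ fd G m l :=
            (hr q.1 hq'.1 q.2 hq'.2).trans (fd_anti hV G m hl.2)
          have h8 : Real.exp (-t * (q.1 + s * p)) ≤ Real.exp (-t * l) := by
            apply Real.exp_le_exp.2
            nlinarith [h5.2]
          have h9 : 0 ≤ r q.1 q.2 - fg F m q.1 := sub_nonneg.2 (hr0 q.1 hq'.1 q.2 hq'.2)
          rw [h6]
          exact mul_le_mul (mul_le_mul_of_nonneg_left h8 ht.le) (by linarith) h9 (by positivity)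
    _ = ∫ l in ⋃ q ∈ I, S q, t * Real.exp (-t * l) * (fd G m l - fd F m l) := by
        rw [integral_biUnion_finset I (fun q _ => measurableSet_Ioc) hdisj]
        intro q hq
        exact hint.mono_set ((Set.subset_biUnion_of_mem (u := S) hq).trans hsubset)
    _ ≤ ∫ l in Set.Ioi (0 : ℝ), t * Real.exp (-t * l) * (fd G m l - fd F m l) := by
        refine setIntegral_mono_set hint ?_ hsubset.eventuallyLE
        filter_upwards with l
        exact hnn l

end onem

end Crest.Agent.R271.N6x241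
end
end

-- ▼ part R271/N6b_593

/-!
Row 271, team N, piece N6 (second half): "the partition function is large".
-/

set_option autoImplicit false

open Module

namespace Crest.Agent.R271.N6b593

open Crest.Agent.R271.Defs710 Crest.Agent.R271.N647

variable {n : ℕ}

/-- (S) summability of `exp (-τ m) dim V m` -/
theorem summable_V (X : FCtx n) (τ : ℝ) (h : 0 < τ) :
    Summable (fun m : ℕ => Real.exp (-τ * m) * (Module.finrank ℂ (X.V m) : ℝ)) := by
  obtain ⟨C, hC, hb⟩ := Growth302.finrank_V_le X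
  refine Summable.of_nonneg_of_le (fun m => by positivity) (fun m => ?_)
    ((Gibbs302.summable_pow_exp n h).mul_left C)
  have h1 : Real.exp (-τ * m) = Real.exp (-(τ * m)) := by congr 1; ring
  rw [h1, mul_comm, ← mul_assoc]
  exact mul_le_mul_of_nonneg_right (hb m) (Real.exp_pos _).le

/-- the trivial filtration -/
noncomputable def trivF (X : FCtx n) : Filt X.V where
  F m l := if l ≤ 0 then X.V m else ⊥
  le_V m l := by split_ifs; exacts [le_rfl, bot_le]
  zero m l hl := if_pos hl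
  anti m l l' h := by
    by_cases h' : l' ≤ 0
    · simp only [if_pos h', if_pos (h.trans h')]; exact le_rfl
    · simp only [if_neg h']; exact bot_le
  cont m l b hb := by
    by_cases h : l ≤ 0
    · rw [if_pos h]
      have := hb (l - 1) (by linarith)
      rwa [if_pos (by linarith)] at this
    · rw [if_neg h]
      push Not at h
      have := hb (l / 2) (by linarith)
      rwa [if_neg (by push Not; linarith)] at this
  mul m l m' l' a b ha hb := by
    by_cases h : l ≤ 0
    · by_cases h' : l' ≤ 0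
      · rw [if_pos h] at ha
        rw [if_pos h'] at hb
        rw [if_pos (add_nonpos h h')]
        exact X.V_mul m m' a b ha hb
      · rw [if_neg h', Submodule.mem_bot] at hb
        rw [hb, mul_zero]
        exact Submodule.zero_mem _
    · rw [if_neg h, Submodule.mem_bot] at ha
      rw [ha, zero_mul]
      exact Submodule.zero_mem _
  bdd := ⟨0, fun m l hl => if_neg (by push Not; simpa using hl)⟩

lemma trivF_of_nonpos (X : FCtx n) {m : ℕ} {l : ℝ} (h : l ≤ 0) : (trivF X).F m l = X.V m :=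
  if_pos h

lemma trivF_of_pos (X : FCtx n) {m : ℕ} {l : ℝ} (h : 0 < l) : (trivF X).F m l = ⊥ :=
  if_neg (not_le.mpr h)

/-- the threshold of the trivial filtration is `0` -/
lemma good_trivF (X : FCtx n) (y : X.B →ₐ[ℂ] ℂ) {l : ℝ} (h : Good X.z (trivF X) y l) : l ≤ 0 := by
  by_contra hcon
  push Not at hcon
  obtain ⟨k, hk, hI⟩ := h
  have hk0 : (0 : ℝ) < k := by exact_mod_cast hk
  refine F140.ne_bot_of_IInt X.z y _ _ (by positivity) hI ?_
  unfold idl
  rw [Ideal.span_eq_bot]
  rintro b ⟨m, hb⟩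
  rw [trivF_of_pos X (by positivity)] at hb
  simpa using hb

open Jump302

/-- upper bound of the partition function -/
lemma ZZ_le (X : FCtx n) {c C : ℝ}
    (hG : Gibbs302.Growth (deg : Idx X.V → ℝ) n c C) (F : Filt X.V) {t κ : ℝ} (ht : 0 < t)
    (hκ : 0 < κ) (htκ : t * κ ≤ 1) : ZZ F t κ ≤ C / (t * κ) ^ (n + 1) := by
  have := X.V_fin
  have hs := Gibbs302.summable_w hG ht hκ (LL_nonneg F)
  rw [ZZ593.ZZ_eq F ht hs]
  refine le_trans ?_ (hG.upper (t * κ) (mul_pos ht hκ) htκ)
  exact hs.tsum_le_tsum (fun p => Gibbs302.w_le ht (LL_nonneg F) p)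
    (hG.summable (t * κ) (mul_pos ht hκ))

/-- numerical lemma -/
lemma small_t (κ C c₁ δ : ℝ) (hκ : 0 < κ) (hC : 0 < C) (n : ℕ) (hδ : 0 < δ) :
    ∃ t₀ : ℝ, 0 < t₀ ∧ ∀ t, 0 < t → t ≤ t₀ → t * κ ≤ 1 ∧
      t * κ + 2 * t * Real.log (C / (t * κ) ^ (n + 1)) * c₁ ≤ δ := by
  set g : ℝ → ℝ := fun t => t * κ + 2 * c₁ * (t * Real.log C - (n + 1) * (t * Real.log t +
    t * Real.log κ)) with hg
  have hcont : Continuous g := by
    have h1 := Real.continuous_mul_log
    fun_prop
  have h0 : g 0 = 0 := by simp [hg]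
  have h1 : ∀ᶠ t in nhds (0 : ℝ), g t < δ := by
    have : g 0 < δ := by rw [h0]; exact hδ
    exact hcont.continuousAt.eventually_lt continuousAt_const this
  have h2 : ∀ᶠ t in nhds (0 : ℝ), t * κ < 1 := by
    have : (fun t : ℝ => t * κ) 0 < 1 := by simp
    exact (by fun_prop : Continuous fun t : ℝ => t * κ).continuousAt.eventually_lt
      continuousAt_const this
  obtain ⟨r, hr, hball⟩ := Metric.eventually_nhds_iff.mp (h1.and h2)
  refine ⟨r / 2, by positivity, fun t ht htr => ?_⟩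
  have hd : dist t 0 < r := by
    rw [Real.dist_eq, sub_zero, abs_of_pos ht]; linarith
  obtain ⟨h3, h4⟩ := hball hd
  refine ⟨h4.le, ?_⟩
  have h5 : Real.log (C / (t * κ) ^ (n + 1)) = Real.log C - (n + 1) * (Real.log t + Real.log κ) := by
    rw [Real.log_div hC.ne' (by positivity), Real.log_pow, Real.log_mul ht.ne' hκ.ne']
    push_cast; ring
  rw [h5]
  have h6 : t * κ + 2 * t * (Real.log C - (n + 1) * (Real.log t + Real.log κ)) * c₁ = g t := by
    simp only [hg]; ring
  rw [h6]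
  exact h3.le

/-- **(L)** the partition function of the Ekeland point is large for small `t` -/
theorem zz_large (X : FCtx n) (_hn : 1 ≤ n) (af : AFacts X) (κ : ℝ) (hκ : 0 < κ) (K : ℝ) :
    ∃ t0 e0 : ℝ, 0 < t0 ∧ 0 < e0 ∧ ∀ t, 0 < t → t ≤ t0 → ∀ ε, 0 < ε → ε ≤ e0 →
      ∀ (F : Filt X.V) (A : ℝ), 0 < A → (∀ l : ℝ, Good X.z F X.x l → l ≤ A) →
        EkelandAt X F A ε t κ → K < ZZ F t κ := by
  have := X.V_fin
  obtain ⟨c, C, hG⟩ := Growth302.growth_V X
  replace hG : Gibbs302.Growth (deg : Idx X.V → ℝ) n c C := hG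
  obtain ⟨C₁, hC₁⟩ := X.ordbd
  obtain ⟨j₀, hj₀⟩ := Growth302.exists_nonvanishing X
  -- `dim V m ≥ 1` for `m ≥ j₀`
  have hdim : ∀ m, j₀ ≤ m → 1 ≤ finrank ℂ (X.V m) := by
    intro m hm
    obtain ⟨f, hf, hfx⟩ := hj₀ m hm X.x
    rw [Nat.one_le_iff_ne_zero]
    intro h0
    rw [Submodule.finrank_eq_zero] at h0
    rw [h0, Submodule.mem_bot] at hf
    rw [hf, map_zero] at hfx
    exact hfx rfl
  have hdim0 : 1 ≤ finrank ℂ (X.V 0) := by
    rw [Nat.one_le_iff_ne_zero]
    intro h0
    rw [Submodule.finrank_eq_zero] at h0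
    have h1 := Growth302.V_one_mem X
    rw [h0, Submodule.mem_bot] at h1
    exact one_ne_zero h1
  obtain ⟨M, hM⟩ := exists_nat_gt (2 * K)
  have hCpos : 0 < C := by
    have h1 := hG.upper 1 one_pos le_rfl
    have h2 := hG.lower 1 one_pos
    have h3 := hG.c_pos
    simp only [one_pow, div_one] at h1 h2
    linarith
  set δ : ℝ := Real.log 2 / (j₀ + M + 1) with hδ
  have hlog2 : 0 < Real.log 2 := Real.log_pos (by norm_num)
  have hδ0 : 0 < δ := by positivity
  obtain ⟨t₀, ht₀, hsmall⟩ := small_t κ C C₁ δ hκ hCpos n hδ0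
  refine ⟨t₀, 1 / (2 * (C₁ + 1)), ht₀, by positivity, fun t ht htt ε hε hεe F A hA hAgood hEk => ?_⟩
  obtain ⟨htκ, hsm⟩ := hsmall t ht htt
  have hthr : thr X.z F X.x ≤ ENNReal.ofReal A := (F140.thr_le_ofReal_iff hA.le).mpr hAgood
  have hbot : ∀ (m : ℕ) (l : ℝ), A * (C₁ * m) < l → F.F m l = ⊥ := fun m l hl =>
    F140.F_eq_bot af hC₁ F hA.le hthr hl
  -- comparison with the trivial filtration
  have hE := hEk (trivF X) (A * C₁) 0 (by positivity) le_rfl (fun m l => ⟨?_, ?_⟩)
    (fun l hl => good_trivF X X.x hl)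
  rotate_left
  · rcases le_or_gt (l - A * C₁ * m) 0 with h | h
    · rw [trivF_of_nonpos X h]; exact F.le_V m l
    · rw [hbot m l (by linarith)]; exact bot_le
  · rcases le_or_gt l 0 with h | h
    · rw [trivF_of_nonpos X h, F.zero m _ (by
        have : 0 ≤ A * C₁ * m := by positivity
        linarith)]
    · rw [trivF_of_pos X h]; exact bot_le
  -- lower bound of all terms
  have hs := Gibbs302.summable_w hG ht hκ (LL_nonneg F)
  have hZeq := ZZ593.ZZ_eq F ht hs
  have hjump : ∀ p : Idx X.V, LL F p ≤ A * C₁ * deg p := fun p =>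
    jump_le F p.2.2 (fun l hl => hbot p.1 l (by
      have : A * C₁ * deg p = A * (C₁ * p.1) := by simp only [deg]; ring
      linarith))
  -- `1 ≤ ZZ F`
  have hZ1 : 1 ≤ ZZ F t κ := by
    rw [hZeq]
    set p₀ : Idx X.V := ⟨0, ⟨0, hdim0⟩⟩ with hp₀
    have h1 : Gibbs302.w (deg : Idx X.V → ℝ) κ t (LL F) p₀ ≤ Gibbs302.Z (deg : Idx X.V → ℝ) κ t (LL F) :=
      hs.le_tsum p₀ (fun p _ => (Gibbs302.w_pos p).le)
    refine le_trans ?_ h1
    have h2 : deg p₀ = 0 := by simp [deg, hp₀]
    have h3 : LL F p₀ ≤ 0 := by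
      have := hjump p₀
      rw [h2, mul_zero] at this
      exact this
    unfold Gibbs302.w
    rw [h2, mul_zero, zero_add]
    refine Real.one_le_exp ?_
    have := mul_nonneg ht.le (neg_nonneg.mpr h3)
    linarith
  have hJ : ZZ (trivF X) t κ ≤ C / (t * κ) ^ (n + 1) := ZZ_le X hG _ ht hκ htκ
  have hJ1 : 0 < ZZ (trivF X) t κ := by
    have hs' := Gibbs302.summable_w hG ht hκ (LL_nonneg (trivF X))
    rw [ZZ593.ZZ_eq _ ht hs']
    exact Gibbs302.Z_pos hG ht hκ (LL_nonneg _)
  -- `A ≤ 2 log (C / (t κ)^(n+1))`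
  have hA2 : A ≤ 2 * Real.log (C / (t * κ) ^ (n + 1)) := by
    have h1 : 0 ≤ Real.log (ZZ F t κ) := Real.log_nonneg hZ1
    have h2 : Real.log (ZZ (trivF X) t κ) ≤ Real.log (C / (t * κ) ^ (n + 1)) :=
      Real.log_le_log hJ1 hJ
    have h3 : ε * (A * C₁) ≤ A / 2 := by
      have hC₁0 : (0 : ℝ) ≤ C₁ := Nat.cast_nonneg _
      have h4 : ε * C₁ ≤ 1 / 2 := by
        calc ε * C₁ ≤ 1 / (2 * (C₁ + 1)) * (C₁ + 1) :=
              mul_le_mul hεe (by linarith) hC₁0 (by positivity)
          _ = 1 / 2 := by field_simp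
      nlinarith
    linarith
  -- sum over `j₀ ≤ m ≤ j₀ + M`
  have hlarge : (M + 1 : ℝ) / 2 ≤ ZZ F t κ := by
    rw [hZeq]
    let φ : Fin (M + 1) ↪ Idx X.V :=
      ⟨fun i => ⟨j₀ + i, ⟨0, hdim (j₀ + i) (Nat.le_add_right _ _)⟩⟩, fun i j hij => by
        have h1 := congrArg Sigma.fst hij
        simp only at h1
        exact Fin.ext (by omega)⟩
    have h1 : ∑ p ∈ Finset.univ.map φ, Gibbs302.w (deg : Idx X.V → ℝ) κ t (LL F) p ≤
        Gibbs302.Z (deg : Idx X.V → ℝ) κ t (LL F) :=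
      hs.sum_le_tsum _ (fun p _ => (Gibbs302.w_pos p).le)
    refine le_trans ?_ h1
    rw [Finset.sum_map]
    have h2 : ∀ i : Fin (M + 1), (1 : ℝ) / 2 ≤ Gibbs302.w (deg : Idx X.V → ℝ) κ t (LL F) (φ i) := by
      intro i
      have hdeg : deg (φ i) = (j₀ : ℝ) + (i : ℕ) := by
        change (((j₀ + (i : ℕ) : ℕ)) : ℝ) = _
        push_cast; rfl
      have hi : ((i : ℕ) : ℝ) ≤ M := by
        have := i.2
        exact_mod_cast (by omega : (i : ℕ) ≤ M)
      have h3 := hjump (φ i)
      have hAC : t * (A * C₁) ≤ 2 * t * Real.log (C / (t * κ) ^ (n + 1)) * C₁ := by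
        have hC₁0 : (0 : ℝ) ≤ C₁ := Nat.cast_nonneg _
        have := mul_le_mul_of_nonneg_right hA2 (mul_nonneg ht.le hC₁0)
        linarith
      have h4 : t * (κ * deg (φ i) + LL F (φ i)) ≤ Real.log 2 := by
        have h5 : t * (κ * deg (φ i) + LL F (φ i)) ≤ (t * κ + t * (A * C₁)) * deg (φ i) := by
          have := mul_le_mul_of_nonneg_left h3 ht.le
          linarith
        refine h5.trans ?_
        have h6 : t * κ + t * (A * C₁) ≤ δ := by linarith
        have h7 : 0 ≤ deg (φ i) := deg_nonneg _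
        have h8 : deg (φ i) ≤ j₀ + M + 1 := by rw [hdeg]; linarith
        calc (t * κ + t * (A * C₁)) * deg (φ i) ≤ δ * (j₀ + M + 1) :=
              mul_le_mul h6 h8 h7 hδ0.le
          _ = Real.log 2 := by rw [hδ]; field_simp
      unfold Gibbs302.w
      have h9 : (1 : ℝ) / 2 = Real.exp (-Real.log 2) := by
        rw [Real.exp_neg, Real.exp_log (by norm_num)]; norm_num
      rw [h9]
      exact Real.exp_le_exp.mpr (by linarith)
    calc (M + 1 : ℝ) / 2 = ∑ _i : Fin (M + 1), (1 : ℝ) / 2 := by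
          rw [Finset.sum_const, Finset.card_univ, Fintype.card_fin, nsmul_eq_mul]
          push_cast; ring
      _ ≤ _ := Finset.sum_le_sum fun i _ => h2 i
  linarith

end Crest.Agent.R271.N6b593
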