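import Crest.Agent.R271.Defs_710
import Crest.Agent.R271.NSpec_647
import Crest.Agent.R271.Lead_553
import Mathlib
import Crest.Agent.R271.CNT_376
import Crest.Agent.R271.Ord_969

-- ▼ part R271/N7a_857
section

/-!
Row 271, piece N7 (helper857): local algebra at a point of `M = Hom(B,ℂ)`.
-/

set_option autoImplicit false

open MvPolynomial Crest.Agent.R271.Defs710

noncomputable section

namespace Crest.Agent.R271.N857

variable {n : ℕ} {B : Type} [CommRing B] [Algebra ℂ B]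

theorem mem_mI {y : B →ₐ[ℂ] ℂ} {b : B} : b ∈ mI y ↔ y b = 0 := by
  simp [mI, RingHom.mem_ker]

theorem sub_mem_mI (y : B →ₐ[ℂ] ℂ) (b : B) : b - algebraMap ℂ B (y b) ∈ mI y := by
  rw [mem_mI, map_sub, AlgHom.commutes]; simp

/-- an element not vanishing at `y` is invertible modulo every power of `m_y` -/
theorem inv_mod (y : B →ₐ[ℂ] ℂ) {g : B} (hg : y g ≠ 0) (e : ℕ) :
    ∃ v : B, 1 - v * g ∈ mI y ^ e := by
  induction e with
  | zero => exact ⟨0, by simp⟩
  | succ e ih =>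
    obtain ⟨v, hv⟩ := ih
    refine ⟨v + algebraMap ℂ B (y g)⁻¹ - v * (algebraMap ℂ B (y g)⁻¹) * g, ?_⟩
    have h1 : 1 - (algebraMap ℂ B (y g)⁻¹) * g ∈ mI y := by
      rw [mem_mI, map_sub, map_mul, AlgHom.commutes, map_one]
      simp [hg]
    have := Ideal.mul_mem_mul hv h1
    rw [← pow_succ] at this
    convert this using 1
    ring


theorem exists_poly (y : B →ₐ[ℂ] ℂ) (w : Fin n → B) (hw : ∀ i, y (w i) = 0) {g : B} (hg : y g ≠ 0)
    (hgw : ∀ f : B, y f = 0 → g * f ∈ Ideal.span (Set.range w)) (e : ℕ) :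
    ∀ b : B, ∃ p : MvPolynomial (Fin n) ℂ, b - aeval w p ∈ mI y ^ e := by
  induction e with
  | zero => intro b; exact ⟨0, by simp⟩
  | succ e ih =>
    intro b
    obtain ⟨v, hv⟩ := inv_mod y hg (e + 1)
    set c := b - algebraMap ℂ B (y b) with hc
    have hc0 : y c = 0 := mem_mI.1 (sub_mem_mI y b)
    have h1 : v * (g * c) ∈ Ideal.span (Set.range w) := Ideal.mul_mem_left _ _ (hgw c hc0)
    rw [Ideal.mem_span_range_iff_exists_fun] at h1
    obtain ⟨a, ha⟩ := h1
    choose p hp using fun i => ih (a i)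
    refine ⟨MvPolynomial.C (y b) + ∑ i, p i * X i, ?_⟩
    have h2 : b - aeval w (MvPolynomial.C (y b) + ∑ i, p i * X i)
        = (1 - v * g) * c + ∑ i, (a i - aeval w (p i)) * w i := by
      have : ∑ i, (a i - aeval w (p i)) * w i = v * (g * c) - ∑ i, aeval w (p i) * w i := by
        rw [← ha, ← Finset.sum_sub_distrib]
        exact Finset.sum_congr rfl fun i _ => by ring
      rw [this]
      simp only [map_add, map_sum, map_mul, aeval_X, aeval_C, hc]
      ring
    rw [h2]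
    refine Ideal.add_mem _ (Ideal.mul_mem_right _ _ hv) (Ideal.sum_mem _ fun i _ => ?_)
    rw [pow_succ]
    exact Ideal.mul_mem_mul (hp i) (mem_mI.2 (hw i))

/-- `ℂ[X]/(X)^e` is finite dimensional -/
instance finite_quot (d e : ℕ) :
    Module.Finite ℂ (MvPolynomial (Fin d) ℂ ⧸ idealOfVars (Fin d) ℂ ^ e) := by
  classical
  have hfin : {v : Fin d →₀ ℕ | v.degree < e}.Finite := by
    refine (Finset.finite_toSet (Finset.Iic (Finsupp.equivFunOnFinite.symm fun _ : Fin d => e))).subset ?_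
    intro v hv
    have hv' : v.degree < e := hv
    simp only [Finset.coe_Iic, Set.mem_Iic]
    intro i
    have h1 : v i ≤ e := le_trans (Finsupp.le_degree i v) hv'.le
    simpa using h1
  rw [Module.finite_def, Submodule.fg_def]
  refine ⟨(fun v : Fin d →₀ ℕ => Ideal.Quotient.mk (idealOfVars (Fin d) ℂ ^ e) (monomial v 1)) ''
    {v | v.degree < e}, hfin.image _, ?_⟩
  rw [eq_top_iff]
  rintro q -
  obtain ⟨p, rfl⟩ := Ideal.Quotient.mk_surjective q
  rw [p.as_sum, map_sum]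
  refine Submodule.sum_mem _ fun v _ => ?_
  by_cases hv : v.degree < e
  · have : (Ideal.Quotient.mk (idealOfVars (Fin d) ℂ ^ e)) (monomial v (coeff v p))
        = (coeff v p) • (Ideal.Quotient.mk (idealOfVars (Fin d) ℂ ^ e)) (monomial v 1) := by
      rw [← mul_one (coeff v p), ← smul_eq_mul, ← smul_monomial, smul_eq_mul, mul_one]
      rfl
    rw [this]
    exact Submodule.smul_mem _ _ (Submodule.subset_span ⟨v, hv, rfl⟩)
  · have : (Ideal.Quotient.mk (idealOfVars (Fin d) ℂ ^ e)) (monomial v (coeff v p)) = 0 := by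
      rw [Ideal.Quotient.eq_zero_iff_mem, mem_pow_idealOfVars_iff']
      intro x hx
      rw [coeff_monomial, if_neg]
      rintro rfl
      exact hv hx
    rw [this]
    exact Submodule.zero_mem _

/-- étaleness is invariant under translation of the coordinates -/
theorem etale_translate (z : Fin n → B)
    (hz : RingHom.Etale ((MvPolynomial.aeval z : MvPolynomial (Fin n) ℂ →ₐ[ℂ] B) :
      MvPolynomial (Fin n) ℂ →+* B)) (c : Fin n → ℂ) :
    RingHom.Etale ((MvPolynomial.aeval (fun i => z i - algebraMap ℂ B (c i)) :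
      MvPolynomial (Fin n) ℂ →ₐ[ℂ] B) : MvPolynomial (Fin n) ℂ →+* B) := by
  let σ : MvPolynomial (Fin n) ℂ →ₐ[ℂ] MvPolynomial (Fin n) ℂ := aeval fun i => X i - C (c i)
  let τ : MvPolynomial (Fin n) ℂ →ₐ[ℂ] MvPolynomial (Fin n) ℂ := aeval fun i => X i + C (c i)
  have h1 : σ.comp τ = AlgHom.id ℂ _ := by ext i; simp [σ, τ]
  have h2 : τ.comp σ = AlgHom.id ℂ _ := by ext i; simp [σ, τ]
  have hb : Function.Bijective (σ : MvPolynomial (Fin n) ℂ →+* MvPolynomial (Fin n) ℂ) := by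
    refine Function.bijective_iff_has_inverse.2 ⟨τ, fun p => ?_, fun p => ?_⟩
    · exact DFunLike.congr_fun h2 p
    · exact DFunLike.congr_fun h1 p
  have h3 := RingHom.Etale.stableUnderComposition _ _ (RingHom.Etale.of_bijective hb) hz
  convert h3 using 1
  have : (MvPolynomial.aeval (fun i => z i - algebraMap ℂ B (c i)) :
      MvPolynomial (Fin n) ℂ →ₐ[ℂ] B) = (aeval z).comp σ := by
    ext i; simp [σ]
  rw [this]
  rfl

/-- formal étaleness: the Taylor polynomial map -/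
theorem exists_taylor (z : Fin n → B)
    (hz : RingHom.Etale ((MvPolynomial.aeval z : MvPolynomial (Fin n) ℂ →ₐ[ℂ] B) :
      MvPolynomial (Fin n) ℂ →+* B)) (y : B →ₐ[ℂ] ℂ) (e : ℕ) (he : e ≠ 0) :
    ∃ ψ : B →ₐ[ℂ] MvPolynomial (Fin n) ℂ ⧸ idealOfVars (Fin n) ℂ ^ e,
      Function.Surjective ψ ∧ ∀ b, y b = 0 →
        ψ b ∈ (idealOfVars (Fin n) ℂ).map (Ideal.Quotient.mk (idealOfVars (Fin n) ℂ ^ e)) := by
  set z' : Fin n → B := fun i => z i - algebraMap ℂ B (y (z i)) with hz'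
  have het := etale_translate z hz (fun i => y (z i))
  let _ : Algebra (MvPolynomial (Fin n) ℂ) B := ((MvPolynomial.aeval z' :
      MvPolynomial (Fin n) ℂ →ₐ[ℂ] B) : MvPolynomial (Fin n) ℂ →+* B).toAlgebra
  have : Algebra.Etale (MvPolynomial (Fin n) ℂ) B := het
  have hal : ∀ p : MvPolynomial (Fin n) ℂ, algebraMap (MvPolynomial (Fin n) ℂ) B p = aeval z' p :=
    fun p => rfl
  have : IsScalarTower ℂ (MvPolynomial (Fin n) ℂ) B := IsScalarTower.of_algebraMap_eq fun c => by
    rw [hal, MvPolynomial.algebraMap_eq, aeval_C]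
  let J := idealOfVars (Fin n) ℂ
  have hconst : ∀ p : MvPolynomial (Fin n) ℂ, p - C (constantCoeff p) ∈ J := by
    intro p
    rw [← pow_one J, mem_pow_idealOfVars_iff']
    intro x hx
    have hx0 : x = 0 := by
      have : x.degree = 0 := by omega
      exact (Finsupp.degree_eq_zero_iff x).1 this
    subst hx0
    simp [constantCoeff_eq]
  -- the residue map
  have hres : ∀ p : MvPolynomial (Fin n) ℂ, Ideal.Quotient.mk J (C (y (aeval z' p))) =
      Ideal.Quotient.mk J p := by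
    intro p
    have h0 : y (aeval z' p) = constantCoeff p := by
      have : (y.comp (aeval z') : MvPolynomial (Fin n) ℂ →ₐ[ℂ] ℂ) = aeval (fun _ => (0:ℂ)) := by
        ext i; simp [z']
      have h := DFunLike.congr_fun this p
      simp only [AlgHom.comp_apply] at h
      rw [h]
      simp [aeval_def, constantCoeff]
    rw [h0, eq_comm, Ideal.Quotient.eq]
    exact hconst p
  let f : B →ₐ[MvPolynomial (Fin n) ℂ] (MvPolynomial (Fin n) ℂ ⧸ J) :=
    { toRingHom := (Ideal.Quotient.mk J).comp ((C : ℂ →+* MvPolynomial (Fin n) ℂ).comp (y : B →+* ℂ))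
      commutes' := fun p => hres p }
  have hJe : J ^ e ≤ J := Ideal.pow_le_self he
  let g : (MvPolynomial (Fin n) ℂ ⧸ J ^ e) →ₐ[MvPolynomial (Fin n) ℂ] (MvPolynomial (Fin n) ℂ ⧸ J) :=
    Ideal.Quotient.factorₐ (MvPolynomial (Fin n) ℂ) hJe
  have hg : Function.Surjective g := Ideal.Quotient.factor_surjective hJe
  have hker : RingHom.ker (g : (MvPolynomial (Fin n) ℂ ⧸ J ^ e) →+* (MvPolynomial (Fin n) ℂ ⧸ J))
      = J.map (Ideal.Quotient.mk (J ^ e)) := by
    exact Ideal.Quotient.factor_ker hJe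
  have hnil : IsNilpotent (RingHom.ker (g : (MvPolynomial (Fin n) ℂ ⧸ J ^ e) →+*
      (MvPolynomial (Fin n) ℂ ⧸ J))) := by
    refine ⟨e, ?_⟩
    rw [hker, ← Ideal.map_pow]
    exact Ideal.map_quotient_self _
  let ℓ := Algebra.FormallySmooth.liftOfSurjective f g hg hnil
  have hℓ : ∀ b, g (ℓ b) = f b := Algebra.FormallySmooth.liftOfSurjective_apply f g hg hnil
  refine ⟨ℓ.restrictScalars ℂ, ?_, ?_⟩
  · intro q
    obtain ⟨p, rfl⟩ := Ideal.Quotient.mk_surjective q
    exact ⟨algebraMap _ B p, by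
      rw [AlgHom.restrictScalars_apply, AlgHom.commutes]
      rfl⟩
  · intro b hb
    rw [← hker, RingHom.mem_ker]
    change g (ℓ b) = 0
    rw [hℓ]
    change Ideal.Quotient.mk J (C (y b)) = 0
    rw [hb]; simp

/-- if `w` generates `m_y` near `y` then a polynomial in `w` lies in `m_y^e` only if it has order `≥ e` -/
theorem aeval_mem_pow (z : Fin n → B)
    (hz : RingHom.Etale ((MvPolynomial.aeval z : MvPolynomial (Fin n) ℂ →ₐ[ℂ] B) :
      MvPolynomial (Fin n) ℂ →+* B)) (y : B →ₐ[ℂ] ℂ)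
    (w : Fin n → B) (hw : ∀ i, y (w i) = 0) {g : B} (hg : y g ≠ 0)
    (hgw : ∀ f : B, y f = 0 → g * f ∈ Ideal.span (Set.range w)) (e : ℕ)
    (p : MvPolynomial (Fin n) ℂ) (hp : aeval w p ∈ mI y ^ e) : p ∈ idealOfVars (Fin n) ℂ ^ e := by
  rcases Nat.eq_zero_or_pos e with rfl | he
  · simp
  have hTay := exists_taylor z hz y e he.ne'
  set J := idealOfVars (Fin n) ℂ with hJ
  obtain ⟨ψ, hψ, hψm⟩ := hTay
  have hψe : ∀ b ∈ mI y ^ e, ψ b = 0 := by
    intro b hb
    have h1 : ψ b ∈ (mI y ^ e).map (ψ : B →+* _) := Ideal.mem_map_of_mem _ hb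
    rw [Ideal.map_pow] at h1
    have h2 : (mI y).map (ψ : B →+* (MvPolynomial (Fin n) ℂ ⧸ J ^ e)) ≤
        J.map (Ideal.Quotient.mk (J ^ e)) := by
      rw [Ideal.map_le_iff_le_comap]
      intro f hf
      exact hψm f (mem_mI.1 hf)
    have h3 := Ideal.pow_right_mono h2 e h1
    rw [← Ideal.map_pow, Ideal.map_quotient_self] at h3
    simpa using h3
  -- the endomorphism
  have hφ : ∀ q ∈ J ^ e, (ψ.comp (aeval w)) q = 0 := by
    intro q hq
    apply hψe
    have h1 : aeval w q ∈ (J ^ e).map ((aeval w : MvPolynomial (Fin n) ℂ →ₐ[ℂ] B) :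
        MvPolynomial (Fin n) ℂ →+* B) := Ideal.mem_map_of_mem _ hq
    rw [Ideal.map_pow] at h1
    refine Ideal.pow_right_mono ?_ e h1
    rw [hJ, Ideal.map_span, Ideal.span_le]
    rintro _ ⟨_, ⟨i, rfl⟩, rfl⟩
    simp only [RingHom.coe_coe, aeval_X, SetLike.mem_coe]
    exact mem_mI.2 (hw i)
  let φ : (MvPolynomial (Fin n) ℂ ⧸ J ^ e) →ₐ[ℂ] (MvPolynomial (Fin n) ℂ ⧸ J ^ e) :=
    Ideal.Quotient.liftₐ (J ^ e) (ψ.comp (aeval w)) hφ
  have hφs : Function.Surjective φ := by
    intro q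
    obtain ⟨b, rfl⟩ := hψ q
    obtain ⟨p, hp⟩ := exists_poly y w hw hg hgw e b
    refine ⟨Ideal.Quotient.mk _ p, ?_⟩
    have h1 := hψe _ hp
    rw [map_sub, sub_eq_zero] at h1
    rw [h1]
    rfl
  have hφi : Function.Injective φ :=
    (LinearMap.injective_iff_surjective (f := φ.toLinearMap)).2 hφs
  rw [← Ideal.Quotient.eq_zero_iff_mem]
  apply hφi
  rw [map_zero]
  exact hψe _ hp

/-! ### adapted coordinates -/

/-- embedding of `Fin d` in `Fin n` -/
abbrev wd {d : ℕ} (hd : d ≤ n) (w : Fin n → B) : Fin d → B := fun i => w (Fin.castLE hd i)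

/-- kill the last variables -/
def killV {d : ℕ} (_hd : d ≤ n) : MvPolynomial (Fin n) ℂ →ₐ[ℂ] MvPolynomial (Fin d) ℂ :=
  aeval fun i : Fin n => if h : i.1 < d then X ⟨i.1, h⟩ else 0

theorem killV_rename {d : ℕ} (hd : d ≤ n) (q : MvPolynomial (Fin d) ℂ) :
    killV hd (rename (Fin.castLE hd) q) = q := by
  have : (killV hd).comp (rename (Fin.castLE hd)) = AlgHom.id ℂ (MvPolynomial (Fin d) ℂ) := by
    ext i; simp [killV]
  exact DFunLike.congr_fun this q

theorem killV_mem {d : ℕ} (hd : d ≤ n) {e : ℕ} {p : MvPolynomial (Fin n) ℂ}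
    (hp : p ∈ idealOfVars (Fin n) ℂ ^ e) : killV hd p ∈ idealOfVars (Fin d) ℂ ^ e := by
  have h1 : killV hd p ∈ (idealOfVars (Fin n) ℂ ^ e).map
      ((killV hd : MvPolynomial (Fin n) ℂ →ₐ[ℂ] MvPolynomial (Fin d) ℂ) :
        MvPolynomial (Fin n) ℂ →+* MvPolynomial (Fin d) ℂ) := Ideal.mem_map_of_mem _ hp
  rw [Ideal.map_pow] at h1
  refine Ideal.pow_right_mono ?_ e h1
  rw [Ideal.map_span, Ideal.span_le]
  rintro _ ⟨_, ⟨i, rfl⟩, rfl⟩
  simp only [RingHom.coe_coe, SetLike.mem_coe, killV, aeval_X]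
  split_ifs with h
  · exact Ideal.subset_span ⟨_, rfl⟩
  · exact Ideal.zero_mem _

/-- data of adapted coordinates at a point `y ∈ V(P)` of an étale algebra -/
structure AData (y : B →ₐ[ℂ] ℂ) (P : Ideal B) (d : ℕ) (w : Fin n → B) : Prop where
  hd : d ≤ n
  hw : ∀ i, y (w i) = 0
  hwP : ∀ i : Fin n, d ≤ i.1 → w i ∈ P
  hP : ∀ f ∈ P, y f = 0
  hg : ∃ g : B, y g ≠ 0 ∧ (∀ f ∈ P, g * f ∈ Ideal.span (w '' {i | d ≤ i.1})) ∧
      ∀ f : B, y f = 0 → g * f ∈ Ideal.span (Set.range w)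
  taylor : ∀ (e : ℕ) (p : MvPolynomial (Fin n) ℂ), aeval w p ∈ mI y ^ e →
    p ∈ idealOfVars (Fin n) ℂ ^ e

theorem AData.mk' (z : Fin n → B)
    (hz : RingHom.Etale ((MvPolynomial.aeval z : MvPolynomial (Fin n) ℂ →ₐ[ℂ] B) :
      MvPolynomial (Fin n) ℂ →+* B)) (y : B →ₐ[ℂ] ℂ) (P : Ideal B) (hP : ∀ f ∈ P, y f = 0) (d : ℕ)
    (hd : d ≤ n) (h : Adapted d P y n) : ∃ w : Fin n → B, AData y P d w := by
  obtain ⟨w, h1, h2, g, hg, h3, h4⟩ := h
  exact ⟨w, ⟨hd, h1, h2, hP, ⟨g, hg, h3, h4⟩, fun e p hp => aeval_mem_pow z hz y w h1 hg h4 e p hp⟩⟩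

variable {y : B →ₐ[ℂ] ℂ} {P : Ideal B} {d : ℕ} {w : Fin n → B}

theorem AData.exists_poly (D : AData y P d w) (e : ℕ) (b : B) :
    ∃ p : MvPolynomial (Fin d) ℂ, b - aeval (wd D.hd w) p ∈ mI y ^ e ⊔ P := by
  obtain ⟨g, hg, h3, h4⟩ := D.hg
  obtain ⟨p, hp⟩ := N857.exists_poly y w D.hw hg h4 e b
  refine ⟨killV D.hd p, ?_⟩
  have h1 : aeval w p - aeval (wd D.hd w) (killV D.hd p) ∈ P := by
    rw [← Ideal.Quotient.eq]
    have : ((Ideal.Quotient.mkₐ ℂ P).comp (aeval w)) = ((Ideal.Quotient.mkₐ ℂ P).comp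
        ((aeval (wd D.hd w)).comp (killV D.hd))) := by
      ext i
      simp only [AlgHom.comp_apply, aeval_X, killV]
      split_ifs with h
      · simp [wd]
      · simp only [map_zero, Ideal.Quotient.mkₐ_eq_mk]
        exact Ideal.Quotient.eq_zero_iff_mem.2 (D.hwP i (not_lt.1 h))
    exact DFunLike.congr_fun this p
  have h2 : b - aeval (wd D.hd w) (killV D.hd p) = (b - aeval w p) +
      (aeval w p - aeval (wd D.hd w) (killV D.hd p)) := by ring
  rw [h2]
  exact Ideal.add_mem _ (Ideal.mem_sup_left hp) (Ideal.mem_sup_right h1)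

theorem AData.mem_of_aeval (D : AData y P d w) (e : ℕ) (q : MvPolynomial (Fin d) ℂ)
    (hq : aeval (wd D.hd w) q ∈ mI y ^ e ⊔ P) : q ∈ idealOfVars (Fin d) ℂ ^ e := by
  classical
  obtain ⟨g, hg, h3, h4⟩ := D.hg
  obtain ⟨c, hc, f, hf, hcf⟩ := Submodule.mem_sup.1 hq
  obtain ⟨v, hv⟩ := inv_mod y hg e
  have h1 : v * (g * f) ∈ Ideal.span (w '' {i | d ≤ i.1}) := Ideal.mul_mem_left _ _ (h3 f hf)
  have h1' : ∃ a : Fin n → B, (∀ i : Fin n, i.1 < d → a i = 0) ∧ ∑ i, a i * w i = v * (g * f) := by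
    refine Submodule.span_induction (p := fun x _ => ∃ a : Fin n → B,
      (∀ i : Fin n, i.1 < d → a i = 0) ∧ ∑ i, a i * w i = x) ?_ ?_ ?_ ?_ h1
    · rintro _ ⟨i, hi, rfl⟩
      refine ⟨Pi.single i 1, fun j hj => ?_, ?_⟩
      · rw [Pi.single_apply, if_neg]
        rintro rfl
        exact absurd hj (not_lt.2 hi)
      · rw [Finset.sum_eq_single i]
        · simp
        · intro j _ hj; simp [hj]
        · simp
    · exact ⟨0, by simp, by simp⟩
    · rintro x y _ _ ⟨a, ha, hax⟩ ⟨b, hb, hby⟩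
      refine ⟨a + b, fun i hi => by simp [ha i hi, hb i hi], ?_⟩
      simp only [Pi.add_apply, add_mul, Finset.sum_add_distrib, hax, hby]
    · rintro c x _ ⟨a, ha, hax⟩
      refine ⟨c • a, fun i hi => by simp [ha i hi], ?_⟩
      simp only [Pi.smul_apply, smul_eq_mul, mul_assoc, ← Finset.mul_sum, hax]
  obtain ⟨a, ha0, ha⟩ := h1'
  choose p hp using fun i => N857.exists_poly y w D.hw hg h4 e (a i)
  -- the polynomial `rename q - ∑_{i ≥ d} p i X i`
  set s : MvPolynomial (Fin n) ℂ := ∑ i : Fin n, if i.1 < d then 0 else p i * X i with hs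
  have h5 : aeval w (rename (Fin.castLE D.hd) q - s) ∈ mI y ^ e := by
    have h6 : aeval w (rename (Fin.castLE D.hd) q) = c + f := by
      rw [aeval_rename, hcf]; rfl
    have h7 : aeval w s = ∑ i : Fin n, if i.1 < d then 0 else aeval w (p i) * w i := by
      rw [hs, map_sum]
      refine Finset.sum_congr rfl fun i _ => ?_
      split_ifs <;> simp
    have h8 : f = (1 - v * g) * f + ∑ i, a i * w i := by rw [ha]; ring
    have h9 : aeval w (rename (Fin.castLE D.hd) q - s) = c + (1 - v * g) * f +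
        ∑ i : Fin n, if i.1 < d then 0 else (a i - aeval w (p i)) * w i := by
      rw [map_sub, h6, h7]
      have h10 : (∑ i : Fin n, if i.1 < d then 0 else (a i - aeval w (p i)) * w i) =
          ∑ i, a i * w i - ∑ i : Fin n, if i.1 < d then 0 else aeval w (p i) * w i := by
        rw [← Finset.sum_sub_distrib]
        refine Finset.sum_congr rfl fun i _ => ?_
        split_ifs with h
        · simp [ha0 i h]
        · ring
      rw [h10]
      nth_rewrite 1 [h8]
      ring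
    rw [h9]
    refine Ideal.add_mem _ (Ideal.add_mem _ hc (Ideal.mul_mem_right _ _ hv))
      (Ideal.sum_mem _ fun i _ => ?_)
    split_ifs with h
    · exact Ideal.zero_mem _
    · exact Ideal.mul_mem_right _ _ (hp i)
  have h6 := killV_mem D.hd (D.taylor e _ h5)
  rw [map_sub, killV_rename] at h6
  have h7 : killV D.hd s = 0 := by
    rw [hs, map_sum]
    refine Finset.sum_eq_zero fun i _ => ?_
    split_ifs with h
    · simp
    · simp [killV, h]
  rwa [h7, sub_zero] at h6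

end Crest.Agent.R271.N857
end
end

-- ▼ part R271/N7b_857
section

/-!
Row 271, piece N7 (helper857): the power series expansion `B → ℂ⟦X₁,…,X_d⟧` along `V(P)` at `y`.
-/

set_option autoImplicit false

open Crest.Agent.R271.Defs710

noncomputable section

namespace Crest.Agent.R271.N857

variable {n : ℕ} {B : Type} [CommRing B] [Algebra ℂ B]
variable {y : B →ₐ[ℂ] ℂ} {P : Ideal B} {d : ℕ} {w : Fin n → B}

namespace AData

variable (D : AData y P d w)

/-- Taylor polynomial -/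
def tp (e : ℕ) (b : B) : MvPolynomial (Fin d) ℂ := (D.exists_poly e b).choose

theorem tp_spec (e : ℕ) (b : B) :
    b - MvPolynomial.aeval (wd D.hd w) (D.tp e b) ∈ mI y ^ e ⊔ P := (D.exists_poly e b).choose_spec

/-- Taylor series -/
def thF (b : B) : MvPowerSeries (Fin d) ℂ := fun v => (D.tp (v.degree + 1) b).coeff v

theorem coeff_thF {b : B} {e : ℕ} {p : MvPolynomial (Fin d) ℂ}
    (hp : b - MvPolynomial.aeval (wd D.hd w) p ∈ mI y ^ e ⊔ P) {v : Fin d →₀ ℕ}
    (hv : v.degree < e) : MvPowerSeries.coeff v (D.thF b) = p.coeff v := by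
  have h1 := D.tp_spec (v.degree + 1) b
  have h2 : mI y ^ e ⊔ P ≤ mI y ^ (v.degree + 1) ⊔ P :=
    sup_le_sup_right (Ideal.pow_le_pow_right hv) P
  have h3 : MvPolynomial.aeval (wd D.hd w) (D.tp (v.degree + 1) b - p) ∈
      mI y ^ (v.degree + 1) ⊔ P := by
    have := Ideal.sub_mem _ (h2 hp) h1
    convert this using 1
    rw [map_sub]; ring
  have h4 := D.mem_of_aeval _ _ h3
  rw [MvPolynomial.mem_pow_idealOfVars_iff'] at h4
  have h5 := h4 v (Nat.lt_succ_self _)
  rw [MvPolynomial.coeff_sub, sub_eq_zero] at h5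
  exact h5

/-- the expansion as a ring homomorphism -/
def th : B →ₐ[ℂ] MvPowerSeries (Fin d) ℂ where
  toFun := D.thF
  map_one' := by
    ext v
    rw [D.coeff_thF (e := v.degree + 1) (p := 1) (by simp) (Nat.lt_succ_self _)]
    classical
    rw [MvPolynomial.coeff_one, MvPowerSeries.coeff_one]
    simp [eq_comm]
  map_zero' := by
    ext v
    rw [D.coeff_thF (e := v.degree + 1) (p := 0) (by simp) (Nat.lt_succ_self _)]
    simp
  map_add' b c := by
    ext v
    rw [D.coeff_thF (e := v.degree + 1) (p := D.tp (v.degree + 1) b + D.tp (v.degree + 1) c) _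
      (Nat.lt_succ_self _)]
    · rw [map_add, MvPolynomial.coeff_add]; rfl
    · have := Ideal.add_mem _ (D.tp_spec (v.degree + 1) b) (D.tp_spec (v.degree + 1) c)
      convert this using 1
      rw [map_add]; ring
  map_mul' b c := by
    classical
    ext v
    rw [D.coeff_thF (e := v.degree + 1) (p := D.tp (v.degree + 1) b * D.tp (v.degree + 1) c) _
      (Nat.lt_succ_self _), MvPolynomial.coeff_mul, MvPowerSeries.coeff_mul]
    · refine Finset.sum_congr rfl fun x hx => ?_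
      have hx := Finset.HasAntidiagonal.mem_antidiagonal.1 hx
      have h1 : x.1.degree < v.degree + 1 := by
        rw [← hx, map_add]; omega
      have h2 : x.2.degree < v.degree + 1 := by
        rw [← hx, map_add]; omega
      rw [D.coeff_thF (D.tp_spec (v.degree + 1) b) h1, D.coeff_thF (D.tp_spec (v.degree + 1) c) h2]
    · have h1 := Ideal.mul_mem_left _ b (D.tp_spec (v.degree + 1) c)
      have h2 := Ideal.mul_mem_right (MvPolynomial.aeval (wd D.hd w) (D.tp (v.degree + 1) c)) _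
        (D.tp_spec (v.degree + 1) b)
      have := Ideal.add_mem _ h1 h2
      convert this using 1
      rw [map_mul]; ring
  commutes' c := by
    ext v
    rw [D.coeff_thF (e := v.degree + 1) (p := MvPolynomial.C c) (by simp) (Nat.lt_succ_self _)]
    classical
    rw [MvPowerSeries.algebraMap_apply, MvPowerSeries.coeff_C, MvPolynomial.coeff_C]
    simp [eq_comm]

theorem coeff_th {b : B} {e : ℕ} {p : MvPolynomial (Fin d) ℂ}
    (hp : b - MvPolynomial.aeval (wd D.hd w) p ∈ mI y ^ e ⊔ P) {v : Fin d →₀ ℕ}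
    (hv : v.degree < e) : MvPowerSeries.coeff v (D.th b) = p.coeff v := D.coeff_thF hp hv

/-- order of the expansion -/
theorem th_order_iff (b : B) (e : ℕ) :
    (∀ v : Fin d →₀ ℕ, v.degree < e → MvPowerSeries.coeff v (D.th b) = 0) ↔
      b ∈ mI y ^ e ⊔ P := by
  constructor
  · intro h
    have h1 := D.tp_spec e b
    have h2 : D.tp e b ∈ MvPolynomial.idealOfVars (Fin d) ℂ ^ e := by
      rw [MvPolynomial.mem_pow_idealOfVars_iff']
      intro v hv
      rw [← D.coeff_th h1 hv]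
      exact h v hv
    have h3 : MvPolynomial.aeval (wd D.hd w) (D.tp e b) ∈ mI y ^ e := by
      have h4 : MvPolynomial.aeval (wd D.hd w) (D.tp e b) ∈
          (MvPolynomial.idealOfVars (Fin d) ℂ ^ e).map
            ((MvPolynomial.aeval (wd D.hd w) : MvPolynomial (Fin d) ℂ →ₐ[ℂ] B) :
              MvPolynomial (Fin d) ℂ →+* B) := Ideal.mem_map_of_mem _ h2
      rw [Ideal.map_pow] at h4
      refine Ideal.pow_right_mono ?_ e h4
      rw [Ideal.map_span, Ideal.span_le]
      rintro _ ⟨_, ⟨i, rfl⟩, rfl⟩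
      simp only [RingHom.coe_coe, MvPolynomial.aeval_X, SetLike.mem_coe]
      exact mem_mI.2 (D.hw _)
    have := Ideal.add_mem _ h1 (Ideal.mem_sup_left h3)
    simpa using this
  · intro h v hv
    rw [D.coeff_th (p := 0) (e := e) (by simpa using h) hv]
    simp

theorem th_P {b : B} (hb : b ∈ P) : D.th b = 0 := by
  ext v
  exact (D.th_order_iff b (v.degree + 1)).2 (Ideal.mem_sup_right hb) v (Nat.lt_succ_self _)

theorem th_eq_zero [IsNoetherianRing B] (hP : P.IsPrime) {b : B} (hb : D.th b = 0) : b ∈ P := by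
  have h1 : ∀ e, b ∈ mI y ^ e ⊔ P := fun e => (D.th_order_iff b e).1 fun v _ => by rw [hb]; simp
  have h2 : (mI y).map (Ideal.Quotient.mk P) ≠ ⊤ := by
    intro h
    have h3 : (1 : B ⧸ P) ∈ (mI y).map (Ideal.Quotient.mk P) := by rw [h]; trivial
    rw [← map_one (Ideal.Quotient.mk P), Ideal.mem_quotient_iff_mem_sup] at h3
    have h4 : mI y ⊔ P ≤ mI y := sup_le le_rfl fun f hf => mem_mI.2 (D.hP f hf)
    have := mem_mI.1 (h4 h3)
    simp at this
  have h3 := Ideal.iInf_pow_eq_bot_of_isDomain _ h2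
  rw [← Ideal.Quotient.eq_zero_iff_mem]
  have h4 : Ideal.Quotient.mk P b ∈ (⨅ i : ℕ, (mI y).map (Ideal.Quotient.mk P) ^ i) := by
    rw [Submodule.mem_iInf]
    intro e
    rw [← Ideal.map_pow, Ideal.mem_quotient_iff_mem_sup]
    exact h1 e
  rw [h3] at h4
  simpa using h4

/-- jets -/
theorem th_jet {e : ℕ} {v : Fin d →₀ ℕ} {f : B}
    (hf : f - MvPolynomial.aeval (wd D.hd w) (MvPolynomial.monomial v (1 : ℂ)) ∈ mI y ^ (e + 1))
    {u : Fin d →₀ ℕ} (hu : u.degree ≤ e) :
    MvPowerSeries.coeff u (D.th f) = MvPolynomial.coeff u (MvPolynomial.monomial v (1 : ℂ)) := by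
  have h1 : u.degree < e + 1 := Nat.lt_succ_of_le hu
  have h2 : f - MvPolynomial.aeval (wd D.hd w) (MvPolynomial.monomial v (1 : ℂ)) ∈
      mI y ^ (e + 1) ⊔ P := Ideal.mem_sup_left hf
  exact D.coeff_th h2 h1

end AData

end Crest.Agent.R271.N857
end
end

-- ▼ part R271/N7c_857
section

/-!
Row 271, piece N7 (helper857): generic basis of `𝔞_a/(P 𝔞_a + 𝔞_{>a})` and the power series map.
-/

set_option autoImplicit false

open Crest.Agent.R271.Defs710 Crest.Agent.R271.N647

noncomputable section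

namespace Crest.Agent.R271.N857

/-! ### linear algebra -/

theorem finrank_split {K E E' : Type*} [Field K] [AddCommGroup E] [Module K E] [AddCommGroup E']
    [Module K E'] (f : E →ₗ[K] E') (S : Submodule K E) [FiniteDimensional K S] :
    Module.finrank K S = Module.finrank K (S.map f) +
      Module.finrank K (S ⊓ LinearMap.ker f : Submodule K E) := by
  have h1 := LinearMap.finrank_range_add_finrank_ker (f.domRestrict S)
  rw [LinearMap.range_domRestrict] at h1
  rw [← h1]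
  congr 1
  have h2 : LinearMap.ker (f.domRestrict S) = (S ⊓ LinearMap.ker f).comap S.subtype := by
    ext x; simp [LinearMap.mem_ker]
  rw [h2]
  exact (Submodule.comapSubtypeEquivOfLe inf_le_left).finrank_eq

/-! ### generic basis -/

section gb

variable {B : Type} [CommRing B]

theorem exists_generic_basis [IsNoetherianRing B] (P : Ideal B) (hP : P.IsPrime) (I N : Ideal B)
    (hPI : P * I ≤ N) :
    ∃ (r : ℕ) (u : Fin r → B) (h : B), h ∉ P ∧ (∀ i, u i ∈ I) ∧
      (∀ f ∈ I, ∃ b : Fin r → B, h * f - ∑ i, b i * u i ∈ N) ∧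
      ∀ b : Fin r → B, ∑ i, b i * u i ∈ N → ∀ i, b i ∈ P := by
  classical
  obtain ⟨G, hG⟩ := (isNoetherianRing_iff_ideal_fg B).1 inferInstance I
  let Ind : Finset B → Prop := fun T => ∀ b : B → B, ∑ t ∈ T, b t * t ∈ N → ∀ t ∈ T, b t ∈ P
  have hne : (G.powerset.filter Ind).Nonempty :=
    ⟨∅, by simp [Ind]⟩
  obtain ⟨T, hT, hmax⟩ := Finset.exists_max_image _ Finset.card hne
  rw [Finset.mem_filter, Finset.mem_powerset] at hT
  obtain ⟨hTG, hTI⟩ := hT
  have key : ∀ g : B, ∃ (c : B) (b : B → B), g ∈ G → c ∉ P ∧ c * g - ∑ t ∈ T, b t * t ∈ N := by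
    intro g
    by_cases hg : g ∈ G
    swap
    · exact ⟨0, 0, fun h => absurd h hg⟩
    by_cases hgT : g ∈ T
    · refine ⟨1, fun t => if t = g then 1 else 0, fun _ => ⟨?_, ?_⟩⟩
      · exact fun h => hP.ne_top (P.eq_top_iff_one.2 h)
      · simp [hgT]
    · have hnot : ¬ Ind (insert g T) := by
        intro hI
        have h1 := hmax (insert g T) (by
          rw [Finset.mem_filter, Finset.mem_powerset]
          exact ⟨Finset.insert_subset hg hTG, hI⟩)
        rw [Finset.card_insert_of_notMem hgT] at h1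
        omega
      simp only [Ind, not_forall] at hnot
      obtain ⟨b, hb, t₀, ht₀, hbt⟩ := hnot
      rw [Finset.sum_insert hgT] at hb
      have hbg : b g ∉ P := by
        intro hbg
        have h1 : b g * g ∈ N := hPI (Ideal.mul_mem_mul hbg (hG ▸ Ideal.subset_span hg))
        have h2 : ∑ t ∈ T, b t * t ∈ N := by
          have := N.sub_mem hb h1
          simpa using this
        rcases Finset.mem_insert.1 ht₀ with rfl | h3
        · exact hbt hbg
        · exact hbt (hTI b h2 _ h3)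
      refine ⟨b g, fun t => - b t, fun _ => ⟨hbg, ?_⟩⟩
      have : b g * g - ∑ t ∈ T, -b t * t = b g * g + ∑ t ∈ T, b t * t := by
        simp [neg_mul, Finset.sum_neg_distrib]
      rw [this]; exact hb
  choose c b hcb using key
  -- reindexing
  have hre : ∀ b : B → B, ∑ i : Fin T.card, b (T.equivFin.symm i) * (T.equivFin.symm i : B) =
      ∑ t ∈ T, b t * t := by
    intro b
    rw [← Finset.sum_coe_sort T, ← Equiv.sum_comp T.equivFin.symm]
  refine ⟨T.card, fun i => (T.equivFin.symm i : B), ∏ g ∈ G, c g, ?_, ?_, ?_, ?_⟩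
  · intro h
    obtain ⟨g, hg, hgc⟩ := (hP.prod_mem_iff).1 h
    exact (hcb g hg).1 hgc
  · intro i
    rw [← hG]
    exact Ideal.subset_span (hTG (T.equivFin.symm i).2)
  · intro f hf
    have h1 : ∃ b : B → B, (∏ g ∈ G, c g) * f - ∑ t ∈ T, b t * t ∈ N := by
      rw [← hG] at hf
      refine Submodule.span_induction (p := fun f _ => ∃ b : B → B,
        (∏ g ∈ G, c g) * f - ∑ t ∈ T, b t * t ∈ N) ?_ ?_ ?_ ?_ hf
      · intro g hg
        refine ⟨fun t => (∏ g' ∈ G.erase g, c g') * b g t, ?_⟩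
        have h2 := N.mul_mem_left (∏ g' ∈ G.erase g, c g') (hcb g hg).2
        convert h2 using 1
        rw [← Finset.mul_prod_erase G c hg, mul_sub, Finset.mul_sum]
        congr 1
        · ring
        · exact Finset.sum_congr rfl fun t _ => by ring
      · exact ⟨0, by simp⟩
      · rintro f g _ _ ⟨b1, h1⟩ ⟨b2, h2⟩
        refine ⟨b1 + b2, ?_⟩
        convert N.add_mem h1 h2 using 1
        simp only [Pi.add_apply, add_mul, Finset.sum_add_distrib]
        ring
      · rintro a f _ ⟨b1, h1⟩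
        refine ⟨fun t => a * b1 t, ?_⟩
        convert N.mul_mem_left a h1 using 1
        rw [mul_sub, Finset.mul_sum, smul_eq_mul]
        congr 1
        · ring
        · exact Finset.sum_congr rfl fun t _ => by ring
    obtain ⟨b, hb⟩ := h1
    refine ⟨fun i => b (T.equivFin.symm i), ?_⟩
    rw [hre]; exact hb
  · intro b' hb' i
    let b : B → B := fun t => if h : t ∈ T then b' (T.equivFin ⟨t, h⟩) else 0
    have hbb : ∀ i : Fin T.card, b (T.equivFin.symm i) = b' i := by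
      intro i
      simp only [b]
      rw [dif_pos (T.equivFin.symm i).2]
      simp
    have h1 : ∑ t ∈ T, b t * t ∈ N := by
      rw [← hre]
      simp only [hbb]
      exact hb'
    have := hTI b h1 _ (T.equivFin.symm i).2
    rwa [hbb] at this

end gb

end Crest.Agent.R271.N857
end
end

-- ▼ part R271/N7d_857
section

/-!
Row 271, piece N7 (helper857): the map `Ψ : 𝔞_a → ℂ⟦X⟧^r` and the spaces `U_{m,a,e}(y)`.
-/

set_option autoImplicit false

open Crest.Agent.R271.Defs710 Crest.Agent.R271.N647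

noncomputable section

namespace Crest.Agent.R271.N857

variable {n : ℕ} {B : Type} [CommRing B] [Algebra ℂ B]
variable {y : B →ₐ[ℂ] ℂ} {P : Ideal B} {d : ℕ} {w : Fin n → B}

theorem coeff_mul_zero {f g : MvPowerSeries (Fin d) ℂ} {e : ℕ}
    (hf : ∀ v : Fin d →₀ ℕ, v.degree < e → MvPowerSeries.coeff v f = 0)
    {v : Fin d →₀ ℕ} (hv : v.degree < e) : MvPowerSeries.coeff v (f * g) = 0 := by
  classical
  rw [MvPowerSeries.coeff_mul]
  refine Finset.sum_eq_zero fun x hx => ?_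
  have hx := Finset.HasAntidiagonal.mem_antidiagonal.1 hx
  have h1 : x.1.degree < e := by
    have : x.1.degree + x.2.degree = v.degree := by rw [← map_add, hx]
    omega
  rw [hf _ h1, zero_mul]

/-- generic basis of `I/N` over `B/P` -/
structure GB (P I N : Ideal B) (r : ℕ) (u : Fin r → B) (h : B) : Prop where
  hP : h ∉ P
  hPI : P * I ≤ N
  hNI : N ≤ I
  mem : ∀ i, u i ∈ I
  gen : ∀ f ∈ I, ∃ b : Fin r → B, h * f - ∑ i, b i * u i ∈ N
  ind : ∀ b : Fin r → B, ∑ i, b i * u i ∈ N → ∀ i, b i ∈ P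

variable {I N : Ideal B} {r : ℕ} {u : Fin r → B} {h : B}

namespace GB

variable (H : GB P I N r u h) (D : AData y P d w)

/-- coordinates -/
def co (f : B) : Fin r → B := open Classical in
  if hf : f ∈ I then (H.gen f hf).choose else 0

theorem co_spec {f : B} (hf : f ∈ I) : h * f - ∑ i, H.co f i * u i ∈ N := by
  unfold co
  rw [dif_pos hf]
  exact (H.gen f hf).choose_spec

/-- the map to power series -/
def psF (f : B) : Fin r → MvPowerSeries (Fin d) ℂ := fun i => D.th (H.co f i)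

theorem psF_eq {f : B} (hf : f ∈ I) {b : Fin r → B} (hb : h * f - ∑ i, b i * u i ∈ N) :
    H.psF D f = fun i => D.th (b i) := by
  funext i
  have h1 := N.sub_mem hb (H.co_spec hf)
  have h2 : ∑ i, (H.co f i - b i) * u i ∈ N := by
    convert h1 using 1
    simp only [sub_mul, Finset.sum_sub_distrib]
    ring
  have h3 := H.ind _ h2 i
  have h4 := D.th_P h3
  rw [map_sub, sub_eq_zero] at h4
  exact h4

theorem psF_add {f g : B} (hf : f ∈ I) (hg : g ∈ I) :
    H.psF D (f + g) = H.psF D f + H.psF D g := by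
  rw [H.psF_eq D (I.add_mem hf hg) (b := fun i => H.co f i + H.co g i)]
  · funext i; simp [psF]
  · have := N.add_mem (H.co_spec hf) (H.co_spec hg)
    convert this using 1
    simp only [add_mul, Finset.sum_add_distrib]
    ring

theorem psF_mul (c : B) {f : B} (hf : f ∈ I) :
    H.psF D (c * f) = D.th c • H.psF D f := by
  rw [H.psF_eq D (I.mul_mem_left c hf) (b := fun i => c * H.co f i)]
  · funext i; simp [psF]
  · have := N.mul_mem_left c (H.co_spec hf)
    convert this using 1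
    simp only [mul_sub, Finset.mul_sum, mul_assoc]
    ring

theorem psF_N {f : B} (hf : f ∈ N) : H.psF D f = 0 := by
  rw [H.psF_eq D (H.hNI hf) (b := 0)]
  · funext i; simp
  · simpa using N.mul_mem_left h hf


/-- as a linear map on `I` -/
def ps : (I.restrictScalars ℂ) →ₗ[ℂ] (Fin r → MvPowerSeries (Fin d) ℂ) where
  toFun f := H.psF D f.1
  map_add' f g := H.psF_add D f.2 g.2
  map_smul' c f := by
    have h1 : ((c • f : (I.restrictScalars ℂ)) : B) = algebraMap ℂ B c * f.1 := by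
      rw [Submodule.coe_smul, Algebra.smul_def]
    rw [h1, H.psF_mul D _ f.2, AlgHom.commutes]
    simp only [RingHom.id_apply]
    rw [algebraMap_smul]

theorem ps_apply (f : I.restrictScalars ℂ) : H.ps D f = H.psF D f.1 := rfl

/-- elements of `m_y^e I + N` have expansions of order `≥ e` and conversely -/
theorem ps_mem_iff (hy : y h ≠ 0) (e : ℕ) {f : B} (hf : f ∈ I) :
    H.psF D f ∈ Lead553.mpow d r e ↔ f ∈ mI y ^ e * I ⊔ N := by
  rw [Lead553.mem_mpow]
  constructor
  · intro h1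
    have h2 : ∀ i, H.co f i ∈ mI y ^ e ⊔ P := fun i =>
      (D.th_order_iff _ _).1 fun v hv => h1 i v hv
    have h3 : h * f ∈ mI y ^ e * I ⊔ N := by
      have h4 : ∑ i, H.co f i * u i ∈ mI y ^ e * I ⊔ N := by
        refine Ideal.sum_mem _ fun i _ => ?_
        have h5 : H.co f i * u i ∈ (mI y ^ e ⊔ P) * I := Ideal.mul_mem_mul (h2 i) (H.mem i)
        rw [Ideal.sup_mul] at h5
        exact sup_le_sup_left H.hPI _ h5
      have := Ideal.add_mem _ (Ideal.mem_sup_right (H.co_spec hf)) h4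
      simpa using this
    obtain ⟨v, hv⟩ := inv_mod y hy e
    have h6 : f = (1 - v * h) * f + v * (h * f) := by ring
    rw [h6]
    exact Ideal.add_mem _ (Ideal.mem_sup_left (Ideal.mul_mem_mul hv hf))
      (Ideal.mul_mem_left _ _ h3)
  · intro h1
    obtain ⟨a, ha, b, hb, rfl⟩ := Submodule.mem_sup.1 h1
    have hle : mI y ^ e * I ≤ I := Ideal.mul_le.2 fun c _ f hf => I.mul_mem_left c hf
    rw [H.psF_add D (hle ha) (H.hNI hb), H.psF_N D hb, add_zero]
    have key : a ∈ I ∧ H.psF D a ∈ Lead553.mpow d r e := by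
      refine Submodule.mul_induction_on (C := fun a => a ∈ I ∧ H.psF D a ∈ Lead553.mpow d r e)
        ha ?_ ?_
      · intro c hc g hg
        refine ⟨I.mul_mem_left c hg, ?_⟩
        rw [H.psF_mul D c hg, Lead553.mem_mpow]
        intro i v hv
        rw [Pi.smul_apply, smul_eq_mul]
        exact coeff_mul_zero ((D.th_order_iff c e).2 (Ideal.mem_sup_left hc)) hv
      · rintro x z ⟨hx, hx'⟩ ⟨hz, hz'⟩
        refine ⟨I.add_mem hx hz, ?_⟩
        rw [H.psF_add D hx hz]
        exact Submodule.add_mem _ hx' hz'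
    exact key.2

end GB

/-! ### application to filtrations -/

section filt

variable {V : ℕ → Submodule ℂ B}

theorem le_idl (F : Filt V) (m : ℕ) (a : ℝ) : F.F m a ≤ (idl F a).restrictScalars ℂ := fun b hb =>
  Ideal.subset_span ⟨m, hb⟩

theorem Fgt_le_idlGt (F : Filt V) (m : ℕ) (a : ℝ) : Fgt F m a ≤ (idlGt F a).restrictScalars ℂ := by
  unfold Fgt idlGt
  refine iSup_le fun l => ?_
  refine (le_idl F m l).trans ?_
  exact fun b hb => (le_iSup (fun l : Set.Ioi a => idl F l) l) hb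

theorem Fgt_le (F : Filt V) (m : ℕ) (a : ℝ) : Fgt F m a ≤ F.F m a :=
  iSup_le fun l => F.anti m (le_of_lt l.2)

theorem idlGt_le (F : Filt V) (a : ℝ) : idlGt F a ≤ idl F a := by
  refine iSup_le fun l => Ideal.span_mono ?_
  rintro _ ⟨m, hb⟩
  exact ⟨m, F.anti m (le_of_lt l.2) hb⟩

theorem exists_GB [IsNoetherianRing B] (F : Filt V) (P : Ideal B) (hP : P.IsPrime) (a : ℝ) :
    ∃ (r : ℕ) (u : Fin r → B) (h : B), GB P (idl F a) (P * idl F a ⊔ idlGt F a) r u h := by
  obtain ⟨r, u, h, h1, h2, h3, h4⟩ := exists_generic_basis P hP (idl F a) (P * idl F a ⊔ idlGt F a)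
    le_sup_left
  refine ⟨r, u, h, h1, le_sup_left, sup_le ?_ (idlGt_le F a), h2, h3, h4⟩
  exact Ideal.mul_le.2 fun c _ f hf => (idl F a).mul_mem_left c hf

variable {F : Filt V} {a : ℝ}
  (H : GB P (idl F a) (P * idl F a ⊔ idlGt F a) r u h) (D : AData y P d w)

/-- the image of `F(m,a)` in `ℂ⟦X⟧^r` -/
def WW (m : ℕ) : Submodule ℂ (Fin r → MvPowerSeries (Fin d) ℂ) :=
  ((F.F m a).comap ((idl F a).restrictScalars ℂ).subtype).map (H.ps D)

/-- dimension of the kernel -/
def kk (m : ℕ) : ℕ := Module.finrank ℂ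
  (((F.F m a).comap ((idl F a).restrictScalars ℂ).subtype ⊓ LinearMap.ker (H.ps D) :
    Submodule ℂ ((idl F a).restrictScalars ℂ)))

theorem finrank_comap {S T : Submodule ℂ B} (hST : S ≤ T) :
    Module.finrank ℂ (S.comap T.subtype) = Module.finrank ℂ S :=
  (Submodule.comapSubtypeEquivOfLe hST).finrank_eq

instance fd_comap {S T : Submodule ℂ B} [FiniteDimensional ℂ S] :
    FiniteDimensional ℂ (S.comap T.subtype) := by
  have h1 : (S.comap T.subtype) = ((S ⊓ T).comap T.subtype) := by ext; simp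
  rw [h1]
  have : FiniteDimensional ℂ (S ⊓ T : Submodule ℂ B) :=
    Submodule.finiteDimensional_of_le inf_le_left
  exact (Submodule.comapSubtypeEquivOfLe (inf_le_right : S ⊓ T ≤ T)).symm.finiteDimensional

instance fd_F [∀ m, FiniteDimensional ℂ (V m)] (m : ℕ) : FiniteDimensional ℂ (F.F m a) :=
  Submodule.finiteDimensional_of_le (F.le_V m a)

instance fd_WW [∀ m, FiniteDimensional ℂ (V m)] (m : ℕ) : FiniteDimensional ℂ (WW H D m) := by
  unfold WW; infer_instance

theorem finrank_F [∀ m, FiniteDimensional ℂ (V m)] (m : ℕ) :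
    Module.finrank ℂ (F.F m a) = Module.finrank ℂ (WW H D m) + kk H D m := by
  rw [← finrank_comap (le_idl F m a)]
  exact finrank_split _ _

theorem finrank_U [∀ m, FiniteDimensional ℂ (V m)] (hy : y h ≠ 0) (m e : ℕ) :
    Module.finrank ℂ (U F P y m a e) =
      Module.finrank ℂ (WW H D m ⊓ Lead553.mpow d r e : Submodule ℂ _) + kk H D m := by
  have hUF : U F P y m a e ≤ F.F m a := inf_le_left
  have hUI : U F P y m a e ≤ (idl F a).restrictScalars ℂ := hUF.trans (le_idl F m a)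
  have : FiniteDimensional ℂ (U F P y m a e) := Submodule.finiteDimensional_of_le hUF
  rw [← finrank_comap hUI, finrank_split (H.ps D)]
  have hmem : ∀ x : (idl F a).restrictScalars ℂ,
      x ∈ (U F P y m a e).comap ((idl F a).restrictScalars ℂ).subtype ↔
        x ∈ (F.F m a).comap ((idl F a).restrictScalars ℂ).subtype ∧
          H.ps D x ∈ Lead553.mpow d r e := by
    intro x
    rw [H.ps_apply, H.ps_mem_iff D hy e x.2]
    simp only [Submodule.mem_comap, Submodule.subtype_apply, U, Submodule.mem_inf,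
      Submodule.restrictScalars_mem, sup_assoc]
  have h1 : ((U F P y m a e).comap ((idl F a).restrictScalars ℂ).subtype).map (H.ps D) =
      WW H D m ⊓ Lead553.mpow d r e := by
    ext z
    simp only [Submodule.mem_map, Submodule.mem_inf, WW]
    constructor
    · rintro ⟨x, hx, rfl⟩
      exact ⟨⟨x, ((hmem x).1 hx).1, rfl⟩, ((hmem x).1 hx).2⟩
    · rintro ⟨⟨x, hx, rfl⟩, hz⟩
      exact ⟨x, (hmem x).2 ⟨hx, hz⟩, rfl⟩
  have h2 : (U F P y m a e).comap ((idl F a).restrictScalars ℂ).subtype ⊓ LinearMap.ker (H.ps D)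
      = (F.F m a).comap ((idl F a).restrictScalars ℂ).subtype ⊓ LinearMap.ker (H.ps D) := by
    ext x
    rw [Submodule.mem_inf, Submodule.mem_inf, hmem]
    constructor
    · rintro ⟨⟨h1, _⟩, h2⟩; exact ⟨h1, h2⟩
    · rintro ⟨h1, h2⟩
      refine ⟨⟨h1, ?_⟩, h2⟩
      rw [LinearMap.mem_ker.1 h2]
      exact Submodule.zero_mem _
  rw [h1, h2]
  rfl

theorem finrank_Fgt [∀ m, FiniteDimensional ℂ (V m)] (m : ℕ) :
    Module.finrank ℂ (Fgt F m a) ≤ kk H D m := by
  have h1 : Fgt F m a ≤ (idl F a).restrictScalars ℂ := (Fgt_le F m a).trans (le_idl F m a)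
  rw [← finrank_comap h1]
  refine Submodule.finrank_mono ?_
  intro x hx
  refine ⟨Fgt_le F m a hx, LinearMap.mem_ker.2 ?_⟩
  exact H.psF_N D (Ideal.mem_sup_right (Fgt_le_idlGt F m a hx))

theorem WW_mul {j m : ℕ}
    {f : MvPowerSeries (Fin d) ℂ} (hf : f ∈ (V j).map D.th.toLinearMap)
    {z : Fin r → MvPowerSeries (Fin d) ℂ} (hz : z ∈ WW H D m) : f • z ∈ WW H D (m + j) := by
  obtain ⟨b, hb, rfl⟩ := hf
  obtain ⟨x, hx, rfl⟩ := hz
  have h1 : b * x.1 ∈ F.F (m + j) a := by
    have := F.mul j 0 m a b x.1 (by rw [F.zero j 0 le_rfl]; exact hb) hx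
    rwa [zero_add, add_comm] at this
  refine ⟨⟨b * x.1, le_idl F (m + j) a h1⟩, h1, ?_⟩
  rw [H.ps_apply, H.ps_apply, H.psF_mul D b x.2]
  rfl

end filt

end Crest.Agent.R271.N857
end
end

-- ▼ part R271/Gain_376
section

/-!
Row 271, Part 9: the counting theorem in power series language.
-/

set_option autoImplicit false

open Finset Real Module

namespace Crest.Agent.R271.C376

open Crest.Agent.R271.Lead553

/-- coefficient vectors as functions -/
noncomputable def slice {d r : ℕ} (L : Finset (Fin r × (Fin d →₀ ℕ))) (i : Fin r) :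
    Finset (Fin d → ℕ) := by
  classical exact (L.filter (fun x => x.1 = i)).image (fun x : Fin r × (Fin d →₀ ℕ) => (⇑x.2 : Fin d → ℕ))

lemma mem_slice {d r : ℕ} {L : Finset (Fin r × (Fin d →₀ ℕ))} {i : Fin r} {v : Fin d →₀ ℕ} :
    (⇑v : Fin d → ℕ) ∈ slice L i ↔ (i, v) ∈ L := by
  classical
  unfold slice
  rw [Finset.mem_image]
  constructor
  · rintro ⟨⟨j, w⟩, h1, h2⟩
    rw [Finset.mem_filter] at h1
    obtain ⟨h1, h3⟩ := h1
    have hw : w = v := DFunLike.coe_injective h2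
    simp only at h3
    subst hw; subst h3; exact h1
  · intro h
    exact ⟨(i, v), by simp [h], rfl⟩

lemma mem_slice' {d r : ℕ} {L : Finset (Fin r × (Fin d →₀ ℕ))} {i : Fin r} {v : Fin d → ℕ} :
    v ∈ slice L i ↔ (i, Finsupp.equivFunOnFinite.symm v) ∈ L := by
  rw [← mem_slice]
  simp

lemma sum_slice {d r : ℕ} (L : Finset (Fin r × (Fin d →₀ ℕ))) (g : ℕ → ℕ) :
    ∑ i, ∑ v ∈ slice L i, g (∑ j, v j) = ∑ x ∈ L, g x.2.degree := by
  classical
  have h : ∀ i, ∑ v ∈ slice L i, g (∑ j, v j) = ∑ x ∈ L.filter (fun x => x.1 = i), g x.2.degree := by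
    intro i
    unfold slice
    rw [Finset.sum_image]
    · refine Finset.sum_congr rfl fun x _ => ?_
      rw [Finsupp.degree_eq_sum]
    · rintro ⟨a, b⟩ ha ⟨a', b'⟩ ha' hab
      rw [Finset.mem_coe, Finset.mem_filter] at ha ha'
      have hb : b = b' := DFunLike.coe_injective hab
      have h1 := ha.2
      have h2 := ha'.2
      simp only at h1 h2
      rw [h1, h2, hb]
  simp_rw [h]
  exact Finset.sum_fiberwise L (fun x => x.1) (fun x => g x.2.degree)

lemma sum_card_slice {d r : ℕ} (L : Finset (Fin r × (Fin d →₀ ℕ))) :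
    ∑ i, (slice L i).card = L.card := by
  have := sum_slice L (fun _ => 1)
  simpa using this

lemma sum_min_degree {d r : ℕ} (L : Finset (Fin r × (Fin d →₀ ℕ))) (P : ℕ) :
    ∑ x ∈ L, min x.2.degree P = ∑ e ∈ Finset.Icc 1 P, (L.filter (fun x => e ≤ x.2.degree)).card := by
  classical
  simp_rw [Finset.card_filter]
  rw [Finset.sum_comm]
  refine Finset.sum_congr rfl fun x _ => ?_
  rw [← Finset.card_filter]
  have : (Finset.Icc 1 P).filter (fun e => e ≤ x.2.degree) = Finset.Icc 1 (min x.2.degree P) := by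
    ext e; simp only [Finset.mem_filter, Finset.mem_Icc, le_min_iff]; tauto
  rw [this, Nat.card_Icc]; omega

/-- the weight of a finite dimensional subspace in terms of leading exponents -/
lemma sum_finrank_mpow {d r : ℕ} (W : Submodule ℂ (Fin r → MvPowerSeries (Fin d) ℂ))
    [FiniteDimensional ℂ W] (P : ℕ) :
    ∑ e ∈ Finset.Icc 1 P, finrank ℂ (W ⊓ mpow d r e : Submodule ℂ (Fin r → MvPowerSeries (Fin d) ℂ))
      = ∑ i, ∑ v ∈ slice (LE W) i, min (∑ j, v j) P := by
  rw [sum_slice (LE W) (fun k => min k P), sum_min_degree]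
  exact Finset.sum_congr rfl fun e _ => (card_filter_LE W e).symm

/-- **GAIN**: the counting theorem. -/
theorem GAIN (d : ℕ) (hd : 1 ≤ d) (e1 : ℝ) (he : 0 < e1) :
    ∃ e0 : ℝ, 0 < e0 ∧ ∀ j0 j1 : ℕ, ∃ τ0 : ℝ, 0 < τ0 ∧ ∃ C1 : ℝ, 0 < C1 ∧
    ∀ τ : ℝ, 0 < τ → τ ≤ τ0 → ∀ p : ℕ, C1 / τ ≤ p → ∀ (r : ℕ)
      (S : ℕ → Submodule ℂ (MvPowerSeries (Fin d) ℂ))
      (W : ℕ → Submodule ℂ (Fin r → MvPowerSeries (Fin d) ℂ)),
      (∀ j, FiniteDimensional ℂ (S j)) → (∀ m, FiniteDimensional ℂ (W m)) →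
      (∀ m j, ∀ f ∈ S j, ∀ w ∈ W m, f • w ∈ W (m + j)) →
      (∀ j, j1 ≤ j → (1 - e0) * (j : ℝ) ^ d / (d.factorial : ℝ) ≤ (finrank ℂ (S j) : ℝ)) →
      (∀ v : Fin d →₀ ℕ, v.degree ≤ d → ∃ f ∈ S j0, ∀ u : Fin d →₀ ℕ, u.degree ≤ d →
        MvPowerSeries.coeff u f = if u = v then 1 else 0) →
      (Summable fun m : ℕ => exp (-τ * m) * (finrank ℂ (W m) : ℝ)) →
      (1 - e1) * (d / τ) * ∑' m : ℕ, exp (-τ * m) * (finrank ℂ (W m) : ℝ)
        ≤ ∑' m : ℕ, exp (-τ * m) * ((∑ e ∈ Finset.Icc 1 p,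
            finrank ℂ (W m ⊓ mpow d r e : Submodule ℂ (Fin r → MvPowerSeries (Fin d) ℂ)) : ℕ) : ℝ) := by
  classical
  have hmin : 0 < min e1 1 := lt_min he one_pos
  refine ⟨min e1 1 / 5, by positivity, fun j0 j1 => ?_⟩
  obtain ⟨τ0, hτ0, C1, hC1, H⟩ := CNT d hd (min e1 1) hmin (min_le_right _ _) j0 j1
  refine ⟨τ0, hτ0, C1, hC1, ?_⟩
  intro τ hτ hττ p hp r S W hS hW hmul hsize hjets hsum
  have hfS : ∀ j, FiniteDimensional ℂ (S j) := hS
  have hfW : ∀ m, FiniteDimensional ℂ (W m) := hW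
  let Sig : ℕ → Finset (Fin d → ℕ) := fun j => (LE1 (S j)).image (fun v : Fin d →₀ ℕ => (⇑v : Fin d → ℕ))
  have hSigmem : ∀ j (v : Fin d → ℕ), v ∈ Sig j → Finsupp.equivFunOnFinite.symm v ∈ LE1 (S j) := by
    intro j v hv
    obtain ⟨w, hw, rfl⟩ := Finset.mem_image.1 hv
    simpa using hw
  have hSigcard : ∀ j, (Sig j).card = finrank ℂ (S j) := by
    intro j
    have := hfS j
    rw [← card_LE1]
    exact Finset.card_image_of_injective _ DFunLike.coe_injective
  have hcW : ∀ m, ∑ i, (slice (LE (W m)) i).card = finrank ℂ (W m) := by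
    intro m
    have := hfW m
    rw [sum_card_slice, card_LE]
  have hle : ∀ i m, ((slice (LE (W m)) i).card : ℝ) ≤ finrank ℂ (W m) := by
    intro i m
    rw [← hcW m]
    exact_mod_cast Finset.single_le_sum (f := fun i => (slice (LE (W m)) i).card)
      (fun _ _ => Nat.zero_le _) (Finset.mem_univ i)
  have hsi : ∀ i, Summable fun m : ℕ => exp (-τ * m) * ((slice (LE (W m)) i).card : ℝ) := by
    intro i
    refine Summable.of_nonneg_of_le (fun m => by positivity) (fun m => ?_) hsum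
    exact mul_le_mul_of_nonneg_left (hle i m) (exp_pos _).le
  have key : ∀ i : Fin r, (1 - min e1 1) * (d / τ) * ∑' m : ℕ, exp (-τ * m) * ((slice (LE (W m)) i).card : ℝ)
      ≤ ∑' m : ℕ, exp (-τ * m) * ((∑ v ∈ slice (LE (W m)) i, min (∑ j, v j) p : ℕ) : ℝ) := by
    intro i
    refine H τ hτ hττ p hp (fun m => slice (LE (W m)) i) Sig ?_ ?_ ?_ (hsi i)
    · intro m j u hu v hv
      rw [mem_slice'] at hu
      have hv' := hSigmem j v hv
      have := hfS j
      have := hfW m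
      have := hfW (m + j)
      have h1 := LE_add (hmul m j) hv' hu
      rw [← mem_slice] at h1
      simpa using h1
    · intro j hj
      rw [hSigcard]
      exact hsize j hj
    · intro c hc
      have := hfS j0
      refine Finset.mem_image.2 ⟨Finsupp.equivFunOnFinite.symm c, ?_, by simp⟩
      refine mem_LE1_of_jets hjets _ ?_
      rw [Finsupp.degree_eq_sum]
      calc ∑ i, (Finsupp.equivFunOnFinite.symm c) i ≤ ∑ i : Fin d, 1 :=
            Finset.sum_le_sum fun i _ => by simpa using hc i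
        _ = d := by simp
  have hsum2 := Finset.sum_le_sum (s := Finset.univ) fun i _ => key i
  rw [← Finset.mul_sum, ← Summable.tsum_finsetSum (fun i _ => hsi i)] at hsum2
  have e1' : ∀ m : ℕ, ∑ i, exp (-τ * m) * ((slice (LE (W m)) i).card : ℝ)
      = exp (-τ * m) * (finrank ℂ (W m) : ℝ) := by
    intro m
    rw [← Finset.mul_sum, ← hcW m]
    push_cast
    rfl
  simp_rw [e1'] at hsum2
  have hsR : ∀ i, Summable fun m : ℕ =>
      exp (-τ * m) * ((∑ v ∈ slice (LE (W m)) i, min (∑ j, v j) p : ℕ) : ℝ) := by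
    intro i
    refine Summable.of_nonneg_of_le (fun m => by positivity) (fun m => ?_) ((hsi i).mul_left (p : ℝ))
    have h1 : ∑ v ∈ slice (LE (W m)) i, min (∑ j, v j) p ≤ p * (slice (LE (W m)) i).card := by
      calc ∑ v ∈ slice (LE (W m)) i, min (∑ j, v j) p ≤ ∑ v ∈ slice (LE (W m)) i, p :=
            Finset.sum_le_sum fun v _ => min_le_right _ _
        _ = p * (slice (LE (W m)) i).card := by simp [mul_comm]
    have h2 : ((∑ v ∈ slice (LE (W m)) i, min (∑ j, v j) p : ℕ) : ℝ)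
        ≤ p * (slice (LE (W m)) i).card := by exact_mod_cast h1
    calc exp (-τ * m) * ((∑ v ∈ slice (LE (W m)) i, min (∑ j, v j) p : ℕ) : ℝ)
        ≤ exp (-τ * m) * (p * (slice (LE (W m)) i).card) :=
          mul_le_mul_of_nonneg_left h2 (exp_pos _).le
      _ = p * (exp (-τ * m) * ((slice (LE (W m)) i).card : ℝ)) := by ring
  rw [← Summable.tsum_finsetSum (fun i _ => hsR i)] at hsum2
  have e2' : ∀ m : ℕ, ∑ i, exp (-τ * m) * ((∑ v ∈ slice (LE (W m)) i, min (∑ j, v j) p : ℕ) : ℝ)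
      = exp (-τ * m) * ((∑ e ∈ Finset.Icc 1 p,
            finrank ℂ (W m ⊓ mpow d r e : Submodule ℂ (Fin r → MvPowerSeries (Fin d) ℂ)) : ℕ) : ℝ) := by
    intro m
    have := hfW m
    rw [← Finset.mul_sum, sum_finrank_mpow (W m) p]
    push_cast
    rfl
  simp_rw [e2'] at hsum2
  refine le_trans ?_ hsum2
  have hS0 : 0 ≤ ∑' m : ℕ, exp (-τ * m) * (finrank ℂ (W m) : ℝ) := tsum_nonneg fun m => by positivity
  refine mul_le_mul_of_nonneg_right (mul_le_mul_of_nonneg_right ?_ (by positivity)) hS0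
  have := min_le_left e1 1
  linarith

end Crest.Agent.R271.C376
end

-- ▼ part R271/N7e_857

/-!
Row 271, piece N7 (helper857): growth bounds and the counting bridge `CountStmt`.
-/

set_option autoImplicit false

open Crest.Agent.R271.Defs710 Crest.Agent.R271.N647
open Real

noncomputable section

namespace Crest.Agent.R271.N857

variable {n : ℕ} (X : FCtx n)

instance fdV (m : ℕ) : FiniteDimensional ℂ (X.V m) := X.V_fin m

/-- upper growth bound -/
theorem exists_finrank_le : ∃ C₁ : ℕ, ∀ m, Module.finrank ℂ (X.V m) ≤ (C₁ * m + 1) ^ n := by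
  classical
  obtain ⟨C₁, hC⟩ := X.ordbd
  refine ⟨C₁, fun m => ?_⟩
  obtain ⟨w, D⟩ := AData.mk' X.z X.etale X.x ⊥ (fun f hf => by
    rw [Ideal.mem_bot] at hf; rw [hf, map_zero]) n le_rfl (Ord969.fctx_adapted X X.x)
  set E := C₁ * m + 1 with hE
  let L : X.V m →ₗ[ℂ] ((Fin n → Fin E) → ℂ) := LinearMap.pi fun v =>
    (MvPowerSeries.coeff (R := ℂ) (Finsupp.equivFunOnFinite.symm fun i => (v i : ℕ))).comp
      (D.th.toLinearMap.comp (X.V m).subtype)
  have hL : Function.Injective L := by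
    rw [← LinearMap.ker_eq_bot, LinearMap.ker_eq_bot']
    intro f hf
    have h1 : ∀ v : Fin n →₀ ℕ, v.degree < E → MvPowerSeries.coeff v (D.th (f : X.B)) = 0 := by
      intro v hv
      have h2 : ∀ i, v i < E := fun i => lt_of_le_of_lt (Finsupp.le_degree i v) hv
      have h3 := congrFun hf fun i => ⟨v i, h2 i⟩
      have h4 : (Finsupp.equivFunOnFinite.symm fun i => v i) = v := by ext; simp
      simpa [L, h4] using h3
    rw [D.th_order_iff, sup_bot_eq] at h1
    by_contra h0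
    have := hC m f f.2 (fun h => h0 (Subtype.ext h)) X.x E h1
    omega
  have := LinearMap.finrank_le_finrank_of_injective hL
  simpa using this

theorem summable_V {τ : ℝ} (hτ : 0 < τ) :
    Summable fun m : ℕ => exp (-τ * m) * (Module.finrank ℂ (X.V m) : ℝ) := by
  obtain ⟨C₁, hC⟩ := exists_finrank_le X
  have h1 := Real.summable_pow_mul_exp_neg_nat_mul n hτ
  have h2 := Real.summable_pow_mul_exp_neg_nat_mul 0 hτ
  have h3 := (h1.add h2).mul_left (((C₁ : ℝ) + 1) ^ n)
  refine Summable.of_nonneg_of_le (fun m => by positivity) (fun m => ?_) h3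
  have h4 : (Module.finrank ℂ (X.V m) : ℝ) ≤ ((C₁ : ℝ) * m + 1) ^ n := by exact_mod_cast hC m
  have h5 : ((C₁ : ℝ) * m + 1) ^ n ≤ ((C₁ : ℝ) + 1) ^ n * ((m : ℝ) ^ n + 1) := by
    rcases Nat.eq_zero_or_pos m with rfl | hm
    · have : (1 : ℝ) ≤ ((C₁ : ℝ) + 1) ^ n := one_le_pow₀ (by linarith [Nat.cast_nonneg (α := ℝ) C₁])
      have h6 : (0 : ℝ) ≤ ((0 : ℕ) : ℝ) ^ n := by positivity
      simp only [Nat.cast_zero, mul_zero, zero_add, one_pow] at *
      nlinarith
    · have hm' : (1 : ℝ) ≤ m := by exact_mod_cast hm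
      have h6 : ((C₁ : ℝ) * m + 1) ≤ ((C₁ : ℝ) + 1) * m := by nlinarith
      have h7 := pow_le_pow_left₀ (by positivity) h6 n
      rw [mul_pow] at h7
      have h8 : (0 : ℝ) ≤ ((C₁ : ℝ) + 1) ^ n := by positivity
      nlinarith
  have h6 : (0 : ℝ) < exp (-τ * m) := exp_pos _
  calc exp (-τ * m) * (Module.finrank ℂ (X.V m) : ℝ)
      ≤ exp (-τ * m) * (((C₁ : ℝ) + 1) ^ n * ((m : ℝ) ^ n + 1)) := by
        apply mul_le_mul_of_nonneg_left (h4.trans h5) h6.le
    _ = ((C₁ : ℝ) + 1) ^ n * ((m : ℝ) ^ n * exp (-τ * m) + (m : ℝ) ^ 0 * exp (-τ * m)) := by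
        rw [pow_zero]; ring

theorem summable_of_le {τ : ℝ} (hτ : 0 < τ) {f : ℕ → ℝ} {C : ℝ} (h0 : ∀ m, 0 ≤ f m)
    (h : ∀ m, f m ≤ C * Module.finrank ℂ (X.V m)) :
    Summable fun m : ℕ => exp (-τ * m) * f m := by
  refine Summable.of_nonneg_of_le (fun m => by have := h0 m; positivity) (fun m => ?_)
    ((summable_V X hτ).mul_left C)
  have h6 : (0 : ℝ) < exp (-τ * m) := exp_pos _
  calc exp (-τ * m) * f m ≤ exp (-τ * m) * (C * Module.finrank ℂ (X.V m)) :=
        mul_le_mul_of_nonneg_left (h m) h6.le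
    _ = C * (exp (-τ * m) * Module.finrank ℂ (X.V m)) := by ring

theorem dim_le (P : Ideal X.B) (hP : P.IsPrime) (d : ℕ) (hd : ringKrullDim (X.B ⧸ P) = d) :
    d ≤ n := by
  by_contra hcon
  push Not at hcon
  obtain ⟨C₁, hC⟩ := exists_finrank_le X
  obtain ⟨j₁, hj₁⟩ := X.growth d (1 / 2) (by norm_num)
  obtain ⟨K, hK⟩ := exists_nat_gt (2 * (d.factorial : ℝ) * ((C₁ : ℝ) + 1) ^ n)
  set j := max j₁ (max K 1) with hj
  have h1 := hj₁ P hP hd j (le_max_left _ _)
  have hj1 : 1 ≤ j := (le_max_right K 1).trans (le_max_right _ _)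
  have hjK : K ≤ j := (le_max_left K 1).trans (le_max_right _ _)
  have h2 : Module.finrank ℂ ((X.V j).map (Ideal.Quotient.mkₐ ℂ P).toLinearMap) ≤
      Module.finrank ℂ (X.V j) := Submodule.finrank_map_le _ _
  have h3 : (Module.finrank ℂ ((X.V j).map (Ideal.Quotient.mkₐ ℂ P).toLinearMap) : ℝ) ≤
      ((C₁ : ℝ) * j + 1) ^ n := by exact_mod_cast h2.trans (hC j)
  have hj1' : (1 : ℝ) ≤ j := by exact_mod_cast hj1
  have h4 : ((C₁ : ℝ) * j + 1) ^ n ≤ (((C₁ : ℝ) + 1) * j) ^ n :=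
    pow_le_pow_left₀ (by positivity) (by nlinarith) n
  have h5 : (1 - 1 / 2) * (j : ℝ) ^ d / (d.factorial : ℝ) ≤ ((C₁ : ℝ) + 1) ^ n * (j : ℝ) ^ n := by
    rw [← mul_pow]; exact h1.trans (h3.trans h4)
  have hf : (0 : ℝ) < d.factorial := by exact_mod_cast d.factorial_pos
  rw [div_le_iff₀ hf] at h5
  have h6 : (j : ℝ) ^ d = (j : ℝ) ^ (d - n) * (j : ℝ) ^ n := by
    rw [← pow_add]; congr 1; omega
  have h7 : (j : ℝ) ≤ (j : ℝ) ^ (d - n) := le_self_pow₀ hj1' (by omega)
  have hjn : (0 : ℝ) < (j : ℝ) ^ n := by positivity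
  have h8 : (j : ℝ) * (j : ℝ) ^ n ≤ (j : ℝ) ^ d := by
    rw [h6]; exact mul_le_mul_of_nonneg_right h7 hjn.le
  have h9 : (j : ℝ) * (j : ℝ) ^ n ≤ (2 * (d.factorial : ℝ) * ((C₁ : ℝ) + 1) ^ n) * (j : ℝ) ^ n := by
    nlinarith
  have h10 := le_of_mul_le_mul_right h9 hjn
  have h11 : (K : ℝ) ≤ j := by exact_mod_cast hjK
  linarith

theorem finrank_th {y : X.B →ₐ[ℂ] ℂ} {P : Ideal X.B} (hP : P.IsPrime) {d : ℕ} {w : Fin n → X.B}
    (D : AData y P d w) (j : ℕ) :
    Module.finrank ℂ ((X.V j).map D.th.toLinearMap) =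
      Module.finrank ℂ ((X.V j).map (Ideal.Quotient.mkₐ ℂ P).toLinearMap) := by
  have hn := Ord969.isNoetherianRing X
  have h1 := finrank_split D.th.toLinearMap (X.V j)
  have h2 := finrank_split (Ideal.Quotient.mkₐ ℂ P).toLinearMap (X.V j)
  have h3 : LinearMap.ker D.th.toLinearMap = LinearMap.ker (Ideal.Quotient.mkₐ ℂ P).toLinearMap := by
    ext b
    rw [LinearMap.mem_ker, LinearMap.mem_ker]
    simp only [AlgHom.toLinearMap_apply, Ideal.Quotient.mkₐ_eq_mk]
    rw [Ideal.Quotient.eq_zero_iff_mem]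
    exact ⟨fun h => D.th_eq_zero hP h, fun h => D.th_P h⟩
  rw [h3] at h1
  omega

/-- **N7, counting bridge** -/
theorem countStmt (hgen : GenFact X) : CountStmt X := by
  intro d e₁ hd he₁
  obtain ⟨e0, he0, HG⟩ := C376.GAIN d hd e₁ he₁
  obtain ⟨j0, hj0⟩ := X.jets d
  obtain ⟨j1, hj1⟩ := X.growth d e0 he0
  obtain ⟨τ0, hτ0, C1, hC1, HG⟩ := HG j0 j1
  refine ⟨τ0, max C1 d, hτ0, lt_of_lt_of_le hC1 (le_max_left _ _), ?_⟩
  intro τ hτ hττ p hp F P hP hdim a
  have hn := Ord969.isNoetherianRing X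
  have hdn : d ≤ n := dim_le X P hP d hdim
  obtain ⟨h1, hh1, hA⟩ := hgen P d hP hdim
  obtain ⟨r, u, h2, H⟩ := exists_GB F P hP a
  refine ⟨h1 * h2, fun h => (hP.mem_or_mem h).elim hh1 H.hP, ?_⟩
  intro y hy hyh
  rw [map_mul] at hyh
  have hy1 : y h1 ≠ 0 := left_ne_zero_of_mul hyh
  have hy2 : y h2 ≠ 0 := right_ne_zero_of_mul hyh
  have hPy : ∀ f ∈ P, y f = 0 := fun f hf => mem_mI.1 (hy hf)
  obtain ⟨w, D⟩ := AData.mk' X.z X.etale y P hPy d hdn (hA y hPy hy1)
  -- notation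
  set Wf : ℕ → ℝ := fun m => (Module.finrank ℂ (WW H D m) : ℝ) with hWf
  set kf : ℕ → ℝ := fun m => (kk H D m : ℝ) - (Module.finrank ℂ (Fgt F m a) : ℝ) with hkf
  set G : ℕ → ℝ := fun m => ((∑ e ∈ Finset.Icc 1 p,
    Module.finrank ℂ (WW H D m ⊓ Lead553.mpow d r e :
      Submodule ℂ (Fin r → MvPowerSeries (Fin d) ℂ)) : ℕ) : ℝ) with hG
  have hF : ∀ m, (Module.finrank ℂ (F.F m a) : ℝ) = Wf m + kk H D m := fun m => by
    rw [hWf, finrank_F H D m]; push_cast; ring
  have hFV : ∀ m, (Module.finrank ℂ (F.F m a) : ℝ) ≤ Module.finrank ℂ (X.V m) := fun m => by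
    exact_mod_cast Submodule.finrank_mono (F.le_V m a)
  have hk0 : ∀ m, 0 ≤ kf m := fun m => by
    have : (Module.finrank ℂ (Fgt F m a) : ℝ) ≤ kk H D m := by exact_mod_cast finrank_Fgt H D m
    simp only [hkf]; linarith
  have hW0 : ∀ m, 0 ≤ Wf m := fun m => Nat.cast_nonneg _
  have hg0 : ∀ m, (0 : ℝ) ≤ (Module.finrank ℂ (Fgt F m a) : ℝ) := fun m => Nat.cast_nonneg _
  have hk0' : ∀ m, (0 : ℝ) ≤ (kk H D m : ℝ) := fun m => Nat.cast_nonneg _
  have sW : Summable fun m : ℕ => exp (-τ * m) * Wf m :=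
    summable_of_le X hτ (C := 1) hW0 fun m => by
      have := hF m; have := hFV m; have := hk0' m; linarith
  have sk : Summable fun m : ℕ => exp (-τ * m) * kf m :=
    summable_of_le X hτ (C := 1) hk0 fun m => by
      have := hF m; have := hFV m; have := hW0 m; have := hg0 m
      simp only [hkf]; linarith
  have hGW : ∀ m, G m ≤ p * Wf m := fun m => by
    have h3 : ∑ e ∈ Finset.Icc 1 p, Module.finrank ℂ (WW H D m ⊓ Lead553.mpow d r e :
        Submodule ℂ (Fin r → MvPowerSeries (Fin d) ℂ)) ≤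
        ∑ _e ∈ Finset.Icc 1 p, Module.finrank ℂ (WW H D m) :=
      Finset.sum_le_sum fun e _ => Submodule.finrank_mono inf_le_left
    rw [Finset.sum_const, Nat.card_Icc, smul_eq_mul, Nat.add_sub_cancel] at h3
    simp only [hG, hWf]
    exact_mod_cast h3
  have sG : Summable fun m : ℕ => exp (-τ * m) * G m :=
    summable_of_le X hτ (C := p) (fun m => Nat.cast_nonneg _) fun m => by
      refine (hGW m).trans (mul_le_mul_of_nonneg_left ?_ (Nat.cast_nonneg _))
      have := hF m; have := hFV m; have := hk0' m; linarith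
  -- GAIN
  have hτp : C1 / τ ≤ p := le_trans (div_le_div_of_nonneg_right (le_max_left _ _) hτ.le) hp
  have hdp : (d : ℝ) / τ ≤ p := le_trans (div_le_div_of_nonneg_right (le_max_right _ _) hτ.le) hp
  have key := HG τ hτ hττ p hτp r (fun j => (X.V j).map D.th.toLinearMap) (WW H D)
    (fun j => inferInstance) (fun m => inferInstance)
    (fun m j f hf w hw => WW_mul H D hf hw)
    (fun j hj => by
      rw [finrank_th X hP D j]
      exact hj1 P hP hdim j hj)
    (fun v hv => by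
      obtain ⟨f, hf, hfb⟩ := hj0 j0 le_rfl y
        (MvPolynomial.aeval (wd D.hd w) (MvPolynomial.monomial v (1 : ℂ)))
      refine ⟨D.th f, ⟨f, hf, rfl⟩, fun u hu => ?_⟩
      rw [D.th_jet hfb hu, MvPolynomial.coeff_monomial]
      by_cases huv : u = v
      · rw [if_pos huv, if_pos huv.symm]
      · rw [if_neg huv, if_neg fun h => huv h.symm])
    sW
  -- assemble
  have hL : ∀ m : ℕ, exp (-τ * m) * ((Module.finrank ℂ (F.F m a) : ℝ) -
      Module.finrank ℂ (Fgt F m a)) = exp (-τ * m) * Wf m + exp (-τ * m) * kf m := fun m => by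
    rw [hF m, hkf]; ring
  have hR : ∀ m : ℕ, exp (-τ * m) * ∑ e ∈ Finset.Icc 1 p,
      ((Module.finrank ℂ (U F P y m a e) : ℝ) - Module.finrank ℂ (Fgt F m a)) =
      exp (-τ * m) * G m + p * (exp (-τ * m) * kf m) := fun m => by
    have h3 : ∑ e ∈ Finset.Icc 1 p,
        ((Module.finrank ℂ (U F P y m a e) : ℝ) - Module.finrank ℂ (Fgt F m a)) =
        G m + p * kf m := by
      have h4 : ∀ e ∈ Finset.Icc 1 p,
          ((Module.finrank ℂ (U F P y m a e) : ℝ) - Module.finrank ℂ (Fgt F m a)) =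
          (Module.finrank ℂ (WW H D m ⊓ Lead553.mpow d r e :
            Submodule ℂ (Fin r → MvPowerSeries (Fin d) ℂ)) : ℝ) + kf m := fun e _ => by
        rw [finrank_U H D hy2 m e]; push_cast; simp only [hkf]; ring
      rw [Finset.sum_congr rfl h4, Finset.sum_add_distrib, Finset.sum_const, Nat.card_Icc,
        Nat.add_sub_cancel, nsmul_eq_mul]
      simp only [hG]
      push_cast
      rfl
    rw [h3]; ring
  simp only [hL, hR]
  rw [sW.tsum_add sk, sG.tsum_add (sk.mul_left _), tsum_mul_left, mul_add]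
  refine add_le_add key ?_
  refine mul_le_mul_of_nonneg_right ?_ (tsum_nonneg fun m => mul_nonneg (exp_pos _).le (hk0 m))
  have : (0 : ℝ) ≤ d / τ := by positivity
  nlinarith

end Crest.Agent.R271.N857
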