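import Crest.Agent.R271.Defs_710
import Crest.Agent.R271.NSpec_647

-- ▼ part R271/N2_161
section

/-!
Row 271, team N, piece N2 (8.2): P2.
-/

set_option autoImplicit false

open scoped ENNReal NNReal Topology BigOperators
open MeasureTheory

noncomputable section

namespace Crest.Agent.R271.N2x161

open Crest.Agent.R271.Defs710

section

variable {n : ℕ} (X : FCtx n)

instance noeth : IsNoetherianRing X.B := by
  have := X.ft
  exact Algebra.FiniteType.isNoetherianRing ℂ X.B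

/-- a fixed finite set of generators of an ideal -/
def gen (I : Ideal X.B) : Finset X.B :=
  Classical.choose ((isNoetherianRing_iff_ideal_fg X.B).1 (noeth X) I)

lemma span_gen (I : Ideal X.B) : Ideal.span (gen X I : Set X.B) = I :=
  Classical.choose_spec ((isNoetherianRing_iff_ideal_fg X.B).1 (noeth X) I)

/-- the weight `|I|^{-2c}` for the fixed generators -/
def wI (I : Ideal X.B) (c : ℝ) (y : X.B →ₐ[ℂ] ℂ) : ℝ≥0∞ :=
  (ENNReal.ofReal (wt (gen X I) y)) ^ (-c)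

@[simp] lemma wI_zero (I : Ideal X.B) (y : X.B →ₐ[ℂ] ℂ) : wI X I 0 y = 1 := by
  simp [wI]

variable {X}

theorem iint_iff (hX : GensFact X) (y : X.B →ₐ[ℂ] ℂ) {ι : Type} [Fintype ι] (I : ι → Ideal X.B)
    (c : ι → ℝ) : IInt X.z y I c ↔ LIntB X.z y (fun y' => ∏ i, wI X (I i) (c i) y') :=
  hX y ι I c (fun i => gen X (I i)) (fun i => span_gen X (I i))

theorem iint_congr (hX : GensFact X) (y : X.B →ₐ[ℂ] ℂ) {ι κ : Type} [Fintype ι] [Fintype κ]
    {I : ι → Ideal X.B} {c : ι → ℝ} {J : κ → Ideal X.B} {c' : κ → ℝ}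
    (h : ∀ y', ∏ i, wI X (I i) (c i) y' = ∏ j, wI X (J j) (c' j) y') :
    IInt X.z y I c ↔ IInt X.z y J c' := by
  rw [iint_iff hX, iint_iff hX]
  simp only [h]

/-- an ideal with a positive exponent is nonzero (single ideal) -/
theorem ne_bot_of_iint {z : Fin n → X.B} {y : X.B →ₐ[ℂ] ℂ} {I : Ideal X.B} {c : ℝ} (hc : 0 < c)
    (h : IInt z y (fun _ : Unit => I) (fun _ => c)) : I ≠ ⊥ := by
  rintro rfl
  obtain ⟨S, hS, C, U, hU, hlt⟩ := h
  have hS0 : ∀ b ∈ S (), b = 0 := by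
    intro b hb
    have : b ∈ Ideal.span (S () : Set X.B) := Ideal.subset_span hb
    rw [hS ()] at this
    simpa using this
  have hw : ∀ ζ, wB S (fun _ => c) (C.s ζ) = ∞ := by
    intro ζ
    have : wt (S ()) (C.s ζ) = 0 := by
      unfold wt
      apply Finset.sum_eq_zero
      intro b hb
      rw [hS0 b hb]; simp
    simp only [wB, Finset.univ_unique, Finset.prod_singleton]
    have hd : (default : Unit) = () := rfl
    rw [hd, this]
    simp only [ENNReal.ofReal_zero]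
    exact ENNReal.zero_rpow_of_neg (by linarith)
  simp only [hw] at hlt
  rw [setLIntegral_const] at hlt
  have : volume U ≠ 0 := by
    have := MeasureTheory.Measure.measure_pos_of_mem_nhds (volume : Measure (Cn n)) hU
    exact this.ne'
  rw [ENNReal.top_mul this] at hlt
  exact lt_irrefl _ hlt

lemma mI_ne_bot (hX : ChartEx X) (hn : 1 ≤ n) (y : X.B →ₐ[ℂ] ℂ) : mI y ≠ ⊥ := by
  intro h
  obtain ⟨C⟩ := hX y
  let i : Fin n := ⟨0, hn⟩
  have hb : X.z i - algebraMap ℂ X.B (y (X.z i)) ∈ mI y := by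
    simp [mI, RingHom.mem_ker]
  rw [h] at hb
  have hb0 : X.z i = algebraMap ℂ X.B (y (X.z i)) := by
    have : X.z i - algebraMap ℂ X.B (y (X.z i)) = 0 := by simpa using hb
    exact sub_eq_zero.1 this
  have hr := C.r_pos
  have hmem : (Pi.single i ((C.r / 2 : ℝ) : ℂ) : Cn n) ∈ Metric.ball (0 : Cn n) C.r := by
    rw [mem_ball_zero_iff, Pi.norm_single]
    rw [Complex.norm_real, Real.norm_of_nonneg (by positivity)]
    linarith
  have h1 := C.s_z _ hmem i
  rw [hb0] at h1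
  simp at h1
  linarith

/-! ### the ideals `𝔞_l` -/

variable {V : ℕ → Submodule ℂ X.B}


lemma idl_mul (F : Filt V) (l l' : ℝ) : idl F l * idl F l' ≤ idl F (l + l') := by
  unfold idl
  rw [Ideal.span_mul_span']
  apply Ideal.span_mono
  rintro b ⟨b1, ⟨m, h1⟩, b2, ⟨m', h2⟩, rfl⟩
  exact ⟨m + m', F.mul _ _ _ _ _ _ h1 h2⟩

lemma idl_top (F : Filt X.V) {l : ℝ} (h : l ≤ 0) : idl F l = ⊤ := by
  rw [Ideal.eq_top_iff_one]
  apply Ideal.subset_span
  refine ⟨0, ?_⟩
  rw [F.zero 0 l h, X.V_zero]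
  exact Submodule.one_le.1 le_rfl

lemma idl_pow (F : Filt X.V) (l : ℝ) (p : ℕ) : idl F l ^ p ≤ idl F (p * l) := by
  induction p with
  | zero => simp [idl_top F (l := 0) le_rfl]
  | succ p ih =>
    rw [pow_succ]
    calc idl F l ^ p * idl F l ≤ idl F (p * l) * idl F l := Ideal.mul_mono_left ih
      _ ≤ idl F (p * l + l) := idl_mul F _ _
      _ = idl F ((p + 1 : ℕ) * l) := by congr 1; push_cast; ring

lemma idl_prod (F : Filt X.V) {κ : Type} (s : Finset κ) (a : κ → ℝ) (p : κ → ℕ) :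
    ∏ j ∈ s, idl F (a j) ^ p j ≤ idl F (∑ j ∈ s, p j * a j) := by
  classical
  induction s using Finset.induction_on with
  | empty => simp [idl_top F (l := 0) le_rfl]
  | insert j s hj ih =>
    rw [Finset.prod_insert hj, Finset.sum_insert hj]
    exact (Ideal.mul_mono (idl_pow F _ _) ih).trans (idl_mul F _ _)

/-! ### the ideals `W_l` -/

/-- `W_l = ∑_{a + σ b + s e ≥ l} 𝔞_a P^b 𝔪_y^e` -/
def Wl (X : FCtx n) (F : Filt X.V) (P : Ideal X.B) (y : X.B →ₐ[ℂ] ℂ) (σ s l : ℝ) : Ideal X.B :=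
  ⨆ p : ℕ × ℕ, idl F (l - σ * p.1 - s * p.2) * P ^ p.1 * (mI y) ^ p.2





/-- Claim (8.1) as a Prop -/
def Claim81 (X : FCtx n) (F : Filt X.V) (P : Ideal X.B) (y : X.B →ₐ[ℂ] ℂ) (σ₀ A : ℝ) : Prop :=
  ∀ (k : ℕ) (α β : ℝ), 1 ≤ k → 0 ≤ α → 0 ≤ β →
    IInt X.z y ![idl F (k * α), P] ![1 / (k : ℝ), β] → α + σ₀ * β ≤ A


lemma exists_finset_iSup {R : Type} [CommRing R] [IsNoetherianRing R] {ι : Type} (f : ι → Ideal R) :
    ∃ T : Finset ι, ⨆ i, f i = ⨆ i ∈ T, f i := by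
  have hfg : (⨆ i, f i).FG := (isNoetherianRing_iff_ideal_fg R).1 inferInstance _
  have hc := (Submodule.fg_iff_compact _).1 hfg
  obtain ⟨T, hT⟩ := CompleteLattice.IsCompactElement.exists_finset_of_le_iSup (Submodule R R) hc f le_rfl
  exact ⟨T, le_antisymm hT (iSup₂_le fun i _ => le_iSup f i)⟩

lemma exists_finset_iSup' {R : Type} [CommRing R] [IsNoetherianRing R] {ι : Type}
    (f : ι → Ideal R) (h : ⨆ i, f i ≠ ⊥) :
    ∃ T : Finset ι, Nonempty T ∧ (∀ i : T, f i ≠ ⊥) ∧ ⨆ i, f i = ⨆ i : T, f i := by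
  classical
  obtain ⟨T, hT⟩ := exists_finset_iSup f
  have key : ⨆ i, f i = ⨆ i : (T.filter (fun i => f i ≠ ⊥)), f i := by
    apply le_antisymm
    · rw [hT]
      apply iSup₂_le
      intro i hi
      by_cases h0 : f i = ⊥
      · rw [h0]; exact bot_le
      · exact le_iSup (fun i : (T.filter (fun i => f i ≠ ⊥)) => f i)
          ⟨i, Finset.mem_filter.2 ⟨hi, h0⟩⟩
    · apply iSup_le
      intro i
      exact le_iSup f i.1
  refine ⟨T.filter (fun i => f i ≠ ⊥), ?_, fun i => (Finset.mem_filter.1 i.2).2, key⟩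
  by_contra hne
  rw [not_nonempty_iff] at hne
  apply h
  rw [key]
  exact iSup_of_empty _

/-- products in a Finset over a domain are nonzero -/
lemma prod_ne_bot {κ : Type} (s : Finset κ) (J : κ → Ideal X.B) (p : κ → ℕ)
    (h : ∀ j ∈ s, J j ≠ ⊥) : ∏ j ∈ s, J j ^ p j ≠ ⊥ := by
  have : ∏ j ∈ s, J j ^ p j ≠ 0 := by
    rw [Finset.prod_ne_zero_iff]
    intro j hj
    exact pow_ne_zero _ (h j hj)
  exact this


theorem step1 (hX : AFacts X) (hn : 1 ≤ n) (F : Filt X.V) (P : Ideal X.B) (hP : P ≠ ⊥)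
    (y : X.B →ₐ[ℂ] ℂ) (σ s : ℝ) (k : ℕ) (l : ℝ) (hk : 1 ≤ k)
    (hI : IInt X.z y (fun _ : Unit => Wl X F P y σ s (k * l)) (fun _ => 1 / (k : ℝ)))
    (ε : ℝ) (hε : 0 < ε) (hε1 : ε < 1) :
    ∃ (M B E : ℕ) (α u : ℝ), 1 ≤ M ∧ 0 ≤ α ∧ 1 - 2 * ε ≤ u ∧ u ≤ 1 ∧ idl F (M * α) ≠ ⊥ ∧
      IInt X.z y ![idl F (M * α), P, mI y] ![1 / (M : ℝ), (B : ℝ) / M, (E : ℝ) / M] ∧
      u * l ≤ α + σ * ((B : ℝ) / M) + s * ((E : ℝ) / M) := by
  classical
  have hk0 : (0 : ℝ) < k := by exact_mod_cast hk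
  have hm := mI_ne_bot hX.chart hn y
  have hW : Wl X F P y σ s (k * l) ≠ ⊥ := ne_bot_of_iint (by positivity) hI
  obtain ⟨T, hTne, hT0, hTs⟩ := exists_finset_iSup' (fun p : ℕ × ℕ =>
    idl F (k * l - σ * p.1 - s * p.2) * P ^ p.1 * (mI y) ^ p.2) hW
  set G : T → Ideal X.B := fun p => idl F (k * l - σ * p.1.1 - s * p.1.2) * P ^ p.1.1 *
    (mI y) ^ p.1.2 with hG
  have hWG : Wl X F P y σ s (k * l) = ⨆ j : T, G j := hTs
  -- Sum theorem
  have h1 : IInt X.z y (Sum.elim (fun e : Empty => e.elim) (fun _ : Unit => ⨆ j, G j))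
      (Sum.elim (fun e : Empty => e.elim) (fun _ : Unit => 1 / (k : ℝ))) := by
    refine (iint_congr hX.gens y ?_).1 hI
    intro y'
    simp [hWG]
  obtain ⟨r, hr0, hr1, h2⟩ := hX.sum y Empty T (fun e => e.elim) (fun e => e.elim) G (1 / (k : ℝ))
    (fun e => e.elim) hT0 (fun e => e.elim) (by positivity) h1 ε hε hε1
  have h3 : IInt X.z y G (fun j => (1 - ε) * (r j * (1 / (k : ℝ)))) := by
    refine (iint_congr hX.gens y ?_).1 h2
    intro y'
    simp
  -- rounding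
  set c : T → ℝ := fun j => (1 - ε) * (r j * (1 / (k : ℝ))) with hc
  have hc0 : ∀ j, 0 ≤ c j := fun j =>
    mul_nonneg (by linarith) (mul_nonneg (hr0 j) (by positivity))
  have hcs : ∑ j, c j = (1 - ε) / k := by
    simp only [hc]
    rw [← Finset.mul_sum, ← Finset.sum_mul, hr1]; ring
  obtain ⟨M, hM⟩ := exists_nat_gt ((Fintype.card T : ℝ) * k / ε)
  have hMpos : 0 < M := by
    have : (0 : ℝ) < M := lt_of_le_of_lt (by positivity) hM
    exact_mod_cast this
  have hM0 : (0 : ℝ) < M := by exact_mod_cast hMpos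
  set p : T → ℕ := fun j => ⌊(M : ℝ) * c j⌋₊ with hp
  have hp1 : ∀ j, (p j : ℝ) / M ≤ c j := by
    intro j
    rw [div_le_iff₀ hM0, mul_comm]
    exact Nat.floor_le (mul_nonneg hM0.le (hc0 j))
  have hp2 : ∀ j, c j - 1 / M ≤ (p j : ℝ) / M := by
    intro j
    have := (Nat.lt_floor_add_one ((M : ℝ) * c j)).le
    rw [le_div_iff₀ hM0]
    have h' : (c j - 1 / M) * M = M * c j - 1 := by field_simp
    rw [h']
    have : (M : ℝ) * c j ≤ (p j : ℝ) + 1 := by exact_mod_cast this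
    linarith
  have hG0 : ∀ j, G j ≠ ⊥ := hT0
  have h4 : IInt X.z y G (fun j => 1 / (M : ℝ) * (p j : ℝ)) :=
    hX.mono y T G G c _ hG0 hG0 (fun j => by
      have := hp1 j
      calc 1 / (M : ℝ) * (p j : ℝ) = (p j : ℝ) / M := by ring
        _ ≤ c j := this) (fun j => Or.inl rfl) h3
  have h5 : IInt X.z y (Sum.elim (fun e : Empty => e.elim) (fun _ : Unit => ∏ j, G j ^ p j))
      (Sum.elim (fun e : Empty => e.elim) (fun _ : Unit => 1 / (M : ℝ))) := by
    refine (hX.prod y Empty T (fun e => e.elim) (fun e => e.elim) G p (1 / (M : ℝ))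
      (fun e => e.elim) hG0).2 ?_
    refine (iint_congr hX.gens y ?_).1 h4
    intro y'
    simp
  -- the exponents
  set Bn : ℕ := ∑ j : T, p j * j.1.1 with hBn
  set En : ℕ := ∑ j : T, p j * j.1.2 with hEn
  set a0 : ℝ := ∑ j : T, (p j : ℝ) * (k * l - σ * j.1.1 - s * j.1.2) with ha0
  set a1 : ℝ := max a0 0 with ha1
  have hidl : idl F a0 ≤ idl F a1 := by
    rcases le_total a0 0 with h | h
    · rw [ha1, max_eq_right h, idl_top F (le_refl (0:ℝ))]; exact le_top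
    · rw [ha1, max_eq_left h]
  have hQ : ∏ j, G j ^ p j ≤ idl F a1 * P ^ Bn * (mI y) ^ En := by
    have e1 : ∏ j, G j ^ p j = (∏ j : T, idl F (k * l - σ * j.1.1 - s * j.1.2) ^ p j) *
        P ^ Bn * (mI y) ^ En := by
      simp only [hG, mul_pow, Finset.prod_mul_distrib]
      congr 1
      · congr 1
        rw [hBn, ← Finset.prod_pow_eq_pow_sum]
        exact Finset.prod_congr rfl fun j _ => by rw [← pow_mul, mul_comm]
      · rw [hEn, ← Finset.prod_pow_eq_pow_sum]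
        exact Finset.prod_congr rfl fun j _ => by rw [← pow_mul, mul_comm]
    rw [e1]
    apply Ideal.mul_mono_left
    apply Ideal.mul_mono_left
    exact (idl_prod F Finset.univ _ p).trans hidl
  have hQ0 : ∏ j, G j ^ p j ≠ ⊥ := prod_ne_bot _ G p (fun j _ => hG0 j)
  have hR0 : idl F a1 * P ^ Bn * (mI y) ^ En ≠ ⊥ := fun h => hQ0 (le_bot_iff.1 (h ▸ hQ))
  have hid0 : idl F a1 ≠ ⊥ := by
    intro h
    apply hR0
    rw [h]; simp
  have h6 : IInt X.z y (Sum.elim (fun e : Empty => e.elim)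
      (fun _ : Unit => idl F a1 * P ^ Bn * (mI y) ^ En))
      (Sum.elim (fun e : Empty => e.elim) (fun _ : Unit => 1 / (M : ℝ))) := by
    refine hX.mono y _ _ _ _ _ ?_ ?_ (fun i => le_rfl) ?_ h5
    · rintro (e | u)
      · exact e.elim
      · exact hQ0
    · rintro (e | u)
      · exact e.elim
      · exact hR0
    · rintro (e | u)
      · exact e.elim
      · exact Or.inr ⟨by simp, hQ⟩
  have h7 : IInt X.z y (Sum.elim (fun e : Empty => e.elim)
      (fun _ : Unit => ∏ i, (![idl F a1, P, mI y] i) ^ (![1, Bn, En] i)))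
      (Sum.elim (fun e : Empty => e.elim) (fun _ : Unit => 1 / (M : ℝ))) := by
    have : ∏ i, (![idl F a1, P, mI y] i) ^ (![1, Bn, En] i) =
        idl F a1 * P ^ Bn * (mI y) ^ En := by
      simp [Fin.prod_univ_three]
    rw [this]; exact h6
  have h8 := (hX.prod y Empty (Fin 3) (fun e => e.elim) (fun e => e.elim) ![idl F a1, P, mI y]
    ![1, Bn, En] (1 / (M : ℝ)) (fun e => e.elim) (by
      intro i; fin_cases i
      · exact hid0
      · exact hP
      · exact hm)).1 h7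
  have h9 : IInt X.z y ![idl F a1, P, mI y] ![1 / (M : ℝ), (Bn : ℝ) / M, (En : ℝ) / M] := by
    refine (iint_congr hX.gens y ?_).1 h8
    intro y'
    simp [Fin.prod_univ_three, div_eq_inv_mul]
  have hMa : (M : ℝ) * (a1 / M) = a1 := by field_simp
  refine ⟨M, Bn, En, a1 / M, (∑ j, (p j : ℝ)) * k / M, hMpos, by positivity, ?_, ?_, ?_, ?_, ?_⟩
  · -- lower bound for u
    have hs : ∑ j, (c j - 1 / (M : ℝ)) ≤ ∑ j, (p j : ℝ) / M := Finset.sum_le_sum fun j _ => hp2 j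
    rw [Finset.sum_sub_distrib, hcs, Finset.sum_const, Finset.card_univ, nsmul_eq_mul,
      ← Finset.sum_div] at hs
    have hM' : (Fintype.card T : ℝ) * (1 / M) * k ≤ ε := by
      rw [div_lt_iff₀ hε] at hM
      have : (Fintype.card T : ℝ) * (1 / M) * k = (Fintype.card T : ℝ) * k / M := by ring
      rw [this, div_le_iff₀ hM0]
      linarith
    have : ((1 - ε) / k - (Fintype.card T : ℝ) * (1 / M)) * k ≤ (∑ j, (p j : ℝ)) / M * k :=
      mul_le_mul_of_nonneg_right hs hk0.le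
    have e : ((1 - ε) / k - (Fintype.card T : ℝ) * (1 / M)) * k =
        (1 - ε) - (Fintype.card T : ℝ) * (1 / M) * k := by field_simp
    rw [e] at this
    have e2 : (∑ j, (p j : ℝ)) / M * k = (∑ j, (p j : ℝ)) * k / M := by ring
    rw [e2] at this
    linarith
  · have hs : ∑ j, (p j : ℝ) / M ≤ ∑ j, c j := Finset.sum_le_sum fun j _ => hp1 j
    rw [hcs, ← Finset.sum_div] at hs
    have : (∑ j, (p j : ℝ)) / M * k ≤ (1 - ε) / k * k := mul_le_mul_of_nonneg_right hs hk0.le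
    have e : (1 - ε) / k * k = 1 - ε := by field_simp
    have e2 : (∑ j, (p j : ℝ)) / M * k = (∑ j, (p j : ℝ)) * k / M := by ring
    rw [e, e2] at this
    linarith
  · rw [hMa]; exact hid0
  · rw [hMa]; exact h9
  · have e : a0 = (∑ j, (p j : ℝ)) * k * l - σ * Bn - s * En := by
      rw [ha0, hBn, hEn]
      push_cast
      rw [Finset.mul_sum, Finset.mul_sum, Finset.sum_mul, Finset.sum_mul,
        ← Finset.sum_sub_distrib, ← Finset.sum_sub_distrib]
      exact Finset.sum_congr rfl fun j _ => by ring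
    have h' : a0 / M ≤ a1 / M := by
      apply div_le_div_of_nonneg_right (le_max_left _ _) hM0.le
    have e3 : a0 / M = (∑ j, (p j : ℝ)) * k / M * l - σ * (Bn / M) - s * (En / M) := by
      rw [e]; ring
    linarith


/-- limit argument: `(1 - 1/q) a ≤ b + c/q` for all large `q` gives `a ≤ b` -/
lemma le_of_forall_large {a b c : ℝ} {q0 : ℕ}
    (h : ∀ q : ℕ, q0 ≤ q → (1 - 1 / (q : ℝ)) * a ≤ b + c * (1 / (q : ℝ))) : a ≤ b := by
  have h1 : Filter.Tendsto (fun q : ℕ => (1 - 1 / (q : ℝ)) * a) Filter.atTop (𝓝 ((1 - 0) * a)) :=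
    (tendsto_const_nhds.sub tendsto_one_div_atTop_nhds_zero_nat).mul tendsto_const_nhds
  have h2 : Filter.Tendsto (fun q : ℕ => b + c * (1 / (q : ℝ))) Filter.atTop (𝓝 (b + c * 0)) :=
    tendsto_const_nhds.add (tendsto_const_nhds.mul tendsto_one_div_atTop_nhds_zero_nat)
  have := le_of_tendsto_of_tendsto h1 h2 (Filter.eventually_atTop.2 ⟨q0, h⟩)
  simpa using this

/-- (8.2) with `R_y` point `(α, β, γ)`: the two cases. -/
theorem step2 (hX : AFacts X) (F : Filt X.V) (P : Ideal X.B) (hP : P ≠ ⊥)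
    (y : X.B →ₐ[ℂ] ℂ) (hm : mI y ≠ ⊥) (d : ℕ) (hd : d ≤ n) (hA : Adapted d P y n) (σ₀ A : ℝ)
    (hC : Claim81 X F P y σ₀ A) (M B E : ℕ) (α : ℝ) (hM : 1 ≤ M) (hα : 0 ≤ α)
    (hid : idl F (M * α) ≠ ⊥)
    (hI : IInt X.z y ![idl F (M * α), P, mI y] ![1 / (M : ℝ), (B : ℝ) / M, (E : ℝ) / M]) :
    α + σ₀ * ((B : ℝ) / M) + σ₀ * max ((E : ℝ) / M - d) 0 ≤ A := by
  have hM0 : (0 : ℝ) < M := by exact_mod_cast hM
  rcases le_or_gt ((E : ℝ) / M) d with hcase | hcase
  · rw [max_eq_right (by linarith), mul_zero, add_zero]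
    apply hC M α _ hM hα (by positivity)
    have h1 : IInt X.z y ![idl F (M * α), P, mI y] ![1 / (M : ℝ), (B : ℝ) / M, 0] := by
      refine hX.mono y (Fin 3) _ _ _ _ ?_ ?_ ?_ (fun i => Or.inl rfl) hI
      · intro i; fin_cases i
        · exact hid
        · exact hP
        · exact hm
      · intro i; fin_cases i
        · exact hid
        · exact hP
        · exact hm
      · intro i; fin_cases i
        · exact le_rfl
        · exact le_rfl
        · show (0 : ℝ) ≤ (E : ℝ) / M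
          positivity
    refine (iint_congr hX.gens y ?_).1 h1
    intro y'
    simp [Fin.prod_univ_three, Fin.prod_univ_two]
  · rw [max_eq_left (by linarith)]
    have hg : 0 < (E : ℝ) / M - d := by linarith
    obtain ⟨q0, hq0⟩ := exists_nat_gt (1 / ((E : ℝ) / M - d))
    apply le_of_forall_large (q0 := max q0 2) (c := σ₀ * d + σ₀ - σ₀ * ((E : ℝ) / M))
    intro q hq
    have hq2 : 2 ≤ q := (le_max_right _ _).trans hq
    have hqq : (q0 : ℝ) ≤ q := by exact_mod_cast (le_max_left _ _).trans hq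
    have hqpos : (0 : ℝ) < q := by positivity
    have hq1 : 1 / (q : ℝ) ≤ (E : ℝ) / M - d := by
      rw [div_le_iff₀ hqpos]
      rw [div_lt_iff₀ hg] at hq0
      nlinarith
    have hq3 : 1 / (q : ℝ) < 1 := by
      rw [div_lt_one hqpos]
      exact_mod_cast (by omega : 1 < q)
    have h1 := hX.fubini y d P (idl F (M * α)) (1 / (M : ℝ)) ((B : ℝ) / M) ((E : ℝ) / M) hP hid hd
      hA (by positivity) (by positivity) hcase hI (1 / (q : ℝ)) (by positivity) hq3
    set β' : ℝ := (1 - 1 / (q : ℝ)) * ((B : ℝ) / M) + ((E : ℝ) / M - d) - 1 / (q : ℝ) with hβ'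
    have hβ0 : 0 ≤ β' := by
      have : 0 ≤ (1 - 1 / (q : ℝ)) * ((B : ℝ) / M) := mul_nonneg (by linarith) (by positivity)
      linarith
    -- write the exponent as (q-1)/(qM)
    have h2 : IInt X.z y (Sum.elim (fun _ : Unit => P)
        (fun _ : Unit => ∏ _i : Unit, (idl F (M * α)) ^ (q - 1)))
        (Sum.elim (fun _ : Unit => β') (fun _ : Unit => 1 / ((q : ℝ) * M))) := by
      refine (hX.prod y Unit Unit (fun _ => P) (fun _ => β') (fun _ => idl F (M * α))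
        (fun _ => q - 1) (1 / ((q : ℝ) * M)) (fun _ => hP) (fun _ => hid)).2 ?_
      refine (iint_congr hX.gens y ?_).1 h1
      intro y'
      have e : 1 / ((q : ℝ) * M) * ((q - 1 : ℕ) : ℝ) = (1 - 1 / (q : ℝ)) * (1 / (M : ℝ)) := by
        have : ((q - 1 : ℕ) : ℝ) = (q : ℝ) - 1 := by
          rw [Nat.cast_sub (by omega)]; simp
        rw [this]; field_simp
      simp only [Fin.prod_univ_two, Fintype.prod_sum_type, Finset.univ_unique,
        Finset.prod_singleton, Matrix.cons_val_zero, Matrix.cons_val_one, Sum.elim_inl,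
        Sum.elim_inr]
      rw [e, mul_comm]
    have hpow : (idl F (M * α)) ^ (q - 1) ≤ idl F ((q * M : ℕ) * ((1 - 1 / (q : ℝ)) * α)) := by
      refine (idl_pow F _ _).trans (le_of_eq ?_)
      congr 1
      rw [Nat.cast_sub (by omega)]
      push_cast
      field_simp
    have hpow0 : (idl F (M * α)) ^ (q - 1) ≠ ⊥ := by
      have : (idl F (M * α)) ^ (q - 1) ≠ 0 := pow_ne_zero _ hid
      exact this
    have hid' : idl F ((q * M : ℕ) * ((1 - 1 / (q : ℝ)) * α)) ≠ ⊥ :=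
      fun h => hpow0 (le_bot_iff.1 (h ▸ hpow))
    have h3 : IInt X.z y (Sum.elim (fun _ : Unit => P)
        (fun _ : Unit => idl F ((q * M : ℕ) * ((1 - 1 / (q : ℝ)) * α))))
        (Sum.elim (fun _ : Unit => β') (fun _ : Unit => 1 / ((q : ℝ) * M))) := by
      refine hX.mono y _ _ _ _ _ ?_ ?_ (fun i => le_rfl) ?_ h2
      · rintro (e | e)
        · exact hP
        · simpa using hpow0
      · rintro (e | e)
        · exact hP
        · exact hid'
      · rintro (e | e)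
        · exact Or.inl rfl
        · exact Or.inr ⟨by simp only [Sum.elim_inr]; positivity, by simpa using hpow⟩
    have h4 : IInt X.z y ![idl F ((q * M : ℕ) * ((1 - 1 / (q : ℝ)) * α)), P]
        ![1 / ((q * M : ℕ) : ℝ), β'] := by
      refine (iint_congr hX.gens y ?_).1 h3
      intro y'
      simp only [Fin.prod_univ_two, Fintype.prod_sum_type, Finset.univ_unique,
        Finset.prod_singleton, Matrix.cons_val_zero, Matrix.cons_val_one, Sum.elim_inl,
        Sum.elim_inr]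
      rw [mul_comm]
      push_cast
      rfl
    have h5 := hC (q * M) ((1 - 1 / (q : ℝ)) * α) β' (Nat.mul_pos (by omega) hM)
      (mul_nonneg (by linarith) hα) hβ0 h4
    have h6 : (1 - 1 / (q : ℝ)) * (α + σ₀ * ((B : ℝ) / M) + σ₀ * ((E : ℝ) / M - d)) =
        ((1 - 1 / (q : ℝ)) * α + σ₀ * β') + (σ₀ * d + σ₀ - σ₀ * ((E : ℝ) / M)) * (1 / (q : ℝ)) := by
      rw [hβ']; ring
    rw [h6]
    linarith

/-- **P2** (8.2) -/
theorem P2 (hX : AFacts X) (hn : 1 ≤ n) (F : Filt X.V) (P : Ideal X.B) (hP : P ≠ ⊥)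
    (y : X.B →ₐ[ℂ] ℂ) (d : ℕ) (hd : d ≤ n) (hA : Adapted d P y n) (σ₀ A : ℝ)
    (hC : Claim81 X F P y σ₀ A) (σ s : ℝ) (hs : 0 < s) (hsσ : s ≤ σ) (hσ : σ ≤ σ₀)
    (k : ℕ) (l : ℝ) (hk : 1 ≤ k)
    (hI : IInt X.z y (fun _ : Unit => Wl X F P y σ s (k * l)) (fun _ => 1 / (k : ℝ))) :
    l ≤ A + s * d := by
  have hm := mI_ne_bot hX.chart hn y
  have hσ0 : 0 ≤ σ₀ := by linarith
  have key : ∀ ε : ℝ, 0 < ε → ε < 1 → ∃ u : ℝ, 1 - 2 * ε ≤ u ∧ u ≤ 1 ∧ 0 ≤ A ∧ u * l ≤ A + s * d := by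
    intro ε hε hε1
    obtain ⟨M, B, E, α, u, hM, hα, hu1, hu2, hid, h1, h2⟩ :=
      step1 hX hn F P hP y σ s k l hk hI ε hε hε1
    have hM0 : (0 : ℝ) < M := by exact_mod_cast hM
    have h3 := step2 hX F P hP y hm d hd hA σ₀ A hC M B E α hM hα hid h1
    have hB0 : (0 : ℝ) ≤ (B : ℝ) / M := by positivity
    have hE0 : (0 : ℝ) ≤ max ((E : ℝ) / M - d) 0 := le_max_right _ _
    refine ⟨u, hu1, hu2, ?_, ?_⟩
    · have := mul_nonneg hσ0 hB0
      have := mul_nonneg hσ0 hE0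
      linarith
    · have e1 : σ * ((B : ℝ) / M) ≤ σ₀ * ((B : ℝ) / M) := mul_le_mul_of_nonneg_right hσ hB0
      have e2 : s * ((E : ℝ) / M) ≤ s * d + s * max ((E : ℝ) / M - d) 0 := by
        rw [← mul_add]
        apply mul_le_mul_of_nonneg_left _ hs.le
        have := le_max_left ((E : ℝ) / M - d) 0
        linarith
      have e3 : s * max ((E : ℝ) / M - d) 0 ≤ σ₀ * max ((E : ℝ) / M - d) 0 :=
        mul_le_mul_of_nonneg_right (hsσ.trans hσ) hE0
      linarith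
  by_contra hcon
  push Not at hcon
  have hsd : 0 ≤ s * d := by positivity
  -- choose ε
  obtain ⟨u0, _, _, hA0, _⟩ := key (1 / 2) (by norm_num) (by norm_num)
  have hl : 0 < l := by linarith
  set δ := (l - (A + s * d)) / (4 * l) with hδ
  have hδ0 : 0 < δ := by apply div_pos <;> linarith
  have hδ1 : δ < 1 := by
    rw [hδ, div_lt_one (by linarith)]
    linarith
  obtain ⟨u, hu1, hu2, _, hu3⟩ := key δ hδ0 hδ1
  have : (1 - 2 * δ) * l ≤ u * l := mul_le_mul_of_nonneg_right hu1 hl.le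
  have e : 2 * δ * l = (l - (A + s * d)) / 2 := by rw [hδ]; field_simp; ring
  nlinarith

end

end Crest.Agent.R271.N2x161
end
end

-- ▼ part R271/N2b_161
section

/-!
Row 271, team N, piece N2: Claim (8.1) and `P2Stmt`.
-/

set_option autoImplicit false

open scoped ENNReal NNReal Topology BigOperators
open MeasureTheory

noncomputable section

namespace Crest.Agent.R271.N2x161

open Crest.Agent.R271.Defs710

variable {n : ℕ} {X : FCtx n}

lemma Wl_eq (F : Filt X.V) (P : Ideal X.B) (y : X.B →ₐ[ℂ] ℂ) (σ s l : ℝ) :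
    N647.Wl F P y σ s l = Wl X F P y σ s l := by
  unfold N647.Wl Wl
  rw [iSup_prod]

lemma lt_of_adapted {P : Ideal X.B} {d : ℕ} {y : X.B →ₐ[ℂ] ℂ} (hP : P ≠ ⊥)
    (hA : Adapted d P y n) : d < n := by
  by_contra hcon
  push Not at hcon
  obtain ⟨w, _, _, g, hg, h1, _⟩ := hA
  apply hP
  rw [eq_bot_iff]
  intro f hf
  have h2 := h1 f hf
  have : (w '' {i : Fin n | d ≤ i.1}) = ∅ := by
    rw [Set.image_eq_empty, Set.eq_empty_iff_forall_notMem]
    intro i hi
    have := i.2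
    simp only [Set.mem_ofPred_eq] at hi
    omega
  rw [this, Ideal.span_empty, Ideal.mem_bot] at h2
  have hg0 : g ≠ 0 := by
    rintro rfl
    exact hg (map_zero y)
  rw [Ideal.mem_bot]
  exact (mul_eq_zero.1 h2).resolve_left hg0

/-- the Hölder step of (8.1) with a rational weight `p/q` -/
theorem claim_rat (hX : AFacts X) (F : Filt X.V) (P : Ideal X.B) (hP : P ≠ ⊥)
    (hne : ∀ l : ℝ, idl F l ≠ ⊥) (y : X.B →ₐ[ℂ] ℂ) (A l₁ : ℝ) (k₁ K : ℕ) (hk1 : 1 ≤ k₁)
    (hgood : ∀ l : ℝ, Good X.z F y l → l ≤ A)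
    (hl : IInt X.z y ![idl F (k₁ * l₁), P] ![1 / (k₁ : ℝ), -(K : ℝ)])
    (k : ℕ) (α β : ℝ) (hk : 1 ≤ k)
    (hI : IInt X.z y ![idl F (k * α), P] ![1 / (k : ℝ), β]) (p q : ℕ) (hq : 1 ≤ q) (hpq : p ≤ q)
    (hθ : 0 ≤ (p : ℝ) / q * β - (1 - (p : ℝ) / q) * K) :
    (p : ℝ) / q * α + (1 - (p : ℝ) / q) * l₁ ≤ A := by
  have hk0 : (0 : ℝ) < k := by exact_mod_cast hk
  have hk10 : (0 : ℝ) < k₁ := by exact_mod_cast hk1
  have hq0 : (0 : ℝ) < q := by exact_mod_cast hq
  have hpq' : (p : ℝ) / q ≤ 1 := by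
    rw [div_le_one hq0]; exact_mod_cast hpq
  have ha := hne (k * α)
  have hb := hne (k₁ * l₁)
  have hI3 : ∀ i : Fin 3, (![idl F (k * α), idl F (k₁ * l₁), P] : Fin 3 → Ideal X.B) i ≠ ⊥ := by
    intro i; fin_cases i
    · exact ha
    · exact hb
    · exact hP
  have h1 : IInt X.z y ![idl F (k * α), idl F (k₁ * l₁), P] ![1 / (k : ℝ), 0, β] := by
    refine (iint_congr hX.gens y ?_).1 hI
    intro y'
    simp [Fin.prod_univ_three, Fin.prod_univ_two]
  have h2 : IInt X.z y ![idl F (k * α), idl F (k₁ * l₁), P] ![0, 1 / (k₁ : ℝ), -(K : ℝ)] := by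
    refine (iint_congr hX.gens y ?_).1 hl
    intro y'
    simp [Fin.prod_univ_three, Fin.prod_univ_two]
  have h3 := hX.holder y (Fin 3) _ _ _ ((p : ℝ) / q) hI3 (by positivity) hpq' h1 h2
  set a : ℝ := (p : ℝ) / q with haq
  have h4 : IInt X.z y ![idl F (k * α), idl F (k₁ * l₁), P] ![a / k, (1 - a) / k₁, 0] := by
    refine hX.mono y (Fin 3) _ _ _ _ hI3 hI3 ?_ (fun i => Or.inl rfl) h3
    intro i; fin_cases i
    · show a / k ≤ a * (1 / (k : ℝ)) + (1 - a) * 0
      apply le_of_eq; ring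
    · show (1 - a) / k₁ ≤ a * 0 + (1 - a) * (1 / (k₁ : ℝ))
      apply le_of_eq; ring
    · show (0 : ℝ) ≤ a * β + (1 - a) * (-(K : ℝ))
      linarith
  set M : ℕ := q * k * k₁ with hM
  have hMpos : 1 ≤ M := Nat.mul_pos (Nat.mul_pos hq hk) hk1
  have hM0 : (0 : ℝ) < M := by exact_mod_cast hMpos
  have h5 : IInt X.z y (Sum.elim (fun e : Empty => e.elim) ![idl F (k * α), idl F (k₁ * l₁)])
      (Sum.elim (fun e : Empty => e.elim)
        (fun j => 1 / (M : ℝ) * ((![p * k₁, (q - p) * k] j : ℕ) : ℝ))) := by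
    refine (iint_congr hX.gens y ?_).1 h4
    intro y'
    have e1 : 1 / (M : ℝ) * ((p * k₁ : ℕ) : ℝ) = a / k := by
      rw [hM, haq]; push_cast; field_simp
    have e2 : 1 / (M : ℝ) * (((q - p) * k : ℕ) : ℝ) = (1 - a) / k₁ := by
      rw [hM, haq]; push_cast [Nat.cast_sub hpq]; field_simp
    simp only [Fin.prod_univ_three, Fintype.prod_sum_type, Fin.prod_univ_two, Sum.elim_inr,
      Matrix.cons_val_zero, Matrix.cons_val_one, e1, e2]
    simp
  have h6 := (hX.prod y Empty (Fin 2) (fun e => e.elim) (fun e => e.elim)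
    ![idl F (k * α), idl F (k₁ * l₁)] ![p * k₁, (q - p) * k] (1 / (M : ℝ)) (fun e => e.elim) (by
      intro i; fin_cases i
      · exact ha
      · exact hb)).2 h5
  have hle : ∏ j, (![idl F (k * α), idl F (k₁ * l₁)] j : Ideal X.B) ^ (![p * k₁, (q - p) * k] j) ≤
      idl F (M * (a * α + (1 - a) * l₁)) := by
    rw [Fin.prod_univ_two]
    simp only [Matrix.cons_val_zero, Matrix.cons_val_one]
    refine (Ideal.mul_mono (idl_pow F _ _) (idl_pow F _ _)).trans ?_
    refine (idl_mul F _ _).trans (le_of_eq ?_)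
    congr 1
    rw [hM, haq]; push_cast [Nat.cast_sub hpq]; field_simp
  have hpr0 : ∏ j, (![idl F (k * α), idl F (k₁ * l₁)] j : Ideal X.B) ^ (![p * k₁, (q - p) * k] j)
      ≠ ⊥ := by
    apply prod_ne_bot
    intro i _
    fin_cases i
    · exact ha
    · exact hb
  apply hgood
  refine ⟨M, hMpos, ?_⟩
  have h7 : IInt X.z y (fun _ : Unit => ∏ j, (![idl F (k * α), idl F (k₁ * l₁)] j : Ideal X.B) ^
      (![p * k₁, (q - p) * k] j)) (fun _ => 1 / (M : ℝ)) := by
    refine (iint_congr hX.gens y ?_).1 h6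
    intro y'
    simp
  exact hX.mono y Unit _ _ _ _ (fun _ => hpr0) (fun _ => hne _) (fun _ => le_rfl)
    (fun _ => Or.inr ⟨by positivity, hle⟩) h7

/-- **Claim (8.1)** -/
theorem claim81 (hX : AFacts X) (F : Filt X.V) (P : Ideal X.B) (hP : P ≠ ⊥)
    (hne : ∀ l : ℝ, idl F l ≠ ⊥) (y : X.B →ₐ[ℂ] ℂ) (A l₁ : ℝ) (k₁ K : ℕ) (hk1 : 1 ≤ k₁)
    (hK : 1 ≤ K)
    (hgood : ∀ l : ℝ, Good X.z F y l → l ≤ A)
    (hl : IInt X.z y ![idl F (k₁ * l₁), P] ![1 / (k₁ : ℝ), -(K : ℝ)]) :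
    Claim81 X F P y ((l₁ - A) / K) A := by
  intro k α β hk hα hβ hI
  have hK0 : (0 : ℝ) < K := by exact_mod_cast hK
  have hKβ : (0 : ℝ) < K + β := by linarith
  set θ : ℝ := K / (K + β) with hθ
  have hθ0 : 0 ≤ θ := by positivity
  have hθ1 : θ ≤ 1 := by rw [hθ, div_le_one hKβ]; linarith
  have key : θ * α + (1 - θ) * l₁ ≤ A := by
    by_contra hcon
    push Not at hcon
    set δ : ℝ := θ * α + (1 - θ) * l₁ - A with hδ
    have hδ0 : 0 < δ := by linarith
    obtain ⟨q', hq'⟩ := exists_nat_gt (|α - l₁| / δ)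
    set q := q' + 1 with hqdef
    have hq : 1 ≤ q := by omega
    have hq0 : (0 : ℝ) < q := by exact_mod_cast hq
    have hqδ : |α - l₁| < δ * q := by
      rw [div_lt_iff₀ hδ0] at hq'
      have : ((q' : ℕ) : ℝ) ≤ q := by rw [hqdef]; push_cast; linarith
      nlinarith
    set p : ℕ := ⌈(q : ℝ) * θ⌉₊ with hp
    have hpq : p ≤ q := by
      rw [hp, Nat.ceil_le]
      nlinarith
    have hp1 : (q : ℝ) * θ ≤ p := Nat.le_ceil _
    have hp2 : (p : ℝ) < (q : ℝ) * θ + 1 := Nat.ceil_lt_add_one (by positivity)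
    have ha1 : θ ≤ (p : ℝ) / q := by rw [le_div_iff₀ hq0]; linarith
    have ha2 : (p : ℝ) / q - θ < 1 / q := by
      rw [lt_div_iff₀ hq0, sub_mul, div_mul_cancel₀ _ hq0.ne']; linarith
    have hcond : 0 ≤ (p : ℝ) / q * β - (1 - (p : ℝ) / q) * K := by
      have h1 : θ * (K + β) = K := by rw [hθ]; field_simp
      have h2 : θ * (K + β) ≤ (p : ℝ) / q * (K + β) := mul_le_mul_of_nonneg_right ha1 hKβ.le
      nlinarith
    have h1 := claim_rat hX F P hP hne y A l₁ k₁ K hk1 hgood hl k α β hk hI p q hq hpq hcond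
    have h2 : (p : ℝ) / q * α + (1 - (p : ℝ) / q) * l₁ =
        θ * α + (1 - θ) * l₁ + ((p : ℝ) / q - θ) * (α - l₁) := by ring
    have h3 : -(((p : ℝ) / q - θ) * (α - l₁)) ≤ (1 / q) * |α - l₁| := by
      have h4 : -(((p : ℝ) / q - θ) * (α - l₁)) = ((p : ℝ) / q - θ) * (-(α - l₁)) := by ring
      rw [h4]
      calc ((p : ℝ) / q - θ) * (-(α - l₁)) ≤ ((p : ℝ) / q - θ) * |α - l₁| :=
            mul_le_mul_of_nonneg_left (neg_le_abs _) (by linarith)
        _ ≤ (1 / q) * |α - l₁| := mul_le_mul_of_nonneg_right ha2.le (abs_nonneg _)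
    have h5 : (1 / (q : ℝ)) * |α - l₁| < δ := by
      rw [one_div, inv_mul_lt_iff₀ hq0]; linarith
    linarith
  have h1 : θ * (K + β) = K := by rw [hθ]; field_simp
  have h2 : (1 - θ) * (K + β) = β := by
    have : (1 - θ) * (K + β) = (K + β) - θ * (K + β) := by ring
    rw [this, h1]; ring
  have h3 : (θ * α + (1 - θ) * l₁) * (K + β) ≤ A * (K + β) :=
    mul_le_mul_of_nonneg_right key hKβ.le
  have h4 : (θ * α + (1 - θ) * l₁) * (K + β) = K * α + β * l₁ := by
    calc (θ * α + (1 - θ) * l₁) * (K + β) = θ * (K + β) * α + (1 - θ) * (K + β) * l₁ := by ring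
      _ = K * α + β * l₁ := by rw [h1, h2]
  rw [h4] at h3
  have h5 : (l₁ - A) / K * β = (l₁ - A) * β / K := by ring
  rw [h5, ← le_sub_iff_add_le', div_le_iff₀ hK0]
  linarith

/-- **`P2Stmt`** -/
theorem p2Stmt (hX : AFacts X) : N647.P2Stmt X := by
  intro F A P d y l₁ k₁ K σ s hP hne hA0 hAl hk1 hK hPy hAd hgood hl hs hsσ hσ k l hk hI
  have hdn := lt_of_adapted hP hAd
  rw [Wl_eq] at hI
  exact P2 hX (by omega) F P hP y d hdn.le hAd ((l₁ - A) / K) A
    (claim81 hX F P hP hne y A l₁ k₁ K hk1 hK hgood hl) σ s hs hsσ hσ k l hk hI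

end Crest.Agent.R271.N2x161
end
end

-- ▼ part R271/Perturb_969

/-!
Row 271, N5b: the perturbed filtration (8.4)-(8.5): `PerturbStmt` from `AFacts`, `P2Stmt`,
`GenFiltStmt`, `LimitStmt`.
-/

set_option autoImplicit false

open scoped ENNReal NNReal Topology BigOperators
open MeasureTheory Filter

noncomputable section

namespace Crest.Agent.R271.Perturb969

open Crest.Agent.R271.Defs710 Crest.Agent.R271.N647

section alg

variable {n : ℕ} {B : Type} [CommRing B] [Algebra ℂ B] {V : ℕ → Submodule ℂ B}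

theorem idl_anti (F : Filt V) {l l' : ℝ} (h : l ≤ l') : idl F l' ≤ idl F l :=
  Ideal.span_mono fun _ hb => ⟨hb.choose, F.anti _ h hb.choose_spec⟩

theorem idl_mul (F : Filt V) (l l' : ℝ) : idl F l * idl F l' ≤ idl F (l + l') := by
  rw [idl, idl, Ideal.span_mul_span', Ideal.span_le]
  rintro _ ⟨a, ⟨m, ha⟩, b, ⟨m', hb⟩, rfl⟩
  exact Ideal.subset_span ⟨m + m', F.mul m l m' l' a b ha hb⟩

theorem idl_le_Wl (F : Filt V) (P : Ideal B) (y : B →ₐ[ℂ] ℂ) (σ s l : ℝ) :
    idl F l ≤ Wl F P y σ s l := by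
  refine le_trans ?_ (le_iSup₂_of_le (f := fun (b : ℕ) (e : ℕ) =>
    idl F (l - σ * b - s * e) * P ^ b * mI y ^ e) 0 0 le_rfl)
  simp

theorem term_le_Wl (F : Filt V) (P : Ideal B) (y : B →ₐ[ℂ] ℂ) (σ s l : ℝ) (b e : ℕ) :
    idl F (l - σ * b - s * e) * P ^ b * mI y ^ e ≤ Wl F P y σ s l :=
  le_iSup₂_of_le (f := fun (b : ℕ) (e : ℕ) =>
    idl F (l - σ * b - s * e) * P ^ b * mI y ^ e) b e le_rfl

theorem Wl_mul (F : Filt V) (P : Ideal B) (y : B →ₐ[ℂ] ℂ) (σ s l l' : ℝ) :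
    Wl F P y σ s l * Wl F P y σ s l' ≤ Wl F P y σ s (l + l') := by
  rw [Wl, Ideal.iSup_mul]
  refine iSup_le fun b => ?_
  rw [Ideal.iSup_mul]
  refine iSup_le fun e => ?_
  rw [Wl, Ideal.mul_iSup]
  refine iSup_le fun b' => ?_
  rw [Ideal.mul_iSup]
  refine iSup_le fun e' => ?_
  refine le_trans ?_ (term_le_Wl F P y σ s (l + l') (b + b') (e + e'))
  have h1 : idl F (l - σ * b - s * e) * P ^ b * mI y ^ e *
      (idl F (l' - σ * b' - s * e') * P ^ b' * mI y ^ e') =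
      (idl F (l - σ * b - s * e) * idl F (l' - σ * b' - s * e')) * P ^ (b + b') *
        mI y ^ (e + e') := by
    rw [pow_add, pow_add]; ring
  rw [h1]
  refine Ideal.mul_mono (Ideal.mul_mono ?_ le_rfl) le_rfl
  refine (idl_mul F _ _).trans (idl_anti F (le_of_eq ?_))
  push_cast; ring

theorem Wl_pow (F : Filt V) (P : Ideal B) (y : B →ₐ[ℂ] ℂ) (σ s l : ℝ) (N : ℕ) (hN : 1 ≤ N) :
    Wl F P y σ s l ^ N ≤ Wl F P y σ s (N * l) := by
  induction N, hN using Nat.le_induction with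
  | base => simp
  | succ N hN ih =>
    rw [pow_succ]
    refine (Ideal.mul_mono ih le_rfl).trans ((Wl_mul F P y σ s _ _).trans (le_of_eq ?_))
    congr 1
    push_cast; ring

theorem U_le_Wl (F : Filt V) (P : Ideal B) (y : B →ₐ[ℂ] ℂ) (σ s a δ : ℝ) (m e : ℕ)
    (hse : s * e ≤ σ) (hδ : s * e ≤ δ) (hgt : idlGt F a ≤ idl F (a + δ)) {f : B}
    (hf : f ∈ U F P y m a e) : f ∈ Wl F P y σ s (a + s * e) := by
  have h2 : f ∈ mI y ^ e * idl F a ⊔ P * idl F a ⊔ idlGt F a := hf.2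
  refine (sup_le (sup_le ?_ ?_) ?_ : mI y ^ e * idl F a ⊔ P * idl F a ⊔ idlGt F a ≤ _) h2
  · refine le_trans ?_ (term_le_Wl F P y σ s (a + s * e) 0 e)
    rw [pow_zero, mul_one, mul_comm]
    refine Ideal.mul_mono (idl_anti F ?_) le_rfl
    simp
  · refine le_trans ?_ (term_le_Wl F P y σ s (a + s * e) 1 0)
    rw [pow_one, pow_zero, mul_one, mul_comm]
    refine Ideal.mul_mono (idl_anti F ?_) le_rfl
    simp; linarith
  · refine hgt.trans ((idl_anti F ?_).trans (idl_le_Wl F P y σ s _))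
    linarith

/-- a jump gap at `a` -/
theorem exists_gap [IsNoetherianRing B] (F : Filt V) (a : ℝ) :
    ∃ δ : ℝ, 0 < δ ∧ idlGt F a ≤ idl F (a + δ) := by
  have hfg : (idlGt F a).FG := IsNoetherian.noetherian _
  have hdir : Directed (· ≤ ·) fun l : Set.Ioi a => idl F l.1 := by
    intro l l'
    exact ⟨⟨min l.1 l'.1, Set.mem_Ioi.2 (lt_min l.2 l'.2)⟩, idl_anti F (min_le_left _ _),
      idl_anti F (min_le_right _ _)⟩
  have hne : Nonempty (Set.Ioi a) := ⟨⟨a + 1, by simp⟩⟩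
  obtain ⟨T, hT⟩ := hfg
  -- each generator lies in one of the ideals
  have h1 : ∀ t ∈ T, ∃ l : Set.Ioi a, t ∈ idl F l.1 := by
    intro t ht
    have : t ∈ idlGt F a := by rw [← hT]; exact Ideal.subset_span ht
    exact (Submodule.mem_iSup_of_directed _ hdir).1 this
  have h3 : ∀ T' : Finset B, (∀ t ∈ T', ∃ l : Set.Ioi a, t ∈ idl F l.1) →
      ∃ l : Set.Ioi a, ∀ t ∈ T', t ∈ idl F l.1 := by
    classical
    intro T'
    induction T' using Finset.induction_on with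
    | empty => intro _; exact ⟨hne.some, by simp⟩
    | insert t T' _ ih =>
      intro h
      obtain ⟨l, hl⟩ := ih fun t' ht' => h t' (Finset.mem_insert_of_mem ht')
      obtain ⟨l', hl'⟩ := h t (Finset.mem_insert_self _ _)
      obtain ⟨l'', h₁, h₂⟩ := hdir l l'
      refine ⟨l'', fun t' ht' => ?_⟩
      rcases Finset.mem_insert.1 ht' with rfl | ht'
      · exact h₂ hl'
      · exact h₁ (hl t' ht')
  obtain ⟨l, hl⟩ := h3 T h1
  refine ⟨l.1 - a, sub_pos.2 l.2, ?_⟩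
  rw [← hT, Ideal.span_le]
  intro t ht
  have := hl t ht
  simpa using this

/-! ### Analytic families of elements of `B` -/

/-- `f τ = ∑ c_k(τ) b_k`, `c_k` analytic at `0` -/
def AnFam (f : ℂ → B) : Prop :=
  ∃ (κ : Type) (_ : Fintype κ) (b : κ → B) (c : κ → ℂ → ℂ), (∀ k, AnalyticAt ℂ (c k) 0) ∧
    ∀ τ, f τ = ∑ k, c k τ • b k

theorem AnFam.const (x : B) : AnFam (fun _ : ℂ => x) :=
  ⟨Unit, inferInstance, fun _ => x, fun _ _ => 1, fun _ => analyticAt_const, fun τ => by simp⟩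

theorem AnFam.add {f g : ℂ → B} (hf : AnFam f) (hg : AnFam g) : AnFam (fun τ => f τ + g τ) := by
  obtain ⟨κ, _, b, c, hc, hf⟩ := hf
  obtain ⟨κ', _, b', c', hc', hg⟩ := hg
  refine ⟨κ ⊕ κ', inferInstance, Sum.elim b b', Sum.elim c c', ?_, ?_⟩
  · rintro (k | k)
    · exact hc k
    · exact hc' k
  · intro τ
    simp [hf, hg]

theorem AnFam.mul {f g : ℂ → B} (hf : AnFam f) (hg : AnFam g) : AnFam (fun τ => f τ * g τ) := by
  obtain ⟨κ, _, b, c, hc, hf⟩ := hf
  obtain ⟨κ', _, b', c', hc', hg⟩ := hg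
  refine ⟨κ × κ', inferInstance, fun k => b k.1 * b' k.2, fun k τ => c k.1 τ * c' k.2 τ, ?_, ?_⟩
  · intro k
    exact (hc k.1).mul (hc' k.2)
  · intro τ
    change f τ * g τ = _
    rw [hf, hg, Finset.sum_mul_sum, Fintype.sum_prod_type]
    simp only [smul_mul_smul_comm]

/-- limits at `τ = 0` of analytic families with `f τ ∈ Wf τ` for small `τ ≠ 0` -/
def SS (Wf : ℂ → Ideal B) : Ideal B where
  carrier := {x | ∃ f : ℂ → B, AnFam f ∧ f 0 = x ∧ ∀ᶠ τ in 𝓝[≠] (0 : ℂ), f τ ∈ Wf τ}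
  add_mem' := by
    rintro x x' ⟨f, hf, rfl, hfW⟩ ⟨g, hg, rfl, hgW⟩
    exact ⟨_, hf.add hg, rfl, (hfW.and hgW).mono fun τ h => Ideal.add_mem _ h.1 h.2⟩
  zero_mem' := ⟨_, AnFam.const 0, rfl, Eventually.of_forall fun τ => Ideal.zero_mem _⟩
  smul_mem' := by
    rintro c x ⟨f, hf, rfl, hfW⟩
    exact ⟨_, (AnFam.const c).mul hf, rfl, hfW.mono fun τ h => Ideal.mul_mem_left _ _ h⟩


theorem mem_SS_of_const {Wf : ℂ → Ideal B} {x : B} (h : ∀ᶠ τ in 𝓝[≠] (0 : ℂ), x ∈ Wf τ) :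
    x ∈ SS Wf := ⟨_, AnFam.const x, rfl, h⟩

theorem SS_mul {Wf Wf' Wf'' : ℂ → Ideal B}
    (h : ∀ᶠ τ in 𝓝[≠] (0 : ℂ), Wf τ * Wf' τ ≤ Wf'' τ) : SS Wf * SS Wf' ≤ SS Wf'' := by
  rw [Ideal.mul_le]
  rintro x ⟨f, hf, rfl, hfW⟩ x' ⟨g, hg, rfl, hgW⟩
  refine ⟨_, hf.mul hg, rfl, ?_⟩
  filter_upwards [hfW, hgW, h] with τ h1 h2 h3
  exact h3 (Ideal.mul_mem_mul h1 h2)


/-- finitely many analytic families have a common system of coefficients -/
theorem AnFam.common {J : Type} [Fintype J] {f : J → ℂ → B} (hf : ∀ j, AnFam (f j)) :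
    ∃ (nb : ℕ) (b : Fin nb → B) (c : J → Fin nb → ℂ → ℂ), (∀ j k, AnalyticAt ℂ (c j k) 0) ∧
      ∀ j τ, f j τ = ∑ k, c j k τ • b k := by
  classical
  choose κ hκ b c hc hf' using hf
  let e := Fintype.equivFin (Σ j, κ j)
  refine ⟨Fintype.card (Σ j, κ j), fun k => b (e.symm k).1 (e.symm k).2,
    fun j k τ => if h : (e.symm k).1 = j then c (e.symm k).1 (e.symm k).2 τ else 0, ?_, ?_⟩
  · intro j k
    by_cases h : (e.symm k).1 = j
    · simp only [h, dite_true]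
      exact hc _ _
    · simp only [h, dite_false]
      exact analyticAt_const
  · intro j τ
    rw [hf' j τ]
    have h1 : ∑ k, (if h : (e.symm k).1 = j then c (e.symm k).1 (e.symm k).2 τ else 0) •
        b (e.symm k).1 (e.symm k).2 =
        ∑ q : (Σ j, κ j), (if h : q.1 = j then c q.1 q.2 τ else 0) • b q.1 q.2 :=
      Equiv.sum_comp e.symm (fun q : (Σ j, κ j) =>
        (if h : q.1 = j then c q.1 q.2 τ else 0) • b q.1 q.2)
    rw [h1, Fintype.sum_sigma]
    rw [Finset.sum_eq_single j]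
    · simp
    · intro j' _ hj'
      simp [hj']
    · intro h; exact absurd (Finset.mem_univ j) h

end alg

section integrability

variable {n : ℕ} {B : Type} [CommRing B] [Algebra ℂ B] {z : Fin n → B} {y : B →ₐ[ℂ] ℂ}

theorem LIntB_mono_mul {g g' : (B →ₐ[ℂ] ℂ) → ℝ≥0∞} (K : ℝ≥0∞) (hK : K ≠ ∞)
    (h : ∀ y', g' y' ≤ K * g y') (hg : LIntB z y g) : LIntB z y g' := by
  obtain ⟨C, U, hU, hint⟩ := hg
  refine ⟨C, U, hU, ?_⟩
  calc ∫⁻ ζ in U, g' (C.s ζ) ≤ ∫⁻ ζ in U, K * g (C.s ζ) := lintegral_mono fun ζ => h _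
    _ = K * ∫⁻ ζ in U, g (C.s ζ) := lintegral_const_mul' _ _ hK
    _ < ∞ := ENNReal.mul_lt_top hK.lt_top hint

theorem LIntB_mono {g g' : (B →ₐ[ℂ] ℂ) → ℝ≥0∞} (h : ∀ y', g' y' ≤ g y') (hg : LIntB z y g) :
    LIntB z y g' := LIntB_mono_mul 1 ENNReal.one_ne_top (by simpa using h) hg

theorem neg_rpow_anti {a b : ℝ≥0∞} (h : a ≤ b) {c : ℝ} (hc : 0 ≤ c) : b ^ (-c) ≤ a ^ (-c) := by
  rw [ENNReal.rpow_neg, ENNReal.rpow_neg]
  exact ENNReal.inv_le_inv.2 (ENNReal.rpow_le_rpow h hc)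

theorem neg_rpow_le_mul {a b k : ℝ≥0∞} (hk0 : k ≠ 0) (hk : k ≠ ∞) (h : b ≤ k * a) {c : ℝ}
    (hc : 0 ≤ c) : a ^ (-c) ≤ k ^ c * b ^ (-c) := by
  have hkc0 : k ^ c ≠ 0 := by
    simp [ENNReal.rpow_eq_zero_iff, hk0, hk]
  have hkc : k ^ c ≠ ∞ := ENNReal.rpow_ne_top_of_nonneg hc hk
  have h1 : (k * a) ^ (-c) ≤ b ^ (-c) := neg_rpow_anti h hc
  have h2 : k ^ c * (k * a) ^ (-c) = a ^ (-c) := by
    rw [ENNReal.rpow_neg, ENNReal.rpow_neg, ENNReal.mul_rpow_of_nonneg _ _ hc,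
      ENNReal.mul_inv (Or.inl hkc0) (Or.inl hkc), ← mul_assoc, ENNReal.mul_inv_cancel hkc0 hkc,
      one_mul]
  rw [← h2]
  gcongr

theorem wB_unit (S : Finset B) (c : ℝ) (y' : B →ₐ[ℂ] ℂ) :
    wB (fun _ : Unit => S) (fun _ => c) y' = (ENNReal.ofReal (wt S y')) ^ (-c) := by
  simp [wB]

/-- reindexing -/
theorem iint_reindex {ι κ : Type} [Fintype ι] [Fintype κ] (e : κ ≃ ι) {I : ι → Ideal B}
    {c : ι → ℝ} (h : IInt z y I c) : IInt z y (fun k => I (e k)) (fun k => c (e k)) := by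
  obtain ⟨S, hS, hint⟩ := h
  refine ⟨fun k => S (e k), fun k => hS (e k), ?_⟩
  have : wB (fun k => S (e k)) (fun k => c (e k)) = wB S c := funext fun y' =>
    Equiv.prod_comp e (fun i => (ENNReal.ofReal (wt (S i) y')) ^ (-(c i)))
  rw [this]
  exact hint

/-- `I^N` with exponent `θ` from `I` with exponent `N θ` -/
theorem iint_pow {n : ℕ} (X : FCtx n) (hprod : ProdFact X) (y : X.B →ₐ[ℂ] ℂ) (I : Ideal X.B)
    (hI : I ≠ ⊥) (N : ℕ) (θ : ℝ) (h : IInt X.z y (fun _ : Unit => I) (fun _ => θ * N)) :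
    IInt X.z y (fun _ : Unit => I ^ N) (fun _ => θ) := by
  have h1 := (hprod y Empty Unit (fun e => e.elim) (fun e => e.elim) (fun _ => I) (fun _ => N) θ
    (fun e => e.elim) (fun _ => hI)).2 ?_
  · have h2 := iint_reindex (Equiv.emptySum Empty Unit).symm h1
    have e1 : (fun k => Sum.elim (fun e : Empty => (e.elim : Ideal X.B))
        (fun _ : Unit => ∏ _j : Unit, I ^ N) ((Equiv.emptySum Empty Unit).symm k)) =
        fun _ : Unit => I ^ N := by
      funext k; simp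
    have e2 : (fun k => Sum.elim (fun e : Empty => (e.elim : ℝ)) (fun _ : Unit => θ)
        ((Equiv.emptySum Empty Unit).symm k)) = fun _ : Unit => θ := by
      funext k; simp
    rw [e1, e2] at h2
    exact h2
  · have h2 := iint_reindex (Equiv.emptySum Empty Unit) h
    have e1 : (fun _ : Empty ⊕ Unit => I) = Sum.elim (fun e : Empty => (e.elim : Ideal X.B))
        (fun _ : Unit => I) := by
      funext k
      rcases k with k | k
      · exact k.elim
      · rfl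
    have e2 : (fun _ : Empty ⊕ Unit => θ * (N : ℝ)) = Sum.elim (fun e : Empty => (e.elim : ℝ))
        (fun _ : Unit => θ * (N : ℝ)) := by
      funext k
      rcases k with k | k
      · exact k.elim
      · rfl
    rw [e1, e2] at h2
    exact h2

/-- specialisation of the integrability of an ideal of limits -/
theorem iint_frequently {n : ℕ} (X : FCtx n) (hgens : GensFact X) (hspec : SpecFact X)
    (hmono : MonoFact X) {y : X.B →ₐ[ℂ] ℂ} {γ : ℂ → (X.B →ₐ[ℂ] ℂ)} (hγ0 : γ 0 = y)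
    (hγ : ∀ f : X.B, AnalyticAt ℂ (fun τ => γ τ f) 0) (Wf : ℂ → Ideal X.B) (I : Ideal X.B)
    (hI : I ≤ SS Wf) (g₀ : X.B) (hg₀ : g₀ ≠ 0)
    (hg₀W : ∀ᶠ τ in 𝓝[≠] (0 : ℂ), g₀ ∈ Wf τ) (c : ℝ) (hc : 0 ≤ c)
    (h : IInt X.z y (fun _ : Unit => I) (fun _ => c)) (ε : ℝ) (hε : 0 < ε) (hε1 : ε < 1) :
    ∃ᶠ τ in 𝓝[≠] (0 : ℂ), IInt X.z (γ τ) (fun _ : Unit => Wf τ) (fun _ => (1 - ε) * c) := by
  classical
  have := X.ft
  have : IsNoetherianRing X.B := Algebra.FiniteType.isNoetherianRing ℂ X.B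
  obtain ⟨T, hT⟩ := (IsNoetherian.noetherian I : I.FG)
  have h' : LIntB X.z y (wB (fun _ : Unit => T) (fun _ => c)) :=
    (hgens y Unit (fun _ => I) (fun _ => c) (fun _ => T) (fun _ => hT)).1 h
  have hfam : ∀ t : {x // x ∈ T}, ∃ f : ℂ → X.B, AnFam f ∧ f 0 = t.1 ∧
      ∀ᶠ τ in 𝓝[≠] (0 : ℂ), f τ ∈ Wf τ := by
    intro t
    apply hI
    rw [← hT]
    exact Ideal.subset_span t.2
  choose f hf hf0 hfW using hfam
  let fam : Option {x // x ∈ T} → ℂ → X.B := fun o τ => o.elim g₀ (fun t => f t τ)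
  have hfamA : ∀ o, AnFam (fam o) := by
    rintro (_ | t)
    · exact AnFam.const g₀
    · exact hf t
  have hfamW : ∀ᶠ τ in 𝓝[≠] (0 : ℂ), ∀ o, fam o τ ∈ Wf τ := by
    rw [eventually_all]
    rintro (_ | t)
    · exact hg₀W
    · exact hfW t
  obtain ⟨nb, b, co, hco, hfamE⟩ := AnFam.common hfamA
  let e := Fintype.equivFin (Option {x // x ∈ T})
  have hsum : ∀ (τ : ℂ) (y' : X.B →ₐ[ℂ] ℂ),
      ∑ i, ‖∑ j, co (e.symm i) j τ * y' (b j)‖ ^ 2 = ∑ o, ‖y' (fam o τ)‖ ^ 2 := by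
    intro τ y'
    rw [← Equiv.sum_comp e.symm (fun o => ‖y' (fam o τ)‖ ^ 2)]
    refine Finset.sum_congr rfl fun i _ => ?_
    rw [hfamE]
    simp [map_sum]
  have hspec' := hspec y _ nb b (fun i => co (e.symm i)) c γ hγ0 hγ (fun i j => hco _ _) hc ?_ ε
    hε hε1
  · refine (hspec'.and_eventually hfamW).mono ?_
    rintro τ ⟨hint, hW⟩
    simp only [hsum] at hint
    set S : Finset X.B := Finset.univ.image (fun o => fam o τ) with hS
    have hSW : Ideal.span (S : Set X.B) ≤ Wf τ := by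
      rw [Ideal.span_le]
      intro x hx
      rw [hS, Finset.coe_image] at hx
      obtain ⟨o, _, rfl⟩ := hx
      exact hW o
    have hSg : g₀ ∈ Ideal.span (S : Set X.B) := by
      apply Ideal.subset_span
      rw [hS, Finset.coe_image]
      exact ⟨none, by simp, rfl⟩
    have hSne : Ideal.span (S : Set X.B) ≠ ⊥ := by
      intro h0
      rw [h0] at hSg
      exact hg₀ (by simpa using hSg)
    have hWne : Wf τ ≠ ⊥ := by
      intro h0
      rw [h0, le_bot_iff] at hSW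
      exact hSne hSW
    have h1 : IInt X.z (γ τ) (fun _ : Unit => Ideal.span (S : Set X.B)) (fun _ => (1 - ε) * c) := by
      refine ⟨fun _ => S, fun _ => rfl, ?_⟩
      have hc' : 0 ≤ (1 - ε) * c := mul_nonneg (by linarith) hc
      set k : ℝ≥0∞ := (Fintype.card (Option {x // x ∈ T}) : ℝ≥0∞) with hk
      have hk0 : k ≠ 0 := by
        rw [hk]; exact_mod_cast Fintype.card_ne_zero
      have hkt : k ≠ ∞ := by rw [hk]; exact ENNReal.natCast_ne_top _
      refine LIntB_mono_mul (k ^ ((1 - ε) * c)) (ENNReal.rpow_ne_top_of_nonneg hc' hkt) ?_ hint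
      intro y'
      rw [wB_unit]
      refine neg_rpow_le_mul hk0 hkt ?_ hc'
      rw [hk, ← ENNReal.ofReal_natCast, ← ENNReal.ofReal_mul (Nat.cast_nonneg _)]
      apply ENNReal.ofReal_le_ofReal
      calc ∑ o, ‖y' (fam o τ)‖ ^ 2 ≤ ∑ o : Option {x // x ∈ T}, wt S y' := by
            refine Finset.sum_le_sum fun o _ => ?_
            have : fam o τ ∈ S := by rw [hS]; exact Finset.mem_image_of_mem _ (Finset.mem_univ o)
            exact Finset.single_le_sum (f := fun b => ‖y' b‖ ^ 2) (fun _ _ => by positivity) this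
        _ = _ := by simp
    exact hmono (γ τ) Unit _ _ _ _ (fun _ => hSne) (fun _ => hWne) (fun _ => le_rfl)
      (fun _ => Or.inr ⟨mul_nonneg (by linarith) hc, hSW⟩) h1
  · simp only [hsum]
    refine LIntB_mono ?_ h'
    intro y'
    rw [wB_unit]
    refine neg_rpow_anti (ENNReal.ofReal_le_ofReal ?_) hc
    rw [Fintype.sum_option, wt, ← Finset.sum_coe_sort]
    have : ∀ t : {x // x ∈ T}, fam (some t) 0 = t.1 := fun t => hf0 t
    simp only [this]
    have h0 : 0 ≤ ‖y' (fam none 0)‖ ^ 2 := by positivity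
    linarith

end integrability

section main

variable {n : ℕ}

theorem ne_mI_of_dim {B : Type} [CommRing B] [Algebra ℂ B] (P : Ideal B) (y : B →ₐ[ℂ] ℂ) (d : ℕ)
    (hd : 1 ≤ d) (hdim : ringKrullDim (B ⧸ P) = d) : P ≠ mI y := by
  intro h
  have hsurj : Function.Surjective (y : B →+* ℂ) := fun c => ⟨algebraMap ℂ B c, by simp⟩
  have hmax : (mI y).IsMaximal := RingHom.ker_isMaximal_of_surjective _ hsurj
  rw [h, ringKrullDim_eq_zero_of_isField
    ((Ideal.Quotient.maximal_ideal_iff_isField_quotient _).1 hmax)] at hdim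
  have : (0 : WithBot ℕ∞) = ((0 : ℕ) : WithBot ℕ∞) := rfl
  rw [this] at hdim
  have h2 : (0 : ℕ) = d := by exact_mod_cast hdim
  omega

theorem perturb (X : FCtx n) (af : AFacts X) (hP2 : P2Stmt X) (hGen : GenFiltStmt)
    (hLim : LimitStmt X) : PerturbStmt X := by
  classical
  intro F A P d hd hC ι _ m a e p hme hp
  have hprime := hC.prime
  have hft := X.ft
  have : IsNoetherianRing X.B := Algebra.FiniteType.isNoetherianRing ℂ X.B
  obtain ⟨l₁, k₁, K, h₀, hAl₁, hk₁, hK, hh₀, hcomp⟩ := hC.comp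
  obtain ⟨h₁, hh₁, hadapt⟩ := af.gen P d hC.prime hC.dim
  obtain ⟨h₂, r, hh₂, hconst, hlim⟩ := hLim F P hC.prime ι m a e
  refine ⟨h₂, r, hh₂, hconst, ?_⟩
  choose δ hδ hgap using fun i => exists_gap F (a i)
  have hpR : (0 : ℝ) < p := by exact_mod_cast hp
  have hKR : (0 : ℝ) < K := by exact_mod_cast hK
  obtain ⟨δ₀, hδ₀, hδ₀i, hδ₀K⟩ : ∃ δ₀ : ℝ, 0 < δ₀ ∧ (∀ i, δ₀ ≤ δ i) ∧ δ₀ ≤ (l₁ - A) / K := by
    have h1 : ∀ᶠ x in 𝓝[>] (0 : ℝ), ∀ i, x ≤ δ i := by
      rw [eventually_all]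
      intro i
      filter_upwards [Ioc_mem_nhdsGT (hδ i)] with x hx using hx.2
    have h2 : ∀ᶠ x in 𝓝[>] (0 : ℝ), x ≤ (l₁ - A) / K := by
      have : 0 < (l₁ - A) / K := div_pos (sub_pos.2 hAl₁) hKR
      filter_upwards [Ioc_mem_nhdsGT this] with x hx using hx.2
    have h3 : ∀ᶠ x in 𝓝[>] (0 : ℝ), 0 < x := self_mem_nhdsWithin
    obtain ⟨x, hx⟩ := (h1.and (h2.and h3)).exists
    exact ⟨x, hx.2.2, hx.1, hx.2.1⟩
  refine ⟨δ₀ / p, div_pos hδ₀ hpR, fun s hs hss => ?_⟩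
  have hsp : s * p ≤ δ₀ := (le_div_iff₀ hpR).1 hss
  have hep : ∀ i, (e i : ℝ) ≤ p := fun i => by exact_mod_cast (hme i).2.2
  have hse : ∀ i, s * e i ≤ s * p := fun i => mul_le_mul_of_nonneg_left (hep i) hs.le
  have hse0 : ∀ i, 0 ≤ s * e i := fun i => mul_nonneg hs.le (Nat.cast_nonneg _)
  have hssp : s ≤ s * p := by
    have : (1 : ℝ) ≤ p := by exact_mod_cast hp
    nlinarith
  -- the disc
  have hh : h₀ * h₁ * h₂ ∉ P := by
    intro h
    rcases hprime.mem_or_mem h with h | h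
    · rcases hprime.mem_or_mem h with h | h
      · exact hh₀ h
      · exact hh₁ h
    · exact hh₂ h
  obtain ⟨γ, hγ0, hγ, hγev⟩ := af.disc X.x P (h₀ * h₁ * h₂) hC.prime hC.le
    (ne_mI_of_dim P X.x d hd hC.dim) hh
  obtain ⟨q, b, co, hb, hco, hli, hU⟩ := hlim γ hγ
    (hγev.mono fun τ h => ⟨h.1, fun h0 => h.2 (by rw [map_mul, h0, mul_zero])⟩)
  set W : ι → Submodule ℂ X.B := fun i =>
    Submodule.span ℂ (Set.range fun j => ∑ k, co i j k 0 • b i k) with hWdef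
  have hWF : ∀ i, W i ≤ F.F (m i) (a i) := by
    intro i
    rw [hWdef]
    simp only
    rw [Submodule.span_le]
    rintro _ ⟨j, rfl⟩
    exact Submodule.sum_mem _ fun k _ => Submodule.smul_mem _ _ (hb i k)
  obtain ⟨G, hFG, hWG, hGF, hidl⟩ := hGen X.B X.V F X.V_fin X.V_zero X.V_mul ι m a
    (fun i => a i + s * e i) (s * p) W (fun i => (hme i).1) (fun i => (hme i).2.1)
    (fun i => le_add_of_nonneg_right (hse0 i)) (fun i => by linarith [hse i])
    (mul_nonneg hs.le hpR.le) hWF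
  refine ⟨G, hFG, hGF, fun i => ?_, ?_⟩
  · have h1 : Module.finrank ℂ (W i) = r i := by
      rw [hWdef]
      simpa using finrank_span_eq_card (hli i)
    rw [← h1]
    have h2 : FiniteDimensional ℂ (X.V (m i)) := X.V_fin (m i)
    have h3 : FiniteDimensional ℂ (G.F (m i) (a i + s * e i)) :=
      Submodule.finiteDimensional_of_le (G.le_V _ _)
    exact Submodule.finrank_mono (hWG i)
  · rintro l ⟨k, hk, hint⟩
    have hkR : (0 : ℝ) < k := by exact_mod_cast hk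
    let Wf : ℝ → ℂ → Ideal X.B := fun l τ => Wl F P (γ τ) (s * p) s l
    have hSSidl : ∀ l, idl F l ≤ SS (Wf l) := fun l x hx =>
      mem_SS_of_const (Eventually.of_forall fun τ => idl_le_Wl _ _ _ _ _ _ hx)
    have hSSmul : ∀ l l', SS (Wf l) * SS (Wf l') ≤ SS (Wf (l + l')) := fun l l' =>
      SS_mul (Eventually.of_forall fun τ => Wl_mul _ _ _ _ _ _ _)
    have hSSW : ∀ i, Ideal.span (W i : Set X.B) ≤ SS (Wf (a i + s * e i)) := by
      intro i
      rw [Ideal.span_le]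
      have : W i ≤ (SS (Wf (a i + s * e i))).restrictScalars ℂ := by
        rw [hWdef]
        simp only
        rw [Submodule.span_le]
        rintro _ ⟨j, rfl⟩
        refine ⟨fun τ => ∑ k, co i j k τ • b i k, ⟨Fin (q i), inferInstance, b i, co i j, hco i j,
          fun _ => rfl⟩, rfl, hU.mono fun τ h => ?_⟩
        exact U_le_Wl F P (γ τ) (s * p) s (a i) (δ i) (m i) (e i) (hse i)
          ((hse i).trans (hsp.trans (hδ₀i i))) (hgap i) (h i j)
      exact this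
    have hSSpow : ∀ (l l' : ℝ) (I : Ideal X.B), I ≤ SS (Wf l') → ∀ N : ℕ,
        SS (Wf l) * I ^ N ≤ SS (Wf (l + N * l')) := by
      intro l l' I hI N
      induction N with
      | zero => simp
      | succ N ih =>
        rw [pow_succ, ← mul_assoc]
        refine (Ideal.mul_mono ih hI).trans ((hSSmul _ _).trans (le_of_eq ?_))
        congr 2
        push_cast; ring
    have hSSterm : ∀ (ν : ι → ℕ) (S : Finset ι) (u : ℝ),
        idl F u * ∏ i ∈ S, (Ideal.span (W i : Set X.B)) ^ ν i ≤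
          SS (Wf (u + ∑ i ∈ S, (ν i : ℝ) * (a i + s * e i))) := by
      intro ν S u
      induction S using Finset.induction_on with
      | empty => simpa using hSSidl u
      | insert i S hi ih =>
        rw [Finset.prod_insert hi, Finset.sum_insert hi]
        have h1 : idl F u * (Ideal.span (W i : Set X.B) ^ ν i *
            ∏ x ∈ S, Ideal.span (W x : Set X.B) ^ ν x) =
            (idl F u * ∏ x ∈ S, Ideal.span (W x : Set X.B) ^ ν x) *
              Ideal.span (W i : Set X.B) ^ ν i := by ring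
        rw [h1]
        refine (Ideal.mul_mono ih le_rfl).trans ((hSSpow _ _ _ (hSSW i) (ν i)).trans
          (le_of_eq ?_))
        congr 2
        ring
    have hSSG : ∀ L, idl G L ≤ SS (Wf L) := by
      intro L
      rw [hidl L]
      refine iSup_le fun ν => ?_
      refine (hSSterm ν Finset.univ _).trans (le_of_eq ?_)
      congr 2
      ring
    obtain ⟨g₀, hg₀, hg₀ne⟩ := Submodule.exists_mem_ne_zero_of_ne_bot (hC.idl_ne (k * l))
    have key : ∀ M : ℕ, 2 ≤ M → (1 - 1 / (M : ℝ)) * l ≤ A + s * d := by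
      intro M hM
      have hMR : (2 : ℝ) ≤ M := by exact_mod_cast hM
      have hM0 : (0 : ℝ) < M := by linarith
      have hfr := iint_frequently X af.gens af.spec af.mono hγ0 hγ (Wf (k * l)) (idl G (k * l))
        (hSSG _) g₀ hg₀ne (Eventually.of_forall fun τ => idl_le_Wl _ _ _ _ _ _ hg₀) (1 / (k : ℝ))
        (by positivity) hint (1 / (M : ℝ)) (by positivity)
        (by rw [div_lt_one hM0]; linarith)
      obtain ⟨τ, hτ, hτP, hτh⟩ := (hfr.and_eventually hγev).exists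
      have hPle : P ≤ mI (γ τ) := fun f hf => by
        simpa [mI, RingHom.mem_ker] using hτP f hf
      rw [map_mul, map_mul] at hτh
      have hτ₀ : γ τ h₀ ≠ 0 := fun h => hτh (by rw [h]; ring)
      have hτ₁ : γ τ h₁ ≠ 0 := fun h => hτh (by rw [h]; ring)
      have hWne : ∀ l, Wl F P (γ τ) (s * p) s l ≠ ⊥ := by
        intro l h0
        have := idl_le_Wl F P (γ τ) (s * p) s l
        rw [h0, le_bot_iff] at this
        exact hC.idl_ne l this
      have hM1 : ((M - 1 : ℕ) : ℝ) = M - 1 := by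
        rw [Nat.cast_sub (by omega)]; simp
      have hx2 := iint_pow X af.prod (γ τ) (Wf (k * l) τ) (hWne _) (M - 1) (1 / (M * k : ℝ)) (by
        convert hτ using 2
        rw [hM1]
        field_simp)
      have hx3 : IInt X.z (γ τ)
          (fun _ : Unit => Wl F P (γ τ) (s * p) s (((M * k : ℕ) : ℝ) * ((1 - 1 / (M : ℝ)) * l)))
          (fun _ => 1 / ((M * k : ℕ) : ℝ)) := by
        refine af.mono (γ τ) Unit _ _ _ _ (fun _ => ?_) (fun _ => hWne _) (fun _ => ?_)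
          (fun _ => Or.inr ⟨?_, ?_⟩) hx2
        · exact pow_ne_zero _ (hWne _)
        · push_cast; exact le_rfl
        · positivity
        · refine (Wl_pow F P (γ τ) (s * p) s (k * l) (M - 1) (by omega)).trans (le_of_eq ?_)
          congr 1
          rw [hM1]
          push_cast
          field_simp
      exact hP2 F A P d (γ τ) l₁ k₁ K (s * p) s hC.ne_bot hC.idl_ne hC.A_pos hAl₁ hk₁ hK hPle
        (hadapt (γ τ) hτP hτ₁) (hC.good_le (γ τ) hPle) (hcomp (γ τ) hPle hτ₀) hs hssp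
        (hsp.trans hδ₀K) (M * k) ((1 - 1 / (M : ℝ)) * l)
        (Nat.one_le_iff_ne_zero.2 (by positivity)) hx3
    by_contra hcon
    push Not at hcon
    have hApos : 0 < A + s * d := by
      have := hC.A_pos
      have : 0 ≤ s * d := mul_nonneg hs.le (Nat.cast_nonneg _)
      linarith
    obtain ⟨M, hM⟩ := exists_nat_gt (max 2 (l / (l - (A + s * d))))
    have hM2 : (2 : ℝ) < M := lt_of_le_of_lt (le_max_left _ _) hM
    have hM3 : l / (l - (A + s * d)) < M := lt_of_le_of_lt (le_max_right _ _) hM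
    have hk2 := key M (by exact_mod_cast hM2.le)
    have hM0 : (0 : ℝ) < M := by linarith
    rw [div_lt_iff₀ (by linarith)] at hM3
    have : l / M < l - (A + s * d) := by
      rw [div_lt_iff₀ hM0]; linarith
    have h5 : (1 - 1 / (M : ℝ)) * l = l - l / M := by ring
    rw [h5] at hk2
    linarith

end main

end Crest.Agent.R271.Perturb969
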