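import Crest.Agent.R271.Spec2_103_Mg
import Crest.Agent.R271.Engine_51
import Mathlib
import Crest.Agent.R271.NSpec_647
import Crest.Agent.R271.N5a_91
import Crest.Agent.R271.N5k_91
import Crest.Agent.R271.N6c_241
import Crest.Agent.R271.N0b_710
import Crest.Agent.R271.Perturb_969_Mg
import Crest.Agent.R271.N6b_593_Mg
import Crest.Agent.R271.N7e_857
import Crest.Agent.R271.Bridge0_713
import Crest.Agent.R271.Fr_960
import Crest.Agent.R271.UfdF_243
import Crest.Agent.R271.UfdG_243
import Crest.Agent.R271.Defs_710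
import Crest.Agent.R271.Rd3_692
import Crest.Agent.R271.Bd5_741

-- ▼ part R271/G7_934
section

/-!
# Row 271, sub-team L: `SumThm`, `FubiniFact`, `SpecFact`, unconditional (helper934)
-/

set_option autoImplicit false

namespace Crest.Agent.R271.L934

open Crest.Agent.R271.Defs710

theorem fubiniFact_of_sumThm (hS : SumThm) {n : ℕ} (X : FCtx n) : FubiniFact X :=
  Fub103.fubiniFact_of (fun n => af8Germ hS n) X

end Crest.Agent.R271.L934
end

-- ▼ part R271/N5m_91
section

/-!
Row 271, team N: `MatrixStmt` (8.3).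
-/

set_option autoImplicit false

open Filter Topology

namespace Crest.Agent.R271.N91

open Crest.Agent.R271.N647 Crest.Agent.R271.Defs710

/-- The dimension of the kernel of a matrix over a domain is generically constant. -/
theorem generic_ker {A : Type*} [CommRing A] [IsDomain A] (q : ℕ) : ∀ (N : ℕ)
    (c : Fin N → Fin q → A), ∃ (H : A) (k : ℕ), H ≠ 0 ∧ ∀ φ : A →+* ℂ, φ H ≠ 0 →
      Module.finrank ℂ (LinearMap.ker (Matrix.of fun i j => φ (c i j)).mulVecLin) = k := by
  induction q with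
  | zero =>
    intro N c
    exact ⟨1, 0, one_ne_zero, fun φ _ => Module.finrank_zero_of_subsingleton⟩
  | succ M ih =>
    intro N c
    by_cases hall : ∀ i j, c i j = 0
    · refine ⟨1, M + 1, one_ne_zero, fun φ _ => ?_⟩
      have h : LinearMap.ker (Matrix.of fun i j => φ (c i j)).mulVecLin = ⊤ := by
        rw [eq_top_iff]
        intro v _
        rw [LinearMap.mem_ker, Matrix.mulVecLin_apply]
        funext i
        simp [Matrix.mulVec, dotProduct, hall]
      rw [h, finrank_top, Module.finrank_fin_fun]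
    · push Not at hall
      obtain ⟨i₀, j₀, h0⟩ := hall
      obtain ⟨H, k, hH, hk⟩ := ih N
        (fun i l => c i₀ j₀ * c i (j₀.succAbove l) - c i j₀ * c i₀ (j₀.succAbove l))
      refine ⟨c i₀ j₀ * H, k, mul_ne_zero h0 hH, fun φ hφ => ?_⟩
      rw [map_mul] at hφ
      have h1 : φ (c i₀ j₀) ≠ 0 := left_ne_zero_of_mul hφ
      have h2 := hk φ (right_ne_zero_of_mul hφ)
      set r : Fin M → ℂ := fun l => φ (c i₀ (j₀.succAbove l)) / φ (c i₀ j₀) with hr
      have hrr : ∀ l, φ (c i₀ j₀) * r l = φ (c i₀ (j₀.succAbove l)) := fun l => by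
        rw [hr]; field_simp
      have h3 : LinearMap.ker (Matrix.of fun i j => φ (c i j)).mulVecLin =
          (LinearMap.ker (Matrix.of fun i l => φ (c i₀ j₀ * c i (j₀.succAbove l) -
            c i j₀ * c i₀ (j₀.succAbove l))).mulVecLin).map (Phi j₀ r) := by
        ext v
        rw [LinearMap.mem_ker, Matrix.mulVecLin_apply, funext_iff, Submodule.mem_map]
        simp only [LinearMap.mem_ker, Matrix.mulVecLin_apply, funext_iff (f := Matrix.mulVec _ _)]
        simp only [Matrix.mulVec, dotProduct, Matrix.of_apply, Pi.zero_apply, map_sub, map_mul]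
        have hexp : ∀ i, ∑ j, φ (c i j) * v j = φ (c i j₀) * v j₀ +
            ∑ l, φ (c i (j₀.succAbove l)) * v (j₀.succAbove l) :=
          fun i => Fin.sum_univ_succAbove _ j₀
        have hexp2 : ∀ (i) (w : Fin M → ℂ), ∑ l, (φ (c i₀ j₀) * φ (c i (j₀.succAbove l)) -
            φ (c i j₀) * φ (c i₀ (j₀.succAbove l))) * w l =
            φ (c i₀ j₀) * (∑ l, φ (c i (j₀.succAbove l)) * w l
              - φ (c i j₀) * ∑ l, r l * w l) := by
          intro i w
          rw [Finset.mul_sum, ← Finset.sum_sub_distrib, Finset.mul_sum]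
          exact Finset.sum_congr rfl (fun l _ => by rw [← hrr l]; ring)
        constructor
        · intro h
          have h5 : v j₀ = -∑ l, r l * v (j₀.succAbove l) := by
            have h6 := h i₀
            rw [hexp] at h6
            have h7 : ∑ l, φ (c i₀ (j₀.succAbove l)) * v (j₀.succAbove l) =
                φ (c i₀ j₀) * ∑ l, r l * v (j₀.succAbove l) := by
              rw [Finset.mul_sum]
              exact Finset.sum_congr rfl (fun l _ => by rw [← hrr l]; ring)
            rw [h7, ← mul_add] at h6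
            rcases mul_eq_zero.1 h6 with h8 | h8
            · exact absurd h8 h1
            · exact eq_neg_of_add_eq_zero_left h8
          refine ⟨fun l => v (j₀.succAbove l), fun i => ?_, mem_range_Phi j₀ _ v h5⟩
          have h6 := h i
          rw [hexp, h5] at h6
          rw [hexp2, mul_eq_zero]
          right
          linear_combination h6
        · rintro ⟨w, hw, rfl⟩ i
          have h7 := hw i
          rw [hexp2, mul_eq_zero] at h7
          have h8 := h7.resolve_left h1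
          rw [hexp, Phi_same]
          simp only [Phi_succAbove]
          linear_combination h8
      rw [h3, ← h2]
      exact (Submodule.equivMapOfInjective (Phi j₀ r) (Phi_inj _ _) _).symm.finrank_eq

theorem idl_anti' {B : Type} [CommRing B] [Algebra ℂ B] {V : ℕ → Submodule ℂ B} (F : Filt V)
    {l l' : ℝ} (h : l ≤ l') : idl F l' ≤ idl F l :=
  Ideal.span_mono (fun _ ⟨m, hm⟩ => ⟨m, F.anti m h hm⟩)

theorem idlGt_le' {B : Type} [CommRing B] [Algebra ℂ B] {V : ℕ → Submodule ℂ B} (F : Filt V)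
    (a : ℝ) : idlGt F a ≤ idl F a :=
  iSup_le (fun l => idl_anti' F (le_of_lt l.2))

/-- (8.3): matrix description and constancy of the rank of `U_{m,a,e}(y)`. -/
theorem matrixStmt {n : ℕ} (X : FCtx n) : MatrixStmt X := by
  intro F P hP m a e q b hb hspan
  have hft := X.ft
  obtain ⟨N, S, H, hH, hS⟩ := principal_parts P (idl F a) (idlGt F a) (idlGt_le' F a) e
  have hbF : ∀ j, b j ∈ F.F m a := fun j => by
    rw [← hspan]; exact Submodule.subset_span ⟨j, rfl⟩
  have hbm : ∀ j, b j ∈ idl F a := fun j => Ideal.subset_span ⟨m, hbF j⟩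
  choose c hc using fun (i : Fin N) (j : Fin q) =>
    Ideal.Quotient.mk_surjective (S ⟨b j, hbm j⟩ i)
  obtain ⟨H', k, hH', hk⟩ := generic_ker q N (fun i j => Ideal.Quotient.mk P (c i j))
  obtain ⟨h, hh⟩ := Ideal.Quotient.mk_surjective (H * H')
  refine ⟨h, N, Matrix.of c, q - k, ?_, fun y hy hyh => ?_⟩
  · intro hP'
    have : H * H' = 0 := by rw [← hh]; exact Ideal.Quotient.eq_zero_iff_mem.2 hP'
    exact mul_ne_zero hH hH' this
  · have hy' : ∀ f ∈ P, y f = 0 := fun f hf => hy hf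
    have h1 : ybar P y hy' (H * H') ≠ 0 := by
      rw [← hh, ybar_mk]; exact hyh
    rw [map_mul] at h1
    refine ⟨?_, fun v => ?_⟩
    · have h2 := hk (ybar P y hy' : (X.B ⧸ P) →+* ℂ) (right_ne_zero_of_mul h1)
      have h3 : (Matrix.of fun i j => (ybar P y hy' : (X.B ⧸ P) →+* ℂ)
          (Ideal.Quotient.mk P (c i j))) = (Matrix.of c).map y := by
        ext i j
        rfl
      rw [h3] at h2
      have h4 := LinearMap.finrank_range_add_finrank_ker ((Matrix.of c).map y).mulVecLin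
      rw [Module.finrank_fin_fun, h2] at h4
      rw [Matrix.rank]
      omega
    · have hsumF : ∑ j, v j • b j ∈ F.F m a :=
        Submodule.sum_mem _ (fun j _ => Submodule.smul_mem _ _ (hbF j))
      have h2 := hS y hy' (left_ne_zero_of_mul h1) (∑ j, v j • ⟨b j, hbm j⟩)
      have h3 : ((∑ j, v j • (⟨b j, hbm j⟩ : idl F a) : idl F a) : X.B) = ∑ j, v j • b j := by
        rw [AddSubmonoidClass.coe_finsetSum]
        rfl
      rw [h3] at h2
      have h4 : ∑ j, v j • b j ∈ U F P y m a e ↔ ∑ j, v j • b j ∈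
          (RingHom.ker (y : X.B →+* ℂ)) ^ e * idl F a ⊔ P * idl F a ⊔ idlGt F a := by
        constructor
        · intro h; exact h.2
        · intro h; exact ⟨hsumF, h⟩
      rw [h4, ← h2, funext_iff]
      refine forall_congr' (fun i => ?_)
      rw [map_sum, Finset.sum_apply, map_sum]
      simp only [map_smul, Pi.smul_apply, smul_eq_mul, ← hc, ybar_mk]
      simp only [Matrix.mulVec, dotProduct, Matrix.map_apply, Matrix.of_apply, Pi.zero_apply]
      have h5 : ∑ j, v j * y (c i j) = ∑ j, y (c i j) * v j :=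
        Finset.sum_congr rfl (fun j _ => mul_comm _ _)
      rw [h5]

end Crest.Agent.R271.N91
end

-- ▼ part R271/Limit_647
section

/-!
Row 271, team N: `LimitStmt` from `MatrixStmt` (and `KernelLimitStmt`).
-/

set_option autoImplicit false

open scoped Topology BigOperators
open Filter

noncomputable section

namespace Crest.Agent.R271.Limit647

open Crest.Agent.R271.Defs710 Crest.Agent.R271.N647

variable {n : ℕ}

/-- the dimension of a subspace `W ≤ span b` described by a matrix -/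
theorem finrank_of_matrix {B : Type} [CommRing B] [Algebra ℂ B] {q N : ℕ} (b : Fin q → B)
    (hb : LinearIndependent ℂ b) (W : Submodule ℂ B)
    (hW : W ≤ Submodule.span ℂ (Set.range b)) (A : Matrix (Fin N) (Fin q) ℂ)
    (h : ∀ v : Fin q → ℂ, (∑ j, v j • b j ∈ W ↔ A.mulVec v = 0)) :
    Module.finrank ℂ W = q - A.rank := by
  rw [← N91.finrank_ker_mulVec]
  have hinj : Function.Injective (Fintype.linearCombination ℂ b) :=
    linearIndependent_iff_injective_fintypeLinearCombination.1 hb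
  have h1 : (LinearMap.ker A.mulVecLin).map (Fintype.linearCombination ℂ b) = W := by
    ext f
    rw [Submodule.mem_map]
    constructor
    · rintro ⟨v, hv, rfl⟩
      rw [Fintype.linearCombination_apply, h]
      simpa using hv
    · intro hf
      have h2 := hW hf
      rw [← Fintype.range_linearCombination] at h2
      obtain ⟨v, rfl⟩ := h2
      refine ⟨v, ?_, rfl⟩
      rw [Fintype.linearCombination_apply, h] at hf
      simpa using hf
  rw [← h1]
  exact (LinearEquiv.finrank_eq (Submodule.equivMapOfInjective _ hinj _)).symm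

theorem limitStmt_of (X : FCtx n) (hM : MatrixStmt X) : LimitStmt X := by
  intro F P hP ι _ m a e
  classical
  -- bases
  have hfd : ∀ i, FiniteDimensional ℂ (F.F (m i) (a i)) := by
    intro i
    have := X.V_fin (m i)
    exact Submodule.finiteDimensional_of_le (F.le_V (m i) (a i))
  have hbas : ∀ i, ∃ (q : ℕ) (b : Fin q → X.B), LinearIndependent ℂ b ∧
      Submodule.span ℂ (Set.range b) = F.F (m i) (a i) := by
    intro i
    have := hfd i
    let bs := Module.finBasis ℂ (F.F (m i) (a i))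
    refine ⟨_, fun j => (bs j : X.B), ?_, ?_⟩
    · exact bs.linearIndependent.map' (F.F (m i) (a i)).subtype (Submodule.ker_subtype _)
    · have h1 : Set.range (fun j => (bs j : X.B)) = (F.F (m i) (a i)).subtype '' Set.range bs := by
        rw [← Set.range_comp]; rfl
      rw [h1, Submodule.span_image, bs.span_eq, Submodule.map_top, Submodule.range_subtype]
  choose q b hb hspan using hbas
  choose hh N c ρ hh1 hh2 using fun i => hM F P hP (m i) (a i) (e i) (q i) (b i) (hb i) (hspan i)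
  refine ⟨∏ i, hh i, fun i => q i - ρ i, ?_, ?_, ?_⟩
  · intro hmem
    obtain ⟨i, -, hi⟩ := (Ideal.IsPrime.prod_mem_iff (hp := hP)).1 hmem
    exact hh1 i hi
  · intro y hy hyh i
    have hyi : y (hh i) ≠ 0 := by
      intro h0
      apply hyh
      rw [map_prod]
      exact Finset.prod_eq_zero (Finset.mem_univ i) h0
    have h1 := hh2 i y hy hyi
    rw [finrank_of_matrix (b i) (hb i) _ ?_ ((c i).map y) h1.2, h1.1]
    rw [hspan i]
    exact inf_le_left
  · intro γ hγ hev
    have hev' : ∀ i, ∀ᶠ τ in 𝓝[≠] (0 : ℂ), P ≤ mI (γ τ) ∧ γ τ (hh i) ≠ 0 := by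
      intro i
      filter_upwards [hev] with τ hτ
      refine ⟨?_, ?_⟩
      · intro f hf
        exact (RingHom.mem_ker).2 (hτ.1 f hf)
      · intro h0
        apply hτ.2
        rw [map_prod]
        exact Finset.prod_eq_zero (Finset.mem_univ i) h0
    have hker : ∀ i, ∃ (co : Fin (q i - ρ i) → Fin (q i) → ℂ → ℂ),
        (∀ j k, AnalyticAt ℂ (co j k) 0) ∧ LinearIndependent ℂ (fun j => fun k => co j k 0) ∧
        ∀ᶠ τ in 𝓝[≠] (0 : ℂ), ∀ j,
          (Matrix.of fun i' j' => γ τ (c i i' j')).mulVec (fun k => co j k τ) = 0 := by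
      intro i
      refine N91.kernelLimit (N i) (q i) (ρ i) (fun i' j' τ => γ τ (c i i' j'))
        (fun i' j' => hγ _) ?_
      filter_upwards [hev' i] with τ hτ
      exact (hh2 i (γ τ) hτ.1 hτ.2).1
    choose co hco1 hco2 hco3 using hker
    refine ⟨q, b, co, ?_, fun i j k => hco1 i j k, ?_, ?_⟩
    · intro i j
      rw [← hspan i]
      exact Submodule.subset_span ⟨j, rfl⟩
    · intro i
      have hinj : LinearMap.ker (Fintype.linearCombination ℂ (b i)) = ⊥ :=
        LinearMap.ker_eq_bot.2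
          (linearIndependent_iff_injective_fintypeLinearCombination.1 (hb i))
      have := (hco2 i).map' (Fintype.linearCombination ℂ (b i)) hinj
      exact this
    · rw [eventually_all]
      intro i
      filter_upwards [hev' i, hco3 i] with τ h1 h2 j
      rw [(hh2 i (γ τ) h1.1 h1.2).2]
      exact h2 j

end Crest.Agent.R271.Limit647
end
end

-- ▼ part R271/N6_241
section

/-!
Row 271, team N, piece N6: `NonIsoStmt` from `PerturbStmt`, `CountStmt` and "the partition function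
is large" (`ZLarge`, helper593).
-/

set_option autoImplicit false

open scoped ENNReal NNReal Topology BigOperators
open MeasureTheory

noncomputable section

namespace Crest.Agent.R271.N6x241

open Crest.Agent.R271.Defs710 Crest.Agent.R271.N647

variable {n : ℕ} (X : FCtx n)

/-- the partition function is large (statement of `N6b593.zz_large`) -/
def ZLarge : Prop := ∀ κ : ℝ, 0 < κ → ∀ K : ℝ, ∃ t₀ ε₀ : ℝ, 0 < t₀ ∧ 0 < ε₀ ∧
  ∀ t : ℝ, 0 < t → t ≤ t₀ → ∀ ε : ℝ, 0 < ε → ε ≤ ε₀ → ∀ (F : Filt X.V) (A : ℝ), 0 < A →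
    (∀ l : ℝ, Good X.z F X.x l → l ≤ A) → EkelandAt X F A ε t κ → K < ZZ F t κ

/-- the conclusion of `CountStmt` for given parameters -/
def CountAt (d : ℕ) (e₁ τ : ℝ) (p : ℕ) : Prop :=
  ∀ (F : Filt X.V) (P : Ideal X.B), P.IsPrime → ringKrullDim (X.B ⧸ P) = d →
    ∀ a : ℝ, ∃ h : X.B, h ∉ P ∧ ∀ y : X.B →ₐ[ℂ] ℂ, P ≤ mI y → y h ≠ 0 →
      (1 - e₁) * (d / τ) * ∑' m : ℕ, w τ m * (fd F m a - fg F m a) ≤
        ∑' m : ℕ, w τ m * um X F P y p m a

lemma uniform_count (hC : CountStmt X) {e₁ : ℝ} (he₁ : 0 < e₁) (N : ℕ) :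
    ∃ τ₀ C₁ : ℝ, 0 < τ₀ ∧ 0 < C₁ ∧ ∀ d : ℕ, 1 ≤ d → d ≤ N → ∀ τ : ℝ, 0 < τ → τ ≤ τ₀ →
      ∀ p : ℕ, C₁ / τ ≤ p → CountAt X d e₁ τ p := by
  induction N with
  | zero => exact ⟨1, 1, one_pos, one_pos, fun d h1 h2 => by omega⟩
  | succ N ih =>
    obtain ⟨τ₀, C₁, hτ₀, hC₁, h⟩ := ih
    obtain ⟨τ₀', C₁', hτ₀', hC₁', h'⟩ := hC (N + 1) e₁ (by omega) he₁
    refine ⟨min τ₀ τ₀', max C₁ C₁', lt_min hτ₀ hτ₀', lt_max_of_lt_left hC₁, ?_⟩
    intro d hd hdN τ hτ hττ p hp
    rcases Nat.lt_or_ge N d with hlt | hge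
    · have hd' : d = N + 1 := by omega
      subst hd'
      refine h' τ hτ (hττ.trans (min_le_right _ _)) p (le_trans ?_ hp)
      exact div_le_div_of_nonneg_right (le_max_right _ _) hτ.le
    · refine h d hd hge τ hτ (hττ.trans (min_le_left _ _)) p (le_trans ?_ hp)
      exact div_le_div_of_nonneg_right (le_max_left _ _) hτ.le

lemma one_le_ZZ (F : Filt X.V) {t κ : ℝ} (ht : 0 < t) (hκ : 0 < κ) : 1 ≤ ZZ F t κ := by
  have hτ : 0 < t * κ := mul_pos ht hκ
  have h1 : 1 ≤ Zm F t 0 := by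
    have h := Zm_ge X.V_fin F 0 ht le_rfl (fun l hl => by
      obtain ⟨C, hC⟩ := F.bdd
      exact hC 0 l (by simpa using hl))
    rw [NV_zero] at h
    simpa using h
  rw [ZZ_eq]
  have h2 := (summable_Zm X F ht hτ).le_tsum 0
    (fun m _ => mul_nonneg (w_pos _ m).le (Zm_nonneg X.V_fin F m ht))
  simp only [w_zero, one_mul] at h2
  exact h1.trans h2

/-- Ekeland + gain at one perturbation -/
lemma ekeland_gain {F G : Filt X.V} {A ε t κ : ℝ} (hE : EkelandAt X F A ε t κ) (hA : 0 < A)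
    (ht : 0 < t) (hκ : 0 < κ) {s : ℝ} (hs : 0 < s) (p d : ℕ)
    (hFG : ∀ m l, F.F m l ≤ G.F m l) (hGF : ∀ m l, G.F m l ≤ F.F m (l - (s * p) * m))
    (hgood : ∀ l : ℝ, Good X.z G X.x l → l ≤ A + s * d) :
    ZZ F t κ - ZZ G t κ ≤ s * (ZZ F t κ * (d + ε * p)) := by
  have hZF : 0 < ZZ F t κ := lt_of_lt_of_le one_pos (one_le_ZZ X F ht hκ)
  have hZG : 0 < ZZ G t κ := lt_of_lt_of_le one_pos (one_le_ZZ X G ht hκ)
  have hsp : 0 ≤ s * p := by positivity
  have h1 := hE G (s * p) (A + s * d) hsp (by positivity) (fun m l => ⟨?_, hGF m l⟩) hgood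
  · have h2 : Real.log (ZZ F t κ) - Real.log (ZZ G t κ) ≤ s * (d + ε * p) := by
      have : s * (d + ε * p) = s * d + ε * (s * p) := by ring
      rw [this]; linarith
    have h3 := Real.one_sub_inv_le_log_of_pos (div_pos hZF hZG)
    rw [Real.log_div hZF.ne' hZG.ne', inv_div] at h3
    have h4 : 1 - ZZ G t κ / ZZ F t κ ≤ s * (d + ε * p) := h3.trans h2
    have h5 : ZZ F t κ * (1 - ZZ G t κ / ZZ F t κ) ≤ ZZ F t κ * (s * (d + ε * p)) :=
      mul_le_mul_of_nonneg_left h4 hZF.le
    have h6 : ZZ F t κ * (1 - ZZ G t κ / ZZ F t κ) = ZZ F t κ - ZZ G t κ := by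
      field_simp
    rw [h6] at h5
    linarith
  · refine (hFG m l).trans (G.anti m ?_)
    have : 0 ≤ (s * p) * (m : ℝ) := by positivity
    linarith

/-- the inequality for sections of degree `≤ D` -/
theorem ineq_D (hP : PerturbStmt X) {F : Filt X.V} {A : ℝ} {P : Ideal X.B} {d : ℕ} (hd : 1 ≤ d)
    (hcen : Center X F A P d) {t κ ε e₁ : ℝ} (ht : 0 < t) (hκ : 0 < κ)
    (he₁' : e₁ ≤ 1) (hE : EkelandAt X F A ε t κ) {p : ℕ} (hp : 1 ≤ p)
    (hcount : CountAt X d e₁ (t * κ) p) (D : ℕ) :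
    (1 - e₁) * (d / κ) * (ZZ F t κ - 1 - tailN X (t * κ) D) ≤
      ZZ F t κ * (d + ε * p) + t * p * (1 + tailN X (t * κ) D) := by
  classical
  have hτ : 0 < t * κ := mul_pos ht hκ
  set AA : Finset ℝ := (Finset.range D).biUnion (fun k => jmp X.V_fin F (k + 1)) with hAAdef
  have hAAsub : ∀ k < D, jmp X.V_fin F (k + 1) ⊆ AA := fun k hk =>
    Finset.subset_biUnion_of_mem (fun k => jmp X.V_fin F (k + 1)) (Finset.mem_range.2 hk)
  have hAA0 : ∀ a ∈ AA, 0 ≤ a := by
    intro a ha
    rw [hAAdef, Finset.mem_biUnion] at ha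
    obtain ⟨k, _, hk⟩ := ha
    exact jmp_nonneg X.V_fin F hk
  obtain ⟨h, r, hh, hr, s₀, hs₀, hG⟩ := hP F A P d hd hcen (Fin D × ↥AA × Fin p)
    (fun i => i.1.1 + 1) (fun i => (i.2.1 : ℝ)) (fun i => i.2.2.1 + 1) p
    (fun i => ⟨by omega, hAA0 _ i.2.1.2, i.2.2.2⟩) hp
  choose ha hha hcount' using hcount F P hcen.prime hcen.dim
  -- a general point
  have hprod : h * ∏ a ∈ AA, ha a ∉ P := by
    intro hmem
    rcases hcen.prime.mem_or_mem hmem with h1 | h1
    · exact hh h1
    · obtain ⟨a, _, ha2⟩ := (hcen.prime.prod_mem_iff).1 h1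
      exact hha a ha2
  obtain ⟨y, hy, hyh⟩ := exists_general X P hcen.prime _ hprod
  rw [map_mul, map_prod] at hyh
  have hyh1 : y h ≠ 0 := left_ne_zero_of_mul hyh
  have hyh2 : ∀ a ∈ AA, y (ha a) ≠ 0 := Finset.prod_ne_zero_iff.1 (right_ne_zero_of_mul hyh)
  -- counting
  have hcb := count_bound X F P y ht hτ p D (c := (1 - e₁) * (d / (t * κ)))
    (mul_nonneg (by linarith) (by positivity)) AA hAA0 hAAsub
    (fun a haA => hcount' a y hy (hyh2 a haA))
  -- gain
  have hev : ∀ᶠ s in 𝓝[>] (0 : ℝ), t * Real.exp (-t * (s * p)) * Gam X F P y t (t * κ) p D ≤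
      ZZ F t κ * (d + ε * p) := by
    have hppos : (0 : ℝ) < p := by exact_mod_cast hp
    have e1 : ∀ᶠ s in 𝓝[>] (0 : ℝ), ∀ k ∈ Finset.range D, ∀ a ∈ jmp X.V_fin F (k + 1),
        ∀ l, a < l → l ≤ a + s * p → fd F (k + 1) l = fg F (k + 1) a := by
      rw [Filter.eventually_all_finset]
      intro k _
      rw [Filter.eventually_all_finset]
      intro a _
      obtain ⟨δ, hδ, hδ'⟩ := fd_right X.V_fin F (k + 1) a
      have h1 : ∀ᶠ s in 𝓝[>] (0 : ℝ), s < δ / p :=
        (gt_mem_nhds (div_pos hδ hppos)).filter_mono nhdsWithin_le_nhds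
      filter_upwards [h1] with s hs l hl hl'
      refine hδ' l hl (hl'.trans ?_)
      rw [lt_div_iff₀ hppos] at hs
      linarith
    have e2 : ∀ᶠ s in 𝓝[>] (0 : ℝ), s < s₀ :=
      (gt_mem_nhds hs₀).filter_mono nhdsWithin_le_nhds
    have e3 : ∀ᶠ s in 𝓝[>] (0 : ℝ), 0 < s := self_mem_nhdsWithin
    filter_upwards [e1, e2, e3] with s hs1 hs2 hs3
    obtain ⟨G, hFG, hGF, hGr, hgood⟩ := hG s hs3 hs2.le
    have h1 := ZZ_gain X P y hFG ht hκ hs3 p D
      (fun k hk a haJ l hl hl' => hs1 k (Finset.mem_range.2 hk) a haJ l hl hl')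
      (fun k hk a haJ e he => by
        rw [Finset.mem_Icc] at he
        have haA : a ∈ AA := hAAsub k hk haJ
        obtain ⟨e', rfl⟩ : ∃ e', e = e' + 1 := ⟨e - 1, by omega⟩
        have hepf : e' < p := by omega
        have h2 := hGr (⟨k, hk⟩, ⟨a, haA⟩, ⟨e', hepf⟩)
        have h3 := hr y hy hyh1 (⟨k, hk⟩, ⟨a, haA⟩, ⟨e', hepf⟩)
        rw [← h3] at h2
        exact Nat.cast_le.2 h2)
    have h2 := ekeland_gain X hE hcen.A_pos ht hκ hs3 p d hFG hGF hgood
    exact le_of_mul_le_mul_left (h1.trans h2) hs3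
  have hlim : t * Gam X F P y t (t * κ) p D ≤ ZZ F t κ * (d + ε * p) := by
    have hcont : Filter.Tendsto (fun s : ℝ => t * Real.exp (-t * (s * p)) *
        Gam X F P y t (t * κ) p D) (𝓝[>] (0 : ℝ)) (𝓝 (t * Real.exp (-t * (0 * p)) *
        Gam X F P y t (t * κ) p D)) := by
      have : Continuous (fun s : ℝ => t * Real.exp (-t * (s * p)) *
        Gam X F P y t (t * κ) p D) := by fun_prop
      exact this.continuousAt.tendsto.mono_left nhdsWithin_le_nhds
    have h1 := le_of_tendsto hcont hev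
    simpa using h1
  -- combination
  have hsplit := ZZ_split X F ht hκ D
  have h1 : (1 - e₁) * (d / (t * κ)) * (ZZ F t κ - 1 - tailN X (t * κ) D) ≤
      Gam X F P y t (t * κ) p D + p * (1 + tailN X (t * κ) D) := by
    refine le_trans (mul_le_mul_of_nonneg_left ?_
      (mul_nonneg (by linarith) (by positivity))) hcb
    linarith
  have h2 := mul_le_mul_of_nonneg_left h1 ht.le
  have h3 : t * ((1 - e₁) * (d / (t * κ)) * (ZZ F t κ - 1 - tailN X (t * κ) D)) =
      (1 - e₁) * (d / κ) * (ZZ F t κ - 1 - tailN X (t * κ) D) := by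
    field_simp
  rw [h3] at h2
  linarith

/-- the limit inequality -/
theorem ineq_lim (hP : PerturbStmt X) {F : Filt X.V} {A : ℝ} {P : Ideal X.B} {d : ℕ}
    (hd : 1 ≤ d) (hcen : Center X F A P d) {t κ ε e₁ : ℝ} (ht : 0 < t) (hκ : 0 < κ)
    (he₁' : e₁ ≤ 1) (hE : EkelandAt X F A ε t κ) {p : ℕ} (hp : 1 ≤ p)
    (hcount : CountAt X d e₁ (t * κ) p) :
    (1 - e₁) * (d / κ) * (ZZ F t κ - 1) ≤ ZZ F t κ * (d + ε * p) + t * p := by
  have h1 := tailN_tendsto X (t * κ)
  have h2 : Filter.Tendsto (fun D => (1 - e₁) * (d / κ) * (ZZ F t κ - 1 - tailN X (t * κ) D))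
      Filter.atTop (𝓝 ((1 - e₁) * (d / κ) * (ZZ F t κ - 1 - 0))) :=
    (h1.const_sub _).const_mul _
  have h3 : Filter.Tendsto (fun D => ZZ F t κ * (d + ε * p) + t * p * (1 + tailN X (t * κ) D))
      Filter.atTop (𝓝 (ZZ F t κ * (d + ε * p) + t * p * (1 + 0))) :=
    ((h1.const_add _).const_mul _).const_add _
  have h4 := le_of_tendsto_of_tendsto' h2 h3
    (fun D => ineq_D X hP hd hcen ht hκ he₁' hE hp hcount D)
  simpa using h4

theorem nonIsoStmt' (hg : GenFact X) (hP : PerturbStmt X) (hC : CountStmt X)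
    (hL : ZLarge X) : NonIsoStmt X := by
  intro κ hκ1 hκ2
  have hκ : 0 < κ := by linarith
  set e₁ : ℝ := (1 - κ) / 2 with he₁def
  have he₁ : 0 < e₁ := by rw [he₁def]; linarith
  have he₁' : e₁ ≤ 1 := by rw [he₁def]; linarith
  set g₀ : ℝ := (1 - e₁) / κ - 1 with hg₀def
  have hg₀ : 0 < g₀ := by
    rw [hg₀def, sub_pos, lt_div_iff₀ hκ, he₁def]
    linarith
  obtain ⟨τ₀, C₁, hτ₀, hC₁, hcount⟩ := uniform_count X hC he₁ n
  set Q : ℝ := C₁ / κ + 1 with hQ
  set K : ℝ := (2 / g₀) * ((1 + g₀) * n + Q) with hK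
  obtain ⟨t₁, ε₁, ht₁, hε₁, hlarge⟩ := hL κ hκ K
  refine ⟨min t₁ (min (τ₀ / κ) 1), lt_min ht₁ (lt_min (div_pos hτ₀ hκ) one_pos), ?_⟩
  intro t ht htt
  have htt1 : t ≤ t₁ := htt.trans (min_le_left _ _)
  have htt2 : t ≤ τ₀ / κ := htt.trans ((min_le_right _ _).trans (min_le_left _ _))
  have htt3 : t ≤ 1 := htt.trans ((min_le_right _ _).trans (min_le_right _ _))
  have hτ : 0 < t * κ := mul_pos ht hκ
  have hττ : t * κ ≤ τ₀ := by rwa [le_div_iff₀ hκ] at htt2
  set p : ℕ := ⌈C₁ / (t * κ)⌉₊ with hpdef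
  have hp : 1 ≤ p := Nat.one_le_iff_ne_zero.2 (Nat.ceil_pos.2 (div_pos hC₁ hτ)).ne'
  have hppos : (0 : ℝ) < p := by exact_mod_cast hp
  have hp1 : C₁ / (t * κ) ≤ p := Nat.le_ceil _
  have hp2 : (p : ℝ) < C₁ / (t * κ) + 1 := Nat.ceil_lt_add_one (div_pos hC₁ hτ).le
  have htp : t * p ≤ Q := by
    have h1 := mul_le_mul_of_nonneg_left hp2.le ht.le
    have h2 : t * (C₁ / (t * κ) + 1) = C₁ / κ + t := by field_simp
    rw [h2] at h1
    rw [hQ]; linarith
  refine ⟨min ε₁ (g₀ / (2 * p)), lt_min hε₁ (by positivity), ?_⟩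
  intro ε hε hεε F A hE P d hd hcen
  have hε1 : ε ≤ ε₁ := hεε.trans (min_le_left _ _)
  have hε2 : ε * p ≤ g₀ / 2 := by
    have h1 : ε ≤ g₀ / (2 * p) := hεε.trans (min_le_right _ _)
    have h2 := mul_le_mul_of_nonneg_right h1 hppos.le
    have h3 : g₀ / (2 * p) * p = g₀ / 2 := by field_simp
    rwa [h3] at h2
  have hdn : d < n := dim_lt X hg P hcen.prime hcen.ne_bot d hcen.dim
  have hgood : ∀ l : ℝ, Good X.z F X.x l → l ≤ A := hcen.good_le X.x hcen.le
  have hZK := hlarge t ht htt1 ε hε hε1 F A hcen.A_pos hgood hE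
  have hineq := ineq_lim X hP hd hcen ht hκ he₁' hE hp
    (hcount d hd hdn.le (t * κ) hτ hττ p hp1)
  set Z := ZZ F t κ with hZdef
  have hd1 : (1 : ℝ) ≤ d := by exact_mod_cast hd
  have hdn' : (d : ℝ) ≤ n := by exact_mod_cast hdn.le
  have hZ1 : 1 ≤ Z := one_le_ZZ X F ht hκ
  have h1 : (1 - e₁) * (d / κ) = (1 + g₀) * d := by
    rw [hg₀def]; field_simp; ring
  rw [h1] at hineq
  -- `g₀ d Z ≤ (1+g₀) d + ε p Z + t p`
  have h2 : (g₀ / 2) * Z ≤ (1 + g₀) * n + Q := by
    have h3 : ε * p * Z ≤ g₀ / 2 * Z := mul_le_mul_of_nonneg_right hε2 (by linarith)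
    have h4 : g₀ * Z ≤ g₀ * d * Z := by
      have : g₀ * 1 ≤ g₀ * d := mul_le_mul_of_nonneg_left hd1 hg₀.le
      have := mul_le_mul_of_nonneg_right this (by linarith : (0 : ℝ) ≤ Z)
      linarith
    have h5 : (1 + g₀) * d ≤ (1 + g₀) * n := mul_le_mul_of_nonneg_left hdn' (by linarith)
    nlinarith
  have h3 : K < Z := hZK
  have h4 : (g₀ / 2) * K = (1 + g₀) * n + Q := by
    rw [hK]; field_simp
  have h5 : (g₀ / 2) * K < (g₀ / 2) * Z := mul_lt_mul_of_pos_left h3 (by positivity)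
  linarith

end Crest.Agent.R271.N6x241
end
end

-- ▼ part R271/NMain_647
section

/-!
Row 271, team N: assembly of `NonIsoMain`.
-/

set_option autoImplicit false

noncomputable section

namespace Crest.Agent.R271.NMain647

open Crest.Agent.R271.Defs710 Crest.Agent.R271.Assembly710 Crest.Agent.R271.N647

variable {n : ℕ}

theorem limitStmt (X : FCtx n) : LimitStmt X := Limit647.limitStmt_of X (N91.matrixStmt X)

theorem perturbStmt (X : FCtx n) (af : AFacts X) : PerturbStmt X :=
  Perturb969.perturb X af (N2x161.p2Stmt af) N593.genFiltStmt (limitStmt X)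

theorem countStmt (X : FCtx n) (af : AFacts X) : CountStmt X := N857.countStmt X af.gen

/-- `NonIsoMain` from the numerical step (8.6)–(8.8) -/
theorem nonIsoMain_of
    (h : ∀ (n : ℕ) (X : FCtx n), 1 ≤ n → AFacts X → PerturbStmt X → CountStmt X → NonIsoStmt X) :
    NonIsoMain :=
  N0x710.nonIsoMain_of fun n X hn af => h n X hn af (perturbStmt X af) (countStmt X af)

theorem zLarge (X : FCtx n) (hn : 1 ≤ n) (af : AFacts X) : N6x241.ZLarge X :=
  fun κ hκ K => N6b593.zz_large X hn af κ hκ K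

theorem nonIsoStmt (X : FCtx n) (hn : 1 ≤ n) (af : AFacts X) : NonIsoStmt X :=
  N6x241.nonIsoStmt' X af.gen (perturbStmt X af) (countStmt X af) (zLarge X hn af)

/-- Part 8 -/
theorem nonIsoMain : NonIsoMain :=
  N0x710.nonIsoMain_of fun _ X hn af => nonIsoStmt X hn af

end Crest.Agent.R271.NMain647
end
end

-- ▼ part R271/Bridge1_713
section

/-!
Row 271, team B: B10, elementary scheme lemmas for the final assembly (helper713).
-/

set_option autoImplicit false

open AlgebraicGeometry Crest.AlgGeometry.Divisors Order CategoryTheory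
open Crest.Agent.R271.Defs710 Crest.Agent.R271.Ctx728 Crest.Agent.R271.Bs960
open scoped ENNReal

noncomputable section

namespace Crest.Agent.R271.Bridge713

theorem closedRed : ClosedRed := by
  intro X _ _ _ n hX x
  have hp := hX.2.1
  have hq : QuasiCompact (structureMorphism ℂ X) := inferInstance
  have hc : CompactSpace X := (quasiCompact_iff_compactSpace (structureMorphism ℂ X)).mp hq
  obtain ⟨x', hx', hcl⟩ := (isClosed_closure (s := ({x} : Set X))).exists_closed_singleton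
    ⟨x, subset_closure rfl⟩
  exact ⟨x', hcl, specializes_iff_mem_closure.mpr hx'⟩

section ord
variable {X : Scheme.{0}} [IsIntegral X] [IsLocallyNoetherian X]

lemma ord_eq_zero_of_unit_germ {U : X.Opens} [Nonempty U] {x : X} (hx : x ∈ U) (b : Γ(X, U))
    (hu : IsUnit (X.presheaf.germ U x hx b)) {z : X} (hz : z ⤳ x) :
    Scheme.ord (X.germToFunctionField U b) z = 0 := by
  have hxb : x ∈ X.basicOpen b := (Scheme.mem_basicOpen X b x hx).mpr hu
  have hzb : z ∈ X.basicOpen b := hz.mem_open (X.basicOpen b).isOpen hxb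
  have : Nonempty (X.basicOpen b) := ⟨⟨z, hzb⟩⟩
  have h1 : IsUnit (X.presheaf.map (homOfLE (X.basicOpen_le b)).op b) :=
    X.toRingedSpace.isUnit_res_basicOpen b
  have h2 := Scheme.ord_of_isUnit h1 hzb
  have h3 : X.germToFunctionField (X.basicOpen b)
      (X.presheaf.map (homOfLE (X.basicOpen_le b)).op b) = X.germToFunctionField U b := by
    unfold Scheme.germToFunctionField
    rw [X.presheaf.germ_res_apply]
  rwa [h3] at h2

lemma ord_one' (z : X) : Scheme.ord (1 : X.functionField) z = 0 := by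
  have h := Scheme.ord_mul (x := z) (one_ne_zero (α := X.functionField)) (one_ne_zero (α := X.functionField))
  rw [mul_one] at h
  omega

lemma ord_inv' {f : X.functionField} (hf : f ≠ 0) (z : X) :
    Scheme.ord f⁻¹ z = - Scheme.ord f z := by
  have h := Scheme.ord_mul (x := z) hf (inv_ne_zero hf)
  rw [mul_inv_cancel₀ hf, ord_one'] at h
  omega

lemma ord_pow' {f : X.functionField} (hf : f ≠ 0) (z : X) (k : ℕ) :
    Scheme.ord (f ^ k) z = k * Scheme.ord f z := by
  induction k with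
  | zero => simp [ord_one']
  | succ k ih =>
    rw [pow_succ, Scheme.ord_mul (pow_ne_zero k hf) hf, ih]
    push_cast
    ring

lemma ord_div' {f g : X.functionField} (hf : f ≠ 0) (hg : g ≠ 0) (z : X) :
    Scheme.ord (f / g) z = Scheme.ord f z - Scheme.ord g z := by
  rw [div_eq_mul_inv, Scheme.ord_mul hf (inv_ne_zero hg), ord_inv' hg]
  ring

end ord

end Crest.Agent.R271.Bridge713
end
end

-- ▼ part R271/Bridge2_713
section

/-!
Row 271, team B: B10, the final assembly `bridgeMain` (helper713).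
-/

set_option autoImplicit false

open AlgebraicGeometry Crest.AlgGeometry.Divisors Order CategoryTheory
open Crest.Agent.R271.Defs710 Crest.Agent.R271.Ctx728 Crest.Agent.R271.Bs960
open scoped ENNReal

noncomputable section

namespace Crest.Agent.R271.Bridge713

section closed

variable {X : Scheme.{0}} [Algebra ℂ Γ(X, ⊤)] [IsIntegral X] [IsLocallyNoetherian X]
  {n : ℕ} {L : WeilDiv X} {x : X} {P : PCtx n}

/-- the embedding of `B` into the function field -/
def psi (lk : PLink L x P) (Md : Model P) :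
    letI := fnFieldAlgebra ℂ X
    Md.X.B →ₐ[ℂ] X.functionField :=
  letI := fnFieldAlgebra ℂ X
  (lk.φ.toAlgHom.comp Md.Bs.val).comp Md.e.toAlgHom

lemma psi_apply (lk : PLink L x P) (Md : Model P) (b : Md.X.B) :
    letI := fnFieldAlgebra ℂ X
    psi lk Md b = lk.φ (Md.e b : P.K) := rfl

lemma psi_injective (lk : PLink L x P) (Md : Model P) :
    letI := fnFieldAlgebra ℂ X
    Function.Injective (psi lk Md) := by
  letI := fnFieldAlgebra ℂ X
  intro a b h
  rw [psi_apply, psi_apply] at h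
  exact Md.e.injective (Subtype.ext (lk.φ.injective h))

/-- functions in `A` not vanishing at `x` have no zeros or poles along divisors through `x` -/
lemma ord_A (lk : PLink L x P) (a : P.A) (ha : P.x a ≠ 0) {z : X} (hz : z ⤳ x) :
    letI := fnFieldAlgebra ℂ X
    Scheme.ord (lk.φ (a : P.K)) z = 0 := by
  letI := fnFieldAlgebra ℂ X
  haveI := lk.ne
  obtain ⟨b, hb⟩ := (lk.mem_A a).mp a.2
  rw [hb]
  exact ord_eq_zero_of_unit_germ lk.hx b (lk.x_iff a b hb ha) hz

lemma x_ne_zero_of_unit {n : ℕ} {P : PCtx n} (Md : Model P) {u : Md.X.B} (hu : IsUnit u) :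
    Md.X.x u ≠ 0 := (hu.map Md.X.x).ne_zero

lemma P_coe_ne_zero {a : P.A} (ha : P.x a ≠ 0) : (a : P.K) ≠ 0 := by
  intro h
  apply ha
  have : a = 0 := Subtype.ext h
  rw [this, map_zero]

/-- functions in `B` not vanishing at `x` have no zeros or poles along divisors through `x` -/
lemma ord_B (lk : PLink L x P) (Md : Model P) (u : Md.X.B) (hu : Md.X.x u ≠ 0) {z : X}
    (hz : z ⤳ x) :
    letI := fnFieldAlgebra ℂ X
    Scheme.ord (psi lk Md u) z = 0 := by
  letI := fnFieldAlgebra ℂ X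
  obtain ⟨N, hN⟩ := Md.loc (Md.e u : P.K) (Md.e u).2
  set a : P.A := ⟨(Md.e u : P.K) * (Md.h : P.K) ^ N, hN⟩ with ha
  have h1 : Md.e.symm ⟨(a : P.K), Md.A_le a.2⟩ =
      u * (Md.e.symm ⟨(Md.h : P.K), Md.A_le Md.h.2⟩) ^ N := by
    apply Md.e.injective
    apply Subtype.ext
    simp [ha]
  have h2 : P.x a = Md.X.x u * P.x Md.h ^ N := by
    rw [← Md.x_e a, h1, map_mul, map_pow, Md.x_e]
  have hxa : P.x a ≠ 0 := by
    rw [h2]
    exact mul_ne_zero hu (pow_ne_zero _ Md.x_h)
  have h3 := ord_A lk a hxa hz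
  have h4 := ord_A lk Md.h Md.x_h hz
  have hu0 : u ≠ 0 := by
    rintro rfl
    exact hu (map_zero _)
  have hpu : psi lk Md u ≠ 0 := fun h => hu0 (psi_injective lk Md (h.trans (map_zero _).symm))
  have hph : lk.φ (Md.h : P.K) ≠ 0 := by
    rw [Ne, map_eq_zero_iff _ lk.φ.injective]
    exact P_coe_ne_zero Md.x_h
  have h5 : lk.φ (a : P.K) = psi lk Md u * lk.φ (Md.h : P.K) ^ N := by
    rw [psi_apply, ha, map_mul, map_pow]
  rw [h5, Scheme.ord_mul hpu (pow_ne_zero _ hph), ord_pow' hph, h4] at h3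
  simpa using h3

end closed

end Crest.Agent.R271.Bridge713
end
end

-- ▼ part R271/Bridge3_713
section

/-!
Row 271, team B: B10, the chart `V = X_s ∩ {h ≠ 0}` with ring `B`, local frame at `x` (helper713).
-/

set_option autoImplicit false
set_option linter.style.haveILetI false

open AlgebraicGeometry Crest.AlgGeometry.Divisors Order CategoryTheory
open Crest.Agent.R271.Defs710 Crest.Agent.R271.Ctx728 Crest.Agent.R271.Bs960
open scoped ENNReal

noncomputable section

namespace Crest.Agent.R271.Bridge713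

section closed

variable {X : Scheme.{0}} [Algebra ℂ Γ(X, ⊤)] [IsIntegral X] [IsLocallyNoetherian X]
  {n : ℕ} {L : WeilDiv X} {x : X} {P : PCtx n}

omit [Algebra ℂ Γ(X, ⊤)] [IsLocallyNoetherian X] in
lemma germ_res_fn {U : X.Opens} [Nonempty U] (b a : Γ(X, U)) [Nonempty (X.basicOpen b)] :
    X.germToFunctionField (X.basicOpen b)
      (X.presheaf.map (homOfLE (X.basicOpen_le b)).op a) = X.germToFunctionField U a := by
  unfold Scheme.germToFunctionField
  rw [X.presheaf.germ_res_apply]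

/-- `B` is the ring of an affine open neighbourhood `V` of `x`. -/
theorem exists_chart (lk : PLink L x P) (Md : Model P) :
    letI := fnFieldAlgebra ℂ X
    ∃ (V : X.Opens) (_ : IsAffineOpen V) (_ : x ∈ V) (_ : Nonempty V),
      ∃ θ : Md.X.B ≃+* Γ(X, V),
        (∀ c : ℂ, θ (algebraMap ℂ Md.X.B c) =
          (letI := secAlg X V; algebraMap ℂ Γ(X, V) c)) ∧
        ∀ b, X.germToFunctionField V (θ b) = psi lk Md b := by
  letI := fnFieldAlgebra ℂ X
  haveI := lk.ne
  obtain ⟨bh, hbh⟩ := (lk.mem_A Md.h).mp Md.h.2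
  have hxV : x ∈ X.basicOpen bh := (Scheme.mem_basicOpen X bh x lk.hx).mpr
    (lk.x_iff Md.h bh hbh Md.x_h)
  haveI hne : Nonempty (X.basicOpen bh) := ⟨⟨x, hxV⟩⟩
  have hV : IsAffineOpen (X.basicOpen bh) := lk.hU.basicOpen bh
  refine ⟨X.basicOpen bh, hV, hxV, hne, ?_⟩
  letI := secAlg X (X.basicOpen bh)
  have ht := tower_sec_fn X (X.basicOpen bh)
  let γ : Γ(X, X.basicOpen bh) →ₐ[ℂ] X.functionField :=
    IsScalarTower.toAlgHom ℂ Γ(X, X.basicOpen bh) X.functionField
  have hγ : ∀ s, γ s = X.germToFunctionField (X.basicOpen bh) s := fun s => rfl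
  have hγinj : Function.Injective γ := X.germToFunctionField_injective (X.basicOpen bh)
  have hψinj := psi_injective lk Md
  have hφh : lk.φ (Md.h : P.K) ≠ 0 := by
    rw [Ne, map_eq_zero_iff _ lk.φ.injective]
    exact P_coe_ne_zero Md.x_h
  have hh : (Md.h : P.K) ≠ 0 := P_coe_ne_zero Md.x_h
  have hrange : (psi lk Md).range = γ.range := by
    apply le_antisymm
    · rintro _ ⟨b, rfl⟩
      obtain ⟨N, hN⟩ := Md.loc (Md.e b : P.K) (Md.e b).2
      obtain ⟨a, ha⟩ := (lk.mem_A _).mp hN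
      obtain ⟨u, hu⟩ : IsUnit (X.presheaf.map (homOfLE (X.basicOpen_le bh)).op bh) :=
        X.toRingedSpace.isUnit_res_basicOpen bh
      refine ⟨X.presheaf.map (homOfLE (X.basicOpen_le bh)).op a * ((u⁻¹ : Units _) : _) ^ N, ?_⟩
      have h1 : γ (X.presheaf.map (homOfLE (X.basicOpen_le bh)).op a) =
          psi lk Md b * lk.φ (Md.h : P.K) ^ N := by
        rw [hγ, germ_res_fn, ← ha, map_mul, map_pow]
        rfl
      have h2 : γ (u : Γ(X, X.basicOpen bh)) = lk.φ (Md.h : P.K) := by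
        rw [hu, hγ, germ_res_fn, ← hbh]
      have h3 : γ ((u⁻¹ : Units _) : Γ(X, X.basicOpen bh)) = (lk.φ (Md.h : P.K))⁻¹ := by
        refine eq_inv_of_mul_eq_one_left ?_
        rw [← h2, ← map_mul, Units.inv_mul, map_one]
      change γ _ = psi lk Md b
      rw [map_mul, map_pow, h1, h3, mul_assoc, ← mul_pow, mul_inv_cancel₀ hφh, one_pow, mul_one]
    · rintro _ ⟨s, rfl⟩
      haveI := lk.hU.isLocalization_basicOpen bh
      obtain ⟨⟨a, d⟩, had⟩ := IsLocalization.surj (Submonoid.powers bh) s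
      obtain ⟨N, hN⟩ := d.2
      have h1 : γ s * lk.φ (Md.h : P.K) ^ N = X.germToFunctionField lk.U a := by
        have h2 := congrArg γ had
        rw [map_mul] at h2
        have h3 : γ (algebraMap Γ(X, lk.U) Γ(X, X.basicOpen bh) a) =
            X.germToFunctionField lk.U a := by
          rw [hγ]; exact germ_res_fn bh a
        have h4 : γ (algebraMap Γ(X, lk.U) Γ(X, X.basicOpen bh) d) =
            lk.φ (Md.h : P.K) ^ N := by
          rw [hγ, ← hN]
          refine (germ_res_fn bh _).trans ?_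
          rw [map_pow, ← hbh]
        rw [h3, h4] at h2
        exact h2
      have ha : lk.φ.symm (X.germToFunctionField lk.U a) ∈ P.A :=
        (lk.mem_A _).mpr ⟨a, by simp⟩
      have hmem : lk.φ.symm (X.germToFunctionField lk.U a) * ((Md.h : P.K)⁻¹) ^ N ∈ Md.Bs :=
        Md.Bs.mul_mem (Md.A_le ha) (Md.Bs.pow_mem Md.h_inv N)
      refine ⟨Md.e.symm ⟨_, hmem⟩, ?_⟩
      change psi lk Md _ = γ s
      rw [psi_apply]
      simp only [AlgEquiv.apply_symm_apply, map_mul, map_pow, map_inv₀]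
      rw [← h1, mul_assoc, ← mul_pow, mul_inv_cancel₀ hφh, one_pow, mul_one]
  let θ : Md.X.B ≃ₐ[ℂ] Γ(X, X.basicOpen bh) :=
    ((AlgEquiv.ofInjective (psi lk Md) hψinj).trans (Subalgebra.equivOfEq _ _ hrange)).trans
      (AlgEquiv.ofInjective γ hγinj).symm
  refine ⟨θ.toRingEquiv, fun c => θ.commutes c, fun b => ?_⟩
  have h5 : γ (θ b) = psi lk Md b := by
    have h6 : (AlgEquiv.ofInjective γ hγinj) (θ b) =
        (Subalgebra.equivOfEq _ _ hrange) (AlgEquiv.ofInjective (psi lk Md) hψinj b) := by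
      simp [θ]
    have h7 := congrArg Subtype.val h6
    simpa using h7
  exact h5

/-- the differentials of the coordinates of `B` are a basis of `Ω[K⁄ℂ]` and a local frame at every
point specialising to `x` -/
theorem exists_frame (lk : PLink L x P) (Md : Model P) :
    letI := fnFieldAlgebra ℂ X
    ∃ b' : Module.Basis (Fin n) X.functionField (Ω[X.functionField⁄ℂ]),
      (∀ i, b' i = KaehlerDifferential.D ℂ X.functionField (psi lk Md (Md.X.z i))) ∧
      ∀ z : X, z ⤳ x → IsLocalFrameAt ℂ X z ⇑b' := by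
  letI := fnFieldAlgebra ℂ X
  obtain ⟨V, hV, hxV, hne, θ, hθ1, hθ2⟩ := exists_chart lk Md
  haveI := hne
  letI := secAlg X V
  letI : Algebra Md.X.B Γ(X, V) := θ.toRingHom.toAlgebra
  have htow : IsScalarTower ℂ Md.X.B Γ(X, V) := IsScalarTower.of_algebraMap_eq fun c =>
    (hθ1 c).symm
  haveI : IsLocalization.Away (1 : Md.X.B) Γ(X, V) :=
    IsLocalization.away_of_isUnit_of_bijective _ isUnit_one θ.bijective
  have hE : ECoord Md.X.z := Md.X.etale
  have hE2 : ECoord (fun i => algebraMap Md.X.B Γ(X, V) (Md.X.z i)) := hE.away 1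
  obtain ⟨b, hb1, hb2⟩ := frame_of_etale X hV (fun i => algebraMap Md.X.B Γ(X, V) (Md.X.z i)) hE2.fe
  refine ⟨b, fun i => ?_, fun z hz => hb2 z (hz.mem_open V.isOpen hxV)⟩
  rw [hb1]
  congr 1
  exact hθ2 _

end closed

end Crest.Agent.R271.Bridge713
end
end

-- ▼ part R271/Bridge4_713
section

/-!
Row 271, team B: B10, the final assembly `bridgeMain` (helper713).
-/

set_option autoImplicit false
set_option linter.style.haveILetI false

open AlgebraicGeometry Crest.AlgGeometry.Divisors Order CategoryTheory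
open Crest.Agent.R271.Defs710 Crest.Agent.R271.Ctx728 Crest.Agent.R271.Bs960
open scoped ENNReal

noncomputable section

namespace Crest.Agent.R271.Bridge713

theorem main_closed (hO : OrdersProp) (X : Scheme.{0}) [Algebra ℂ Γ(X, ⊤)] [IsIntegral X]
    [IsLocallyNoetherian X] (n : ℕ) (hn : 1 ≤ n) (hX : IsSmoothProperVariety ℂ X n)
    (L : WeilDiv X) (K : WeilDiv X) (hK : IsCanonicalDivisor ℂ X n K)
    (m : ℕ) (x : X) (P : PCtx n) (lk : PLink L x P) (Md : Model P)
    (hG : GlobalOut Md.X m) :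
    ∃ f : X.functionField, IsSection (K + m • L) f ∧ NonvanishingAt (K + m • L) f x := by
  letI := fnFieldAlgebra ℂ X
  obtain ⟨F, hFx, hfin⟩ := hG
  have hψinj := psi_injective lk Md
  letI : Algebra Md.X.B X.functionField := (psi lk Md).toRingHom.toAlgebra
  have hψ : ∀ b, algebraMap Md.X.B X.functionField b = psi lk Md b := fun b => rfl
  haveI htow : IsScalarTower ℂ Md.X.B X.functionField :=
    IsScalarTower.of_algebraMap_eq fun c => ((psi lk Md).commutes c).symm
  haveI hfaith : FaithfulSMul Md.X.B X.functionField :=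
    (faithfulSMul_iff_algebraMap_injective _ _).mpr hψinj
  haveI hfr : IsFractionRing Md.X.B X.functionField := by
    refine IsFractionRing.of_field (R := Md.X.B) (K := X.functionField) fun u => ?_
    obtain ⟨a, b, hb, hab⟩ := P.frac (lk.φ.symm u)
    refine ⟨Md.e.symm ⟨(a : P.K), Md.A_le a.2⟩, Md.e.symm ⟨(b : P.K), Md.A_le b.2⟩, ?_⟩
    rw [hψ, hψ, psi_apply, psi_apply]
    simp only [AlgEquiv.apply_symm_apply]
    have hb' : lk.φ (b : P.K) ≠ 0 := by
      rwa [Ne, map_eq_zero_iff _ lk.φ.injective]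
    rw [eq_div_iff hb', ← hab, map_mul, AlgEquiv.apply_symm_apply]
  obtain ⟨b', hb', hframe⟩ := exists_frame lk Md
  obtain ⟨ω, ⟨b0, hb0⟩, hω⟩ := hK
  have hcoef : ∀ b, ω.coef b ≠ 0 := by
    intro b h
    apply hb0
    rw [← ω.law b0 b, h, zero_mul]
  set G : X.functionField := lk.φ Md.g with hGdef
  have hG0 : G ≠ 0 := by
    rw [hGdef, Ne, map_eq_zero_iff _ lk.φ.injective]
    exact Md.g_ne
  have hF0 : F ≠ 0 := by
    rintro rfl
    exact hFx (map_zero _)
  have hpF : psi lk Md F ≠ 0 := fun h => hF0 (hψinj (h.trans (map_zero _).symm))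
  have hf0 : psi lk Md F * G ^ m * (ω.coef b')⁻¹ ≠ 0 :=
    mul_ne_zero (mul_ne_zero hpF (pow_ne_zero _ hG0)) (inv_ne_zero (hcoef b'))
  have hordf : ∀ z : X, Scheme.ord (psi lk Md F * G ^ m * (ω.coef b')⁻¹) z =
      Scheme.ord (psi lk Md F) z + m * Scheme.ord G z - Scheme.ord (ω.coef b') z := by
    intro z
    rw [Scheme.ord_mul (mul_ne_zero hpF (pow_ne_zero _ hG0)) (inv_ne_zero (hcoef b')),
      Scheme.ord_mul hpF (pow_ne_zero _ hG0), ord_pow' hG0, ord_inv' (hcoef b')]
    ring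
  refine ⟨psi lk Md F * G ^ m * (ω.coef b')⁻¹, ⟨hf0, fun z => ?_⟩, fun z hz => ?_⟩
  · -- section
    have hY : ∀ j, Md.X.Y j ≠ 0 → (Md.X.k : ℤ) * (-(L z + Scheme.ord G z.1)) ≤
        Scheme.ord (algebraMap Md.X.B X.functionField (Md.X.Y j)) z.1 := by
      intro j hj
      have h1 : ((Md.e (Md.X.Y j) : P.K)) * Md.g ^ Md.X.k ∈ P.R Md.X.k :=
        (Md.V_e _ _).mp (Md.X.Y_mem j)
      have hpY : psi lk Md (Md.X.Y j) ≠ 0 := fun h => hj (hψinj (h.trans (map_zero _).symm))
      have h2 : lk.φ ((Md.e (Md.X.Y j) : P.K) * Md.g ^ Md.X.k) =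
          psi lk Md (Md.X.Y j) * G ^ Md.X.k := by
        rw [map_mul, map_pow, psi_apply]
      have h3 := (lk.mem_R _ _ h1 (by
        rw [h2]; exact mul_ne_zero hpY (pow_ne_zero _ hG0))).2 z
      rw [h2, Scheme.ord_mul hpY (pow_ne_zero _ hG0), ord_pow' hG0, Finsupp.smul_apply,
        nsmul_eq_mul] at h3
      rw [hψ]
      linarith
    obtain ⟨b, hbf, hle⟩ := hO X n hn hX Md.X b' (fun j => hb' j) m F hF0 hfin z _ hY
    have hKz := hω z b hbf
    have hlaw := ω.law b b'
    have hdet : (b.toMatrix b').det ≠ 0 := by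
      intro h
      apply hcoef b
      rw [← hlaw, h, mul_zero]
    have h4 : Scheme.ord (ω.coef b) z.1 = Scheme.ord (ω.coef b') z.1 +
        Scheme.ord (b.toMatrix b').det z.1 := by
      rw [← hlaw, Scheme.ord_mul (hcoef b') hdet]
    rw [hordf, Finsupp.add_apply, Finsupp.smul_apply, nsmul_eq_mul, hKz, h4]
    rw [hψ] at hle
    linarith
  · -- non-vanishing at `x`
    have h1 : Scheme.ord (psi lk Md F) z.1 = 0 := ord_B lk Md F hFx hz
    have h2 := ord_B lk Md _ (x_ne_zero_of_unit Md Md.s_unit) hz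
    have hs0 : lk.φ P.s ≠ 0 := by
      rw [Ne, map_eq_zero_iff _ lk.φ.injective]
      exact P.s_ne
    have h3 : psi lk Md (Md.e.symm ⟨P.s / Md.g ^ P.q, Md.R_B _ _ P.s_mem⟩) =
        lk.φ P.s / G ^ P.q := by
      rw [psi_apply]
      simp [hGdef]
    rw [h3, ord_div' hs0 (pow_ne_zero _ hG0), ord_pow' hG0] at h2
    have h5 := lk.s_nv z hz
    rw [Finsupp.smul_apply, nsmul_eq_mul] at h5
    have hq : (P.q : ℤ) ≠ 0 := by
      have := P.q_pos
      omega
    have h6 : Scheme.ord G z.1 + L z = 0 := by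
      have : (P.q : ℤ) * (Scheme.ord G z.1 + L z) = 0 := by linarith
      exact (mul_eq_zero.mp this).resolve_left hq
    have hKz := hω z b' (hframe z.1 hz)
    rw [hordf, Finsupp.add_apply, Finsupp.smul_apply, nsmul_eq_mul, hKz, h1]
    have h7 : (m : ℤ) * Scheme.ord G z.1 + m * L z = 0 := by rw [← mul_add, h6, mul_zero]
    linarith

/-- FINAL ASSEMBLY OF THE BRIDGE (B10) -/
theorem bridgeMain_of (hP : PctxProp) (hM : ModelProp) (hO : OrdersProp) : BridgeMain := by
  intro hGO X _ _ _ n hn hX L hL K hK m hm x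
  obtain ⟨x', hcl, hxx'⟩ := closedRed X n hX x
  obtain ⟨P, ⟨lk⟩⟩ := hP X n hn hX L hL x' hcl
  obtain ⟨Md⟩ := hM n P hn
  obtain ⟨f, hf1, hf2⟩ := main_closed hO X n hn hX L K hK m x' P lk Md (hGO n Md.X hn m hm)
  exact ⟨f, hf1, fun z hz => hf2 z (hz.trans hxx')⟩

end Crest.Agent.R271.Bridge713
end
end

-- ▼ part R271/Bs1_960
section

set_option autoImplicit false
set_option linter.style.haveILetI false
set_option linter.unusedSectionVars false

open AlgebraicGeometry Crest.AlgGeometry.Divisors Order CategoryTheory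

noncomputable section

namespace Crest.Agent.R271.Bs960

/-- local equation of a prime divisor and factorisation of rational functions along it -/
theorem exists_local_eq {A R K : Type} [CommRing A] [IsDomain A] [CommRing R] [IsDomain R]
    [IsDiscreteValuationRing R] [Ring.KrullDimLE 1 R] [Field K] [Algebra A R] [Algebra A K]
    [Algebra R K] [IsScalarTower A R K] [IsFractionRing R K] (p : Ideal A) [p.IsPrime]
    [IsLocalization.AtPrime R p] :
    ∃ t ∈ p, t ≠ 0 ∧ ∀ f : K, f ≠ 0 → ∃ (a : ℤ) (u v : A), u ∉ p ∧ v ∉ p ∧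
      f * algebraMap A K v = algebraMap A K t ^ a * algebraMap A K u ∧
      Ring.ordFrac R f = WithZero.exp a := by
  obtain ⟨ϖ, hϖ⟩ := IsDiscreteValuationRing.exists_irreducible R
  obtain ⟨⟨t, s⟩, hts⟩ := IsLocalization.surj p.primeCompl ϖ
  have hs : IsUnit (algebraMap A R s) := IsLocalization.map_units R s
  have htirr : Irreducible (algebraMap A R t) := by
    have h1 : Associated ϖ (algebraMap A R t) := ⟨hs.unit, hts⟩
    exact h1.irreducible hϖ
  have htK : algebraMap R K (algebraMap A R t) = algebraMap A K t :=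
    (IsScalarTower.algebraMap_apply A R K t).symm
  have hinjRK : Function.Injective (algebraMap R K) := IsFractionRing.injective R K
  have ht0 : algebraMap A K t ≠ 0 := by
    rw [← htK]
    exact (map_ne_zero_iff _ hinjRK).2 htirr.ne_zero
  refine ⟨t, ?_, ?_, ?_⟩
  · by_contra h
    exact htirr.not_isUnit (IsLocalization.map_units R (⟨t, h⟩ : p.primeCompl))
  · rintro rfl
    simp at ht0
  · intro f hf
    have hof : Ring.ordFrac R f ≠ 0 := (map_ne_zero _).2 hf
    obtain ⟨a, ha⟩ : ∃ a : ℤ, Ring.ordFrac R f = WithZero.exp a :=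
      ⟨_, (WithZero.exp_log hof).symm⟩
    have hot : Ring.ordFrac R (algebraMap A K t) = WithZero.exp 1 := by
      rw [← htK]
      exact Ring.ordFrac_irreducible htirr
    have h1 : Ring.ordFrac R f = Ring.ordFrac R (algebraMap A K t ^ a) := by
      rw [map_zpow₀, hot, ha, ← WithZero.exp_zsmul]
      simp
    obtain ⟨U, hU⟩ := Ring.associated_of_ordFrac_eq (R := R) _ _ h1
    obtain ⟨⟨u, v⟩, huv⟩ := IsLocalization.surj p.primeCompl ((U⁻¹ : Rˣ) : R)
    simp only at huv
    have hv : IsUnit (algebraMap A R v) := IsLocalization.map_units R v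
    have hu : IsUnit (algebraMap A R u) := by
      rw [← huv]
      exact (U⁻¹).isUnit.mul hv
    have hf2 : f = algebraMap R K ((U⁻¹ : Rˣ) : R) * algebraMap A K t ^ a := by
      rw [← hU, Units.smul_def, Algebra.smul_def, ← mul_assoc, ← map_mul, Units.inv_mul, map_one,
        one_mul]
    refine ⟨a, u, v, (IsLocalization.AtPrime.isUnit_to_map_iff R p u).1 hu, v.2, ?_, ha⟩
    have h3 := congrArg (algebraMap R K) huv
    rw [map_mul, ← IsScalarTower.algebraMap_apply, ← IsScalarTower.algebraMap_apply] at h3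
    rw [hf2, ← h3]
    ring

/-- closed points of `V(p)` outside `V(h)` -/
theorem exists_point {A : Type} [CommRing A] [Algebra ℂ A] [Algebra.FiniteType ℂ A] (p : Ideal A)
    [hp : p.IsPrime] (h : A) (hh : h ∉ p) :
    ∃ y : A →ₐ[ℂ] ℂ, (∀ a ∈ p, y a = 0) ∧ y h ≠ 0 := by
  have hJ : IsJacobsonRing A := isJacobsonRing_of_finiteType (A := ℂ)
  have h1 : p.jacobson = p := hJ.out hp.isRadical
  have h2 : h ∉ p.jacobson := by rwa [h1]
  rw [Ideal.jacobson, Ideal.mem_sInf] at h2
  push Not at h2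
  obtain ⟨m, ⟨hpm, hm⟩, hhm⟩ := h2
  obtain ⟨y, hy⟩ := UFD243.exists_ev A m
  refine ⟨y, fun a ha => ?_, fun hy0 => hhm ?_⟩
  · have : a ∈ RingHom.ker y := by rw [hy]; exact hpm ha
    exact this
  · rw [← hy]; exact hy0

section scheme

variable (X : Scheme.{0}) [Algebra ℂ Γ(X, ⊤)] [IsIntegral X] [IsLocallyNoetherian X]

/-- Local model of `X` at a prime divisor `z`: étale chart, local equation, factorisation of
rational functions. -/
theorem exists_factor {V : X.Opens} (hV : IsAffineOpen V) [Nonempty V] (z : PrimeDivisor X)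
    (hz : z.1 ∈ V) [IsDiscreteValuationRing (X.presheaf.stalk z.1)] :
    ∃ t ∈ (hV.primeIdealOf ⟨z.1, hz⟩).asIdeal, t ≠ 0 ∧ ∀ f : X.functionField, f ≠ 0 →
      ∃ u v : Γ(X, V), u ∉ (hV.primeIdealOf ⟨z.1, hz⟩).asIdeal ∧
        v ∉ (hV.primeIdealOf ⟨z.1, hz⟩).asIdeal ∧
        f * algebraMap Γ(X, V) X.functionField v =
          algebraMap Γ(X, V) X.functionField t ^ (Scheme.ord f z.1) *
            algebraMap Γ(X, V) X.functionField u := by
  letI : Algebra Γ(X, V) (X.presheaf.stalk z.1) := (X.presheaf.germ V z.1 hz).hom.toAlgebra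
  have hloc : IsLocalization.AtPrime (X.presheaf.stalk z.1) (hV.primeIdealOf ⟨z.1, hz⟩).asIdeal :=
    hV.isLocalization_stalk ⟨z.1, hz⟩
  have hk : Ring.KrullDimLE 1 (X.presheaf.stalk z.1) := krullDimLE_of_coheight_le z.2.le
  have ht : IsScalarTower Γ(X, V) (X.presheaf.stalk z.1) X.functionField :=
    functionField_isScalarTower X V ⟨z.1, hz⟩
  obtain ⟨t, ht1, ht2, h⟩ := exists_local_eq (A := Γ(X, V)) (R := X.presheaf.stalk z.1)
    (K := X.functionField) (hV.primeIdealOf ⟨z.1, hz⟩).asIdeal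
  refine ⟨t, ht1, ht2, fun f hf => ?_⟩
  obtain ⟨a, u, v, hu, hv, h1, h2⟩ := h f hf
  have h3 : Scheme.ord f z.1 = a := by
    rw [Scheme.ord_eq_iff z.2 hf]
    exact h2
  rw [h3]
  exact ⟨u, v, hu, hv, h1⟩

end scheme

end Crest.Agent.R271.Bs960
end
end

-- ▼ part R271/Bs2_960
section

set_option autoImplicit false
set_option linter.style.haveILetI false
set_option linter.unusedSectionVars false

open AlgebraicGeometry Crest.AlgGeometry.Divisors Order CategoryTheory
open Crest.Agent.R271.Defs710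
open scoped ENNReal

noncomputable section

namespace Crest.Agent.R271.Bs960

/-- order exactly `a` (helper741's `OrdAt`) -/
def OrdAt' {A K : Type} [CommRing A] [Algebra ℂ A] [Field K] [Algebra A K]
    (y : A →ₐ[ℂ] ℂ) (t : A) (f : K) (a : ℤ) : Prop :=
  ∃ u v : A, y u ≠ 0 ∧ y v ≠ 0 ∧ f * algebraMap A K v = algebraMap A K t ^ a * algebraMap A K u

/-- order at least `a` (helper741's `OrdGe`) -/
def OrdGe' {A K : Type} [CommRing A] [Algebra ℂ A] [Field K] [Algebra A K]
    (y : A →ₐ[ℂ] ℂ) (t : A) (f : K) (a : ℤ) : Prop :=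
  ∃ u v : A, y v ≠ 0 ∧ f * algebraMap A K v = algebraMap A K t ^ a * algebraMap A K u

/-- statement of helper741's `boundary` -/
def BoundaryStmt : Prop :=
  ∀ {n : ℕ} (X : FCtx n) {K : Type} [Field K] [Algebra ℂ K] [Algebra X.B K]
    [IsScalarTower ℂ X.B K] [IsFractionRing X.B K]
    {A : Type} [CommRing A] [IsDomain A] [Algebra ℂ A] (_hA : Algebra.FiniteType ℂ A)
    [Algebra A K] [IsScalarTower ℂ A K] [IsFractionRing A K]
    (w : Fin n → A) (_hw : RingHom.Etale ((MvPolynomial.aeval w : MvPolynomial (Fin n) ℂ →ₐ[ℂ] A) :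
      MvPolynomial (Fin n) ℂ →+* A)) (y : A →ₐ[ℂ] ℂ)
    (t : A) (_ht : y t = 0) (_ht0 : t ≠ 0) (b b' : Module.Basis (Fin n) K (Ω[K⁄ℂ]))
    (_hb : ∀ j, b j = KaehlerDifferential.D ℂ K (algebraMap A K (w j)))
    (_hb' : ∀ j, b' j = KaehlerDifferential.D ℂ K (algebraMap X.B K (X.z j)))
    (m : ℕ) (F : X.B) (a c e : ℤ) (_hF : OrdAt' y t (algebraMap X.B K F) a)
    (_hJ : OrdAt' y t (b.toMatrix b').det c)
    (_hY : ∀ j, OrdGe' y t (algebraMap X.B K (X.Y j)) (X.k * e))
    (_hfin : lintM X.z (fun y => ENNReal.ofReal (‖y F‖ ^ 2) *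
      (ENNReal.ofReal (∑ j, ‖y (X.Y j)‖ ^ 2)) ^ (-((m : ℝ) / X.k))) < ∞), 0 ≤ a + c - m * e

section scheme

variable (X : Scheme.{0}) [Algebra ℂ Γ(X, ⊤)] [IsIntegral X] [IsLocallyNoetherian X]

/-- **Scheme form of the boundary lemma (10.4).** -/
theorem orders_nonneg (hbd : BoundaryStmt) {n : ℕ} (hX : IsSmoothProperVariety ℂ X n)
    (P : FCtx n) [Algebra P.B X.functionField]
    (htow : letI := fnFieldAlgebra ℂ X; IsScalarTower ℂ P.B X.functionField)
    [IsFractionRing P.B X.functionField] :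
    letI := fnFieldAlgebra ℂ X
    ∀ (b' : Module.Basis (Fin n) X.functionField (Ω[X.functionField⁄ℂ]))
    (_hb' : ∀ j, b' j =
      KaehlerDifferential.D ℂ X.functionField (algebraMap P.B X.functionField (P.z j)))
    (m : ℕ) (F : P.B) (_hF0 : F ≠ 0)
    (_hfin : lintM P.z (fun y => ENNReal.ofReal (‖y F‖ ^ 2) *
      (ENNReal.ofReal (∑ j, ‖y (P.Y j)‖ ^ 2)) ^ (-((m : ℝ) / P.k))) < ∞)
    (z : PrimeDivisor X) (e : ℤ)
    (_hY : ∀ j, P.Y j = 0 ∨
      P.k * e ≤ Scheme.ord (algebraMap P.B X.functionField (P.Y j)) z.1),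
    ∃ b : Module.Basis (Fin n) X.functionField (Ω[X.functionField⁄ℂ]),
      IsLocalFrameAt ℂ X z.1 ⇑b ∧ (b.toMatrix b').det ≠ 0 ∧
      0 ≤ Scheme.ord (algebraMap P.B X.functionField F) z.1 +
        Scheme.ord (b.toMatrix b').det z.1 - m * e := by
  letI := fnFieldAlgebra ℂ X
  intro b' hb' m F hF0 hfin z e hY
  obtain ⟨V, hV, hzV, w, hw⟩ := exists_etale_chart hX z.1
  letI := secAlg X V
  have hne : Nonempty V := ⟨⟨z.1, hzV⟩⟩
  have hdvr : IsDiscreteValuationRing (X.presheaf.stalk z.1) := UFD243.dvr_stalk X hX z.1 z.2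
  have hft : Algebra.FiniteType ℂ Γ(X, V) :=
    UFD243.finiteType_of_etale (MvPolynomial.aeval w : MvPolynomial (Fin n) ℂ →ₐ[ℂ] Γ(X, V)) hw
  have htw := tower_sec_fn X V
  have hfr := functionField_isFractionRing_of_isAffineOpen X V hV
  obtain ⟨b, hb, hbf⟩ := frame_of_etale X hV w (ECoord.fe hw)
  obtain ⟨t, htp, ht0, hfac⟩ := exists_factor X hV z hzV
  have hdet : (b.toMatrix b').det ≠ 0 := by
    have h1 := congrArg Matrix.det (b.toMatrix_mul_toMatrix_flip b')
    rw [Matrix.det_mul, Matrix.det_one] at h1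
    exact left_ne_zero_of_mul_eq_one h1
  set p := (hV.primeIdealOf ⟨z.1, hzV⟩).asIdeal with hp
  have hFK : algebraMap P.B X.functionField F ≠ 0 := by
    rw [map_ne_zero_iff _ (IsFractionRing.injective P.B X.functionField)]
    exact hF0
  obtain ⟨uF, vF, huF, hvF, hF⟩ := hfac _ hFK
  obtain ⟨uJ, vJ, huJ, hvJ, hJ⟩ := hfac _ hdet
  have hYfac : ∀ j, ∃ u v : Γ(X, V), v ∉ p ∧
      algebraMap P.B X.functionField (P.Y j) * algebraMap Γ(X, V) X.functionField v =
        algebraMap Γ(X, V) X.functionField t ^ (P.k * e) *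
          algebraMap Γ(X, V) X.functionField u := by
    intro j
    rcases hY j with h0 | h0
    · exact ⟨0, 1, fun h => (hV.primeIdealOf ⟨z.1, hzV⟩).2.ne_top
        ((Ideal.eq_top_iff_one _).2 h), by rw [h0]; simp⟩
    · by_cases h1 : P.Y j = 0
      · exact ⟨0, 1, fun h => (hV.primeIdealOf ⟨z.1, hzV⟩).2.ne_top
          ((Ideal.eq_top_iff_one _).2 h), by rw [h1]; simp⟩
      have h2 : algebraMap P.B X.functionField (P.Y j) ≠ 0 := by
        rw [map_ne_zero_iff _ (IsFractionRing.injective P.B X.functionField)]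
        exact h1
      obtain ⟨u, v, hu, hv, h3⟩ := hfac _ h2
      obtain ⟨k, hk⟩ := Int.eq_ofNat_of_zero_le (sub_nonneg.2 h0)
      have htK : algebraMap Γ(X, V) X.functionField t ≠ 0 := by
        rw [map_ne_zero_iff _ (IsFractionRing.injective Γ(X, V) X.functionField)]
        exact ht0
      refine ⟨t ^ k * u, v, hv, ?_⟩
      rw [h3, map_mul, map_pow, ← mul_assoc, ← zpow_natCast, ← zpow_add₀ htK]
      congr 2
      omega
  choose uY vY hvY hYe using hYfac
  have hprod : (uF * vF * uJ * vJ * ∏ j, vY j) ∉ p := by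
    have hpp : p.IsPrime := (hV.primeIdealOf ⟨z.1, hzV⟩).2
    refine hpp.mul_notMem (hpp.mul_notMem (hpp.mul_notMem (hpp.mul_notMem huF hvF) huJ) hvJ) ?_
    rw [hpp.prod_mem_iff]
    rintro ⟨j, -, hj⟩
    exact hvY j hj
  obtain ⟨y, hy0, hyn⟩ := exists_point p _ hprod
  simp only [map_mul, map_prod, mul_ne_zero_iff, Finset.prod_ne_zero_iff] at hyn
  obtain ⟨⟨⟨⟨hy1, hy2⟩, hy3⟩, hy4⟩, hy5⟩ := hyn
  refine ⟨b, hbf z.1 hzV, hdet, ?_⟩
  exact hbd P hft w hw y t (hy0 t htp) ht0 b b' hb hb' m F _ _ e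
    ⟨uF, vF, hy1, hy2, hF⟩ ⟨uJ, vJ, hy3, hy4, hJ⟩
    (fun j => ⟨uY j, vY j, hy5 j (Finset.mem_univ j), hYe j⟩) hfin

end scheme

end Crest.Agent.R271.Bs960
end
end

-- ▼ part R271/Bs3_960
section

set_option autoImplicit false
set_option linter.style.haveILetI false

open AlgebraicGeometry Crest.AlgGeometry.Divisors Order CategoryTheory
open Crest.Agent.R271.Defs710
open scoped ENNReal

noncomputable section

namespace Crest.Agent.R271.Bs960

theorem ordersProp_of (hbd : BoundaryStmt) : Bridge713.OrdersProp := by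
  intro X _ _ _ n hn hX C _
  letI := fnFieldAlgebra ℂ X
  intro htow _ b' hb' m F hF hfin z e hY
  obtain ⟨b, h1, h2, h3⟩ := orders_nonneg X hbd hX C htow b' hb' m F hF hfin z e
    (fun j => (em (C.Y j = 0)).imp id (fun h => hY j h))
  exact ⟨b, h1, h3⟩

end Crest.Agent.R271.Bs960
end
end

-- ▼ part R271/Bs4_960

set_option autoImplicit false

open AlgebraicGeometry Crest.AlgGeometry.Divisors Order CategoryTheory
open Crest.Agent.R271.Defs710
open scoped ENNReal

noncomputable section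

namespace Crest.Agent.R271.Bs960

theorem boundaryStmt : BoundaryStmt := by
  intro n X K _ _ _ _ _ A _ _ _ hA _ _ _ w hw y t ht ht0 b b' hb hb' m F a c e hF hJ hY hfin
  exact Bd741.boundary X hA w hw y t ht ht0 b b' hb hb' m F a c e hF hJ hY hfin

theorem ordersProp : Bridge713.OrdersProp := ordersProp_of boundaryStmt

end Crest.Agent.R271.Bs960
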