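import Mathlib
import Crest.Agent.R271.C5a_756

-- ▼ part R271/C5b_756
section

/-!
Row 271 (S0413), Part 11.6 (C5): field theory (primitive element among linear combinations, bounded
denominators of integral elements).
-/

set_option autoImplicit false
set_option maxHeartbeats 400000

namespace Crest.Agent.R271.C5_756

open Polynomial IntermediateField

section ft

variable {k R F L : Type*} [Field k] [Infinite k] [CommRing R] [IsDomain R]
  [IsIntegrallyClosed R] [Field F] [CharZero F] [Field L] [Algebra k L] [Algebra R F]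
  [IsFractionRing R F] [Algebra R L] [Algebra F L] [IsScalarTower R F L]
  [Algebra k F] [IsScalarTower k F L] {N : ℕ}

/-- a primitive element among the `k`-linear combinations of generators -/
theorem exists_linear_primitive (w : Fin N → L) [FiniteDimensional F L]
    (hgen : IntermediateField.adjoin F (Set.range w) = ⊤) :
    ∃ c : Fin N → k, F⟮∑ j, c j • w j⟯ = ⊤ := by
  classical
  by_contra hcon
  push Not at hcon
  have hfin : Finite (IntermediateField F L) :=
    Field.finite_intermediateField_of_exists_primitive_element F L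
      (Field.exists_primitive_element F L)
  let p : {M : IntermediateField F L // M ≠ ⊤} → Subspace k (Fin N → k) := fun M =>
    { carrier := {c | ∑ j, c j • w j ∈ M.1}
      add_mem' := by
        intro a b ha hb
        have : ∑ j, (a + b) j • w j = ∑ j, a j • w j + ∑ j, b j • w j := by
          rw [← Finset.sum_add_distrib]
          exact Finset.sum_congr rfl fun j _ => by rw [Pi.add_apply, add_smul]
        show ∑ j, (a + b) j • w j ∈ M.1
        rw [this]
        exact add_mem ha hb
      zero_mem' := by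
        show ∑ j, (0 : Fin N → k) j • w j ∈ M.1
        simp
      smul_mem' := by
        intro r a ha
        have : ∑ j, (r • a) j • w j = algebraMap F L (algebraMap k F r) * ∑ j, a j • w j := by
          rw [Finset.mul_sum]
          refine Finset.sum_congr rfl fun j _ => ?_
          rw [Pi.smul_apply, smul_eq_mul, mul_smul, ← IsScalarTower.algebraMap_apply,
            ← Algebra.smul_def]
        show ∑ j, (r • a) j • w j ∈ M.1
        rw [this]
        exact mul_mem (M.1.algebraMap_mem _) ha }
  have hcov : ⋃ M, (p M : Set (Fin N → k)) = Set.univ := by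
    rw [Set.eq_univ_iff_forall]
    intro c
    rw [Set.mem_iUnion]
    exact ⟨⟨_, hcon c⟩, IntermediateField.mem_adjoin_simple_self F _⟩
  obtain ⟨M, hM⟩ := Subspace.exists_eq_top_of_iUnion_eq_univ hcov
  apply M.2
  refine top_le_iff.1 (hgen.symm.le.trans (IntermediateField.adjoin_le_iff.2 ?_))
  rintro _ ⟨j, rfl⟩
  have : Pi.single j (1 : k) ∈ p M := by rw [hM]; trivial
  have h2 : ∑ i, (Pi.single j (1 : k) : Fin N → k) i • w i ∈ M.1 := this
  have h3 : ∑ i, (Pi.single j (1 : k) : Fin N → k) i • w i = w j := by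
    rw [Finset.sum_eq_single j]
    · simp
    · intro i _ hij
      rw [Pi.single_eq_of_ne hij, zero_smul]
    · intro h; exact absurd (Finset.mem_univ _) h
  rwa [h3] at h2

theorem ft1 (w : Fin N → L) (hw : ∀ i, IsIntegral R (w i))
    (hk : ∀ (c : k) (z : L), IsIntegral R z → IsIntegral R (c • z))
    (hgen : IntermediateField.adjoin F (Set.range w) = ⊤) :
    ∃ (c : Fin N → k) (D : ℕ), 0 < D ∧ FiniteDimensional F L ∧
      (∀ r : Fin D → R, ∑ i, algebraMap R L (r i) * (∑ j, c j • w j) ^ (i : ℕ) = 0 →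
        ∀ i, r i = 0) ∧
      ∃ δ : R, δ ≠ 0 ∧ ∀ z : L, IsIntegral R z → ∃ r : Fin D → R,
        algebraMap R L δ * z = ∑ i, algebraMap R L (r i) * (∑ j, c j • w j) ^ (i : ℕ) := by
  classical
  have hwF : ∀ i, IsIntegral F (w i) := fun i => (hw i).tower_top
  have hfd : FiniteDimensional F L := by
    have h1 : FiniteDimensional F (IntermediateField.adjoin F (Set.range w)) :=
      IntermediateField.finiteDimensional_adjoin (by rintro _ ⟨i, rfl⟩; exact hwF i)
    rw [hgen] at h1
    exact IntermediateField.topEquiv.toLinearEquiv.finiteDimensional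
  obtain ⟨c, hc⟩ := exists_linear_primitive (k := k) w hgen
  set ℓ : L := ∑ j, c j • w j with hℓ
  have hℓint : IsIntegral R ℓ := IsIntegral.sum _ fun j _ => hk _ _ (hw j)
  have hℓF : IsIntegral F ℓ := hℓint.tower_top
  let B : PowerBasis F L := (IntermediateField.adjoin.powerBasis hℓF).map
    ((IntermediateField.equivOfEq hc).trans IntermediateField.topEquiv)
  have hgenB : B.gen = ℓ := by
    simp [B]
  refine ⟨c, B.dim, ?_, hfd, ?_, ?_⟩
  · exact B.dim_pos
  · intro r hr i
    have h1 : ∑ i, algebraMap R F (r i) • B.basis i = 0 := by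
      rw [← hr]
      refine Finset.sum_congr rfl fun i _ => ?_
      rw [B.basis_eq_pow, hgenB, Algebra.smul_def, ← IsScalarTower.algebraMap_apply]
    have h2 := (Fintype.linearIndependent_iff.1 B.basis.linearIndependent) _ h1 i
    exact (IsFractionRing.injective R F) (by rw [h2, map_zero])
  · have hsep : Algebra.IsSeparable F L := inferInstance
    have hbi : ∀ i, IsIntegral R (B.basis i) := by
      intro i
      rw [B.basis_eq_pow, hgenB]
      exact hℓint.pow _
    have hδ0 : Algebra.discr F B.basis ≠ 0 := Algebra.discr_not_zero_of_basis F B.basis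
    obtain ⟨δ, hδ⟩ := IsIntegrallyClosed.algebraMap_eq_of_integral
      (Algebra.discr_isIntegral F hbi)
    refine ⟨δ, ?_, ?_⟩
    · rintro rfl
      rw [map_zero] at hδ
      exact hδ0 hδ.symm
    · intro z hz
      have h1 := Algebra.discr_mul_isIntegral_mem_adjoin F (B := B) (by rw [hgenB]; exact hℓint) hz
      rw [hgenB, ← hδ, algebraMap_smul, Algebra.smul_def] at h1
      obtain ⟨p, hp⟩ := (Algebra.adjoin_singleton_eq_range_aeval R ℓ ▸ h1 :
        algebraMap R L δ * z ∈ (Polynomial.aeval ℓ : R[X] →ₐ[R] L).range)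
      have hmon : (minpoly R ℓ).Monic := minpoly.monic hℓint
      have hdeg : (minpoly R ℓ).natDegree = B.dim := by
        have e1 : minpoly F ℓ = (minpoly R ℓ).map (algebraMap R F) :=
          minpoly.isIntegrallyClosed_eq_field_fractions F L hℓint
        rw [← hmon.natDegree_map (algebraMap R F), ← e1, ← hgenB, B.natDegree_minpoly]
      have hd0 : 0 < (minpoly R ℓ).natDegree := by rw [hdeg]; exact B.dim_pos
      let r := p %ₘ minpoly R ℓ
      have hr1 : Polynomial.aeval ℓ r = algebraMap R L δ * z := by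
        rw [← hp]
        exact Polynomial.aeval_modByMonic_eq_self_of_root (minpoly.aeval R ℓ)
      have hr2 : r.natDegree < B.dim := by
        rw [← hdeg]
        refine natDegree_modByMonic_lt p hmon ?_
        intro h
        rw [h, natDegree_one] at hd0
        exact lt_irrefl _ hd0
      refine ⟨fun i => r.coeff i, ?_⟩
      rw [← hr1, Polynomial.aeval_eq_sum_range' hr2, Finset.sum_range]
      exact Finset.sum_congr rfl fun i _ => by rw [Algebra.smul_def]

end ft

section ft2

universe u

variable {k S : Type u} [Field k] [CharZero k] [CommRing S] [IsDomain S] [Algebra k S]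

omit [CharZero k] [IsDomain S] in
theorem isIntegral_of_adjoin {e : ℕ} (y : Fin e → S) (hy : AlgebraicIndependent k y) (z : S)
    (hz : IsIntegral (Algebra.adjoin k (Set.range y)) z) :
    (MvPolynomial.aeval y : MvPolynomial (Fin e) k →ₐ[k] S).toRingHom.IsIntegralElem z := by
  obtain ⟨p, hp, hp0⟩ := hz
  refine ⟨p.map hy.aevalEquiv.symm.toRingHom, hp.map _, ?_⟩
  rw [Polynomial.eval₂_map]
  have : (MvPolynomial.aeval y : MvPolynomial (Fin e) k →ₐ[k] S).toRingHom.comp
      hy.aevalEquiv.symm.toRingHom = algebraMap (Algebra.adjoin k (Set.range y)) S := by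
    ext a
    obtain ⟨b, rfl⟩ := hy.aevalEquiv.surjective a
    show MvPolynomial.aeval y (hy.aevalEquiv.symm (hy.aevalEquiv b)) = _
    rw [AlgEquiv.symm_apply_apply, hy.algebraMap_aevalEquiv]
  rw [this]
  exact hp0

theorem ft2 {e N : ℕ} (y : Fin e → S) (hy : AlgebraicIndependent k y) (w : Fin N → S)
    (hw : ∀ i, IsIntegral (Algebra.adjoin k (Set.range y)) (w i))
    (hgen : ∀ E : Subfield (FractionRing S),
      (∀ c : k, algebraMap S (FractionRing S) (algebraMap k S c) ∈ E) →
      (∀ i, algebraMap S (FractionRing S) (w i) ∈ E) →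
      ∀ s : S, algebraMap S (FractionRing S) s ∈ E) :
    ∃ (c : Fin N → k) (D : ℕ), 0 < D ∧
      (∀ r : Fin D → MvPolynomial (Fin e) k,
        ∑ i, MvPolynomial.aeval y (r i) * (∑ j, c j • w j) ^ (i : ℕ) = 0 → ∀ i, r i = 0) ∧
      (∃ δ : MvPolynomial (Fin e) k, δ ≠ 0 ∧
        ∀ z : S, IsIntegral (Algebra.adjoin k (Set.range y)) z →
          ∃ r : Fin D → MvPolynomial (Fin e) k, MvPolynomial.aeval y δ * z =
            ∑ i, MvPolynomial.aeval y (r i) * (∑ j, c j • w j) ^ (i : ℕ)) ∧
      Algebra.trdeg k S = e := by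
  classical
  let _ : Algebra (MvPolynomial (Fin e) k) S := (MvPolynomial.aeval y : (MvPolynomial (Fin e) k) →ₐ[k] S).toRingHom.toAlgebra
  have : IsScalarTower k (MvPolynomial (Fin e) k) S := IsScalarTower.of_algebraMap_eq (fun c => by
    show _ = MvPolynomial.aeval y (MvPolynomial.C c)
    rw [MvPolynomial.aeval_C])
  have : FaithfulSMul (MvPolynomial (Fin e) k) S := (faithfulSMul_iff_algebraMap_injective (MvPolynomial (Fin e) k) S).2 hy
  let _ : Algebra (FractionRing (MvPolynomial (Fin e) k)) (FractionRing S) := FractionRing.liftAlgebra (MvPolynomial (Fin e) k) (FractionRing S)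
  have : IsScalarTower (MvPolynomial (Fin e) k) (FractionRing (MvPolynomial (Fin e) k)) (FractionRing S) := FractionRing.isScalarTower_liftAlgebra (MvPolynomial (Fin e) k) (FractionRing S)
  have : IsScalarTower k (FractionRing (MvPolynomial (Fin e) k)) (FractionRing S) := IsScalarTower.to₁₃₄ k (MvPolynomial (Fin e) k) (FractionRing (MvPolynomial (Fin e) k)) (FractionRing S)
  have : CharZero (FractionRing (MvPolynomial (Fin e) k)) := algebraRat.charZero (FractionRing (MvPolynomial (Fin e) k))
  have hwR : ∀ i, IsIntegral (MvPolynomial (Fin e) k) (algebraMap S (FractionRing S) (w i)) := fun i =>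
    IsIntegral.algebraMap (A := S) (isIntegral_of_adjoin y hy _ (hw i) : IsIntegral (MvPolynomial (Fin e) k) (w i))
  have hk : ∀ (c : k) (z : (FractionRing S)), IsIntegral (MvPolynomial (Fin e) k) z → IsIntegral (MvPolynomial (Fin e) k) (c • z) := by
    intro c z hz
    have : c • z = algebraMap (MvPolynomial (Fin e) k) (FractionRing S) (algebraMap k (MvPolynomial (Fin e) k) c) * z := by
      rw [← IsScalarTower.algebraMap_apply, Algebra.smul_def]
    rw [this]
    exact isIntegral_algebraMap.mul hz
  have hgen' : IntermediateField.adjoin (FractionRing (MvPolynomial (Fin e) k)) (Set.range fun i => algebraMap S (FractionRing S) (w i)) = ⊤ := by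
    rw [eq_top_iff]
    intro z _
    obtain ⟨a, b, hb, rfl⟩ := IsFractionRing.div_surjective (A := S) z
    have h1 : ∀ s : S, algebraMap S (FractionRing S) s ∈
        (IntermediateField.adjoin (FractionRing (MvPolynomial (Fin e) k)) (Set.range fun i => algebraMap S (FractionRing S) (w i))).toSubfield := by
      refine hgen _ ?_ ?_
      · intro c
        have : algebraMap S (FractionRing S) (algebraMap k S c) = algebraMap (FractionRing (MvPolynomial (Fin e) k)) (FractionRing S) (algebraMap k (FractionRing (MvPolynomial (Fin e) k)) c) := by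
          rw [← IsScalarTower.algebraMap_apply, ← IsScalarTower.algebraMap_apply]
        rw [this]
        exact (IntermediateField.adjoin (FractionRing (MvPolynomial (Fin e) k)) (Set.range fun i => algebraMap S (FractionRing S) (w i))).algebraMap_mem _
      · intro i
        exact IntermediateField.subset_adjoin (FractionRing (MvPolynomial (Fin e) k)) _ ⟨i, rfl⟩
    exact div_mem (h1 a) (h1 b)
  obtain ⟨c, D, hD, hfd, hind, δ, hδ, hint⟩ :=
    ft1 (k := k) (R := (MvPolynomial (Fin e) k)) (F := (FractionRing (MvPolynomial (Fin e) k))) (L := (FractionRing S)) (fun i => algebraMap S (FractionRing S) (w i)) hwR hk hgen'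
  have hmap : ∑ j, c j • algebraMap S (FractionRing S) (w j) = algebraMap S (FractionRing S) (∑ j, c j • w j) := by
    rw [map_sum]
    refine Finset.sum_congr rfl fun j _ => ?_
    rw [Algebra.smul_def, Algebra.smul_def, map_mul, ← IsScalarTower.algebraMap_apply]
  have hsum : ∀ r : Fin D → (MvPolynomial (Fin e) k), ∑ i, algebraMap (MvPolynomial (Fin e) k) (FractionRing S) (r i) *
      (∑ j, c j • algebraMap S (FractionRing S) (w j)) ^ (i : ℕ)
      = algebraMap S (FractionRing S) (∑ i, MvPolynomial.aeval y (r i) * (∑ j, c j • w j) ^ (i : ℕ)) := by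
    intro r
    rw [map_sum, hmap]
    refine Finset.sum_congr rfl fun j _ => ?_
    rw [map_mul, map_pow]
    rfl
  refine ⟨c, D, hD, ?_, ⟨δ, hδ, ?_⟩, ?_⟩
  · intro r hr
    refine hind r ?_
    rw [hsum, hr, map_zero]
  · intro z hz
    obtain ⟨r, hr⟩ := hint (algebraMap S (FractionRing S) z)
      (IsIntegral.algebraMap (A := S) (isIntegral_of_adjoin y hy _ hz : IsIntegral (MvPolynomial (Fin e) k) z))
    refine ⟨r, IsFractionRing.injective S (FractionRing S) ?_⟩
    rw [hsum] at hr
    rw [← hr, map_mul]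
    rfl
  · have halg : Algebra.IsAlgebraic (MvPolynomial (Fin e) k) S := by
      refine ⟨fun s => ?_⟩
      have h1 : IsAlgebraic (FractionRing (MvPolynomial (Fin e) k)) (algebraMap S (FractionRing S) s) := Algebra.IsAlgebraic.isAlgebraic _
      have h2 : IsAlgebraic (MvPolynomial (Fin e) k) (algebraMap S (FractionRing S) s) := (IsFractionRing.isAlgebraic_iff (MvPolynomial (Fin e) k) (FractionRing (MvPolynomial (Fin e) k)) (FractionRing S)).2 h1
      exact (isAlgebraic_algebraMap_iff (IsFractionRing.injective S (FractionRing S))).1 h2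
    have h1 := trdeg_add_eq k (MvPolynomial (Fin e) k) (A := S)
    rw [trdeg_eq_zero_iff.2 halg, add_zero] at h1
    rw [← h1]
    rw [MvPolynomial.trdeg_of_isDomain]
    simp

end ft2

end Crest.Agent.R271.C5_756
end

-- ▼ part R271/C5c_756
section

/-!
Row 271 (S0413), Part 11.6 (C5): the Hilbert function of a graded algebra along multiples of `m`.
-/

set_option autoImplicit false
set_option maxHeartbeats 400000

namespace Crest.Agent.R271.C5_756

open Polynomial

universe u

/-- a graded family of subspaces of sections on a domain `C` -/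
structure GD {k C : Type u} [Field k] [CommRing C] [Algebra k C] (W : ℕ → Submodule k C)
    (k0 Q : ℕ) : Prop where
  one : (1 : C) ∈ W 0
  mul : ∀ m l a b, a ∈ W m → b ∈ W l → a * b ∈ W (m + l)
  fin : ∀ m, (W m).FG
  bpf : ∀ m, k0 ≤ m → ∃ f ∈ W m, f ≠ 0
  gen : ∃ S : Set C, Algebra.adjoin k S = ⊤ ∧
    ∀ b ∈ S, ∃ p ≤ Q, ∃ g ∈ W p, g ≠ 0 ∧ b * g ∈ W p
  int : ∀ m, k0 ≤ m → ∀ q, ∀ f ∈ W (q * m),
    IsIntegral (Algebra.adjoin k ((fun w => (monomial 1 w : C[X])) '' (W m : Set C)))
      (monomial q f : C[X])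

section lemmas

variable {k S : Type*} [Field k] [CommRing S] [Algebra k S]

/-- transitivity of integrality -/
theorem isIntegral_trans' {A : Subalgebra k S} {T : Set S} (hT : ∀ t ∈ T, IsIntegral A t) {z : S}
    (hz : IsIntegral (Algebra.adjoin k T) z) : IsIntegral A z := by
  have hle : Algebra.adjoin k T ≤ (integralClosure A S).restrictScalars k :=
    Algebra.adjoin_le fun t ht => hT t ht
  have h1 : IsIntegral (integralClosure A S) z :=
    IsIntegral.map_of_comp_eq (R := Algebra.adjoin k T) (S := S) (T := integralClosure A S) (U := S)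
      (Subalgebra.inclusion hle).toRingHom (RingHom.id S) (by ext x; rfl) hz
  exact isIntegral_trans z h1

end lemmas

section hom

variable {k C : Type u} [Field k] [CommRing C] [Algebra k C]

theorem aeval_mem {W : ℕ → Submodule k C} {k0 Q : ℕ} (h : GD W k0 Q) {m e : ℕ} (t : Fin e → C)
    (ht : ∀ j, t j ∈ W m) (n : ℕ) (F : MvPolynomial (Fin e) k) (hF : F.IsHomogeneous n) :
    MvPolynomial.aeval t F ∈ W (n * m) := by
  classical
  rw [MvPolynomial.aeval_def, MvPolynomial.eval₂_eq']
  refine Submodule.sum_mem _ fun d hd => ?_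
  have hr : ∑ i, d i = n := by
    have := hF (MvPolynomial.mem_support_iff.1 hd)
    rw [Finsupp.weight_apply, Finsupp.sum_fintype] at this
    · simpa using this
    · simp
  rw [← Algebra.smul_def]
  refine Submodule.smul_mem _ _ ?_
  have hpow : ∀ (j : Fin e) (a : ℕ), t j ^ a ∈ W (a * m) := by
    intro j a
    induction a with
    | zero => simpa using h.one
    | succ a ih =>
      rw [pow_succ, Nat.succ_mul]
      exact h.mul _ _ _ _ ih (ht j)
  have h1 : ∀ s : Finset (Fin e), ∏ i ∈ s, t i ^ d i ∈ W ((∑ i ∈ s, d i) * m) := by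
    intro s
    induction s using Finset.induction_on with
    | empty => simpa using h.one
    | insert a s ha ih =>
      rw [Finset.prod_insert ha, Finset.sum_insert ha, add_mul]
      exact h.mul _ _ _ _ (hpow _ _) ih
  rw [← hr]
  exact h1 _

theorem pow_mem' {W : ℕ → Submodule k C} {k0 Q : ℕ} (h : GD W k0 Q) {m : ℕ} {l : C}
    (hl : l ∈ W m) (a : ℕ) : l ^ a ∈ W (a * m) := by
  induction a with
  | zero => simpa using h.one
  | succ a ih =>
    rw [pow_succ, Nat.succ_mul]
    exact h.mul _ _ _ _ ih hl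

theorem pow_eval {e : ℕ} (t : Fin e → C) (l : C) (n i q : ℕ) (hi : n + i = q)
    (F : MvPolynomial (Fin e) k) (hF : F.IsHomogeneous n) :
    MvPolynomial.aeval (fun j => (monomial 1 (t j) : C[X])) F * (monomial 1 l : C[X]) ^ i
      = monomial q (MvPolynomial.aeval t F * l ^ i) := by
  rw [aeval_monomial_one t F n hF, monomial_pow, monomial_mul_monomial, one_mul, hi]

end hom

section main

variable {k C : Type u} [Field k] [CharZero k] [CommRing C] [IsDomain C] [Algebra k C]

omit [CharZero k] in
theorem GD.hgen {W : ℕ → Submodule k C} {k0 Q : ℕ} (h : GD W k0 Q) {m : ℕ} (hm : k0 + Q ≤ m)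
    {N : ℕ} (x : Fin N → C) (hx : Submodule.span k (Set.range x) = W m)
    (E : Subfield (FractionRing C[X]))
    (hk : ∀ c : k, algebraMap C[X] (FractionRing C[X]) (algebraMap k C[X] c) ∈ E)
    (hE : ∀ i, algebraMap C[X] (FractionRing C[X]) (monomial 1 (x i)) ∈ E) (s : C[X]) :
    algebraMap C[X] (FractionRing C[X]) s ∈ E := by
  have hinj := IsFractionRing.injective C[X] (FractionRing C[X])
  have hW : ∀ v ∈ W m, algebraMap C[X] (FractionRing C[X]) (monomial 1 v) ∈ E := by
    intro v hv
    rw [← hx] at hv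
    induction hv using Submodule.span_induction with
    | mem v hv => obtain ⟨i, rfl⟩ := hv; exact hE i
    | zero => simp
    | add v w _ _ h1 h2 => rw [map_add, map_add]; exact add_mem h1 h2
    | smul c v _ h1 =>
      have : (monomial 1 (c • v) : C[X]) = algebraMap k C[X] c * monomial 1 v := by
        rw [Polynomial.algebraMap_apply, C_mul_monomial, ← Algebra.smul_def]
      rw [this, map_mul]
      exact mul_mem (hk c) h1
  obtain ⟨S, hS, hS2⟩ := h.gen
  have hC : ∀ c : C, algebraMap C[X] (FractionRing C[X]) (Polynomial.C c) ∈ E := by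
    intro c
    have hc : c ∈ Algebra.adjoin k S := by rw [hS]; trivial
    induction hc using Algebra.adjoin_induction with
    | mem b hb =>
      obtain ⟨p, hp, g, hg, hg0, hbg⟩ := hS2 b hb
      obtain ⟨w, hw, hw0⟩ := h.bpf (m - p) (by omega)
      have e1 : p + (m - p) = m := by omega
      have h1 : g * w ∈ W m := by
        have := h.mul _ _ _ _ hg hw
        rwa [e1] at this
      have h2 : b * g * w ∈ W m := by
        have := h.mul _ _ _ _ hbg hw
        rwa [e1] at this
      have hne : algebraMap C[X] (FractionRing C[X]) (monomial 1 (g * w)) ≠ 0 := by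
        rw [Ne, map_eq_zero_iff _ hinj, monomial_eq_zero_iff]
        exact mul_ne_zero hg0 hw0
      have e2 : algebraMap C[X] (FractionRing C[X]) (Polynomial.C b)
          = algebraMap C[X] (FractionRing C[X]) (monomial 1 (b * g * w)) /
            algebraMap C[X] (FractionRing C[X]) (monomial 1 (g * w)) := by
        rw [eq_div_iff hne, ← map_mul, C_mul_monomial, mul_assoc]
      rw [e2]
      exact div_mem (hW _ h2) (hW _ h1)
    | algebraMap r => exact hk r
    | add a b _ _ h1 h2 => rw [map_add, map_add]; exact add_mem h1 h2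
    | mul a b _ _ h1 h2 => rw [map_mul, map_mul]; exact mul_mem h1 h2
  have hX : algebraMap C[X] (FractionRing C[X]) X ∈ E := by
    obtain ⟨w, hw, hw0⟩ := h.bpf m (by omega)
    have hne : algebraMap C[X] (FractionRing C[X]) (Polynomial.C w) ≠ 0 := by
      rw [Ne, map_eq_zero_iff _ hinj, Polynomial.C_eq_zero]
      exact hw0
    have e2 : algebraMap C[X] (FractionRing C[X]) X
        = algebraMap C[X] (FractionRing C[X]) (monomial 1 w) /
          algebraMap C[X] (FractionRing C[X]) (Polynomial.C w) := by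
      rw [eq_div_iff hne, ← map_mul, mul_comm, C_mul_X_eq_monomial]
    rw [e2]
    exact div_mem (hW _ hw) (hC _)
  induction s using Polynomial.induction_on' with
  | add p q h1 h2 => rw [map_add]; exact add_mem h1 h2
  | monomial n a =>
    rw [← C_mul_X_pow_eq_monomial, map_mul, map_pow]
    exact mul_mem (hC _) (pow_mem hX _)

/-- The output of Noether normalisation and of the primitive element theorem. -/
theorem GD.data {W : ℕ → Submodule k C} {k0 Q : ℕ} (h : GD W k0 Q) {m : ℕ} (hm : k0 + Q ≤ m) :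
    ∃ (e D s : ℕ) (t : Fin e → C) (l : C), 0 < D ∧ (∀ j, t j ∈ W m) ∧ l ∈ W m ∧
      Algebra.trdeg k C + 1 = e ∧
      (∀ (r : Fin D → MvPolynomial (Fin e) k) (q : ℕ),
        (∀ i : Fin D, (r i).IsHomogeneous (q - i)) → (∀ i : Fin D, q < i → r i = 0) →
        ∑ i, MvPolynomial.aeval t (r i) * l ^ (i : ℕ) = 0 → ∀ i, r i = 0) ∧
      (∃ a : C, a ≠ 0 ∧ ∀ q, D ≤ q → ∀ f ∈ W (q * m), ∃ r : Fin D → MvPolynomial (Fin e) k,
        (∀ i : Fin D, (r i).IsHomogeneous (q + s - i)) ∧
        a * f = ∑ i, MvPolynomial.aeval t (r i) * l ^ (i : ℕ)) := by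
  classical
  obtain ⟨N, x, hx⟩ := Submodule.fg_iff_exists_fin_generating_family.1 (h.fin m)
  obtain ⟨e, t, ht1, ht2, ht3⟩ := nn (k := k) N x
  rw [hx] at ht1
  obtain ⟨c, D, hD, hind, ⟨δ, hδ, hint⟩, htr⟩ := ft2 (fun j => (monomial 1 (t j) : C[X])) ht2
    (fun i => monomial 1 (x i)) ht3 (fun E hk hE s => h.hgen hm x hx E hk hE s)
  have hsum : ∑ j, c j • (monomial 1 (x j) : C[X]) = monomial 1 (∑ j, c j • x j) := by
    rw [map_sum]
    exact Finset.sum_congr rfl fun j _ => by rw [smul_monomial]
  obtain ⟨l, hl⟩ : ∃ l, l = ∑ j, c j • x j := ⟨_, rfl⟩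
  rw [hsum, ← hl] at hind hint
  have hlW : l ∈ W m := by
    rw [← hx, hl]
    exact Submodule.sum_mem _ fun j _ => Submodule.smul_mem _ _ (Submodule.subset_span ⟨j, rfl⟩)
  -- choice of a nonzero homogeneous component of `δ`
  obtain ⟨s, hs⟩ : ∃ s, MvPolynomial.homogeneousComponent s δ ≠ 0 := by
    by_contra hcon
    push Not at hcon
    apply hδ
    rw [← MvPolynomial.sum_homogeneousComponent δ]
    exact Finset.sum_eq_zero fun i _ => hcon i
  have ha : MvPolynomial.aeval t (MvPolynomial.homogeneousComponent s δ) ≠ 0 := by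
    intro h0
    apply hs
    apply ht2
    rw [map_zero, aeval_monomial_one t _ s (MvPolynomial.homogeneousComponent_isHomogeneous s δ),
      h0, map_zero]
  have hWint : ∀ v ∈ W m, IsIntegral (Algebra.adjoin k (Set.range fun j =>
      (monomial 1 (t j) : C[X]))) (monomial 1 v : C[X]) := by
    intro v hv
    rw [← hx] at hv
    induction hv using Submodule.span_induction with
    | mem v hv => obtain ⟨i, rfl⟩ := hv; exact ht3 i
    | zero => rw [map_zero]; exact isIntegral_zero
    | add v w _ _ h1 h2 => rw [map_add]; exact h1.add h2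
    | smul c v _ h1 =>
      have e1 : (monomial 1 (c • v) : C[X]) = algebraMap (Algebra.adjoin k (Set.range fun j =>
          (monomial 1 (t j) : C[X]))) C[X] (algebraMap k _ c) * monomial 1 v := by
        rw [← IsScalarTower.algebraMap_apply, Polynomial.algebraMap_apply, C_mul_monomial,
          ← Algebra.smul_def]
      rw [e1]
      exact isIntegral_algebraMap.mul h1
  refine ⟨e, D, s, t, l, hD, ht1, hlW, ?_, ?_, _, ha, ?_⟩
  · have h1 := trdeg_add_eq k C (A := C[X])
    rw [Polynomial.trdeg_of_isDomain, htr] at h1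
    exact h1
  · intro r q hr hr0 hsum0
    apply hind
    have e1 : ∑ i : Fin D, MvPolynomial.aeval (fun j => (monomial 1 (t j) : C[X])) (r i) *
        (monomial 1 l : C[X]) ^ (i : ℕ)
        = monomial q (∑ i : Fin D, MvPolynomial.aeval t (r i) * l ^ (i : ℕ)) := by
      rw [map_sum]
      refine Finset.sum_congr rfl fun i _ => ?_
      by_cases hi : q < i
      · rw [hr0 i hi]; simp
      · exact pow_eval t l (q - i) i q (by omega) _ (hr i)
    rw [e1, hsum0, map_zero]
  · intro q hq f hf
    have hz : IsIntegral (Algebra.adjoin k (Set.range fun j => (monomial 1 (t j) : C[X])))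
        (monomial q f : C[X]) :=
      isIntegral_trans' (by rintro _ ⟨v, hv, rfl⟩; exact hWint v hv) (h.int m (by omega) q f hf)
    obtain ⟨r, hr⟩ := hint _ hz
    refine ⟨fun i => MvPolynomial.homogeneousComponent (q + s - i) (r i),
      fun i => MvPolynomial.homogeneousComponent_isHomogeneous _ _, ?_⟩
    have h1 := congrArg (fun p => Polynomial.coeff p (s + q)) hr
    simp only [finsetSum_coeff] at h1
    rw [coeff_mul_monomial, coeff_aeval_monomial_one] at h1
    rw [h1]
    refine Finset.sum_congr rfl fun i _ => ?_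
    have hi : s + q = (q + s - i) + i := by have := i.2; omega
    rw [monomial_pow, one_mul, hi, coeff_mul_monomial, coeff_aeval_monomial_one]

end main

end Crest.Agent.R271.C5_756
end

-- ▼ part R271/C5d_756
section

/-!
Row 271 (S0413), Part 11.6 (C5): numerical bounds for the Hilbert function.
-/

set_option autoImplicit false
set_option maxHeartbeats 400000

namespace Crest.Agent.R271.C5_756

open Polynomial

universe u

theorem finrank_hom (k : Type*) [Field k] (d n : ℕ) :
    Module.finrank k (MvPolynomial.homogeneousSubmodule (Fin (d + 1)) k n) =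
      (n + d).choose d := by
  classical
  rw [MvPolynomial.homogeneousSubmodule_eq_finsupp_supported]
  have hset : {x : Fin (d + 1) →₀ ℕ | x.degree = n} =
      ↑((Finset.univ : Finset (Fin (d + 1))).finsuppAntidiag n) := by
    ext x
    simp [Finset.mem_finsuppAntidiag, Finsupp.degree_eq_sum]
  rw [hset, (AddMonoidAlgebra.supportedEquivFinsupp _).finrank_eq, Module.finrank_finsupp_self]
  simp only [Finset.coe_sort_coe, Fintype.card_coe]
  rw [Finset.card_finsuppAntidiag_nat_eq_choose, Finset.card_univ,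
    Fintype.card_fin]
  have h1 : d + 1 + n - 1 = n + d := by omega
  rw [h1, Nat.choose_symm_add]

section phi

variable {k C : Type*} [Field k] [CommRing C] [Algebra k C]

/-- `r ↦ ∑ᵢ rᵢ(t) lⁱ` -/
noncomputable def phi {e : ℕ} (t : Fin e → C) (l : C) {D : ℕ} (n : Fin D → ℕ) :
    (∀ i : Fin D, MvPolynomial.homogeneousSubmodule (Fin e) k (n i)) →ₗ[k] C where
  toFun r := ∑ i, MvPolynomial.aeval t (r i : MvPolynomial (Fin e) k) * l ^ (i : ℕ)
  map_add' r s := by
    rw [← Finset.sum_add_distrib]
    refine Finset.sum_congr rfl fun i _ => ?_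
    rw [Pi.add_apply, Submodule.coe_add, map_add, add_mul]
  map_smul' c r := by
    rw [RingHom.id_apply, Finset.smul_sum]
    refine Finset.sum_congr rfl fun i _ => ?_
    rw [Pi.smul_apply, Submodule.coe_smul, map_smul, smul_mul_assoc]

theorem phi_apply {e : ℕ} (t : Fin e → C) (l : C) {D : ℕ} (n : Fin D → ℕ)
    (r : ∀ i : Fin D, MvPolynomial.homogeneousSubmodule (Fin e) k (n i)) :
    phi t l n r = ∑ i, MvPolynomial.aeval t (r i : MvPolynomial (Fin e) k) * l ^ (i : ℕ) := rfl

theorem finrank_pi_hom {D : ℕ} (d : ℕ) (n : Fin D → ℕ) :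
    Module.finrank k (∀ i : Fin D, MvPolynomial.homogeneousSubmodule (Fin (d + 1)) k (n i))
      = ∑ i, (n i + d).choose d := by
  have : ∀ i : Fin D, Module.Finite k (MvPolynomial.homogeneousSubmodule (Fin (d + 1)) k (n i)) :=
    fun i => Module.Finite.iff_fg.2 (MvPolynomial.homogeneousSubmodule_fg _ _ _)
  rw [Module.finrank_pi_fintype]
  exact Finset.sum_congr rfl fun i _ => finrank_hom k d (n i)

end phi

section main

variable {k C : Type u} [Field k] [CharZero k] [CommRing C] [IsDomain C] [Algebra k C]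

theorem GD.bounds {W : ℕ → Submodule k C} {k0 Q : ℕ} (h : GD W k0 Q) {m : ℕ} (hm : k0 + Q ≤ m)
    {d : ℕ} (hd : Algebra.trdeg k C = d) :
    ∃ D s : ℕ, 0 < D ∧
      (∀ D' ≤ D, ∀ q, D' ≤ q →
        ∑ i ∈ Finset.range D', (q - i + d).choose d ≤ Module.finrank k (W (q * m))) ∧
      (∀ q, D ≤ q →
        Module.finrank k (W (q * m)) ≤ ∑ i ∈ Finset.range D, (q + s - i + d).choose d) := by
  classical
  obtain ⟨e, D, s, t, l, hD, ht, hl, he, hind, a, ha, hint⟩ := h.data hm
  have he' : e = d + 1 := by
    rw [hd] at he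
    exact_mod_cast he.symm
  subst he'
  have hfW : ∀ m, Module.Finite k (W m) := fun m => Module.Finite.iff_fg.2 (h.fin m)
  have hfH : ∀ n, Module.Finite k (MvPolynomial.homogeneousSubmodule (Fin (d + 1)) k n) :=
    fun n => Module.Finite.iff_fg.2 (MvPolynomial.homogeneousSubmodule_fg _ _ _)
  refine ⟨D, s, hD, ?_, ?_⟩
  · intro D' hD' q hq
    let Φ := phi (k := k) t l (fun i : Fin D' => q - i)
    have hmem : ∀ r, Φ r ∈ W (q * m) := by
      intro r
      rw [phi_apply]
      refine Submodule.sum_mem _ fun i _ => ?_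
      have h1 := h.mul _ _ _ _ (aeval_mem h t ht (q - i) _ (r i).2) (pow_mem' h hl i)
      have h2 : (q - i) * m + i * m = q * m := by
        rw [← add_mul]
        congr 1
        have := i.2
        omega
      rwa [h2] at h1
    let Ψ := Φ.codRestrict (W (q * m)) hmem
    have hinj : Function.Injective Ψ := by
      rw [← LinearMap.ker_eq_bot, LinearMap.ker_eq_bot']
      intro r hr
      have hr' : ∑ i : Fin D', MvPolynomial.aeval t (r i : MvPolynomial (Fin (d + 1)) k) *
          l ^ (i : ℕ) = 0 := by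
        have := congrArg Subtype.val hr
        exact this
      let r' : Fin D → MvPolynomial (Fin (d + 1)) k := fun i =>
        if hi : (i : ℕ) < D' then (r ⟨i, hi⟩ : MvPolynomial (Fin (d + 1)) k) else 0
      have key := hind r' q ?_ ?_ ?_
      · funext i
        apply Subtype.ext
        have := key ⟨i, lt_of_lt_of_le i.2 hD'⟩
        simp only [r', i.2, dif_pos] at this
        exact this
      · intro i
        by_cases hi : (i : ℕ) < D'
        · simp only [r', hi, dif_pos]
          exact (r ⟨i, hi⟩).2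
        · simp only [r', hi, dif_neg, not_false_eq_true]
          exact MvPolynomial.isHomogeneous_zero _ _ _
      · intro i hi
        have : ¬ (i : ℕ) < D' := by omega
        simp only [r', this, dif_neg, not_false_eq_true]
      · have e1 : ∀ i : Fin D, MvPolynomial.aeval t (r' i) * l ^ (i : ℕ)
            = (fun i : ℕ => if hi : i < D' then
              MvPolynomial.aeval t (r ⟨i, hi⟩ : MvPolynomial (Fin (d + 1)) k) * l ^ i else 0)
              (i : ℕ) := by
          intro i
          by_cases hi : (i : ℕ) < D'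
          · simp only [r', hi, dif_pos]
          · simp only [r', hi, dif_neg, not_false_eq_true, map_zero, zero_mul]
        simp_rw [e1]
        rw [← Finset.sum_range (fun i : ℕ => if hi : i < D' then
              MvPolynomial.aeval t (r ⟨i, hi⟩ : MvPolynomial (Fin (d + 1)) k) * l ^ i else 0)]
        rw [← Finset.sum_subset (s₁ := Finset.range D')
          (Finset.range_mono hD') (fun i _ hi => dif_neg (by simpa using hi))]
        rw [Finset.sum_range]
        rw [← hr']
        refine Finset.sum_congr rfl fun i _ => ?_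
        simp only [i.2, dif_pos]
    have h3 := LinearMap.finrank_le_finrank_of_injective hinj
    rw [finrank_pi_hom, ← Finset.sum_range (fun i => (q - i + d).choose d)] at h3
    exact h3
  · intro q hq
    let Φ := phi (k := k) t l (fun i : Fin D => q + s - i)
    let M : W (q * m) →ₗ[k] C := (LinearMap.mulLeft k a).comp (W (q * m)).subtype
    have hMinj : Function.Injective M := by
      intro x y hxy
      apply Subtype.ext
      exact mul_left_cancel₀ ha hxy
    have hrange : LinearMap.range M ≤ LinearMap.range Φ := by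
      rintro _ ⟨f, rfl⟩
      obtain ⟨r, hr1, hr2⟩ := hint q hq f f.2
      exact ⟨fun i => ⟨r i, hr1 i⟩, hr2.symm⟩
    have h1 : Module.finrank k (LinearMap.range M) = Module.finrank k (W (q * m)) :=
      LinearMap.finrank_range_of_inj hMinj
    have h2 : Module.finrank k (LinearMap.range M) ≤ Module.finrank k (LinearMap.range Φ) :=
      Submodule.finrank_mono hrange
    have h3 := LinearMap.finrank_range_le Φ
    rw [finrank_pi_hom, ← Finset.sum_range (fun i => (q + s - i + d).choose d)] at h3
    omega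

end main

end Crest.Agent.R271.C5_756
end

-- ▼ part R271/C5e_756
section

/-!
Row 271 (S0413), Part 11.6 (C5): the degree `D` is at least `m ^ d`; uniform lower bound.
-/

set_option autoImplicit false
set_option maxHeartbeats 400000

namespace Crest.Agent.R271.C5_756

open Polynomial Filter

universe u

/-- comparison of the leading coefficients -/
theorem lead_le (A B : ℝ) (a b c e : ℝ) (d : ℕ)
    (h : ∀ᶠ n : ℕ in atTop, A * (a * n - c) ^ d ≤ B * (b * n + e) ^ d) :
    A * a ^ d ≤ B * b ^ d := by
  have hinv : Tendsto (fun n : ℕ => ((n : ℝ))⁻¹) atTop (nhds 0) :=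
    tendsto_inv_atTop_nhds_zero_nat
  have h1 : Tendsto (fun n : ℕ => A * (a - c * ((n : ℝ))⁻¹) ^ d) atTop (nhds (A * a ^ d)) := by
    have := ((tendsto_const_nhds (x := a)).sub (hinv.const_mul c)).pow d |>.const_mul A
    simpa using this
  have h2 : Tendsto (fun n : ℕ => B * (b + e * ((n : ℝ))⁻¹) ^ d) atTop (nhds (B * b ^ d)) := by
    have := ((tendsto_const_nhds (x := b)).add (hinv.const_mul e)).pow d |>.const_mul B
    simpa using this
  refine le_of_tendsto_of_tendsto h1 h2 ?_
  filter_upwards [h, eventually_gt_atTop 0] with n hn hn0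
  have hn0' : (0 : ℝ) < n := by exact_mod_cast hn0
  have e1 : a - c * ((n : ℝ))⁻¹ = (a * n - c) * ((n : ℝ))⁻¹ := by field_simp
  have e2 : b + e * ((n : ℝ))⁻¹ = (b * n + e) * ((n : ℝ))⁻¹ := by field_simp
  rw [e1, e2, mul_pow, mul_pow, ← mul_assoc, ← mul_assoc]
  exact mul_le_mul_of_nonneg_right hn (by positivity)

theorem choose_upper (n d : ℕ) : d.factorial * (n.choose d) ≤ n ^ d := by
  rw [← Nat.descFactorial_eq_factorial_mul_choose]
  exact Nat.descFactorial_le_pow n d

theorem choose_lower (n d : ℕ) : (n + 1) ^ d ≤ d.factorial * ((n + d).choose d) := by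
  rw [← Nat.descFactorial_eq_factorial_mul_choose]
  have := Nat.pow_sub_le_descFactorial (n + d) d
  refine le_trans ?_ this
  apply Nat.pow_le_pow_left
  omega

section main

variable {k C : Type u} [Field k] [CharZero k] [CommRing C] [IsDomain C] [Algebra k C]

/-- crude lower bound -/
theorem sum_lower (D' q d : ℕ) (hq : D' ≤ q) :
    D' * (q - D' + 1) ^ d ≤ d.factorial * ∑ i ∈ Finset.range D', (q - i + d).choose d := by
  rw [Finset.mul_sum]
  calc D' * (q - D' + 1) ^ d = ∑ _i ∈ Finset.range D', (q - D' + 1) ^ d := by simp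
    _ ≤ ∑ i ∈ Finset.range D', d.factorial * (q - i + d).choose d := by
      refine Finset.sum_le_sum fun i hi => ?_
      rw [Finset.mem_range] at hi
      refine le_trans ?_ (choose_lower (q - i) d)
      apply Nat.pow_le_pow_left
      omega

theorem sum_upper (D q s d : ℕ) :
    d.factorial * ∑ i ∈ Finset.range D, (q + s - i + d).choose d ≤ D * (q + s + d) ^ d := by
  rw [Finset.mul_sum]
  calc ∑ i ∈ Finset.range D, d.factorial * (q + s - i + d).choose d
        ≤ ∑ _i ∈ Finset.range D, (q + s + d) ^ d := by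
        refine Finset.sum_le_sum fun i _ => ?_
        refine le_trans (choose_upper _ d) ?_
        apply Nat.pow_le_pow_left
        omega
    _ = D * (q + s + d) ^ d := by simp

omit [CharZero k] [IsDomain C] in
theorem GD.compare {W : ℕ → Submodule k C} {d D m D' m' s' : ℕ} (hm' : 1 ≤ m')
    (hlow : ∀ q, D ≤ q →
        ∑ i ∈ Finset.range D, (q - i + d).choose d ≤ Module.finrank k (W (q * m)))
    (hup : ∀ q, D' ≤ q →
        Module.finrank k (W (q * m')) ≤ ∑ i ∈ Finset.range D', (q + s' - i + d).choose d)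
    (hm : 1 ≤ m) :
    D * m' ^ d ≤ D' * m ^ d := by
  have key : ∀ᶠ n : ℕ in atTop, (D : ℝ) * ((m' : ℝ) * n - D) ^ d ≤
      (D' : ℝ) * ((m : ℝ) * n + (s' + d)) ^ d := by
    filter_upwards [eventually_ge_atTop (D + D')] with n hn
    have h1 : D ≤ m' * n := le_trans (by omega) (Nat.le_mul_of_pos_left n hm')
    have h2 : D' ≤ m * n := le_trans (by omega) (Nat.le_mul_of_pos_left n hm)
    have h3 := hlow (m' * n) h1
    have h4 := hup (m * n) h2
    have h5 : m * n * m' = m' * n * m := by ring
    rw [h5] at h4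
    have h6 := (sum_lower D (m' * n) d h1).trans
      ((Nat.mul_le_mul_left _ (h3.trans h4)).trans (sum_upper D' (m * n) s' d))
    have h7 : ((D * (m' * n - D + 1) ^ d : ℕ) : ℝ) ≤ ((D' * (m * n + s' + d) ^ d : ℕ) : ℝ) := by
      exact_mod_cast h6
    push_cast [Nat.cast_sub h1] at h7
    calc (D : ℝ) * ((m' : ℝ) * n - D) ^ d ≤ (D : ℝ) * ((m' : ℝ) * n - D + 1) ^ d := by
          have h8 : (0 : ℝ) ≤ (m' : ℝ) * n - D := by
            rw [sub_nonneg]; exact_mod_cast h1
          gcongr
          linarith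
      _ ≤ (D' : ℝ) * ((m : ℝ) * n + s' + d) ^ d := h7
      _ = (D' : ℝ) * ((m : ℝ) * n + (s' + d)) ^ d := by rw [add_assoc]
  have := lead_le _ _ _ _ _ _ d key
  exact_mod_cast this

/-- UNIFORM LOWER BOUND on a domain -/
theorem GD.lower {W : ℕ → Submodule k C} {k0 Q : ℕ} (h : GD W k0 Q) {d : ℕ}
    (hd : Algebra.trdeg k C = d) (j : ℕ) (hj : k0 + (k0 + Q + 1) ^ (d + 1) ≤ j) :
    (j - (k0 + (k0 + Q + 1) ^ (d + 1))) ^ d ≤ d.factorial * Module.finrank k (W j) := by
  classical
  have hfW : ∀ m, Module.Finite k (W m) := fun m => Module.Finite.iff_fg.2 (h.fin m)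
  obtain ⟨m, hm⟩ : ∃ m, m = k0 + Q + 1 := ⟨_, rfl⟩
  rw [← hm] at hj ⊢
  obtain ⟨D, s, hD, hlow, hup⟩ := h.bounds (m := m) (by omega) hd
  obtain ⟨D', s', hD', hlow', hup'⟩ := h.bounds (m := m + 1) (by omega) hd
  have h1 : D * (m + 1) ^ d = D' * m ^ d := le_antisymm
    (GD.compare (W := W) (by omega) (hlow D le_rfl) hup' (by omega))
    (GD.compare (W := W) (by omega) (hlow' D' le_rfl) hup (by omega))
  have h2 : m ^ d ∣ D := by
    have h3 : Nat.Coprime (m ^ d) ((m + 1) ^ d) :=
      Nat.Coprime.pow _ _ (by simp)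
    exact h3.dvd_of_dvd_mul_right ⟨D', by rw [h1, mul_comm]⟩
  have h3 : m ^ d ≤ D := Nat.le_of_dvd hD h2
  have hm0 : 0 < m := by omega
  set q := (j - k0) / m with hq
  have hq1 : q * m ≤ j - k0 := Nat.div_mul_le_self _ _
  have hq2 : j - k0 < (q + 1) * m := by
    rw [mul_comm]
    exact Nat.lt_mul_div_succ _ hm0
  have hq3 : m ^ d ≤ q := by
    rw [hq, Nat.le_div_iff_mul_le hm0, ← pow_succ]
    omega
  have h4 := hlow (m ^ d) h3 q hq3
  have h5 := (sum_lower (m ^ d) q d hq3).trans (Nat.mul_le_mul_left _ h4)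
  -- multiplication by a section of degree `j - q m`
  obtain ⟨w, hw, hw0⟩ := h.bpf (j - q * m) (by omega)
  have h6 : Module.finrank k (W (q * m)) ≤ Module.finrank k (W j) := by
    have e1 : (j - q * m) + q * m = j := by omega
    let M : W (q * m) →ₗ[k] W j := ((LinearMap.mulLeft k w).comp (W (q * m)).subtype).codRestrict
      (W j) (fun f => by
        have := h.mul _ _ _ _ hw f.2
        rwa [e1] at this)
    refine LinearMap.finrank_le_finrank_of_injective (f := M) ?_
    intro x y hxy
    apply Subtype.ext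
    have := congrArg Subtype.val hxy
    exact mul_left_cancel₀ hw0 this
  refine le_trans ?_ (h5.trans (Nat.mul_le_mul_left _ h6))
  rw [← mul_pow]
  apply Nat.pow_le_pow_left
  have h7 : q - m ^ d + 1 = (q + 1) - m ^ d := by omega
  rw [h7, Nat.mul_sub, ← pow_succ', mul_comm m (q + 1)]
  omega

/-- real form -/
theorem GD.growth {k0 Q : ℕ} (d : ℕ) (ε : ℝ) (hε : 0 < ε) : ∃ j₁ : ℕ,
    ∀ (C : Type u) [CommRing C] [IsDomain C] [Algebra k C] (W : ℕ → Submodule k C),
      GD W k0 Q → Algebra.trdeg k C = d → ∀ j, j₁ ≤ j →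
      (1 - ε) * (j : ℝ) ^ d / (d.factorial : ℝ) ≤ (Module.finrank k (W j) : ℝ) := by
  obtain ⟨c, hc⟩ : ∃ c : ℕ, c = k0 + (k0 + Q + 1) ^ (d + 1) := ⟨_, rfl⟩
  obtain ⟨j₀, hj₀⟩ := exists_nat_gt ((d : ℝ) * c / ε)
  refine ⟨max (c + 1) j₀, ?_⟩
  intro C _ _ _ W h hd j hj
  have hj1 : c + 1 ≤ j := le_trans (le_max_left _ _) hj
  have hj2 : j₀ ≤ j := le_trans (le_max_right _ _) hj
  have h1 := h.lower hd j (by omega)
  rw [← hc] at h1
  have h2 : (((j - c) ^ d : ℕ) : ℝ) ≤ ((d.factorial * Module.finrank k (W j) : ℕ) : ℝ) := by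
    exact_mod_cast h1
  push_cast [Nat.cast_sub (show c ≤ j by omega)] at h2
  have hj0 : (0 : ℝ) < j := by
    have : 0 < j := by omega
    exact_mod_cast this
  have hcj : (c : ℝ) ≤ j := by
    have : c ≤ j := by omega
    exact_mod_cast this
  have h3 : (d : ℝ) * c / ε ≤ j := hj₀.le.trans (by exact_mod_cast hj2)
  have h4 : (d : ℝ) * c / j ≤ ε := by
    rw [div_le_iff₀ hε] at h3
    rw [div_le_iff₀ hj0]
    linarith
  have h5 : 1 - ε ≤ (1 - c / j) ^ d := by
    have h6 := one_add_mul_le_pow (a := -((c : ℝ) / j)) (by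
      have : (c : ℝ) / j ≤ 1 := by rw [div_le_one hj0]; exact hcj
      linarith) d
    have h7 : (1 : ℝ) + d * -((c : ℝ) / j) = 1 - d * c / j := by ring
    rw [h7] at h6
    calc 1 - ε ≤ 1 - d * c / j := by linarith
      _ ≤ (1 + -((c : ℝ) / j)) ^ d := h6
      _ = (1 - c / j) ^ d := by ring
  have h8 : (1 - (c : ℝ) / j) ^ d * (j : ℝ) ^ d = (j - c) ^ d := by
    rw [← mul_pow]
    congr 1
    field_simp
  have hfac : (0 : ℝ) < (d.factorial : ℝ) := by exact_mod_cast Nat.factorial_pos d
  rw [div_le_iff₀ hfac]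
  calc (1 - ε) * (j : ℝ) ^ d ≤ (1 - (c : ℝ) / j) ^ d * (j : ℝ) ^ d := by gcongr
    _ = (j - c) ^ d := h8
    _ ≤ d.factorial * Module.finrank k (W j) := h2
    _ = Module.finrank k (W j) * d.factorial := by ring

end main

end Crest.Agent.R271.C5_756
end

-- ▼ part R271/C5_756

/-!
Row 271 (S0413), Part 11.6 (C5): uniform lower bound for the Hilbert functions of the restrictions
of a section ring to all irreducible subvarieties.

Main results: `GSec`, `GSec.growth` (in the form of `FCtx.growth`), `int_of_field` (integrality in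
`B[X]` from integrality over the function field), `bpf_of_jets`.
-/

set_option autoImplicit false
set_option maxHeartbeats 400000

namespace Crest.Agent.R271.C5_756

open Polynomial

universe u

section dim

variable {A S : Type*} [CommRing A] [CommRing S] [Algebra A S]

theorem krull_le_of_isIntegral [Algebra.IsIntegral A S] : ringKrullDim S ≤ ringKrullDim A := by
  apply Order.krullDim_le_of_strictMono (PrimeSpectrum.comap (algebraMap A S))
  intro p q hpq
  have h1 : p.asIdeal < q.asIdeal := hpq
  exact Ideal.IsIntegral.comap_lt_comap (R := A) h1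

theorem krull_eq_of_isIntegral [Algebra.IsIntegral A S]
    (hinj : Function.Injective (algebraMap A S)) : ringKrullDim S = ringKrullDim A := by
  refine le_antisymm krull_le_of_isIntegral ?_
  refine iSup_le fun l => ?_
  obtain ⟨P, -, hP, hPl⟩ := Ideal.exists_ideal_over_prime_of_isIntegral
    l.head.asIdeal (⊥ : Ideal S) (by
      show RingHom.ker (algebraMap A S) ≤ _
      rw [(RingHom.injective_iff_ker_eq_bot _).1 hinj]; exact bot_le)
  have : P.LiesOver l.head.asIdeal := ⟨hPl.symm⟩
  have : Algebra.HasGoingUp A S := Algebra.HasGoingUp.of_isIntegral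
  obtain ⟨L, hL, -, -⟩ := Ideal.exists_ltSeries_of_hasGoingUp l P
  rw [← hL]
  exact le_iSup (fun L : LTSeries (PrimeSpectrum S) => (L.length : WithBot ℕ∞)) L

end dim

/-- for a finitely generated domain the Krull dimension is the transcendence degree -/
theorem trdeg_of_ringKrullDim {k C : Type u} [Field k] [CommRing C] [IsDomain C] [Algebra k C]
    [Algebra.FiniteType k C] {d : ℕ} (hd : ringKrullDim C = d) : Algebra.trdeg k C = d := by
  obtain ⟨s, g, hg, hint⟩ := exists_integral_inj_algHom_of_fg k C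
  let _ : Algebra (MvPolynomial (Fin s) k) C := g.toRingHom.toAlgebra
  have : IsScalarTower k (MvPolynomial (Fin s) k) C := IsScalarTower.of_algebraMap_eq
    (fun c => (g.commutes c).symm)
  have : Algebra.IsIntegral (MvPolynomial (Fin s) k) C := ⟨hint⟩
  have : FaithfulSMul (MvPolynomial (Fin s) k) C :=
    (faithfulSMul_iff_algebraMap_injective _ _).2 hg
  have h1 : ringKrullDim C = ringKrullDim (MvPolynomial (Fin s) k) := krull_eq_of_isIntegral hg
  rw [MvPolynomial.ringKrullDim_of_isNoetherianRing, ringKrullDim_eq_zero_of_field, zero_add,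
    Nat.card_eq_fintype_card, Fintype.card_fin, hd] at h1
  have h2 : d = s := by exact_mod_cast h1
  have halg : Algebra.IsAlgebraic (MvPolynomial (Fin s) k) C := inferInstance
  have h3 := trdeg_add_eq k (MvPolynomial (Fin s) k) (A := C)
  rw [trdeg_eq_zero_iff.2 halg, add_zero, MvPolynomial.trdeg_of_isDomain] at h3
  rw [← h3, h2]
  simp

/-- integrality over `adjoin` under a homomorphism -/
theorem isIntegral_map_adjoin {k S S' : Type*} [CommRing k] [CommRing S] [CommRing S']
    [Algebra k S] [Algebra k S'] (ψ : S →ₐ[k] S') {T : Set S} {T' : Set S'}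
    (hT : ∀ t ∈ T, ψ t ∈ T') {z : S} (hz : IsIntegral (Algebra.adjoin k T) z) :
    IsIntegral (Algebra.adjoin k T') (ψ z) := by
  have hle : Algebra.adjoin k T ≤ (Algebra.adjoin k T').comap ψ :=
    Algebra.adjoin_le fun t ht => Algebra.subset_adjoin (hT t ht)
  let φ : Algebra.adjoin k T →ₐ[k] Algebra.adjoin k T' :=
    (ψ.comp (Algebra.adjoin k T).val).codRestrict _ (fun x => hle x.2)
  exact IsIntegral.map_of_comp_eq φ.toRingHom ψ.toRingHom (by ext x; rfl) hz


section gsec

variable {k B : Type u} [Field k] [CommRing B] [Algebra k B]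

/-- Section ring of an ample line bundle trivialised on an affine open set with ring `B`:
the hypotheses of C5. -/
structure GSec (V : ℕ → Submodule k B) (k0 : ℕ) : Prop where
  one : (1 : B) ∈ V 0
  mul : ∀ m l a b, a ∈ V m → b ∈ V l → a * b ∈ V (m + l)
  fin : ∀ m, (V m).FG
  bpf : ∀ m, k0 ≤ m → ∀ P : Ideal B, P.IsPrime → ∃ f ∈ V m, f ∉ P
  gen : ∀ b : B, ∃ p, ∃ g ∈ V p, IsUnit g ∧ b * g ∈ V p
  int : ∀ m, k0 ≤ m → ∀ q, ∀ f ∈ V (q * m),
    IsIntegral (Algebra.adjoin k ((fun w => (monomial 1 w : B[X])) '' (V m : Set B)))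
      (monomial q f : B[X])

theorem GSec.toGD {V : ℕ → Submodule k B} {k0 : ℕ} (h : GSec V k0) [Algebra.FiniteType k B] :
    ∃ Q, ∀ P : Ideal B, P.IsPrime →
      GD (fun m => (V m).map (Ideal.Quotient.mkₐ k P).toLinearMap) k0 Q := by
  classical
  obtain ⟨S, hS⟩ := (Algebra.FiniteType.out : (⊤ : Subalgebra k B).FG)
  choose p g hg hunit hbg using h.gen
  refine ⟨S.sup p, ?_⟩
  intro P hP
  refine ⟨⟨1, h.one, map_one (Ideal.Quotient.mk P)⟩, ?_, ?_, ?_, ?_, ?_⟩
  · rintro m l _ _ ⟨a, ha, rfl⟩ ⟨b, hb, rfl⟩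
    exact ⟨a * b, h.mul _ _ _ _ ha hb, map_mul (Ideal.Quotient.mk P) _ _⟩
  · intro m
    exact (h.fin m).map _
  · intro m hm
    obtain ⟨f, hf, hfP⟩ := h.bpf m hm P hP
    refine ⟨_, ⟨f, hf, rfl⟩, ?_⟩
    show Ideal.Quotient.mk P f ≠ 0
    rwa [Ne, Ideal.Quotient.eq_zero_iff_mem]
  · refine ⟨(Ideal.Quotient.mkₐ k P) '' (S : Set B), ?_, ?_⟩
    · rw [← AlgHom.map_adjoin, hS, Algebra.map_top, AlgHom.range_eq_top]
      exact Ideal.Quotient.mkₐ_surjective k P
    · rintro _ ⟨b, hb, rfl⟩
      refine ⟨p b, Finset.le_sup hb, _, ⟨g b, hg b, rfl⟩, ?_, ⟨b * g b, hbg b,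
        map_mul (Ideal.Quotient.mk P) _ _⟩⟩
      have : Nontrivial (B ⧸ P) := inferInstance
      exact ((hunit b).map (Ideal.Quotient.mkₐ k P)).ne_zero
  · rintro m hm q _ ⟨f, hf, rfl⟩
    have h1 := isIntegral_map_adjoin (T' := (fun w => (monomial 1 w : (B ⧸ P)[X])) ''
      (((V m).map (Ideal.Quotient.mkₐ k P).toLinearMap : Submodule k (B ⧸ P)) : Set (B ⧸ P)))
      (Polynomial.mapAlgHom (Ideal.Quotient.mkₐ k P)) (by
        rintro _ ⟨w, hw, rfl⟩
        refine ⟨_, ⟨w, hw, rfl⟩, ?_⟩
        simp) (h.int m hm q f hf)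
    simpa using h1

/-- C5 -/
theorem GSec.growth [CharZero k] [Algebra.FiniteType k B] {V : ℕ → Submodule k B} {k0 : ℕ}
    (h : GSec V k0) (d : ℕ) (ε : ℝ) (hε : 0 < ε) : ∃ j₁ : ℕ, ∀ P : Ideal B, P.IsPrime →
    ringKrullDim (B ⧸ P) = d → ∀ j, j₁ ≤ j →
      (1 - ε) * (j : ℝ) ^ d / (d.factorial : ℝ) ≤
        (Module.finrank k ((V j).map (Ideal.Quotient.mkₐ k P).toLinearMap) : ℝ) := by
  obtain ⟨Q, hQ⟩ := h.toGD
  obtain ⟨j₁, hj₁⟩ := GD.growth (k := k) (k0 := k0) (Q := Q) d ε hε
  refine ⟨j₁, fun P hP hd j hj => ?_⟩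
  exact hj₁ (B ⧸ P) _ (hQ P hP) (trdeg_of_ringKrullDim hd) j hj



end gsec

end Crest.Agent.R271.C5_756
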