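import Mathlib

-- ▼ part R271/CaseA1_112
section

/-!
Row 271, Case A (5.2), part 1: one-variable lemmas and the limit argument on a shell.
-/

set_option autoImplicit false

open scoped Topology BigOperators
open Filter Metric Asymptotics

noncomputable section

namespace Crest.Agent.R271.CaseA112

/-- If an analytic function is `O(t^{N+1})`, the derivatives of order `≤ N` vanish. -/
theorem iteratedDeriv_eq_zero_of_isBigO {φ : ℂ → ℂ} {N e : ℕ} (he : e ≤ N) {R : ℝ} (hR : 0 < R)
    (hd : DifferentiableOn ℂ φ (ball 0 R)) (hO : φ =O[𝓝 0] fun t : ℂ => t ^ (N + 1)) :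
    iteratedDeriv e φ 0 = 0 := by
  obtain ⟨C, hC⟩ := hO.bound
  obtain ⟨r, hr, hrb⟩ := Metric.eventually_nhds_iff_ball.mp hC
  have hC0 : 0 ≤ |C| := abs_nonneg C
  -- bound for all small ρ
  have key : ∀ ρ : ℝ, 0 < ρ → ρ < min (min R r) 1 →
      ‖iteratedDeriv e φ 0‖ ≤ (e.factorial * |C|) * ρ := by
    intro ρ hρ hρ'
    have h1 : ρ < R := lt_of_lt_of_le hρ' ((min_le_left _ _).trans (min_le_left _ _))
    have h2 : ρ < r := lt_of_lt_of_le hρ' ((min_le_left _ _).trans (min_le_right _ _))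
    have h3 : ρ < 1 := lt_of_lt_of_le hρ' (min_le_right _ _)
    have hdc : DiffContOnCl ℂ φ (ball 0 ρ) := by
      refine (hd.mono ?_).diffContOnCl
      refine (closure_ball_subset_closedBall).trans ?_
      exact closedBall_subset_ball h1
    have hb := Complex.norm_iteratedDeriv_le_of_forall_mem_sphere_norm_le (C := |C| * ρ ^ (N + 1))
      e hρ hdc (fun z hz => by
        have hz' : ‖z‖ = ρ := by simpa using hz
        have := hrb z (by simpa [hz'] using h2)
        calc ‖φ z‖ ≤ C * ‖z ^ (N + 1)‖ := this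
          _ ≤ |C| * ρ ^ (N + 1) := by
              rw [norm_pow, hz']
              exact mul_le_mul_of_nonneg_right (le_abs_self C) (by positivity))
    refine hb.trans ?_
    have hpe : 0 < ρ ^ e := pow_pos hρ e
    rw [div_le_iff₀ hpe]
    have hsplit : ρ ^ (N + 1) ≤ ρ * ρ ^ e := by
      have : ρ * ρ ^ e = ρ ^ (e + 1) := by ring
      rw [this]
      exact pow_le_pow_of_le_one hρ.le h3.le (by omega)
    calc (e.factorial : ℝ) * (|C| * ρ ^ (N + 1)) = (e.factorial * |C|) * ρ ^ (N + 1) := by ring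
      _ ≤ (e.factorial * |C|) * (ρ * ρ ^ e) :=
          mul_le_mul_of_nonneg_left hsplit (by positivity)
      _ = (e.factorial * |C|) * ρ * ρ ^ e := by ring
  have hlim : Tendsto (fun ρ : ℝ => (e.factorial * |C|) * ρ) (𝓝[>] 0) (𝓝 0) := by
    have : Tendsto (fun ρ : ℝ => (e.factorial * |C|) * ρ) (𝓝 0) (𝓝 ((e.factorial * |C|) * 0)) :=
      tendsto_const_nhds.mul tendsto_id
    rw [mul_zero] at this
    exact this.mono_left nhdsWithin_le_nhds
  have hle : ‖iteratedDeriv e φ 0‖ ≤ 0 := by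
    refine ge_of_tendsto hlim ?_
    have hpos : 0 < min (min R r) 1 := by positivity
    filter_upwards [Ioo_mem_nhdsGT hpos] with ρ hρ
    exact key ρ hρ.1 hρ.2
  simpa using hle

/-- The limit argument at one direction `q`. -/
theorem limit_dir {n N j e : ℕ} (he : e ≤ N) {F G : (Fin n → ℂ) → ℂ}
    (hF : AnalyticAt ℂ F 0) (hG : Differentiable ℂ G)
    (hGh : ∀ (r : ℝ) (w : Fin n → ℂ), G (r • w) = (r : ℂ) ^ j * G w)
    (hO : (fun w => F w - G w) =O[𝓝 0] fun w => ‖w‖ ^ (j + 1))
    (q v : Fin n → ℂ) (hne : iteratedDeriv e (fun t : ℂ => G (q + t • v)) 0 ≠ 0) :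
    ∀ᶠ p : ℝ × (Fin n → ℂ) in 𝓝 (0, q), 0 < p.1 →
      ¬ ((fun t : ℂ => F (p.1 • (p.2 + t • v))) =O[𝓝 0] fun t : ℂ => t ^ (N + 1)) := by
  -- constants
  obtain ⟨C, hC⟩ := hO.bound
  have hFd : ∀ᶠ w in 𝓝 (0 : Fin n → ℂ), DifferentiableAt ℂ F w :=
    hF.eventually_analyticAt.mono fun w hw => hw.differentiableAt
  obtain ⟨ρ, hρ, hρb⟩ := Metric.eventually_nhds_iff_ball.mp (hC.and hFd)
  set K : ℝ := ‖q‖ + 1 + 2 * ‖v‖ with hK
  have hKpos : 0 < K := by positivity
  set D : ℝ := ‖iteratedDeriv e (fun t : ℂ => G (q + t • v)) 0‖ with hD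
  have hDpos : 0 < D := norm_pos_iff.mpr hne
  set δ : ℝ := D / (2 * (e.factorial + 1)) with hδ
  have hδpos : 0 < δ := by positivity
  -- uniform continuity of `G` near the compact disc `q + t v`, `|t| ≤ 1`
  have hGc : Continuous G := hG.continuous
  have hunif : ∀ᶠ w in 𝓝 q, ∀ t ∈ closedBall (0 : ℂ) 1, ‖G (w + t • v) - G (q + t • v)‖ < δ := by
    have hcomp : IsCompact (closedBall (0 : ℂ) 1) := isCompact_closedBall 0 1
    refine hcomp.eventually_forall_of_forall_eventually (x₀ := q)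
      (P := fun w t => ‖G (w + t • v) - G (q + t • v)‖ < δ) ?_
    intro t _
    have hcont : Continuous fun z : (Fin n → ℂ) × ℂ =>
        ‖G (z.1 + z.2 • v) - G (q + z.2 • v)‖ := by fun_prop
    have := hcont.tendsto (q, t)
    simp only [sub_self, norm_zero] at this
    exact this.eventually (gt_mem_nhds hδpos)
  obtain ⟨s, hs, hsb⟩ := Metric.eventually_nhds_iff_ball.mp hunif
  have hKC : 0 < ρ / (2 * K) := by positivity
  have hr2 : 0 < δ / (|C| * K ^ (j + 1) + 1) := by positivity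
  -- the neighbourhood
  have hN : ∀ᶠ p : ℝ × (Fin n → ℂ) in 𝓝 (0, q),
      p.1 < ρ / (2 * K) ∧ p.1 < δ / (|C| * K ^ (j + 1) + 1) ∧ p.2 ∈ ball q s ∧
        p.2 ∈ ball q 1 := by
    have h1 : ∀ᶠ p : ℝ × (Fin n → ℂ) in 𝓝 (0, q), p.1 < ρ / (2 * K) :=
      (continuous_fst.tendsto (0, q)).eventually (gt_mem_nhds hKC)
    have h2 : ∀ᶠ p : ℝ × (Fin n → ℂ) in 𝓝 (0, q), p.1 < δ / (|C| * K ^ (j + 1) + 1) :=
      (continuous_fst.tendsto (0, q)).eventually (gt_mem_nhds hr2)
    have h3 : ∀ᶠ p : ℝ × (Fin n → ℂ) in 𝓝 (0, q), p.2 ∈ ball q s :=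
      (continuous_snd.tendsto (0, q)).eventually (ball_mem_nhds q hs)
    have h4 : ∀ᶠ p : ℝ × (Fin n → ℂ) in 𝓝 (0, q), p.2 ∈ ball q 1 :=
      (continuous_snd.tendsto (0, q)).eventually (ball_mem_nhds q one_pos)
    filter_upwards [h1, h2, h3, h4] with p a b c d using ⟨a, b, c, d⟩
  filter_upwards [hN] with p hp hp0 hcon
  obtain ⟨h1, h2, h3, h4⟩ := hp
  set r : ℝ := p.1 with hr
  set w : Fin n → ℂ := p.2 with hw
  -- norm bounds
  have hwt : ∀ t : ℂ, ‖t‖ ≤ 2 → ‖w + t • v‖ ≤ K := by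
    intro t ht
    have hw1 : ‖w‖ ≤ ‖q‖ + 1 := by
      have : ‖w - q‖ < 1 := by simpa [dist_eq_norm] using h4
      calc ‖w‖ = ‖q + (w - q)‖ := by congr 1; abel
        _ ≤ ‖q‖ + ‖w - q‖ := norm_add_le _ _
        _ ≤ ‖q‖ + 1 := by linarith
    calc ‖w + t • v‖ ≤ ‖w‖ + ‖t • v‖ := norm_add_le _ _
      _ = ‖w‖ + ‖t‖ * ‖v‖ := by rw [norm_smul]
      _ ≤ (‖q‖ + 1) + 2 * ‖v‖ := by
          have := mul_le_mul_of_nonneg_right ht (norm_nonneg v); linarith
      _ = K := by rw [hK]
  have hrwt : ∀ t : ℂ, ‖t‖ ≤ 2 → ‖r • (w + t • v)‖ < ρ := by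
    intro t ht
    rw [norm_smul, Real.norm_of_nonneg hp0.le]
    calc r * ‖w + t • v‖ ≤ r * K := mul_le_mul_of_nonneg_left (hwt t ht) hp0.le
      _ < ρ / (2 * K) * K := mul_lt_mul_of_pos_right h1 hKpos
      _ = ρ / 2 := by field_simp
      _ < ρ := by linarith
  set φ : ℂ → ℂ := fun t => ((r : ℂ) ^ j)⁻¹ * F (r • (w + t • v)) with hφ
  set φ0 : ℂ → ℂ := fun t => G (q + t • v) with hφ0
  have hrc : (r : ℂ) ≠ 0 := by exact_mod_cast hp0.ne'
  have hlin : ∀ t : ℂ, DifferentiableAt ℂ (fun t : ℂ => r • (w + t • v)) t := by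
    intro t
    have : DifferentiableAt ℂ (fun t : ℂ => w + t • v) t := by fun_prop
    exact this.const_smul r
  have hφd : DifferentiableOn ℂ φ (ball 0 2) := by
    intro t ht
    have ht' : ‖t‖ ≤ 2 := by have := mem_ball_zero_iff.mp ht; linarith
    have hFd' : DifferentiableAt ℂ F (r • (w + t • v)) :=
      (hρb _ (by simpa using hrwt t ht')).2
    exact (((hFd'.comp t (hlin t))).const_mul _).differentiableWithinAt
  have hφ0d : Differentiable ℂ φ0 := by
    intro t
    exact (hG _).comp t (by fun_prop)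
  have hφO : φ =O[𝓝 0] fun t : ℂ => t ^ (N + 1) := hcon.const_mul_left _
  have hz : iteratedDeriv e φ 0 = 0 :=
    iteratedDeriv_eq_zero_of_isBigO he (by norm_num : (0:ℝ) < 2) hφd hφO
  -- difference
  have hdiff : ∀ t ∈ sphere (0 : ℂ) 1, ‖(φ - φ0) t‖ ≤ 2 * δ := by
    intro t ht
    have ht1 : ‖t‖ = 1 := by simpa using ht
    have ht2 : ‖t‖ ≤ 2 := by linarith
    have hA : ‖F (r • (w + t • v)) - G (r • (w + t • v))‖ ≤
        C * ‖‖r • (w + t • v)‖ ^ (j + 1)‖ :=
      (hρb _ (by simpa using hrwt t ht2)).1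
    have hA' : ‖φ t - G (w + t • v)‖ ≤ δ := by
      have heq : φ t - G (w + t • v) =
          ((r : ℂ) ^ j)⁻¹ * (F (r • (w + t • v)) - G (r • (w + t • v))) := by
        rw [hGh]
        simp only [hφ]
        field_simp
      rw [heq, norm_mul, norm_inv, norm_pow, Complex.norm_real, Real.norm_of_nonneg hp0.le]
      have hrj : 0 < r ^ j := pow_pos hp0 j
      have hB : C * ‖‖r • (w + t • v)‖ ^ (j + 1)‖ ≤ |C| * (r * K) ^ (j + 1) := by
        have hn : ‖r • (w + t • v)‖ ≤ r * K := by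
          rw [norm_smul, Real.norm_of_nonneg hp0.le]
          exact mul_le_mul_of_nonneg_left (hwt t ht2) hp0.le
        rw [norm_pow, norm_norm]
        calc C * ‖r • (w + t • v)‖ ^ (j + 1) ≤ |C| * ‖r • (w + t • v)‖ ^ (j + 1) :=
              mul_le_mul_of_nonneg_right (le_abs_self C) (by positivity)
          _ ≤ |C| * (r * K) ^ (j + 1) :=
              mul_le_mul_of_nonneg_left (pow_le_pow_left₀ (norm_nonneg _) hn _) (abs_nonneg _)
      calc (r ^ j)⁻¹ * ‖F (r • (w + t • v)) - G (r • (w + t • v))‖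
          ≤ (r ^ j)⁻¹ * (|C| * (r * K) ^ (j + 1)) :=
            mul_le_mul_of_nonneg_left (hA.trans hB) (by positivity)
        _ = r * (|C| * K ^ (j + 1)) := by
            rw [mul_pow, pow_succ r j]; field_simp
        _ ≤ r * (|C| * K ^ (j + 1) + 1) := by
            exact mul_le_mul_of_nonneg_left (by linarith) hp0.le
        _ ≤ δ := by
            have := (lt_div_iff₀ (by positivity : (0:ℝ) < |C| * K ^ (j + 1) + 1)).mp h2
            exact this.le
    have hB' : ‖G (w + t • v) - G (q + t • v)‖ < δ := by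
      exact hsb w h3 t (by simp [ht1])
    calc ‖(φ - φ0) t‖ = ‖(φ t - G (w + t • v)) + (G (w + t • v) - G (q + t • v))‖ := by
          simp only [Pi.sub_apply, hφ0]; congr 1; abel
      _ ≤ ‖φ t - G (w + t • v)‖ + ‖G (w + t • v) - G (q + t • v)‖ := norm_add_le _ _
      _ ≤ 2 * δ := by linarith
  have hdc : DiffContOnCl ℂ (φ - φ0) (ball 0 1) := by
    have : DifferentiableOn ℂ (φ - φ0) (ball 0 2) := hφd.sub hφ0d.differentiableOn
    refine (this.mono ?_).diffContOnCl
    exact closure_ball_subset_closedBall.trans (closedBall_subset_ball (by norm_num))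
  have hcau := Complex.norm_iteratedDeriv_le_of_forall_mem_sphere_norm_le e one_pos hdc hdiff
  have hφs : ContDiffAt ℂ e φ 0 := by
    have : AnalyticAt ℂ φ 0 := hφd.analyticAt (ball_mem_nhds 0 (by norm_num))
    exact this.contDiffAt
  have hφ0s : ContDiffAt ℂ e φ0 0 := by
    have : AnalyticAt ℂ φ0 0 := hφ0d.analyticAt 0
    exact this.contDiffAt
  have hsub : iteratedDeriv e (φ - φ0) 0 = iteratedDeriv e φ 0 - iteratedDeriv e φ0 0 :=
    iteratedDeriv_sub hφs hφ0s
  rw [hsub, hz, zero_sub, norm_neg] at hcau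
  have : D ≤ e.factorial * (2 * δ) := by
    have h := hcau
    simp only [one_pow, div_one] at h
    exact h
  have hlt : e.factorial * (2 * δ) < D := by
    rw [hδ]
    have he1 : (0:ℝ) < e.factorial + 1 := by positivity
    have : (e.factorial : ℝ) * (2 * (D / (2 * (e.factorial + 1)))) =
        D * (e.factorial / (e.factorial + 1)) := by field_simp
    rw [this]
    have hfrac : (e.factorial : ℝ) / (e.factorial + 1) < 1 := by
      rw [div_lt_one he1]; linarith
    nlinarith
  exact absurd this (not_le.mpr hlt)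

end Crest.Agent.R271.CaseA112
end
end

-- ▼ part R271/CaseA2_112
section

/-!
Row 271, Case A (5.2), part 2: homogeneous polynomials with small order at a point.
-/

set_option autoImplicit false

open scoped Topology BigOperators
open Filter Metric Asymptotics MvPolynomial

noncomputable section

namespace Crest.Agent.R271.CaseA112

variable {n : ℕ}

/-- exponents of total degree `j` -/
def AA (n j : ℕ) : Finset (Fin n →₀ ℕ) := Finset.finsuppAntidiag Finset.univ j

theorem mem_AA {j : ℕ} {α : Fin n →₀ ℕ} : α ∈ AA n j ↔ ∑ i, α i = j := by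
  simp [AA, Finset.mem_finsuppAntidiag]

/-- exponents of total degree `j` with at most `N` outside `i₀` -/
def OO (n j N : ℕ) (i0 : Fin n) : Finset (Fin n →₀ ℕ) := (AA n j).filter fun α => j - α i0 ≤ N

theorem card_AA_le {j N : ℕ} (i0 : Fin n) (hN : j < 2 * n * (N + 1)) :
    (AA n j).card ≤ (2 * n) ^ n * (OO n j N i0).card := by
  have hn : 0 < n := i0.pos
  have h2n : 0 < 2 * n := by omega
  -- the rounding map
  let rd : (Fin n →₀ ℕ) → (Fin n →₀ ℕ) := fun α =>
    Finsupp.equivFunOnFinite.symm (Function.update (fun i => α i / (2 * n)) i0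
      (j - ∑ i ∈ Finset.univ.erase i0, α i / (2 * n)))
  let md : (Fin n →₀ ℕ) → (Fin n → Fin (2 * n)) := fun α i => ⟨α i % (2 * n), Nat.mod_lt _ h2n⟩
  have hsum : ∀ α ∈ AA n j, ∑ i ∈ Finset.univ.erase i0, α i / (2 * n) ≤ N := by
    intro α hα
    have h1 : ∑ i ∈ Finset.univ.erase i0, α i / (2 * n) ≤ ∑ i, α i / (2 * n) :=
      Finset.sum_le_sum_of_subset (Finset.erase_subset _ _)
    have h2 : (∑ i, α i / (2 * n)) * (2 * n) ≤ j := by
      rw [Finset.sum_mul]
      calc ∑ i, α i / (2 * n) * (2 * n) ≤ ∑ i, α i :=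
            Finset.sum_le_sum fun i _ => Nat.div_mul_le_self _ _
        _ = j := mem_AA.mp hα
    have h3 : (∑ i, α i / (2 * n)) * (2 * n) < (N + 1) * (2 * n) := by
      calc _ ≤ j := h2
        _ < 2 * n * (N + 1) := hN
        _ = (N + 1) * (2 * n) := by ring
    have h4 := Nat.lt_of_mul_lt_mul_right h3
    omega
  have hle : ∀ α ∈ AA n j, ∑ i ∈ Finset.univ.erase i0, α i / (2 * n) ≤ j := by
    intro α hα
    calc ∑ i ∈ Finset.univ.erase i0, α i / (2 * n) ≤ ∑ i ∈ Finset.univ.erase i0, α i :=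
          Finset.sum_le_sum fun i _ => Nat.div_le_self _ _
      _ ≤ ∑ i, α i := Finset.sum_le_sum_of_subset (Finset.erase_subset _ _)
      _ = j := mem_AA.mp hα
  have hrd0 : ∀ α, (rd α) i0 = j - ∑ i ∈ Finset.univ.erase i0, α i / (2 * n) := by
    intro α; simp [rd]
  have hrdi : ∀ α i, i ≠ i0 → (rd α) i = α i / (2 * n) := by
    intro α i hi; simp [rd, Function.update_of_ne hi]
  have hmap : ∀ α ∈ AA n j, (rd α, md α) ∈ (OO n j N i0) ×ˢ (Finset.univ : Finset (Fin n → Fin (2 * n))) := by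
    intro α hα
    rw [Finset.mem_product]
    refine ⟨?_, Finset.mem_univ _⟩
    rw [OO, Finset.mem_filter, mem_AA]
    constructor
    · rw [← Finset.add_sum_erase _ _ (Finset.mem_univ i0)]
      have : ∑ i ∈ Finset.univ.erase i0, (rd α) i = ∑ i ∈ Finset.univ.erase i0, α i / (2 * n) :=
        Finset.sum_congr rfl fun i hi => hrdi α i (Finset.ne_of_mem_erase hi)
      rw [this]
      show (rd α) i0 + _ = j
      rw [hrd0]
      have := hle α hα
      omega
    · show j - (rd α) i0 ≤ N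
      rw [hrd0]
      have h1 := hle α hα
      have h2 := hsum α hα
      omega
  have hinj : Set.InjOn (fun α => (rd α, md α)) (AA n j : Set (Fin n →₀ ℕ)) := by
    intro α hα β hβ hab
    have h1 : rd α = rd β := congrArg Prod.fst hab
    have h2 : md α = md β := congrArg Prod.snd hab
    have hne : ∀ i, i ≠ i0 → α i = β i := by
      intro i hi
      have ha : α i / (2 * n) = β i / (2 * n) := by
        rw [← hrdi α i hi, ← hrdi β i hi, h1]
      have hb : α i % (2 * n) = β i % (2 * n) := by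
        have := congrFun h2 i
        simpa [md] using this
      calc α i = 2 * n * (α i / (2 * n)) + α i % (2 * n) := (Nat.div_add_mod _ _).symm
        _ = 2 * n * (β i / (2 * n)) + β i % (2 * n) := by rw [ha, hb]
        _ = β i := Nat.div_add_mod _ _
    have h0 : α i0 = β i0 := by
      have hα' := mem_AA.mp hα
      have hβ' := mem_AA.mp hβ
      rw [← Finset.add_sum_erase _ _ (Finset.mem_univ i0)] at hα' hβ'
      have : ∑ i ∈ Finset.univ.erase i0, α i = ∑ i ∈ Finset.univ.erase i0, β i :=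
        Finset.sum_congr rfl fun i hi => hne i (Finset.ne_of_mem_erase hi)
      omega
    ext i
    by_cases hi : i = i0
    · rw [hi, h0]
    · exact hne i hi
  have hcard := Finset.card_le_card_of_injOn (fun α => (rd α, md α)) hmap hinj
  calc (AA n j).card ≤ ((OO n j N i0) ×ˢ (Finset.univ : Finset (Fin n → Fin (2 * n)))).card := hcard
    _ = (2 * n) ^ n * (OO n j N i0).card := by
        rw [Finset.card_product, Finset.card_univ, Fintype.card_fun, Fintype.card_fin,
          Fintype.card_fin, mul_comm]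

/-- the generator of small order -/
def gn (i0 : Fin n) (c : Fin n → ℂ) (α : Fin n →₀ ℕ) : MvPolynomial (Fin n) ℂ :=
  X i0 ^ α i0 * ∏ i ∈ Finset.univ.erase i0, (X i - C (c i) * X i0) ^ α i

theorem gn_homog {j : ℕ} {i0 : Fin n} {c : Fin n → ℂ} {α : Fin n →₀ ℕ} (hα : α ∈ AA n j) :
    (gn i0 c α).IsHomogeneous j := by
  have h1 : (∏ i ∈ Finset.univ.erase i0, (X i - C (c i) * X i0 : MvPolynomial (Fin n) ℂ) ^ α i).IsHomogeneous
      (∑ i ∈ Finset.univ.erase i0, α i) := by
    refine IsHomogeneous.prod _ _ _ fun i _ => ?_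
    have h : (X i - C (c i) * X i0 : MvPolynomial (Fin n) ℂ).IsHomogeneous 1 := by
      refine IsHomogeneous.sub (isHomogeneous_X _ _) ?_
      have := (isHomogeneous_C (Fin n) (c i)).mul (isHomogeneous_X ℂ i0)
      simpa using this
    have := h.pow (α i)
    simpa using this
  have h2 : (X i0 ^ α i0 : MvPolynomial (Fin n) ℂ).IsHomogeneous (α i0) := by
    have := (isHomogeneous_X ℂ i0).pow (α i0)
    simpa using this
  have := h2.mul h1
  have hs : α i0 + ∑ i ∈ Finset.univ.erase i0, α i = j := by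
    rw [Finset.add_sum_erase _ _ (Finset.mem_univ i0)]
    exact mem_AA.mp hα
  rw [hs] at this
  exact this

theorem eval_gn {j : ℕ} {i0 : Fin n} {q v : Fin n → ℂ} (hq : q i0 ≠ 0) (hv : v i0 = 0) (t : ℂ)
    {α : Fin n →₀ ℕ} (hα : α ∈ AA n j) :
    eval (q + t • v) (gn i0 (fun i => q i / q i0) α) =
      (q i0 ^ α i0 * ∏ i ∈ Finset.univ.erase i0, v i ^ α i) * t ^ (j - α i0) := by
  have hs : ∑ i ∈ Finset.univ.erase i0, α i = j - α i0 := by
    have := mem_AA.mp hα
    rw [← Finset.add_sum_erase _ _ (Finset.mem_univ i0)] at this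
    omega
  simp only [gn, map_mul, map_pow, map_prod, map_sub, eval_X, eval_C, Pi.add_apply, Pi.smul_apply,
    smul_eq_mul, hv, mul_zero, add_zero]
  have : ∀ i ∈ Finset.univ.erase i0, (q i + t * v i - q i / q i0 * q i0) ^ α i =
      v i ^ α i * t ^ α i := by
    intro i _
    rw [div_mul_cancel₀ _ hq, add_sub_cancel_left, mul_pow, mul_comm]
  rw [Finset.prod_congr rfl this, Finset.prod_mul_distrib, Finset.prod_pow_eq_pow_sum, hs]
  ring

/-- iterated derivative of a polynomial function at `0` -/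
theorem iteratedDeriv_poly (P : Polynomial ℂ) (e : ℕ) :
    iteratedDeriv e (fun t : ℂ => P.eval t) 0 = e.factorial * P.coeff e := by
  have h : ∀ (k : ℕ), iteratedDeriv k (fun t : ℂ => P.eval t) =
      fun t => (Polynomial.derivative^[k] P).eval t := by
    intro k
    induction k with
    | zero => simp
    | succ k ih =>
      rw [iteratedDeriv_succ, ih]
      funext t
      rw [Polynomial.deriv, Function.iterate_succ_apply']
  rw [h]
  show Polynomial.eval 0 (Polynomial.derivative^[e] P) = _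
  rw [← Polynomial.coeff_zero_eq_eval_zero, Polynomial.coeff_iterate_derivative]
  simp [Nat.descFactorial_self]

/-- a nonzero combination of the generators has a nonzero derivative of order `≤ N` at `q` -/
theorem exists_deriv_ne_zero {j N : ℕ} {i0 : Fin n} {q : Fin n → ℂ} (hq : q i0 ≠ 0)
    (a : (Fin n →₀ ℕ) → ℂ) (ha : ∃ α ∈ OO n j N i0, a α ≠ 0) :
    ∃ (v : Fin n → ℂ) (e : ℕ), e ≤ N ∧
      iteratedDeriv e (fun t : ℂ => eval (q + t • v)
        (∑ α ∈ OO n j N i0, a α • gn i0 (fun i => q i / q i0) α)) 0 ≠ 0 := by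
  classical
  obtain ⟨α₀, hα₀, haα₀⟩ := ha
  have hsub : ∀ α ∈ OO n j N i0, α ∈ AA n j := fun α hα => (Finset.mem_filter.mp hα).1
  set e : ℕ := j - α₀ i0 with he
  have heN : e ≤ N := (Finset.mem_filter.mp hα₀).2
  -- the polynomial in `v`
  set Q : MvPolynomial (Fin n) ℂ := ∑ α ∈ (OO n j N i0).filter (fun α => j - α i0 = e),
    monomial (α.erase i0) (a α * q i0 ^ α i0) with hQ
  have hQne : Q ≠ 0 := by
    intro h0
    have hc : coeff (α₀.erase i0) Q = a α₀ * q i0 ^ α₀ i0 := by
      rw [hQ, coeff_sum]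
      rw [Finset.sum_eq_single α₀]
      · simp [coeff_monomial]
      · intro β hβ hne
        rw [coeff_monomial, if_neg]
        intro heq
        apply hne
        have hβ1 := Finset.mem_filter.mp hβ
        have hβA := mem_AA.mp (hsub β hβ1.1)
        have hαA := mem_AA.mp (hsub α₀ hα₀)
        rw [← Finset.add_sum_erase _ _ (Finset.mem_univ i0)] at hβA hαA
        have hi : ∀ i, i ≠ i0 → β i = α₀ i := by
          intro i hi
          have := DFunLike.congr_fun heq i
          simpa [Finsupp.erase_ne hi] using this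
        have hs : ∑ i ∈ Finset.univ.erase i0, β i = ∑ i ∈ Finset.univ.erase i0, α₀ i :=
          Finset.sum_congr rfl fun i hi' => hi i (Finset.ne_of_mem_erase hi')
        ext i
        by_cases h : i = i0
        · subst h; omega
        · exact hi i h
      · intro h
        exact absurd (Finset.mem_filter.mpr ⟨hα₀, he.symm⟩) h
    rw [h0, coeff_zero] at hc
    exact (mul_ne_zero haα₀ (pow_ne_zero _ hq)) hc.symm
  obtain ⟨v, hv⟩ : ∃ v : Fin n → ℂ, eval v Q ≠ 0 := by
    by_contra hcon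
    push Not at hcon
    exact hQne (MvPolynomial.funext fun x => by rw [hcon x, map_zero])
  set v' : Fin n → ℂ := Function.update v i0 0 with hv'
  have hv'0 : v' i0 = 0 := by simp [hv']
  have hv'i : ∀ i, i ≠ i0 → v' i = v i := fun i hi => by simp [hv', Function.update_of_ne hi]
  -- the one variable polynomial
  set P : Polynomial ℂ := ∑ α ∈ OO n j N i0,
    Polynomial.monomial (j - α i0) (a α * (q i0 ^ α i0 * ∏ i ∈ Finset.univ.erase i0, v' i ^ α i)) with hP
  refine ⟨v', e, heN, ?_⟩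
  have hfun : (fun t : ℂ => eval (q + t • v')
        (∑ α ∈ OO n j N i0, a α • gn i0 (fun i => q i / q i0) α)) = fun t => P.eval t := by
    funext t
    rw [map_sum, hP, Polynomial.eval_finsetSum]
    refine Finset.sum_congr rfl fun α hα => ?_
    rw [MvPolynomial.smul_eval, eval_gn hq hv'0 t (hsub α hα), Polynomial.eval_monomial]
    ring
  rw [hfun, iteratedDeriv_poly]
  refine mul_ne_zero (by exact_mod_cast e.factorial_ne_zero) ?_
  have hcoeff : P.coeff e = eval v Q := by
    rw [hP, Polynomial.finsetSum_coeff, hQ, map_sum, Finset.sum_filter]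
    refine Finset.sum_congr rfl fun α hα => ?_
    rw [Polynomial.coeff_monomial]
    split_ifs with h
    · rw [eval_monomial, Finsupp.prod_fintype _ _ (by simp), ← Finset.mul_prod_erase _ _ (Finset.mem_univ i0)]
      have : ∏ i ∈ Finset.univ.erase i0, v i ^ (α.erase i0) i =
          ∏ i ∈ Finset.univ.erase i0, v' i ^ α i := by
        refine Finset.prod_congr rfl fun i hi => ?_
        have hi' := Finset.ne_of_mem_erase hi
        rw [Finsupp.erase_ne hi', hv'i i hi']
      rw [this]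
      simp only [Finsupp.erase_same, pow_zero, one_mul]
      ring
    · rfl
  rw [hcoeff]
  exact hv

end Crest.Agent.R271.CaseA112
end
end

-- ▼ part R271/CaseA3_112

/-!
Row 271, Case A (5.2), part 3: the flat statement.
-/

set_option autoImplicit false

open scoped Topology BigOperators
open Filter Metric Asymptotics MvPolynomial Module

noncomputable section

namespace Crest.Agent.R271.CaseA112

variable {n : ℕ}

instance (j : ℕ) : FiniteDimensional ℂ (homogeneousSubmodule (Fin n) ℂ j) :=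
  Module.Finite.iff_fg.mpr (homogeneousSubmodule_fg (σ := Fin n) (R := ℂ) j)

/-- `dim Sym^j = #{α : |α| = j}` -/
theorem finrank_homog (j : ℕ) :
    finrank ℂ (homogeneousSubmodule (Fin n) ℂ j) = (AA n j).card := by
  have hset : {d : Fin n →₀ ℕ | d.degree = j} = ↑(AA n j) := by
    ext d
    simp only [Set.mem_ofPred_eq, Finset.mem_coe, mem_AA]
    rw [Finsupp.degree_eq_sum]
  have h1 : homogeneousSubmodule (Fin n) ℂ j = AddMonoidAlgebra.supported _ ℂ (↑(AA n j) : Set (Fin n →₀ ℕ)) := by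
    rw [homogeneousSubmodule_eq_finsupp_supported, hset]
  rw [h1]
  have hmem : ∀ α : AA n j, (monomial α.1 (1:ℂ) : MvPolynomial (Fin n) ℂ) ∈
      homogeneousSubmodule (Fin n) ℂ j := by
    intro α
    exact isHomogeneous_monomial _ (by rw [Finsupp.degree_eq_sum]; exact mem_AA.mp α.2)
  -- basis given by the monomials
  have hb : LinearIndependent ℂ (fun α : AA n j => (monomial α.1 (1:ℂ) : MvPolynomial (Fin n) ℂ)) := by
    have := (MvPolynomial.basisMonomials (Fin n) ℂ).linearIndependent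
    have h := this.comp (fun α : AA n j => α.1) Subtype.val_injective
    simpa [Function.comp_def] using h
  have hspan : Submodule.span ℂ (Set.range (fun α : AA n j => (monomial α.1 (1:ℂ) : MvPolynomial (Fin n) ℂ)))
      = homogeneousSubmodule (Fin n) ℂ j := by
    apply le_antisymm
    · rw [Submodule.span_le]
      rintro _ ⟨α, rfl⟩
      exact hmem α
    · intro p hp
      have hp' : p.IsHomogeneous j := hp
      rw [MvPolynomial.as_sum p]
      refine Submodule.sum_mem _ fun d hd => ?_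
      have hdj : d.degree = j := by
        have := hp' (mem_support_iff.mp hd)
        simpa [Finsupp.degree_eq_weight_one, Pi.one_def] using this
      have hdA : d ∈ AA n j := mem_AA.mpr (by rw [← Finsupp.degree_eq_sum]; exact hdj)
      have : (monomial d (coeff d p) : MvPolynomial (Fin n) ℂ) = coeff d p • monomial d 1 := by
        rw [smul_monomial, smul_eq_mul, mul_one]
      rw [this]
      exact Submodule.smul_mem _ _ (Submodule.subset_span ⟨⟨d, hdA⟩, rfl⟩)
  rw [← h1, ← hspan, finrank_span_eq_card hb, Fintype.card_coe]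

theorem card_AA_choose (j : ℕ) : (AA n j).card = Nat.choose (n + j - 1) j := by
  rw [AA, Finset.card_finsuppAntidiag_nat_eq_choose, Finset.card_univ, Fintype.card_fin]

/-- the combination map -/
def comb (i0 : Fin n) (c : Fin n → ℂ) (s : Finset (Fin n →₀ ℕ)) :
    (s → ℂ) →ₗ[ℂ] MvPolynomial (Fin n) ℂ :=
  ∑ α : s, (LinearMap.proj α).smulRight (gn i0 c α.1)

theorem comb_apply (i0 : Fin n) (c : Fin n → ℂ) (s : Finset (Fin n →₀ ℕ)) (a : s → ℂ) :
    comb i0 c s a = ∑ α : s, a α • gn i0 c α.1 := by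
  simp [comb]

theorem comb_deriv {j N : ℕ} {i0 : Fin n} {q : Fin n → ℂ} (hq : q i0 ≠ 0)
    (a : OO n j N i0 → ℂ) (ha : a ≠ 0) :
    ∃ (v : Fin n → ℂ) (e : ℕ), e ≤ N ∧
      iteratedDeriv e (fun t : ℂ => eval (q + t • v)
        (comb i0 (fun i => q i / q i0) (OO n j N i0) a)) 0 ≠ 0 := by
  classical
  obtain ⟨α, hα⟩ := Function.ne_iff.mp ha
  let a' : (Fin n →₀ ℕ) → ℂ := fun β => if h : β ∈ OO n j N i0 then a ⟨β, h⟩ else 0
  have h := exists_deriv_ne_zero (j := j) (N := N) hq a' ⟨α.1, α.2, by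
    simp only [a', α.2, dif_pos]; exact hα⟩
  have hs : comb i0 (fun i => q i / q i0) (OO n j N i0) a =
      ∑ β ∈ OO n j N i0, a' β • gn i0 (fun i => q i / q i0) β := by
    rw [comb_apply, ← Finset.sum_coe_sort (OO n j N i0)]
    refine Finset.sum_congr rfl fun β _ => ?_
    simp only [a', β.2, dif_pos]
  rw [hs]
  exact h

/-- Every large subspace of `Sym^j` contains, for every direction `q`, an element of small order. -/
theorem exists_small_order {j N : ℕ} (hN : j < 2 * n * (N + 1))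
    (W : Submodule ℂ (MvPolynomial (Fin n) ℂ)) (hW : W ≤ homogeneousSubmodule (Fin n) ℂ j)
    (hdim : (1 - 1 / (2 * n : ℝ) ^ n) * (Nat.choose (n + j - 1) j : ℝ) < (finrank ℂ W : ℝ))
    {q : Fin n → ℂ} (hq : q ≠ 0) :
    ∃ g ∈ W, ∃ (v : Fin n → ℂ) (e : ℕ), e ≤ N ∧
      iteratedDeriv e (fun t : ℂ => eval (q + t • v) g) 0 ≠ 0 := by
  obtain ⟨i0, hi0⟩ := Function.ne_iff.mp hq
  have hi0' : q i0 ≠ 0 := hi0
  have hn : 0 < n := i0.pos
  set Θ := comb i0 (fun i => q i / q i0) (OO n j N i0) with hΘ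
  have hinj : Function.Injective Θ := by
    rw [← LinearMap.ker_eq_bot, LinearMap.ker_eq_bot']
    intro a ha
    by_contra hne
    obtain ⟨v, e, _, h⟩ := comb_deriv (j := j) (N := N) hi0' a hne
    apply h
    have : (fun t : ℂ => eval (q + t • v) (comb i0 (fun i => q i / q i0) (OO n j N i0) a)) =
        fun _ => 0 := by
      funext t
      rw [← hΘ, ha, map_zero]
    rw [this]
    simp
  set U := LinearMap.range Θ with hU
  have hUle : U ≤ homogeneousSubmodule (Fin n) ℂ j := by
    rintro _ ⟨a, rfl⟩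
    rw [hΘ, comb_apply]
    refine Submodule.sum_mem _ fun α _ => Submodule.smul_mem _ _ ?_
    exact gn_homog (Finset.mem_filter.mp α.2).1
  have hUdim : finrank ℂ U = (OO n j N i0).card := by
    rw [hU, LinearMap.finrank_range_of_inj hinj, finrank_fintype_fun_eq_card, Fintype.card_coe]
  have hWfd : FiniteDimensional ℂ W := Submodule.finiteDimensional_of_le hW
  have hUfd : FiniteDimensional ℂ U := Submodule.finiteDimensional_of_le hUle
  have hsup : finrank ℂ ↥(W ⊔ U) ≤ (AA n j).card := by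
    rw [← finrank_homog]
    exact Submodule.finrank_mono (sup_le hW hUle)
  have hsi := Submodule.finrank_sup_add_finrank_inf_eq W U
  have hcount : ((AA n j).card : ℝ) ≤ (2 * n : ℝ) ^ n * ((OO n j N i0).card : ℝ) := by
    exact_mod_cast card_AA_le i0 hN
  have h2n : (0:ℝ) < (2 * n : ℝ) ^ n := by
    have : (0:ℝ) < n := by exact_mod_cast hn
    positivity
  have hO : 1 / (2 * n : ℝ) ^ n * ((AA n j).card : ℝ) ≤ ((OO n j N i0).card : ℝ) := by
    rw [one_div, inv_mul_le_iff₀ h2n]; exact hcount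
  rw [← card_AA_choose] at hdim
  have hbig : ((AA n j).card : ℝ) < (finrank ℂ W : ℝ) + (finrank ℂ U : ℝ) := by
    rw [hUdim]; nlinarith
  have hbig' : (AA n j).card < finrank ℂ W + finrank ℂ U := by exact_mod_cast hbig
  have hpos : 0 < finrank ℂ ↥(W ⊓ U) := by omega
  have hne : W ⊓ U ≠ ⊥ := by
    intro h
    rw [h, finrank_bot] at hpos
    exact lt_irrefl _ hpos
  obtain ⟨g, hg, hgne⟩ := Submodule.exists_mem_ne_zero_of_ne_bot hne
  obtain ⟨hgW, a, rfl⟩ := hg
  have ha : a ≠ 0 := by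
    rintro rfl
    exact hgne (map_zero _)
  exact ⟨_, hgW, comb_deriv (j := j) (N := N) hi0' a ha⟩

/-- homogeneity of evaluation -/
theorem eval_smul_homog {j : ℕ} {g : MvPolynomial (Fin n) ℂ} (hg : g.IsHomogeneous j) (r : ℝ)
    (w : Fin n → ℂ) : eval (r • w) g = (r : ℂ) ^ j * eval w g := by
  have h1 : (r • w : Fin n → ℂ) = (r : ℂ) • w := by
    ext i; simp
  rw [h1]
  rw [MvPolynomial.eval_eq, MvPolynomial.eval_eq, Finset.mul_sum]
  refine Finset.sum_congr rfl fun d hd => ?_
  have hdj : ∑ i, d i = j := by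
    have := hg (mem_support_iff.mp hd)
    rw [← Finsupp.degree_eq_sum]
    simpa [Finsupp.degree_eq_weight_one, Pi.one_def] using this
  have : ∏ i ∈ d.support, ((r:ℂ) • w) i ^ d i = (r:ℂ) ^ j * ∏ i ∈ d.support, w i ^ d i := by
    simp only [Pi.smul_apply, smul_eq_mul, mul_pow]
    rw [Finset.prod_mul_distrib, Finset.prod_pow_eq_pow_sum]
    congr 2
    rw [← hdj]
    exact Finset.sum_subset (Finset.subset_univ _) fun i _ hi => by
      simpa using hi
  rw [this]; ring

/-- FLAT CASE A. -/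
theorem shell {j N : ℕ} (hN : j < 2 * n * (N + 1))
    {E : Type*} [AddCommGroup E] [Module ℂ E] (ev : E → (Fin n → ℂ) → ℂ)
    (lead : E →ₗ[ℂ] MvPolynomial (Fin n) ℂ) (hlead : ∀ f, (lead f).IsHomogeneous j)
    (han : ∀ f, AnalyticAt ℂ (ev f) 0)
    (hO : ∀ f, (fun w => ev f w - eval w (lead f)) =O[𝓝 0] fun w => ‖w‖ ^ (j + 1))
    (hdim : (1 - 1 / (2 * n : ℝ) ^ n) * (Nat.choose (n + j - 1) j : ℝ) <
      (finrank ℂ (LinearMap.range lead) : ℝ)) :
    ∀ᶠ y in 𝓝[≠] (0 : Fin n → ℂ), ∃ (f : E) (v : Fin n → ℂ),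
      ¬ ((fun t : ℂ => ev f (y + t • v)) =O[𝓝 0] fun t : ℂ => t ^ (N + 1)) := by
  have hcomp : IsCompact (sphere (0 : Fin n → ℂ) 1) := isCompact_sphere 0 1
  have key : ∀ᶠ r in 𝓝 (0 : ℝ), ∀ w ∈ sphere (0 : Fin n → ℂ) 1, 0 < r →
      ∃ (f : E) (v : Fin n → ℂ),
        ¬ ((fun t : ℂ => ev f (r • (w + t • v))) =O[𝓝 0] fun t : ℂ => t ^ (N + 1)) := by
    refine hcomp.eventually_forall_of_forall_eventually (x₀ := (0:ℝ))
      (P := fun r w => 0 < r → ∃ (f : E) (v : Fin n → ℂ),
        ¬ ((fun t : ℂ => ev f (r • (w + t • v))) =O[𝓝 0] fun t : ℂ => t ^ (N + 1))) ?_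
    intro q hq
    have hq0 : q ≠ 0 := by
      rintro rfl
      simp at hq
    have hWle : LinearMap.range lead ≤ homogeneousSubmodule (Fin n) ℂ j := by
      rintro _ ⟨f, rfl⟩
      exact hlead f
    obtain ⟨g, ⟨f, rfl⟩, v, e, he, hne⟩ := exists_small_order hN _ hWle hdim hq0
    have hG : Differentiable ℂ (fun w : Fin n → ℂ => eval w (lead f)) := by
      intro w
      exact ((AnalyticOnNhd.eval_mvPolynomial (lead f)) w (Set.mem_univ _)).differentiableAt
    have := limit_dir (n := n) (N := N) (j := j) he (han f) hG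
      (fun r w => eval_smul_homog (hlead f) r w) (hO f) q v hne
    filter_upwards [this] with p hp hp0
    exact ⟨f, v, hp hp0⟩
  obtain ⟨δ, hδ, hδb⟩ := Metric.eventually_nhds_iff_ball.mp key
  rw [eventually_nhdsWithin_iff]
  filter_upwards [ball_mem_nhds (0 : Fin n → ℂ) hδ] with y hy hy0
  have hy0' : y ≠ 0 := hy0
  have hr : 0 < ‖y‖ := norm_pos_iff.mpr hy0'
  have hyδ : ‖y‖ < δ := by simpa using hy
  obtain ⟨f, v, h⟩ := hδb ‖y‖ (by simpa [abs_of_pos hr] using hyδ) (‖y‖⁻¹ • y)
    (by simp [norm_smul, hr.ne']) hr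
  refine ⟨f, ‖y‖ • v, fun hcon => h ?_⟩
  have : (fun t : ℂ => ev f (‖y‖ • (‖y‖⁻¹ • y + t • v))) =
      fun t : ℂ => ev f (y + t • (‖y‖ • v)) := by
    funext t
    congr 1
    rw [smul_add, smul_smul, mul_inv_cancel₀ hr.ne', one_smul, smul_comm]
  rw [this]
  exact hcon

end Crest.Agent.R271.CaseA112
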