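import Mathlib
import Crest.Agent.R271.CNT_376
import Crest.Agent.R271.Lead_553

-- ▼ part R271/CaseB1_553
section

/-!
# Row 271, Part 9.4: real analysis lemmas for Case B (growth inequality)
-/

set_option autoImplicit false

open Finset

namespace Crest.Agent.R271.CaseB553

lemma pow_add_ge {y δ : ℝ} (hy : 0 ≤ y) (hδ : 0 ≤ δ) (m : ℕ) :
    y ^ (m + 1) + (m + 1) * δ * y ^ m ≤ (y + δ) ^ (m + 1) := by
  induction m with
  | zero => simp
  | succ m ih =>
    have h1 : (y + δ) ^ (m + 1 + 1) = (y + δ) * (y + δ) ^ (m + 1) := by ring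
    rw [h1]
    have h2 : (y + δ) * (y ^ (m + 1) + (m + 1) * δ * y ^ m) ≤ (y + δ) * (y + δ) ^ (m + 1) :=
      mul_le_mul_of_nonneg_left ih (by linarith)
    refine le_trans ?_ h2
    have h3 : 0 ≤ ((m : ℝ) + 1) * δ * δ * y ^ m := by positivity
    push_cast
    have : (y + δ) * (y ^ (m + 1) + (m + 1) * δ * y ^ m) =
      y ^ (m + 1 + 1) + ((m : ℝ) + 1 + 1) * δ * y ^ (m + 1) + ((m : ℝ) + 1) * δ * δ * y ^ m := by
      ring
    rw [this]; linarith

lemma pow_add_le {y b : ℝ} (hy : 0 ≤ y) (hb : 0 ≤ b) (m : ℕ) :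
    (y + b) ^ (m + 1) ≤ y ^ (m + 1) + (m + 1) * b * (y + b) ^ m := by
  induction m with
  | zero => simp
  | succ m ih =>
    have h1 : (y + b) ^ (m + 1 + 1) = y * (y + b) ^ (m + 1) + b * (y + b) ^ (m + 1) := by ring
    rw [h1]
    have h2 : y * (y + b) ^ (m + 1) ≤ y * (y ^ (m + 1) + (m + 1) * b * (y + b) ^ m) :=
      mul_le_mul_of_nonneg_left ih hy
    have h3 : y * (y + b) ^ m ≤ (y + b) ^ (m + 1) := by
      rw [pow_succ, mul_comm]
      exact mul_le_mul_of_nonneg_left (by linarith) (by positivity)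
    have h4 : ((m : ℝ) + 1) * b * (y * (y + b) ^ m) ≤ ((m : ℝ) + 1) * b * (y + b) ^ (m + 1) :=
      mul_le_mul_of_nonneg_left h3 (by positivity)
    have h5 : y * (y ^ (m + 1) + ((m : ℝ) + 1) * b * (y + b) ^ m) =
      y ^ (m + 1 + 1) + ((m : ℝ) + 1) * b * (y * (y + b) ^ m) := by ring
    push_cast
    have h6 : ((m : ℝ) + 1 + 1) * b * (y + b) ^ (m + 1) =
      ((m : ℝ) + 1) * b * (y + b) ^ (m + 1) + b * (y + b) ^ (m + 1) := by ring
    linarith

/-- potential -/
noncomputable def hN (n : ℕ) (r : ℝ) : ℝ := (n / (n + 1)) * r ^ (n + 1)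

/-- auxiliary potential -/
noncomputable def psi (n : ℕ) (K L r : ℝ) : ℝ := hN n r + K * min r L

lemma hN_nonneg (n : ℕ) {r : ℝ} (hr : 0 ≤ r) : 0 ≤ hN n r := by unfold hN; positivity

lemma hN_mono (n : ℕ) {r s : ℝ} (hr : 0 ≤ r) (hrs : r ≤ s) : hN n r ≤ hN n s := by
  unfold hN
  exact mul_le_mul_of_nonneg_left (pow_le_pow_left₀ hr hrs _) (by positivity)

lemma psi_nonneg (n : ℕ) {K L r : ℝ} (hK : 0 ≤ K) (hL : 0 ≤ L) (hr : 0 ≤ r) :
    0 ≤ psi n K L r := by
  unfold psi
  have := hN_nonneg n hr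
  have h2 : 0 ≤ min r L := le_min hr hL
  positivity

lemma psi_mono (n : ℕ) {K L r s : ℝ} (hK : 0 ≤ K) (hr : 0 ≤ r) (hrs : r ≤ s) :
    psi n K L r ≤ psi n K L s := by
  unfold psi
  have := hN_mono n hr hrs
  have h2 : min r L ≤ min s L := min_le_min_right _ hrs
  have := mul_le_mul_of_nonneg_left h2 hK
  linarith

lemma hN_sub (n : ℕ) {r δ : ℝ} (hδ : 0 ≤ δ) (hr : δ ≤ r) :
    n * δ * (r - δ) ^ n ≤ hN n r - hN n (r - δ) := by
  unfold hN
  have h := pow_add_ge (y := r - δ) (by linarith) hδ n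
  rw [sub_add_cancel] at h
  have h2 : (n : ℝ) * δ * (r - δ) ^ n = (n / (n + 1)) * ((n + 1) * δ * (r - δ) ^ n) := by
    field_simp
  rw [h2, ← mul_sub]
  exact mul_le_mul_of_nonneg_left (by linarith) (by positivity)

/-- the pointwise inequality behind the growth lemma -/
lemma pointwise {n : ℕ} (hn : 1 ≤ n) {a k w : ℝ} (ha : 0 < a) (ha4 : a ≤ 1 / 4) (hk : 0 < k)
    (hw0 : 0 ≤ w) (hw : w ≤ a / (2 * (n / a))) {r : ℝ} (hr : 0 ≤ r) :
    (1 - 4 * a) * (n * k * r ^ n) ≤
      w * (hN n r - psi n (2 * n * k * (n / a) ^ n * ((1 - a) * k) ^ (n - 1))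
          ((n / a) * ((1 - a) * k)) r) +
      (psi n (2 * n * k * (n / a) ^ n * ((1 - a) * k) ^ (n - 1)) ((n / a) * ((1 - a) * k)) r -
        psi n (2 * n * k * (n / a) ^ n * ((1 - a) * k) ^ (n - 1)) ((n / a) * ((1 - a) * k))
          (max (r - (1 - a) * k) 0)) := by
  set Λ : ℝ := n / a with hΛ
  set δ : ℝ := (1 - a) * k with hδ
  set K : ℝ := 2 * n * k * Λ ^ n * δ ^ (n - 1) with hK
  have hn1 : (1 : ℝ) ≤ n := by exact_mod_cast hn
  have hΛ1 : 1 ≤ Λ := by
    rw [hΛ, le_div_iff₀ ha]; linarith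
  have hΛ0 : 0 < Λ := by linarith
  have hδ0 : 0 < δ := by rw [hδ]; exact mul_pos (by linarith) hk
  have hK0 : 0 < K := by rw [hK]; positivity
  have hwΛ : w * Λ ≤ a / 2 := by
    have := mul_le_mul_of_nonneg_right hw hΛ0.le
    have h2 : a / (2 * Λ) * Λ = a / 2 := by field_simp
    linarith
  have hw12 : w * Λ ≤ 1 / 2 := by linarith
  unfold psi
  rcases le_or_gt r (Λ * δ) with hrL | hrL
  · -- small r
    have hmin : min r (Λ * δ) = r := min_eq_left hrL
    have hmin2 : min (max (r - δ) 0) (Λ * δ) = max (r - δ) 0 :=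
      min_eq_left (max_le (by linarith) (by positivity))
    rw [hmin, hmin2]
    have hh : hN n (max (r - δ) 0) ≤ hN n r := hN_mono n (le_max_right _ _)
      (max_le (by linarith) hr)
    have hrd : r - max (r - δ) 0 = min r δ := by
      rcases le_total δ r with h | h
      · rw [max_eq_left (by linarith), min_eq_right h]; ring
      · rw [max_eq_right (by linarith), min_eq_left h]; ring
    have hmr0 : 0 ≤ min r δ := le_min hr hδ0.le
    -- w * r ≤ min r δ / 2
    have h1 : w * r ≤ min r δ / 2 := by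
      have h3 : w ≤ 1 / 2 := by
        have : w * 1 ≤ w * Λ := mul_le_mul_of_nonneg_left hΛ1 hw0
        linarith
      rcases le_total δ r with h | h
      · rw [min_eq_right h]
        calc w * r ≤ w * (Λ * δ) := mul_le_mul_of_nonneg_left hrL hw0
          _ = (w * Λ) * δ := by ring
          _ ≤ (1 / 2) * δ := mul_le_mul_of_nonneg_right hw12 hδ0.le
          _ = δ / 2 := by ring
      · rw [min_eq_left h]
        nlinarith
    -- r ^ n ≤ Λ ^ n * δ ^ (n-1) * min r δ
    have h2 : r ^ n ≤ Λ ^ n * δ ^ (n - 1) * min r δ := by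
      obtain ⟨p, rfl⟩ : ∃ p, n = p + 1 := ⟨n - 1, by omega⟩
      simp only [Nat.add_sub_cancel]
      rcases le_total δ r with h | h
      · rw [min_eq_right h]
        calc r ^ (p + 1) ≤ (Λ * δ) ^ (p + 1) := pow_le_pow_left₀ hr hrL _
          _ = Λ ^ (p + 1) * δ ^ p * δ := by ring
      · rw [min_eq_left h]
        calc r ^ (p + 1) = r ^ p * r := by ring
          _ ≤ δ ^ p * r := mul_le_mul_of_nonneg_right (pow_le_pow_left₀ hr h _) hr
          _ = 1 * (δ ^ p * r) := by ring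
          _ ≤ Λ ^ (p + 1) * (δ ^ p * r) :=
              mul_le_mul_of_nonneg_right (one_le_pow₀ hΛ1) (by positivity)
          _ = Λ ^ (p + 1) * δ ^ p * r := by ring
    have h4 : (n : ℝ) * k * r ^ n ≤ K / 2 * min r δ := by
      calc (n : ℝ) * k * r ^ n ≤ n * k * (Λ ^ n * δ ^ (n - 1) * min r δ) :=
            mul_le_mul_of_nonneg_left h2 (by positivity)
        _ = K / 2 * min r δ := by rw [hK]; ring_nf
    have h5 : (1 - 4 * a) * (n * k * r ^ n) ≤ n * k * r ^ n := by
      have : 0 ≤ (n : ℝ) * k * r ^ n := by positivity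
      nlinarith
    have h6 : w * (hN n r - (hN n r + K * r)) = - (K * (w * r)) := by ring
    have h7 : K * (w * r) ≤ K * (min r δ / 2) := mul_le_mul_of_nonneg_left h1 hK0.le
    have h8 : K * r - K * max (r - δ) 0 = K * min r δ := by rw [← mul_sub, hrd]
    rw [h6]
    linarith
  · -- large r
    have hmin : min r (Λ * δ) = Λ * δ := min_eq_right hrL.le
    rw [hmin]
    have hrδ : δ ≤ r := by
      have : 1 * δ ≤ Λ * δ := mul_le_mul_of_nonneg_right hΛ1 hδ0.le
      linarith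
    have hmax : max (r - δ) 0 = r - δ := max_eq_left (by linarith)
    rw [hmax]
    have hm2 : min (r - δ) (Λ * δ) ≤ Λ * δ := min_le_right _ _
    have h1 := hN_sub n hδ0.le hrδ
    have hr0 : 0 < r := lt_of_lt_of_le hδ0 hrδ
    -- (r-δ)^n ≥ (1-a) r^n
    have h2 : (1 - a) * r ^ n ≤ (r - δ) ^ n := by
      have hb : (1 : ℝ) + n * (-(1 / Λ)) ≤ (1 + -(1 / Λ)) ^ n := by
        apply one_add_mul_le_pow
        have : 1 / Λ ≤ 1 := by rw [div_le_one hΛ0]; exact hΛ1
        linarith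
      have e1 : (1 : ℝ) + n * (-(1 / Λ)) = 1 - a := by
        rw [hΛ]; field_simp; ring
      have e2 : (1 + -(1 / Λ)) * r ≤ r - δ := by
        have : δ ≤ (1 / Λ) * r := by
          rw [one_div, inv_mul_eq_div, le_div_iff₀ hΛ0]; linarith
        linarith
      have e3 : 0 ≤ (1 + -(1 / Λ)) * r := by
        have : 1 / Λ ≤ 1 := by rw [div_le_one hΛ0]; exact hΛ1
        exact mul_nonneg (by linarith) hr
      calc (1 - a) * r ^ n ≤ (1 + -(1 / Λ)) ^ n * r ^ n :=
            mul_le_mul_of_nonneg_right (by rw [← e1]; exact hb) (by positivity)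
        _ = ((1 + -(1 / Λ)) * r) ^ n := by rw [mul_pow]
        _ ≤ (r - δ) ^ n := pow_le_pow_left₀ e3 e2 _
    have h3 : (1 - 2 * a) * (n * k * r ^ n) ≤ n * δ * (r - δ) ^ n := by
      calc (1 - 2 * a) * (n * k * r ^ n) ≤ (1 - a) * (1 - a) * (n * k * r ^ n) := by
            apply mul_le_mul_of_nonneg_right _ (by positivity)
            nlinarith
        _ = n * δ * ((1 - a) * r ^ n) := by rw [hδ]; ring
        _ ≤ n * δ * (r - δ) ^ n := mul_le_mul_of_nonneg_left h2 (by positivity)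
    have h4 : w * (hN n r - (hN n r + K * (Λ * δ))) = -(w * Λ * (K * δ)) := by ring
    have h5 : w * Λ * (K * δ) ≤ a * (n * k * r ^ n) := by
      have e1 : K * δ = 2 * (n * k * (Λ * δ) ^ n) := by
        obtain ⟨p, rfl⟩ : ∃ p, n = p + 1 := ⟨n - 1, by omega⟩
        rw [hK]; simp only [Nat.add_sub_cancel]; ring
      have e2 : (Λ * δ) ^ n ≤ r ^ n := pow_le_pow_left₀ (by positivity) hrL.le _
      calc w * Λ * (K * δ) ≤ a / 2 * (K * δ) :=
            mul_le_mul_of_nonneg_right hwΛ (by positivity)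
        _ = a * (n * k * (Λ * δ) ^ n) := by rw [e1]; ring
        _ ≤ a * (n * k * r ^ n) := by
            apply mul_le_mul_of_nonneg_left _ ha.le
            exact mul_le_mul_of_nonneg_left e2 (by positivity)
    have h6 : K * min (r - δ) (Λ * δ) ≤ K * (Λ * δ) := mul_le_mul_of_nonneg_left hm2 hK0.le
    have h7 : 0 ≤ (n : ℝ) * k * r ^ n := by positivity
    rw [h4]
    nlinarith

/-- **growth lemma**: a nonnegative sequence which grows at rate `≥ 1 - a` satisfies
`∑ e^{-τm} (n/(n+1)) ρ^{n+1} ≥ (1-4a) (n/τ) ∑ e^{-τm} ρ^n` for small `τ`. -/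
theorem growth_ineq {n : ℕ} (hn : 1 ≤ n) {a : ℝ} (ha : 0 < a) (ha4 : a ≤ 1 / 4) {k : ℕ}
    (hk : 1 ≤ k) {τ : ℝ} (hτ : 0 < τ) (hτk : τ * k ≤ a / (2 * (n / a))) (ρ : ℕ → ℝ)
    (hρ : ∀ m, 0 ≤ ρ m) (hgr : ∀ m, 0 < ρ m → ρ m + (1 - a) * k ≤ ρ (m + k))
    (hs : Summable (fun m : ℕ => Real.exp (-τ * m) * ρ m ^ n))
    (hs1 : Summable (fun m : ℕ => Real.exp (-τ * m) * hN n (ρ m))) :
    (1 - 4 * a) * ((n / τ) * ∑' m : ℕ, Real.exp (-τ * m) * ρ m ^ n) ≤
      ∑' m : ℕ, Real.exp (-τ * m) * hN n (ρ m) := by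
  have hk0 : (0 : ℝ) < k := by exact_mod_cast hk
  set Λ : ℝ := n / a with hΛ
  set δ : ℝ := (1 - a) * k with hδ
  set K : ℝ := 2 * n * k * Λ ^ n * δ ^ (n - 1) with hK
  set L : ℝ := Λ * δ with hL
  set w : ℝ := 1 - Real.exp (-τ * k) with hw
  have hn1 : (1 : ℝ) ≤ n := by exact_mod_cast hn
  have hΛ0 : 0 < Λ := by rw [hΛ]; positivity
  have hδ0 : 0 < δ := by rw [hδ]; exact mul_pos (by linarith) hk0
  have hK0 : 0 < K := by rw [hK]; positivity
  have hL0 : 0 < L := by rw [hL]; positivity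
  have hw0 : 0 ≤ w := by
    rw [hw]
    have : Real.exp (-τ * k) ≤ 1 := Real.exp_le_one_iff.2 (by nlinarith)
    linarith
  have hwτ : w ≤ τ * k := by
    rw [hw]
    have := Real.add_one_le_exp (-τ * (k : ℝ))
    linarith
  have hexp : Summable (fun m : ℕ => Real.exp (-τ * m)) := by
    have := Real.summable_exp_nat_mul_iff.2 (show -τ < 0 by linarith)
    refine this.congr (fun m => ?_)
    ring_nf
  -- summability of psi part
  have hs2 : Summable (fun m : ℕ => Real.exp (-τ * m) * (K * min (ρ m) L)) := by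
    refine Summable.of_nonneg_of_le (fun m => ?_) (fun m => ?_) (hexp.mul_right (K * L))
    · have : 0 ≤ min (ρ m) L := le_min (hρ m) hL0.le
      positivity
    · apply mul_le_mul_of_nonneg_left _ (Real.exp_pos _).le
      exact mul_le_mul_of_nonneg_left (min_le_right _ _) hK0.le
  have hsψ : Summable (fun m : ℕ => Real.exp (-τ * m) * psi n K L (ρ m)) := by
    refine (hs1.add hs2).congr (fun m => ?_)
    unfold psi; ring
  -- D
  let D : ℝ → ℝ := fun r => psi n K L r - psi n K L (max (r - δ) 0)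
  have hD0 : ∀ m, 0 ≤ D (ρ m) := fun m => by
    have := psi_mono n (K := K) (L := L) hK0.le (le_max_right (ρ m - δ) 0)
      (max_le (by linarith) (hρ m))
    simp only [D]; linarith
  have hDψ : ∀ m, D (ρ m) ≤ psi n K L (ρ m) := fun m => by
    have := psi_nonneg n (K := K) (L := L) hK0.le hL0.le (le_max_right (ρ m - δ) 0)
    simp only [D]; linarith
  have hsD : Summable (fun m : ℕ => Real.exp (-τ * m) * D (ρ m)) :=
    Summable.of_nonneg_of_le (fun m => mul_nonneg (Real.exp_pos _).le (hD0 m))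
      (fun m => mul_le_mul_of_nonneg_left (hDψ m) (Real.exp_pos _).le) hsψ
  -- Abel summation
  have hAbel : ∑' m : ℕ, Real.exp (-τ * m) * D (ρ m) ≤
      w * ∑' m : ℕ, Real.exp (-τ * m) * psi n K L (ρ m) := by
    have e1 := hsψ.sum_add_tsum_nat_add k
    have e2 := hsD.sum_add_tsum_nat_add k
    have e3 : ∑' m : ℕ, Real.exp (-τ * k) * (Real.exp (-τ * m) * psi n K L (ρ m)) =
        Real.exp (-τ * k) * ∑' m : ℕ, Real.exp (-τ * m) * psi n K L (ρ m) := tsum_mul_left
    have h1 : ∑ i ∈ range k, Real.exp (-τ * i) * D (ρ i) ≤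
        ∑ i ∈ range k, Real.exp (-τ * i) * psi n K L (ρ i) :=
      Finset.sum_le_sum (fun i _ => mul_le_mul_of_nonneg_left (hDψ i) (Real.exp_pos _).le)
    have hsh1 : Summable (fun m : ℕ => Real.exp (-τ * ((m + k : ℕ) : ℝ)) * D (ρ (m + k))) :=
      (summable_nat_add_iff k).2 hsD
    have hsh2 : Summable (fun m : ℕ => Real.exp (-τ * ((m + k : ℕ) : ℝ)) *
        psi n K L (ρ (m + k))) := (summable_nat_add_iff k).2 hsψ
    have hsh3 : Summable (fun m : ℕ => Real.exp (-τ * k) *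
        (Real.exp (-τ * m) * psi n K L (ρ m))) := hsψ.mul_left _
    have h2 : ∑' m : ℕ, Real.exp (-τ * ((m + k : ℕ) : ℝ)) * D (ρ (m + k)) ≤
        ∑' m : ℕ, (Real.exp (-τ * ((m + k : ℕ) : ℝ)) * psi n K L (ρ (m + k)) -
          Real.exp (-τ * k) * (Real.exp (-τ * m) * psi n K L (ρ m))) := by
      apply Summable.tsum_le_tsum _ hsh1 (hsh2.sub hsh3)
      intro m
      have e4 : Real.exp (-τ * ((m + k : ℕ) : ℝ)) = Real.exp (-τ * k) * Real.exp (-τ * m) := by
        rw [← Real.exp_add]; congr 1; push_cast; ring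
      rw [e4]
      have h3 : psi n K L (ρ m) ≤ psi n K L (max (ρ (m + k) - δ) 0) := by
        apply psi_mono n hK0.le (hρ m)
        rcases (hρ m).eq_or_lt with h | h
        · rw [← h]; exact le_max_right _ _
        · have := hgr m h
          exact le_trans (by linarith) (le_max_left _ _)
      have h4 : 0 ≤ Real.exp (-τ * (k : ℝ)) * Real.exp (-τ * (m : ℝ)) := by positivity
      simp only [D]
      nlinarith [mul_le_mul_of_nonneg_left h3 h4]
    rw [Summable.tsum_sub hsh2 hsh3, e3] at h2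
    rw [hw]
    nlinarith [e1, e2, h1, h2]
  -- combine
  have hfin : (1 - 4 * a) * (n * k) * ∑' m : ℕ, Real.exp (-τ * m) * ρ m ^ n ≤
      w * ∑' m : ℕ, Real.exp (-τ * m) * hN n (ρ m) := by
    have hle : ∀ m : ℕ, (1 - 4 * a) * (n * k) * (Real.exp (-τ * m) * ρ m ^ n) ≤
        w * (Real.exp (-τ * m) * hN n (ρ m)) - w * (Real.exp (-τ * m) * psi n K L (ρ m)) +
          Real.exp (-τ * m) * D (ρ m) := by
      intro m
      have hp := pointwise hn ha ha4 hk0 hw0 (hwτ.trans hτk) (hρ m)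
      rw [← hΛ, ← hδ, ← hK, ← hL] at hp
      have hE : 0 ≤ Real.exp (-τ * (m : ℝ)) := (Real.exp_pos _).le
      have := mul_le_mul_of_nonneg_left hp hE
      simp only [D]
      nlinarith [this]
    have hsum := Summable.tsum_le_tsum hle (hs.mul_left _)
      (((hs1.mul_left w).sub (hsψ.mul_left w)).add hsD)
    rw [tsum_mul_left, Summable.tsum_add ((hs1.mul_left w).sub (hsψ.mul_left w)) hsD,
      Summable.tsum_sub (hs1.mul_left w) (hsψ.mul_left w), tsum_mul_left, tsum_mul_left] at hsum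
    linarith
  have hpos : 0 ≤ ∑' m : ℕ, Real.exp (-τ * m) * hN n (ρ m) :=
    tsum_nonneg (fun m => mul_nonneg (Real.exp_pos _).le (hN_nonneg n (hρ m)))
  have h9 : w * ∑' m : ℕ, Real.exp (-τ * m) * hN n (ρ m) ≤
      τ * k * ∑' m : ℕ, Real.exp (-τ * m) * hN n (ρ m) :=
    mul_le_mul_of_nonneg_right hwτ hpos
  have h10 := hfin.trans h9
  have hτk0 : 0 < τ * k := by positivity
  rw [← mul_le_mul_iff_right₀ hτk0]
  refine le_trans (le_of_eq ?_) h10
  field_simp

end Crest.Agent.R271.CaseB553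
end

-- ▼ part R271/CaseB2_553
section

/-!
# Row 271, Part 9.4: numerical estimates for `s_j = binom(j+n-1,n-1)`
-/

set_option autoImplicit false

open Finset
open scoped Nat

namespace Crest.Agent.R271.CaseB553

/-- number of monomials of degree `j` in `p+1` variables -/
def sj (p j : ℕ) : ℕ := (j + p).choose p

lemma sj_le (p j : ℕ) : (sj p j : ℝ) ≤ ((j : ℝ) + p) ^ p / p ! := by
  have := Nat.choose_le_pow_div (α := ℝ) p (j + p)
  unfold sj
  push_cast at this ⊢
  exact this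

lemma le_sj (p j : ℕ) : ((j : ℝ)) ^ p / p ! ≤ sj p j := by
  have := Nat.pow_le_choose (α := ℝ) p (j + p)
  unfold sj
  refine le_trans ?_ this
  have h : j + p + 1 - p = j + 1 := by omega
  rw [h]
  apply div_le_div_of_nonneg_right _ (by positivity)
  apply pow_le_pow_left₀ (by positivity)
  push_cast; linarith

/-- primitive of `(Q-x) x^p / p!` -/
noncomputable def HH (p : ℕ) (Q x : ℝ) : ℝ :=
  (Q * x ^ (p + 1) / (p + 1) - x ^ (p + 2) / (p + 2)) / p !

lemma HH_nonneg (p : ℕ) {Q x : ℝ} (hx : 0 ≤ x) (hxQ : x ≤ Q) : 0 ≤ HH p Q x := by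
  unfold HH
  apply div_nonneg _ (by positivity)
  have h1 : x ^ (p + 2) / ((p : ℝ) + 2) ≤ x ^ (p + 2) / ((p : ℝ) + 1) := by
    apply div_le_div_of_nonneg_left (by positivity) (by positivity) (by linarith)
  have h2 : x ^ (p + 2) / ((p : ℝ) + 1) ≤ Q * x ^ (p + 1) / (p + 1) := by
    apply div_le_div_of_nonneg_right _ (by positivity)
    have : x ^ (p + 2) = x * x ^ (p + 1) := by ring
    rw [this]
    exact mul_le_mul_of_nonneg_right hxQ (by positivity)
  linarith

lemma HH_le (p : ℕ) {Q x : ℝ} (hx : 0 ≤ x) (hxQ : x ≤ Q) :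
    HH p Q x ≤ Q ^ (p + 2) / (p + 2)! := by
  have h := pow_add_ge hx (show 0 ≤ Q - x by linarith) (p + 1)
  have e : x + (Q - x) = Q := by ring
  rw [e] at h
  unfold HH
  have hf : ((p + 2)! : ℝ) = (p + 2) * ((p + 1) * p !) := by
    rw [Nat.factorial_succ, Nat.factorial_succ]; push_cast; ring
  rw [hf]
  rw [div_le_div_iff₀ (by positivity) (by positivity)]
  have hp : (0 : ℝ) < p ! := by positivity
  have e2 : (Q * x ^ (p + 1) / (p + 1) - x ^ (p + 2) / (p + 2)) * ((p + 2) * ((p + 1) * (p ! : ℝ))) =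
      ((p + 2) * Q * x ^ (p + 1) - (p + 1) * x ^ (p + 2)) * p ! := by
    field_simp
  rw [e2]
  apply mul_le_mul_of_nonneg_right _ hp.le
  push_cast at h
  have e3 : x ^ (p + 2) = x * x ^ (p + 1) := by ring
  have e4 : x ^ (p + 1 + 1) = x * x ^ (p + 1) := by ring
  have e5 : Q ^ (p + 1 + 1) = Q ^ (p + 2) := rfl
  rw [e4, e5] at h
  rw [e3]
  nlinarith [h]

lemma HH_step (p : ℕ) {Q y : ℝ} (hy : 0 ≤ y) (hyQ : y + 1 ≤ Q) :
    (Q - (y + 1)) * (y ^ p / p !) ≤ HH p Q (y + 1) - HH p Q y := by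
  unfold HH
  have hp : (0 : ℝ) < p ! := by positivity
  have hA := pow_add_ge hy (zero_le_one) p
  rw [mul_one] at hA
  set A : ℝ := (y + 1) ^ (p + 1) - y ^ (p + 1) with hAdef
  have hA' : (p + 1) * y ^ p ≤ A := by rw [hAdef]; linarith
  have e1 : (y + 1) ^ (p + 2) - y ^ (p + 2) = (y + 1) * A + y ^ (p + 1) := by
    rw [hAdef]; ring
  rw [← sub_div, mul_div_assoc']
  apply div_le_div_of_nonneg_right _ hp.le
  have hu : 0 ≤ Q - (y + 1) := by linarith
  have hp1 : (0 : ℝ) < (p : ℝ) + 1 := by positivity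
  have hp2 : (0 : ℝ) < (p : ℝ) + 2 := by positivity
  have e2 : (Q * (y + 1) ^ (p + 1) / ((p : ℝ) + 1) - (y + 1) ^ (p + 2) / (p + 2)) -
      (Q * y ^ (p + 1) / (p + 1) - y ^ (p + 2) / (p + 2)) =
      Q * A / (p + 1) - ((y + 1) * A + y ^ (p + 1)) / (p + 2) := by
    rw [← e1, hAdef]; ring
  rw [e2]
  have e3 : Q * A / ((p : ℝ) + 1) - ((y + 1) * A + y ^ (p + 1)) / (p + 2) =
      (Q - (y + 1)) * (A / (p + 1)) +
        ((y + 1) * A - (p + 1) * y ^ (p + 1)) / ((p + 1) * (p + 2)) := by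
    field_simp
    ring
  rw [e3]
  have h1 : y ^ p ≤ A / (p + 1) := by
    rw [le_div_iff₀ hp1]; linarith
  have h2 : 0 ≤ ((y + 1) * A - (p + 1) * y ^ (p + 1)) / (((p : ℝ) + 1) * (p + 2)) := by
    apply div_nonneg _ (by positivity)
    have h3 : (y + 1) * ((p + 1) * y ^ p) ≤ (y + 1) * A :=
      mul_le_mul_of_nonneg_left hA' (by linarith)
    have h4 : ((p : ℝ) + 1) * y ^ (p + 1) ≤ (y + 1) * ((p + 1) * y ^ p) := by
      have h5 : 0 ≤ ((p : ℝ) + 1) * y ^ p := by positivity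
      have h6 : ((p : ℝ) + 1) * y ^ (p + 1) = y * ((p + 1) * y ^ p) := by ring
      rw [h6]
      nlinarith
    linarith
  have := mul_le_mul_of_nonneg_left h1 hu
  linarith

/-- `∑_{j} (q-j)^+ s_j ≤ (q+n)^{n+1}/(n+1)!`, `n = p+1` -/
theorem sum_pos_part_le (p : ℕ) {q : ℝ} (hq : 0 ≤ q) (J : ℕ) :
    ∑ j ∈ range J, max (q - j) 0 * (sj p j : ℝ) ≤ (q + (p + 1)) ^ (p + 2) / (p + 2)! := by
  have key : ∀ K : ℕ, (K : ℝ) ≤ q + 1 →
      ∑ j ∈ range K, max (q - j) 0 * (sj p j : ℝ) ≤ HH p (q + (p + 1)) ((K : ℝ) + p) := by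
    intro K
    induction K with
    | zero =>
      intro _
      simp only [range_zero, sum_empty, CharP.cast_eq_zero, zero_add]
      exact HH_nonneg p (by positivity) (by linarith)
    | succ K ih =>
      intro hK
      push_cast at hK
      have hKq : (K : ℝ) ≤ q := by linarith
      rw [sum_range_succ]
      have h1 := ih (by linarith)
      have h2 := HH_step p (Q := q + (p + 1)) (y := (K : ℝ) + p) (by positivity) (by linarith)
      have h3 : max (q - K) 0 * (sj p K : ℝ) ≤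
          (q + (p + 1) - ((K : ℝ) + p + 1)) * (((K : ℝ) + p) ^ p / p !) := by
        rw [max_eq_left (by linarith)]
        have : q + ((p : ℝ) + 1) - ((K : ℝ) + p + 1) = q - K := by ring
        rw [this]
        exact mul_le_mul_of_nonneg_left (sj_le p K) (by linarith)
      have e : ((K + 1 : ℕ) : ℝ) + p = (K : ℝ) + p + 1 := by push_cast; ring
      rw [e]
      linarith
  have hfl : ((⌊q⌋₊ : ℕ) : ℝ) ≤ q := Nat.floor_le hq
  have h1 : ∑ j ∈ range J, max (q - j) 0 * (sj p j : ℝ) ≤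
      ∑ j ∈ range (⌊q⌋₊ + 1), max (q - j) 0 * (sj p j : ℝ) := by
    rcases le_total J (⌊q⌋₊ + 1) with h | h
    · exact sum_le_sum_of_subset_of_nonneg (range_mono h) (fun i _ _ => by positivity)
    · rw [← sum_subset (range_mono h)]
      intro x _ hx
      rw [mem_range, not_lt] at hx
      have : q < x := by
        have := Nat.lt_of_floor_lt (show ⌊q⌋₊ < x by omega)
        exact this
      rw [max_eq_right (by linarith), zero_mul]
  refine h1.trans ((key (⌊q⌋₊ + 1) (by push_cast; linarith)).trans ?_)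
  apply HH_le p (by positivity)
  push_cast; linarith

/-- the caps remove a definite amount -/
theorem sum_caps_ge (p : ℕ) {q β : ℝ} (hβ : 0 < β) (hβ2 : β ≤ 1 / 2) (hqβ : 4 ≤ q * β)
    (J : ℕ) (hJ : q ≤ J) (P : ℕ → Prop) [DecidablePred P]
    (hP : ∀ j : ℕ, q * (1 - β) < j → P j) :
    β ^ 2 / (8 * 2 ^ p * p !) * q ^ (p + 2) ≤
      ∑ j ∈ (range J).filter P, max (q - j) 0 * (sj p j : ℝ) := by
  have hq : 0 < q := by
    by_contra h
    push Not at h
    nlinarith
  set lo : ℕ := ⌊q * (1 - β)⌋₊ + 1 with hlo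
  set hi : ℕ := ⌊q * (1 - β / 2)⌋₊ with hhi
  have h1 : 0 ≤ q * (1 - β) := mul_nonneg hq.le (by linarith)
  have h2 : 0 ≤ q * (1 - β / 2) := mul_nonneg hq.le (by linarith)
  have hlo1 : ((lo : ℕ) : ℝ) ≤ q * (1 - β) + 1 := by
    rw [hlo]; push_cast
    have := Nat.floor_le h1
    linarith
  have hlo2 : q * (1 - β) < lo := by
    rw [hlo]; push_cast
    exact Nat.lt_floor_add_one _
  have hhi1 : (hi : ℝ) ≤ q * (1 - β / 2) := Nat.floor_le h2
  have hhi2 : q * (1 - β / 2) < hi + 1 := Nat.lt_floor_add_one _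
  have hsub : Icc lo hi ⊆ (range J).filter P := by
    intro j hj
    rw [mem_Icc] at hj
    rw [mem_filter, mem_range]
    constructor
    · have : (j : ℝ) < J := by
        have h3 : (j : ℝ) ≤ hi := by exact_mod_cast hj.2
        have : q * (β / 2) > 0 := by positivity
        nlinarith
      exact_mod_cast this
    · apply hP
      have : (lo : ℝ) ≤ j := by exact_mod_cast hj.1
      linarith
  have hterm : ∀ j ∈ Icc lo hi, (q * β / 2) * ((q / 2) ^ p / p !) ≤
      max (q - j) 0 * (sj p j : ℝ) := by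
    intro j hj
    rw [mem_Icc] at hj
    have h3 : (j : ℝ) ≤ hi := by exact_mod_cast hj.2
    have h4 : (lo : ℝ) ≤ j := by exact_mod_cast hj.1
    have h5 : q * β / 2 ≤ max (q - j) 0 := by
      apply le_trans _ (le_max_left _ _)
      nlinarith
    have h6 : (q / 2) ^ p / p ! ≤ (sj p j : ℝ) := by
      refine le_trans ?_ (le_sj p j)
      apply div_le_div_of_nonneg_right _ (by positivity)
      apply pow_le_pow_left₀ (by positivity)
      nlinarith
    exact mul_le_mul h5 h6 (by positivity) (le_max_right _ _)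
  have hcard : q * β / 4 ≤ ((Icc lo hi).card : ℝ) := by
    rw [Nat.card_Icc]
    have h3 : (hi : ℝ) + 1 - lo ≤ ((hi + 1 - lo : ℕ) : ℝ) := by
      have := Nat.le_sub_of_add_le (le_refl (hi + 1 - lo + lo))
      rcases le_total lo (hi + 1) with h | h
      · rw [Nat.cast_sub h]; push_cast; linarith
      · rw [Nat.sub_eq_zero_of_le h]
        have : ((hi + 1 : ℕ) : ℝ) ≤ lo := by exact_mod_cast h
        push_cast at this ⊢; linarith
    refine le_trans ?_ h3
    nlinarith
  calc β ^ 2 / (8 * 2 ^ p * p !) * q ^ (p + 2)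
      = (q * β / 4) * ((q * β / 2) * ((q / 2) ^ p / p !)) := by
        rw [div_pow]; field_simp; ring
    _ ≤ (Icc lo hi).card * ((q * β / 2) * ((q / 2) ^ p / p !)) :=
        mul_le_mul_of_nonneg_right hcard (by positivity)
    _ = ∑ j ∈ Icc lo hi, (q * β / 2) * ((q / 2) ^ p / p !) := by
        rw [sum_const, nsmul_eq_mul]
    _ ≤ ∑ j ∈ Icc lo hi, max (q - j) 0 * (sj p j : ℝ) := sum_le_sum hterm
    _ ≤ ∑ j ∈ (range J).filter P, max (q - j) 0 * (sj p j : ℝ) :=
        sum_le_sum_of_subset_of_nonneg hsub (fun i _ _ => by positivity)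

/-- number of exponents of degree `j` -/
lemma card_degree_eq (p j : ℕ) (S : Finset (Fin (p + 1) →₀ ℕ)) (hS : ∀ v ∈ S, v.degree = j) :
    S.card ≤ sj p j := by
  classical
  have hsub : S ⊆ (univ : Finset (Fin (p + 1))).finsuppAntidiag j := by
    intro v hv
    rw [mem_finsuppAntidiag]
    refine ⟨?_, subset_univ _⟩
    rw [← hS v hv, Finsupp.degree_eq_sum]
  have h := card_le_card hsub
  rw [card_finsuppAntidiag_nat_eq_choose] at h
  refine h.trans (le_of_eq ?_)
  unfold sj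
  rw [card_univ, Fintype.card_fin]
  have : p + 1 + j - 1 = j + p := by omega
  rw [this]
  exact (Nat.choose_symm_add).symm ▸ rfl

end Crest.Agent.R271.CaseB553
end

-- ▼ part R271/CaseB3_553

/-!
# Row 271, Part 9.4: Case B, the combinatorial pieces
-/

set_option autoImplicit false

open Finset Module
open scoped Nat

namespace Crest.Agent.R271.CaseB553

open Crest.Agent.R271.Lead553
open Crest.Agent.R271.C376 (rad rad_nonneg rad_pow rad_zero rad_growth le_rad)

/-- power series of order at least `e` -/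
def mpow1 (n e : ℕ) : Submodule ℂ (MvPowerSeries (Fin n) ℂ) where
  carrier := {f | ∀ v : Fin n →₀ ℕ, v.degree < e → MvPowerSeries.coeff v f = 0}
  add_mem' := by
    intro a b ha hb v hv
    simp [ha v hv, hb v hv]
  zero_mem' := by
    intro v hv
    simp
  smul_mem' := by
    intro c a ha v hv
    simp [ha v hv]


lemma LE1_inf_mpow1 {n : ℕ} (W : Submodule ℂ (MvPowerSeries (Fin n) ℂ)) [FiniteDimensional ℂ W]
    (e : ℕ) : LE1 (W ⊓ mpow1 n e) = (LE1 W).filter (fun x => e ≤ x.degree) := by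
  classical
  ext u
  rw [Finset.mem_filter, mem_LE1, mem_LE1]
  constructor
  · rintro ⟨w, hw, h1, h2⟩
    refine ⟨⟨w, hw.1, h1, h2⟩, ?_⟩
    by_contra hlt
    exact h1 (hw.2 u (by omega))
  · rintro ⟨⟨w, hw, h1, h2⟩, hle⟩
    refine ⟨w, ⟨hw, ?_⟩, h1, h2⟩
    intro v hv
    exact h2 v (lt_of_degree_lt (by omega))

lemma card_filter_LE1 {n : ℕ} (W : Submodule ℂ (MvPowerSeries (Fin n) ℂ))
    [FiniteDimensional ℂ W] (e : ℕ) :
    ((LE1 W).filter (fun x => e ≤ x.degree)).card =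
      finrank ℂ (W ⊓ mpow1 n e : Submodule ℂ (MvPowerSeries (Fin n) ℂ)) := by
  rw [← LE1_inf_mpow1, card_LE1]

lemma card_filter_eq_LE1 {n : ℕ} (W : Submodule ℂ (MvPowerSeries (Fin n) ℂ))
    [FiniteDimensional ℂ W] (j : ℕ) :
    ((LE1 W).filter (fun x => x.degree = j)).card +
      finrank ℂ (W ⊓ mpow1 n (j + 1) : Submodule ℂ (MvPowerSeries (Fin n) ℂ)) =
      finrank ℂ (W ⊓ mpow1 n j : Submodule ℂ (MvPowerSeries (Fin n) ℂ)) := by
  classical
  rw [← card_filter_LE1, ← card_filter_LE1, ← Finset.card_union_of_disjoint]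
  · congr 1
    ext x
    simp only [Finset.mem_union, Finset.mem_filter]
    constructor
    · rintro (⟨h, h2⟩ | ⟨h, h2⟩)
      · exact ⟨h, h2.ge⟩
      · exact ⟨h, by omega⟩
    · rintro ⟨h, h2⟩
      rcases Nat.eq_or_lt_of_le h2 with h3 | h3
      · exact Or.inl ⟨h, h3.symm⟩
      · exact Or.inr ⟨h, h3⟩
  · rw [Finset.disjoint_left]
    intro x hx hx2
    rw [Finset.mem_filter] at hx hx2
    omega

/-- sum of the degrees of the leading exponents -/
lemma sum_degree_LE1 {n : ℕ} (W : Submodule ℂ (MvPowerSeries (Fin n) ℂ))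
    [FiniteDimensional ℂ W] (P : ℕ) (hP : W ⊓ mpow1 n (P + 1) = ⊥) :
    ∑ e ∈ Finset.Icc 1 P, finrank ℂ (W ⊓ mpow1 n e : Submodule ℂ (MvPowerSeries (Fin n) ℂ)) =
      ∑ v ∈ LE1 W, v.degree := by
  classical
  have h0 : ∀ v ∈ LE1 W, v.degree ≤ P := by
    intro v hv
    by_contra hlt
    have h1 : ((LE1 W).filter (fun x => P + 1 ≤ x.degree)).card = 0 := by
      rw [card_filter_LE1, hP]; simp
    rw [Finset.card_eq_zero, Finset.filter_eq_empty_iff] at h1
    exact h1 hv (by omega)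
  calc ∑ e ∈ Finset.Icc 1 P, finrank ℂ (W ⊓ mpow1 n e : Submodule ℂ (MvPowerSeries (Fin n) ℂ))
      = ∑ e ∈ Finset.Icc 1 P, ((LE1 W).filter (fun x => e ≤ x.degree)).card :=
        Finset.sum_congr rfl fun e _ => (card_filter_LE1 W e).symm
    _ = ∑ e ∈ Finset.Icc 1 P, ∑ x ∈ LE1 W, (if e ≤ x.degree then 1 else 0) := by
        refine Finset.sum_congr rfl fun e _ => ?_
        rw [Finset.card_filter]
    _ = ∑ x ∈ LE1 W, ∑ e ∈ Finset.Icc 1 P, (if e ≤ x.degree then 1 else 0) := Finset.sum_comm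
    _ = ∑ v ∈ LE1 W, v.degree := by
        refine Finset.sum_congr rfl fun x hx => ?_
        rw [← Finset.card_filter]
        have : (Finset.Icc 1 P).filter (fun e => e ≤ x.degree) = Finset.Icc 1 x.degree := by
          ext e
          simp only [Finset.mem_filter, Finset.mem_Icc]
          have := h0 x hx
          constructor
          · rintro ⟨⟨h1, h2⟩, h3⟩; exact ⟨h1, h3⟩
          · rintro ⟨h1, h2⟩; exact ⟨⟨h1, by omega⟩, h2⟩
        rw [this, Nat.card_Icc]; omega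

/-- bathtub inequality, raw form -/
lemma bathtub_raw {n : ℕ} (E : Finset (Fin n →₀ ℕ)) {q : ℝ} (J : ℕ) (hJ : q ≤ J) :
    q * E.card - ∑ j ∈ range J, max (q - j) 0 * ((E.filter (fun v => v.degree = j)).card : ℝ) ≤
      ∑ v ∈ E, (v.degree : ℝ) := by
  classical
  have h1 : ∑ v ∈ E, (q - v.degree) ≤ ∑ v ∈ E, max (q - v.degree) 0 :=
    Finset.sum_le_sum fun v _ => le_max_left _ _
  have h2 : ∑ v ∈ E, (q - (v.degree : ℝ)) = q * E.card - ∑ v ∈ E, (v.degree : ℝ) := by
    rw [Finset.sum_sub_distrib, Finset.sum_const, nsmul_eq_mul, mul_comm]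
  have h3 : ∑ v ∈ E, max (q - (v.degree : ℝ)) 0 =
      ∑ j ∈ range J, max (q - j) 0 * ((E.filter (fun v => v.degree = j)).card : ℝ) := by
    have h4 : ∑ v ∈ E, max (q - (v.degree : ℝ)) 0 =
        ∑ v ∈ E.filter (fun v => v.degree < J), max (q - (v.degree : ℝ)) 0 := by
      rw [Finset.sum_filter]
      refine Finset.sum_congr rfl fun v _ => ?_
      split_ifs with h
      · rfl
      · apply max_eq_right
        have : (J : ℝ) ≤ v.degree := by exact_mod_cast not_lt.1 h
        linarith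
    rw [h4, ← Finset.sum_fiberwise_of_maps_to (s := E.filter (fun v => v.degree < J))
      (t := range J) (g := fun v => v.degree)
      (fun v hv => by rw [Finset.mem_range]; exact (Finset.mem_filter.1 hv).2)]
    refine Finset.sum_congr rfl fun j hj => ?_
    have h5 : (E.filter (fun v => v.degree < J)).filter (fun v => v.degree = j) =
        E.filter (fun v => v.degree = j) := by
      ext v
      simp only [Finset.mem_filter]
      rw [Finset.mem_range] at hj
      constructor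
      · rintro ⟨⟨a, b⟩, c⟩; exact ⟨a, c⟩
      · rintro ⟨a, c⟩; exact ⟨⟨a, by omega⟩, c⟩
    rw [h5, Finset.sum_congr rfl (g := fun _ => max (q - (j : ℝ)) 0)]
    · rw [Finset.sum_const, nsmul_eq_mul, mul_comm]
    · intro v hv
      rw [(Finset.mem_filter.1 hv).2]
  rw [h2, h3] at h1
  linarith

lemma card_degree_le (p : ℕ) (E : Finset (Fin (p + 1) →₀ ℕ)) (j : ℕ) :
    (E.filter (fun v => v.degree = j)).card ≤ sj p j :=
  card_degree_eq p j _ fun v hv => (Finset.mem_filter.1 hv).2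

/-- upper bound of the radius expression -/
lemma pow_radius_le (p : ℕ) {q : ℝ} (hq : 1 ≤ q) :
    (q + ((p : ℝ) + 1)) ^ (p + 2) ≤
      q ^ (p + 2) + (p + 2) * (p + 1) * (p + 2) ^ (p + 1) * q ^ (p + 1) := by
  have h := pow_add_le (y := q) (b := (p : ℝ) + 1) (by linarith) (by positivity) (p + 1)
  have h2 : (q + ((p : ℝ) + 1)) ^ (p + 1) ≤ ((p + 2) * q) ^ (p + 1) := by
    apply pow_le_pow_left₀ (by positivity)
    nlinarith [Nat.cast_nonneg (α := ℝ) p]
  rw [mul_pow] at h2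
  push_cast at h
  have h3 : ((p : ℝ) + 1 + 1) * (p + 1) * (q + ((p : ℝ) + 1)) ^ (p + 1) ≤
      ((p : ℝ) + 1 + 1) * (p + 1) * ((p + 2) ^ (p + 1) * q ^ (p + 1)) :=
    mul_le_mul_of_nonneg_left h2 (by positivity)
  have e1 : ((p : ℝ) + 1 + 1) * (p + 1) * ((p + 2) ^ (p + 1) * q ^ (p + 1)) =
    (p + 2) * (p + 1) * (p + 2) ^ (p + 1) * q ^ (p + 1) := by ring
  rw [e1] at h3
  exact h.trans (by linarith)

/-- the constant `K1` -/
noncomputable def KK (p : ℕ) : ℝ := (p + 2) * (p + 1) * (p + 2) ^ (p + 1) / (p + 2)!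

lemma KK_nonneg (p : ℕ) : 0 ≤ KK p := by unfold KK; positivity

/-- bathtub for all finite sets -/
lemma bath_all (p : ℕ) (E : Finset (Fin (p + 1) →₀ ℕ)) :
    hN (p + 1) (rad (p + 1) E.card) / (p + 1)! - KK p * rad (p + 1) E.card ^ (p + 1) ≤
      ∑ v ∈ E, (v.degree : ℝ) := by
  classical
  set q := rad (p + 1) E.card with hq
  have hq0 : 0 ≤ q := rad_nonneg _ _
  have hqp : q ^ (p + 1) / (p + 1)! = E.card := rad_pow (by omega) _
  obtain ⟨J, hJ⟩ := exists_nat_ge q
  have hb := bathtub_raw E J hJ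
  rcases Nat.eq_zero_or_pos E.card with h0 | hpos
  · have hE : E = ∅ := Finset.card_eq_zero.1 h0
    have hq00 : q = 0 := by rw [hq, h0]; exact rad_zero (by omega)
    rw [hq00, hE]
    simp [hN]
  have hq1 : 1 ≤ q := by
    have h1 : (1 : ℝ) ≤ E.card := by exact_mod_cast hpos
    rw [← hqp, le_div_iff₀ (by positivity), one_mul] at h1
    have h2 : (1 : ℝ) ≤ (p + 1)! := by exact_mod_cast Nat.one_le_iff_ne_zero.2 (Nat.factorial_ne_zero _)
    by_contra hlt
    push Not at hlt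
    have : q ^ (p + 1) < 1 := pow_lt_one₀ hq0 hlt (by omega)
    linarith
  have h1 : ∑ j ∈ range J, max (q - j) 0 * ((E.filter (fun v => v.degree = j)).card : ℝ) ≤
      (q + (p + 1)) ^ (p + 2) / (p + 2)! := by
    refine le_trans (Finset.sum_le_sum fun j _ => ?_) (sum_pos_part_le p hq0 J)
    exact mul_le_mul_of_nonneg_left (by exact_mod_cast card_degree_le p E j) (le_max_right _ _)
  have h2 := pow_radius_le p hq1
  have h3 : (q + (p + 1)) ^ (p + 2) / ((p + 2)! : ℝ) ≤
      q ^ (p + 2) / (p + 2)! + KK p * q ^ (p + 1) := by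
    unfold KK
    rw [div_mul_eq_mul_div, ← add_div]
    exact div_le_div_of_nonneg_right h2 (by positivity)
  have hf : ((p + 2)! : ℝ) = (p + 2) * (p + 1)! := by
    rw [Nat.factorial_succ]; push_cast; ring
  have h4 : q * E.card - q ^ (p + 2) / (p + 2)! = hN (p + 1) q / (p + 1)! := by
    rw [← hqp, hf]
    unfold hN
    push_cast
    have : (0 : ℝ) < (p + 1)! := by positivity
    field_simp
    ring
  linarith

/-- bathtub with caps -/
lemma bath_caps (p : ℕ) (E : Finset (Fin (p + 1) →₀ ℕ)) {c β : ℝ} (hc : 0 ≤ c)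
    (hβ : 0 < β) (hβ2 : β ≤ 1 / 2)
    (hqβ : 4 ≤ rad (p + 1) E.card * β)
    (hcap : ∀ j : ℕ, rad (p + 1) E.card * (1 - β) < j →
      ((E.filter (fun v => v.degree = j)).card : ℝ) ≤ (1 - c) * sj p j) :
    hN (p + 1) (rad (p + 1) E.card) / (p + 1)! - KK p * rad (p + 1) E.card ^ (p + 1)
      + c * (β ^ 2 / (8 * 2 ^ p * p !)) * rad (p + 1) E.card ^ (p + 2) ≤
      ∑ v ∈ E, (v.degree : ℝ) := by
  classical
  set q := rad (p + 1) E.card with hq
  have hq0 : 0 ≤ q := rad_nonneg _ _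
  have hqp : q ^ (p + 1) / (p + 1)! = E.card := rad_pow (by omega) _
  obtain ⟨J, hJ⟩ := exists_nat_ge q
  have hb := bathtub_raw E J hJ
  have hq1 : 1 ≤ q := by nlinarith
  have h1 : ∑ j ∈ range J, max (q - j) 0 * ((E.filter (fun v => v.degree = j)).card : ℝ) ≤
      (q + (p + 1)) ^ (p + 2) / (p + 2)! - c * (β ^ 2 / (8 * 2 ^ p * p !)) * q ^ (p + 2) := by
    have hA := sum_pos_part_le p hq0 J
    have hB := sum_caps_ge p hβ hβ2 hqβ J hJ (fun j => q * (1 - β) < (j : ℝ)) (fun j h => h)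
    have hC : ∑ j ∈ range J, max (q - j) 0 * ((E.filter (fun v => v.degree = j)).card : ℝ) ≤
        ∑ j ∈ range J, max (q - j) 0 * (sj p j : ℝ) -
        c * ∑ j ∈ (range J).filter (fun j : ℕ => q * (1 - β) < (j : ℝ)),
          max (q - j) 0 * (sj p j : ℝ) := by
      rw [Finset.sum_filter, Finset.mul_sum, ← Finset.sum_sub_distrib]
      refine Finset.sum_le_sum fun j _ => ?_
      have hm : 0 ≤ max (q - (j : ℝ)) 0 := le_max_right _ _
      split_ifs with h
      · have := mul_le_mul_of_nonneg_left (hcap j h) hm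
        calc max (q - (j : ℝ)) 0 * ((E.filter (fun v => v.degree = j)).card : ℝ)
            ≤ max (q - (j : ℝ)) 0 * ((1 - c) * sj p j) := this
          _ = _ := by ring
      · rw [mul_zero, sub_zero]
        exact mul_le_mul_of_nonneg_left (by exact_mod_cast card_degree_le p E j) hm
    have hD := mul_le_mul_of_nonneg_left hB hc
    have e1 : c * (β ^ 2 / (8 * 2 ^ p * p !) * q ^ (p + 2)) =
      c * (β ^ 2 / (8 * 2 ^ p * p !)) * q ^ (p + 2) := by ring
    rw [e1] at hD
    linarith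
  have h2 := pow_radius_le p hq1
  have h3 : (q + (p + 1)) ^ (p + 2) / ((p + 2)! : ℝ) ≤
      q ^ (p + 2) / (p + 2)! + KK p * q ^ (p + 1) := by
    unfold KK
    rw [div_mul_eq_mul_div, ← add_div]
    exact div_le_div_of_nonneg_right h2 (by positivity)
  have hf : ((p + 2)! : ℝ) = (p + 2) * (p + 1)! := by
    rw [Nat.factorial_succ]; push_cast; ring
  have h4 : q * E.card - q ^ (p + 2) / (p + 2)! = hN (p + 1) q / (p + 1)! := by
    rw [← hqp, hf]
    unfold hN
    push_cast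
    have : (0 : ℝ) < (p + 1)! := by positivity
    field_simp
    ring
  linarith

/-- growth of the radii of leading exponents of a multiplicative family of spaces -/
lemma rad_step {n : ℕ} (hn : 1 ≤ n) (V : ℕ → Submodule ℂ (MvPowerSeries (Fin n) ℂ))
    (hfd : ∀ m, FiniteDimensional ℂ (V m))
    (hmul : ∀ i j, ∀ f ∈ V i, ∀ g ∈ V j, f * g ∈ V (i + j)) (j0 j1 : ℕ)
    (hjets : ∀ v : Fin n →₀ ℕ, v.degree ≤ n → ∃ f ∈ V j0, ∀ u : Fin n →₀ ℕ, u.degree ≤ n →
      MvPowerSeries.coeff u f = if u = v then 1 else 0)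
    {a : ℝ} (ha : 0 < a) (ha1 : a ≤ 1)
    (hsize : ∀ j, j1 ≤ j → (1 - a / 2) * (j : ℝ) ^ n / (n)! ≤ (finrank ℂ (V j) : ℝ))
    (k : ℕ) (hk : j0 + j1 + 1 ≤ k) (hk2 : 2 * (j0 : ℝ) ≤ a * k) (m : ℕ)
    (hm : 0 < (LE1 (V m)).card) :
    rad n (LE1 (V m)).card + (1 - a) * k ≤ rad n (LE1 (V (m + k))).card := by
  classical
  have hfd' := hfd
  let Sig : ℕ → Finset (Fin n → ℕ) := fun j => (LE1 (V j)).image (fun v : Fin n →₀ ℕ => (⇑v : Fin n → ℕ))
  have hmem : ∀ j (v : Fin n → ℕ), v ∈ Sig j ↔ Finsupp.equivFunOnFinite.symm v ∈ LE1 (V j) := by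
    intro j v
    constructor
    · intro hv
      obtain ⟨w, hw, rfl⟩ := Finset.mem_image.1 hv
      simpa using hw
    · intro hv
      exact Finset.mem_image.2 ⟨_, hv, by simp⟩
  have hcard : ∀ j, (Sig j).card = (LE1 (V j)).card := fun j =>
    Finset.card_image_of_injective _ DFunLike.coe_injective
  have hadd : ∀ i j, ∀ u ∈ Sig i, ∀ v ∈ Sig j, u + v ∈ Sig (i + j) := by
    intro i j u hu v hv
    rw [hmem] at hu hv ⊢
    have h1 := LE1_add (hmul i j) hu hv
    have e : Finsupp.equivFunOnFinite.symm (u + v) =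
        Finsupp.equivFunOnFinite.symm u + Finsupp.equivFunOnFinite.symm v := by
      ext i; simp
    rw [e]; exact h1
  have hcube : ∀ c : Fin n → ℕ, (∀ i, c i ≤ 1) → c ∈ Sig j0 := by
    intro c hc
    rw [hmem]
    refine mem_LE1_of_jets hjets _ ?_
    rw [Finsupp.degree_eq_sum]
    calc ∑ i, (Finsupp.equivFunOnFinite.symm c) i ≤ ∑ i : Fin n, 1 :=
          Finset.sum_le_sum fun i _ => by simpa using hc i
      _ = n := by simp
  have hsz := hsize (k - j0) (by omega)
  have hkj : (0 : ℝ) < ((k - j0 : ℕ) : ℝ) := by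
    have : 0 < k - j0 := by omega
    exact_mod_cast this
  have hB : (Sig (k - j0)).Nonempty := by
    rw [← Finset.card_pos, hcard, card_LE1]
    have h2 : (0 : ℝ) < (1 - a / 2) * ((k - j0 : ℕ) : ℝ) ^ n / (n)! := by
      have : (0 : ℝ) < 1 - a / 2 := by linarith
      positivity
    exact_mod_cast h2.trans_le hsz
  have hA : (Sig m).Nonempty := by rw [← Finset.card_pos, hcard]; exact hm
  have hg := rad_growth hn (A := Sig m) (B := Sig (k - j0)) (C := Sig (m + k)) hA hB (by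
    intro u hu v hv c hc
    have h1 := hadd m (k - j0) u hu v hv
    have h2 := hadd _ j0 _ h1 c (hcube c hc)
    have : m + (k - j0) + j0 = m + k := by omega
    rwa [this] at h2)
  rw [hcard, hcard, hcard] at hg
  have hr := le_rad (d := n) hn (e := a / 2) (by positivity) (by linarith) hsz
  rw [← card_LE1] at hr
  have hcast : ((k - j0 : ℕ) : ℝ) = k - j0 := by
    rw [Nat.cast_sub (by omega)]
  rw [hcast] at hr
  have h4 : (1 - a) * k ≤ (1 - a / 2) * ((k : ℝ) - j0) := by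
    have : 0 ≤ a / 2 * j0 := by positivity
    nlinarith
  linarith

end Crest.Agent.R271.CaseB553
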