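import Crest.Agent.R271.Ctx3_728
import Mathlib
import Crest.Agent.R271.KrullTrdeg_661
import Crest.Agent.R271.Ctx0_728

-- ▼ part R271/Ctx4_728
section

/-!
Row 271, team B (helper728): the ring `B = A[1/h] ⊆ K`, the generator `g`, units.
-/

set_option autoImplicit false

open scoped BigOperators
open Crest.Agent.R271.Defs710

noncomputable section

namespace Crest.Agent.R271.Ctx728

variable {n : ℕ} (P : PCtx n)

namespace PCtx

/-- `c s^j = a b` with `a ∈ R m`, `c(x) ≠ 0` -/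
structure Gen (m : ℕ) where
  j : ℕ
  a : P.K
  b : P.K
  c : P.A
  hj : m ≤ P.q * j
  a_mem : a ∈ P.R m
  b_mem : b ∈ P.R (P.q * j - m)
  eq : (c : P.K) * P.s ^ j = a * b
  x_c : P.x c ≠ 0

theorem exists_gen {m : ℕ} (hm : P.k₀ ≤ m) : Nonempty (P.Gen m) := by
  obtain ⟨j, a, b, c, hj, ha, hb, h, hc⟩ :=
    P.bpf m hm (RingHom.ker (P.x : P.A →+* ℂ)) (RingHom.ker_isPrime _)
  exact ⟨⟨j, a, b, c, hj, ha, hb, h, fun h0 => hc ((RingHom.mem_ker).2 h0)⟩⟩

variable {P}

theorem coe_ne_zero {c : P.A} (hc : P.x c ≠ 0) : (c : P.K) ≠ 0 := by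
  intro h
  apply hc
  rw [show c = 0 from Subtype.ext h, map_zero]

theorem Gen.c_ne {m : ℕ} (G : P.Gen m) : (G.c : P.K) ≠ 0 := coe_ne_zero G.x_c

theorem Gen.ab_ne {m : ℕ} (G : P.Gen m) : G.a * G.b ≠ 0 := by
  rw [← G.eq]
  exact mul_ne_zero G.c_ne (pow_ne_zero _ P.s_ne)

theorem Gen.a_ne {m : ℕ} (G : P.Gen m) : G.a ≠ 0 := left_ne_zero_of_mul G.ab_ne


/-- `f / s^j ∈ A` for `f ∈ R(qj)` -/
theorem div_mem_A {j : ℕ} {f : P.K} (hf : f ∈ P.R (P.q * j)) : f / P.s ^ j ∈ P.A := by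
  refine (P.mem_A _).2 ⟨j, ?_⟩
  rwa [div_mul_cancel₀ _ (pow_ne_zero _ P.s_ne)]

/-- `A[1/h] ⊆ K` -/
def Loc (A : Subalgebra ℂ P.K) (h : A) : Subalgebra ℂ P.K where
  carrier := {u | ∃ N : ℕ, u * (h : P.K) ^ N ∈ A}
  mul_mem' := by
    rintro u v ⟨N, hN⟩ ⟨M, hM⟩
    refine ⟨N + M, ?_⟩
    have := A.mul_mem hN hM
    rwa [mul_mul_mul_comm, ← pow_add] at this
  add_mem' := by
    rintro u v ⟨N, hN⟩ ⟨M, hM⟩
    refine ⟨N + M, ?_⟩
    have h1 := A.mul_mem hN (A.pow_mem h.2 M)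
    have h2 := A.mul_mem hM (A.pow_mem h.2 N)
    rw [mul_assoc, ← pow_add] at h1 h2
    rw [add_comm M N] at h2
    rw [add_mul]
    exact A.add_mem h1 h2
  algebraMap_mem' := by
    intro c
    exact ⟨0, by rw [pow_zero, mul_one]; exact A.algebraMap_mem c⟩

theorem le_Loc (A : Subalgebra ℂ P.K) (h : A) : A ≤ Loc A h := fun a ha =>
  ⟨0, by rw [pow_zero, mul_one]; exact ha⟩

/-- `u ∣ h` in `A` implies `u⁻¹ ∈ A[1/h]` -/
theorem inv_mem_Loc (A : Subalgebra ℂ P.K) (h : A) (h0 : (h : P.K) ≠ 0) (u : A) (hu : u ∣ h) :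
    (u : P.K)⁻¹ ∈ Loc A h := by
  obtain ⟨v, hv⟩ := hu
  refine ⟨1, ?_⟩
  have hv' : (h : P.K) = u * v := by rw [hv]; rfl
  have hu0 : (u : P.K) ≠ 0 := by
    intro h1
    rw [hv', h1, zero_mul] at h0
    exact h0 rfl
  rw [pow_one, hv', ← mul_assoc, inv_mul_cancel₀ hu0, one_mul]
  exact v.2

variable (D : P.CoordData) (G₁ : P.Gen P.k₀) (G₂ : P.Gen (P.k₀ + 1))

/-- `h = c₁ c₂ h₁` -/
def hh : P.A := G₁.c * G₂.c * D.h₁

theorem x_hh : P.x (hh D G₁ G₂) ≠ 0 := by
  rw [hh, map_mul, map_mul]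
  exact mul_ne_zero (mul_ne_zero G₁.x_c G₂.x_c) D.x_h₁

theorem hh_ne : (hh D G₁ G₂ : P.K) ≠ 0 := coe_ne_zero (x_hh D G₁ G₂)

/-- `B ⊆ K` -/
def BB : Subalgebra ℂ P.K := Loc P.A (hh D G₁ G₂)

theorem A_le_BB : P.A ≤ BB D G₁ G₂ := le_Loc _ _

theorem inv_mem_BB (u : P.A) (hu : u ∣ hh D G₁ G₂) : (u : P.K)⁻¹ ∈ BB D G₁ G₂ :=
  inv_mem_Loc _ _ (hh_ne D G₁ G₂) u hu

theorem c₁_dvd : G₁.c ∣ hh D G₁ G₂ := ⟨G₂.c * D.h₁, by rw [hh, mul_assoc]⟩

theorem c₂_dvd : G₂.c ∣ hh D G₁ G₂ := ⟨G₁.c * D.h₁, by rw [hh]; ring⟩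

theorem h₁_dvd : D.h₁ ∣ hh D G₁ G₂ := ⟨G₁.c * G₂.c, by rw [hh, mul_comm]⟩

theorem u_dvd : D.u 0 ∣ hh D G₁ G₂ := dvd_trans D.u_dvd (h₁_dvd D G₁ G₂)

/-- an element of `A` dividing `h` becomes a unit of `B` -/
theorem isUnit_BB (u : P.A) (hu : u ∣ hh D G₁ G₂) :
    IsUnit (⟨u, A_le_BB D G₁ G₂ u.2⟩ : BB D G₁ G₂) := by
  have hu0 : (u : P.K) ≠ 0 := by
    obtain ⟨v, hv⟩ := hu
    intro h1
    have h2 := hh_ne D G₁ G₂
    rw [show (hh D G₁ G₂ : P.K) = u * v by rw [hv]; rfl, h1, zero_mul] at h2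
    exact h2 rfl
  refine IsUnit.of_mul_eq_one ⟨(u : P.K)⁻¹, inv_mem_BB D G₁ G₂ u hu⟩ ?_
  exact Subtype.ext (mul_inv_cancel₀ hu0)

/-- `g = b / a` -/
def gg : P.K := G₂.a / G₁.a

theorem gg_ne : gg G₁ G₂ ≠ 0 := div_ne_zero G₂.a_ne G₁.a_ne

theorem mem_BB_of_mul_pow (v : P.K) (c : P.A) (hc : c ∣ hh D G₁ G₂) (N : ℕ)
    (h : v * (c : P.K) ^ N ∈ P.A) : v ∈ BB D G₁ G₂ := by
  have hc0 : (c : P.K) ≠ 0 := by
    obtain ⟨w, hw⟩ := hc
    intro h1
    have h2 := hh_ne D G₁ G₂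
    rw [show (hh D G₁ G₂ : P.K) = c * w by rw [hw]; rfl, h1, zero_mul] at h2
    exact h2 rfl
  have h1 := (BB D G₁ G₂).mul_mem (A_le_BB D G₁ G₂ h)
    ((BB D G₁ G₂).pow_mem (inv_mem_BB D G₁ G₂ c hc) N)
  rwa [inv_pow, mul_assoc, mul_inv_cancel₀ (pow_ne_zero _ hc0), mul_one] at h1

/-- `f / g^m ∈ B` for `f ∈ R m` -/
theorem div_gg_mem (m : ℕ) (f : P.K) (hf : f ∈ P.R m) : f / gg G₁ G₂ ^ m ∈ BB D G₁ G₂ := by
  refine mem_BB_of_mul_pow D G₁ G₂ _ G₂.c (c₂_dvd D G₁ G₂) m ?_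
  have h1 : f * G₁.a ^ m * G₂.b ^ m ∈ P.R (P.q * (G₂.j * m)) := by
    have := P.R_mul _ _ _ _ (P.R_mul _ _ _ _ hf (P.pow_mem_R G₁.a_mem m)) (P.pow_mem_R G₂.b_mem m)
    have hj := G₂.hj
    rwa [show m + P.k₀ * m + (P.q * G₂.j - (P.k₀ + 1)) * m = P.q * (G₂.j * m) by
      obtain ⟨t, ht⟩ := Nat.exists_eq_add_of_le hj
      rw [← mul_assoc, ht, Nat.add_sub_cancel_left]
      ring] at this
  have h2 := div_mem_A h1
  have h3 : f / gg G₁ G₂ ^ m * (G₂.c : P.K) ^ m = f * G₁.a ^ m * G₂.b ^ m / P.s ^ (G₂.j * m) := by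
    have hs := P.s_ne
    have e1 : (G₂.c : P.K) = G₂.a * G₂.b / P.s ^ G₂.j := by
      rw [← G₂.eq, mul_div_assoc, div_self (pow_ne_zero _ hs), mul_one]
    rw [e1, gg]
    have ha := G₂.a_ne
    have ha1 := G₁.a_ne
    rw [pow_mul, div_pow, div_pow, mul_pow]
    field_simp
  rw [h3]
  exact h2

/-- `s / g^q` is a unit -/
theorem isUnit_s : IsUnit (⟨P.s / gg G₁ G₂ ^ P.q, div_gg_mem D G₁ G₂ _ _ P.s_mem⟩ :
    BB D G₁ G₂) := by
  have hs := P.s_ne
  have hg := gg_ne G₁ G₂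
  have hmem : gg G₁ G₂ ^ P.q / P.s ∈ BB D G₁ G₂ := by
    refine mem_BB_of_mul_pow D G₁ G₂ _ G₁.c (c₁_dvd D G₁ G₂) P.q ?_
    have h1 : G₂.a ^ P.q * G₁.b ^ P.q ∈ P.R (P.q * (G₁.j * P.q + 1)) := by
      have := P.R_mul _ _ _ _ (P.pow_mem_R G₂.a_mem P.q) (P.pow_mem_R G₁.b_mem P.q)
      have hj := G₁.hj
      rwa [show (P.k₀ + 1) * P.q + (P.q * G₁.j - P.k₀) * P.q = P.q * (G₁.j * P.q + 1) by
        obtain ⟨t, ht⟩ := Nat.exists_eq_add_of_le hj
        rw [ht, Nat.add_sub_cancel_left, mul_add, ← mul_assoc, ht]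
        ring] at this
    have h2 := div_mem_A h1
    have h3 : gg G₁ G₂ ^ P.q / P.s * (G₁.c : P.K) ^ P.q =
        G₂.a ^ P.q * G₁.b ^ P.q / P.s ^ (G₁.j * P.q + 1) := by
      have e1 : (G₁.c : P.K) = G₁.a * G₁.b / P.s ^ G₁.j := by
        rw [← G₁.eq, mul_div_assoc, div_self (pow_ne_zero _ hs), mul_one]
      rw [e1, gg]
      have ha1 := G₁.a_ne
      rw [pow_add, pow_mul, pow_one, div_pow, div_pow, mul_pow]
      field_simp
    rw [h3]
    exact h2
  refine IsUnit.of_mul_eq_one ⟨_, hmem⟩ ?_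
  refine Subtype.ext ?_
  show P.s / gg G₁ G₂ ^ P.q * (gg G₁ G₂ ^ P.q / P.s) = 1
  rw [div_mul_div_comm, mul_comm (gg G₁ G₂ ^ P.q), div_self (mul_ne_zero hs (pow_ne_zero _ hg))]

/-- product formula -/
theorem gen_eq {m j : ℕ} {a b : P.K} {c : P.A} (hj : m ≤ P.q * j) (ha : a ∈ P.R m)
    (hb : b ∈ P.R (P.q * j - m)) (h : (c : P.K) * P.s ^ j = a * b) :
    (⟨a / gg G₁ G₂ ^ m, div_gg_mem D G₁ G₂ _ _ ha⟩ : BB D G₁ G₂) *
      ⟨b / gg G₁ G₂ ^ (P.q * j - m), div_gg_mem D G₁ G₂ _ _ hb⟩ =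
    ⟨c, A_le_BB D G₁ G₂ c.2⟩ * ⟨P.s / gg G₁ G₂ ^ P.q, div_gg_mem D G₁ G₂ _ _ P.s_mem⟩ ^ j := by
  refine Subtype.ext ?_
  show a / gg G₁ G₂ ^ m * (b / gg G₁ G₂ ^ (P.q * j - m)) = (c : P.K) * (P.s / gg G₁ G₂ ^ P.q) ^ j
  rw [div_mul_div_comm, ← h, ← pow_add, Nat.add_sub_cancel' hj, div_pow, ← pow_mul, mul_div_assoc]

/-- a section without zeros -/
theorem isUnit_gen {m : ℕ} (G : P.Gen m) (hc : G.c ∣ hh D G₁ G₂) :
    IsUnit (⟨G.a / gg G₁ G₂ ^ m, div_gg_mem D G₁ G₂ _ _ G.a_mem⟩ : BB D G₁ G₂) := by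
  have h1 := gen_eq D G₁ G₂ G.hj G.a_mem G.b_mem G.eq
  refine isUnit_of_mul_isUnit_left (y := ⟨G.b / gg G₁ G₂ ^ (P.q * G.j - m),
    div_gg_mem D G₁ G₂ _ _ G.b_mem⟩) ?_
  rw [h1]
  exact (isUnit_BB D G₁ G₂ _ hc).mul ((isUnit_s D G₁ G₂).pow _)

end PCtx

end Crest.Agent.R271.Ctx728
end
end

-- ▼ part R271/Ctx5_728
section

/-!
Row 271, team B (helper728): localisations inside a field, étale coordinates and points.
-/

set_option autoImplicit false

open scoped BigOperators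

noncomputable section

namespace Crest.Agent.R271.Ctx728

section loc

variable {K : Type} [Field K] [Algebra ℂ K] (A B : Subalgebra ℂ K) (hAB : A ≤ B)

/-- the inclusion `A → B` as an algebra -/
@[reducible] def inclAlg : Algebra A B := (Subalgebra.inclusion hAB).toRingHom.toAlgebra

theorem inclAlg_apply (a : A) :
    letI := inclAlg A B hAB
    algebraMap A B a = ⟨a, hAB a.2⟩ := rfl

theorem isUnit_incl (u h : A) (hu : u ∣ h) (h0 : (h : K) ≠ 0) (hinv : (h : K)⁻¹ ∈ B) :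
    IsUnit (⟨u, hAB u.2⟩ : B) := by
  obtain ⟨v, hv⟩ := hu
  have hv' : (h : K) = u * v := by rw [hv]; rfl
  refine IsUnit.of_mul_eq_one (⟨v, hAB v.2⟩ * ⟨(h : K)⁻¹, hinv⟩) ?_
  refine Subtype.ext ?_
  show (u : K) * (v * (h : K)⁻¹) = 1
  rw [← mul_assoc, ← hv', mul_inv_cancel₀ h0]

theorem isLocalization_incl (h : A) (h0 : (h : K) ≠ 0) (hinv : (h : K)⁻¹ ∈ B)
    (hloc : ∀ b ∈ B, ∃ N : ℕ, b * (h : K) ^ N ∈ A) :
    letI := inclAlg A B hAB
    IsLocalization.Away h B := by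
  let _ := inclAlg A B hAB
  refine (isLocalization_iff (Submonoid.powers h) B).2 ⟨?_, ?_, ?_⟩
  · rintro ⟨_, N, rfl⟩
    rw [map_pow]
    exact (isUnit_incl A B hAB h h dvd_rfl h0 hinv).pow N
  · intro b
    obtain ⟨N, hN⟩ := hloc b b.2
    refine ⟨⟨⟨_, hN⟩, ⟨h ^ N, N, rfl⟩⟩, ?_⟩
    refine Subtype.ext ?_
    rw [map_pow]
    rfl
  · intro a a' haa
    refine ⟨1, ?_⟩
    have := congrArg Subtype.val haa
    rw [Subtype.ext (a1 := a) (a2 := a') this]

/-- extension of a point -/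
theorem exists_point (h : A) (h0 : (h : K) ≠ 0) (hinv : (h : K)⁻¹ ∈ B)
    (hloc : ∀ b ∈ B, ∃ N : ℕ, b * (h : K) ^ N ∈ A) (x : A →ₐ[ℂ] ℂ) (hx : x h ≠ 0) :
    ∃ x' : B →ₐ[ℂ] ℂ, ∀ a : A, x' ⟨a, hAB a.2⟩ = x a := by
  let _ := inclAlg A B hAB
  have := isLocalization_incl A B hAB h h0 hinv hloc
  have : IsScalarTower ℂ A B := IsScalarTower.of_algebraMap_eq fun c => rfl
  refine ⟨IsLocalization.liftAlgHom (M := Submonoid.powers h) (S := B) (f := x) ?_, ?_⟩
  · rintro ⟨_, N, rfl⟩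
    rw [map_pow]
    exact (IsUnit.mk0 _ hx).pow N
  · intro a
    rw [IsLocalization.liftAlgHom_apply, ← inclAlg_apply A B hAB, IsLocalization.lift_eq]
    rfl

include hAB in
/-- étale coordinates on the smaller open set -/
theorem etale_incl (h₁ h : A) (hdvd : h₁ ∣ h) (h0 : (h : K) ≠ 0) (hinv : (h : K)⁻¹ ∈ B)
    (hloc : ∀ b ∈ B, ∃ N : ℕ, b * (h : K) ^ N ∈ A) {n : ℕ} (z : Fin n → Localization.Away h₁)
    (hz : RingHom.Etale ((MvPolynomial.aeval z : MvPolynomial (Fin n) ℂ →ₐ[ℂ]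
      Localization.Away h₁) : MvPolynomial (Fin n) ℂ →+* Localization.Away h₁))
    (u₀ : A) (u0 : (u₀ : K) ≠ 0) (u : Fin n → A)
    (hzu : ∀ i, z i * algebraMap A (Localization.Away h₁) u₀ =
      algebraMap A (Localization.Away h₁) (u i))
    (z' : Fin n → B) (hz' : ∀ i, (z' i : K) * u₀ = u i) :
    RingHom.Etale ((MvPolynomial.aeval z' : MvPolynomial (Fin n) ℂ →ₐ[ℂ] B) :
      MvPolynomial (Fin n) ℂ →+* B) := by
  have hh₁ : IsUnit ((Subalgebra.inclusion hAB).toRingHom h₁) :=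
    isUnit_incl A B hAB h₁ h hdvd h0 hinv
  let φ : Localization.Away h₁ →+* B :=
    IsLocalization.Away.lift (S := Localization.Away h₁) h₁
      (g := (Subalgebra.inclusion hAB).toRingHom) hh₁
  have hφ : ∀ a : A, φ (algebraMap A _ a) = ⟨a, hAB a.2⟩ := by
    intro a
    exact IsLocalization.Away.lift_eq h₁ hh₁ a
  let _ : Algebra (Localization.Away h₁) B := φ.toAlgebra
  have hφ' : ∀ a : A, algebraMap (Localization.Away h₁) B (algebraMap A _ a) =
    ⟨a, hAB a.2⟩ := hφ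
  have : IsLocalization.Away (algebraMap A (Localization.Away h₁) h) B := by
    refine (isLocalization_iff (Submonoid.powers _) B).2 ⟨?_, ?_, ?_⟩
    · rintro ⟨_, N, rfl⟩
      rw [map_pow, hφ']
      exact (isUnit_incl A B hAB h h dvd_rfl h0 hinv).pow N
    · intro b
      obtain ⟨N, hN⟩ := hloc b b.2
      refine ⟨⟨algebraMap A _ ⟨_, hN⟩, ⟨(algebraMap A _ h) ^ N, N, rfl⟩⟩, ?_⟩
      refine Subtype.ext ?_
      rw [map_pow, hφ', hφ']
      rfl
    · intro b b' hbb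
      refine ⟨1, ?_⟩
      suffices b = b' by rw [this]
      have inj : ∀ b : Localization.Away h₁, φ b = 0 → b = 0 := by
        intro b hb
        obtain ⟨⟨a, s⟩, hs⟩ := IsLocalization.surj (Submonoid.powers h₁) b
        have h1 := congrArg φ hs
        simp only [map_mul, hφ, hb, zero_mul] at h1
        have h2 : a = 0 := by
          refine Subtype.ext ?_
          exact (congrArg Subtype.val h1).symm
        rw [h2, map_zero] at hs
        exact (IsUnit.mul_left_eq_zero (IsLocalization.map_units _ s)).1 hs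
      rw [← sub_eq_zero]
      apply inj
      rw [map_sub, sub_eq_zero]
      exact hbb
  have key := RingHom.Etale.propertyIsLocal.StableUnderCompositionWithLocalizationAwayTarget B
    (algebraMap A (Localization.Away h₁) h) _ hz
  convert key using 1
  refine MvPolynomial.ringHom_ext ?_ ?_
  · intro c
    rw [RingHom.comp_apply]
    show MvPolynomial.aeval z' (MvPolynomial.C c) =
      algebraMap (Localization.Away h₁) B (MvPolynomial.aeval z (MvPolynomial.C c))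
    rw [MvPolynomial.aeval_C, MvPolynomial.aeval_C,
      IsScalarTower.algebraMap_apply ℂ A (Localization.Away h₁), hφ']
    rfl
  · intro i
    rw [RingHom.comp_apply]
    show MvPolynomial.aeval z' (MvPolynomial.X i) =
      algebraMap (Localization.Away h₁) B (MvPolynomial.aeval z (MvPolynomial.X i))
    rw [MvPolynomial.aeval_X, MvPolynomial.aeval_X]
    have h1 := congrArg φ (hzu i)
    rw [map_mul, hφ, hφ] at h1
    have h2 := congrArg Subtype.val h1
    refine Subtype.ext ?_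
    have h3 : ((φ (z i) : B) : K) * u₀ = u i := h2
    rw [← hz' i] at h3
    exact (mul_right_cancel₀ u0 h3).symm

end loc

end Crest.Agent.R271.Ctx728
end
end

-- ▼ part R271/Ctx6_728
section

/-!
Row 271, team B (helper728): the spaces `V m`, the coordinates, the bigger ring `A'`, the section ring.
-/

set_option autoImplicit false

open scoped BigOperators
open Crest.Agent.R271.Defs710

noncomputable section

namespace Crest.Agent.R271.Ctx728

variable {n : ℕ} {P : PCtx n}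

namespace PCtx

variable (D : P.CoordData) (G₁ : P.Gen P.k₀) (G₂ : P.Gen (P.k₀ + 1))

/-! ### the spaces `V m` -/

/-- `V m = {b ∈ B | b g^m ∈ R m}` -/
def VV (m : ℕ) : Submodule ℂ (BB D G₁ G₂) :=
  (P.R m).comap ((LinearMap.mulRight ℂ (gg G₁ G₂ ^ m)).comp (BB D G₁ G₂).val.toLinearMap)

theorem mem_VV (m : ℕ) (b : BB D G₁ G₂) :
    b ∈ VV D G₁ G₂ m ↔ (b : P.K) * gg G₁ G₂ ^ m ∈ P.R m := Iff.rfl

theorem VV_zero : VV D G₁ G₂ 0 = 1 := by
  ext b
  rw [mem_VV, pow_zero, mul_one, P.R_zero, Submodule.mem_one, Submodule.mem_one]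
  constructor
  · rintro ⟨c, hc⟩
    exact ⟨c, Subtype.ext hc⟩
  · rintro ⟨c, hc⟩
    exact ⟨c, congrArg Subtype.val hc⟩

theorem VV_mul (m l : ℕ) (a b : BB D G₁ G₂) (ha : a ∈ VV D G₁ G₂ m) (hb : b ∈ VV D G₁ G₂ l) :
    a * b ∈ VV D G₁ G₂ (m + l) := by
  rw [mem_VV] at ha hb ⊢
  have := P.R_mul _ _ _ _ ha hb
  rwa [mul_mul_mul_comm, ← pow_add] at this

theorem VV_fin (m : ℕ) : FiniteDimensional ℂ (VV D G₁ G₂ m) := by
  have := P.R_fin m
  let f : VV D G₁ G₂ m →ₗ[ℂ] P.R m :=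
    LinearMap.restrict ((LinearMap.mulRight ℂ (gg G₁ G₂ ^ m)).comp (BB D G₁ G₂).val.toLinearMap)
      (p := VV D G₁ G₂ m) (q := P.R m) (fun x hx => hx)
  refine Module.Finite.of_injective f ?_
  intro a b hab
  have h1 : ((a : BB D G₁ G₂) : P.K) * gg G₁ G₂ ^ m = ((b : BB D G₁ G₂) : P.K) * gg G₁ G₂ ^ m :=
    congrArg Subtype.val hab
  exact Subtype.ext (Subtype.ext (mul_right_cancel₀ (pow_ne_zero _ (gg_ne G₁ G₂)) h1))

/-- the element `f / g^m` of `B` -/
def QQ (m : ℕ) (f : P.K) (hf : f ∈ P.R m) : BB D G₁ G₂ :=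
  ⟨f / gg G₁ G₂ ^ m, div_gg_mem D G₁ G₂ m f hf⟩

theorem coe_QQ (m : ℕ) (f : P.K) (hf : f ∈ P.R m) :
    (QQ D G₁ G₂ m f hf : P.K) = f / gg G₁ G₂ ^ m := rfl

theorem QQ_mul_gg (m : ℕ) (f : P.K) (hf : f ∈ P.R m) :
    (QQ D G₁ G₂ m f hf : P.K) * gg G₁ G₂ ^ m = f := by
  rw [coe_QQ, div_mul_cancel₀ _ (pow_ne_zero _ (gg_ne G₁ G₂))]

theorem QQ_mem (m : ℕ) (f : P.K) (hf : f ∈ P.R m) : QQ D G₁ G₂ m f hf ∈ VV D G₁ G₂ m := by
  rw [mem_VV, QQ_mul_gg]
  exact hf

/-! ### coordinates -/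

/-- `k = q l` -/
def kk : ℕ := P.q * D.l

/-- `Yⱼ = yⱼ / g^k` -/
def YY (j : Fin (n + 1)) : BB D G₁ G₂ := QQ D G₁ G₂ (P.q * D.l) (D.y j) (D.y_mem j)

theorem u_ne : (D.u 0 : P.K) ≠ 0 := by
  obtain ⟨v, hv⟩ := D.u_dvd
  intro h1
  apply coe_ne_zero D.x_h₁
  rw [hv]
  show (D.u 0 : P.K) * v = 0
  rw [h1, zero_mul]

theorem y_ne : D.y 0 ≠ 0 := by
  rw [← D.u_y 0]
  exact mul_ne_zero (u_ne D) (pow_ne_zero _ P.s_ne)

theorem zz_aux (i : Fin n) : D.y i.succ / D.y 0 ∈ BB D G₁ G₂ := by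
  rw [← D.u_y 0, ← D.u_y i.succ, mul_div_mul_right _ _ (pow_ne_zero _ P.s_ne), div_eq_mul_inv]
  exact (BB D G₁ G₂).mul_mem (A_le_BB D G₁ G₂ (D.u i.succ).2)
    (inv_mem_BB D G₁ G₂ _ (u_dvd D G₁ G₂))

/-- `zᵢ = yᵢ₊₁ / y₀` -/
def zz (i : Fin n) : BB D G₁ G₂ := ⟨D.y i.succ / D.y 0, zz_aux D G₁ G₂ i⟩

theorem coe_zz (i : Fin n) : (zz D G₁ G₂ i : P.K) = D.y i.succ / D.y 0 := rfl

theorem YY_mem (j : Fin (n + 1)) : YY D G₁ G₂ j ∈ VV D G₁ G₂ (P.q * D.l) := QQ_mem _ _ _ _ _ _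

theorem YY_z (i : Fin n) : zz D G₁ G₂ i * YY D G₁ G₂ 0 = YY D G₁ G₂ i.succ := by
  refine Subtype.ext ?_
  show D.y i.succ / D.y 0 * (D.y 0 / gg G₁ G₂ ^ (P.q * D.l)) = D.y i.succ / gg G₁ G₂ ^ (P.q * D.l)
  rw [div_mul_div_cancel₀ (y_ne D)]

theorem YY_unit : IsUnit (YY D G₁ G₂ 0) := by
  have h1 : YY D G₁ G₂ 0 = ⟨D.u 0, A_le_BB D G₁ G₂ (D.u 0).2⟩ *
      ⟨P.s / gg G₁ G₂ ^ P.q, div_gg_mem D G₁ G₂ _ _ P.s_mem⟩ ^ D.l := by
    refine Subtype.ext ?_
    show D.y 0 / gg G₁ G₂ ^ (P.q * D.l) = (D.u 0 : P.K) * (P.s / gg G₁ G₂ ^ P.q) ^ D.l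
    rw [← D.u_y 0, div_pow, ← pow_mul, mul_div_assoc]
  rw [h1]
  exact (isUnit_BB D G₁ G₂ _ (u_dvd D G₁ G₂)).mul ((isUnit_s D G₁ G₂).pow _)

theorem loc_BB (b : P.K) (hb : b ∈ BB D G₁ G₂) : ∃ N : ℕ, b * (hh D G₁ G₂ : P.K) ^ N ∈ P.A := hb

theorem zz_etale : RingHom.Etale ((MvPolynomial.aeval (zz D G₁ G₂) : MvPolynomial (Fin n) ℂ →ₐ[ℂ]
    BB D G₁ G₂) : MvPolynomial (Fin n) ℂ →+* BB D G₁ G₂) := by
  refine etale_incl P.A (BB D G₁ G₂) (A_le_BB D G₁ G₂) D.h₁ (hh D G₁ G₂) (h₁_dvd D G₁ G₂)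
    (hh_ne D G₁ G₂) (inv_mem_BB D G₁ G₂ _ dvd_rfl) (loc_BB D G₁ G₂) D.z D.etale (D.u 0) (u_ne D)
    (fun i => D.u i.succ) D.z_u _ ?_
  intro i
  rw [coe_zz, ← D.u_y 0, ← D.u_y i.succ, mul_div_mul_right _ _ (pow_ne_zero _ P.s_ne),
    div_mul_cancel₀ _ (u_ne D)]

/-! ### graded integrality over the `y`'s -/

theorem gint_y (m : ℕ) (f : P.K) (hf : f ∈ P.R (m * (P.q * D.l))) :
    GInt (Submodule.span ℂ (Set.range D.y)) m f :=
  (P.int _ D.hk m f hf).trans D.gint₁

/-! ### the bigger ring -/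

/-- `A' = Γ(X_{y₀})` -/
def AA : Subalgebra ℂ (BB D G₁ G₂) where
  carrier := {b | ∃ j : ℕ, (b : P.K) * D.y 0 ^ j ∈ P.R (P.q * D.l * j)}
  mul_mem' := by
    rintro a b ⟨j, hj⟩ ⟨i, hi⟩
    refine ⟨j + i, ?_⟩
    have := P.R_mul _ _ _ _ hj hi
    rw [← mul_add, mul_mul_mul_comm, ← pow_add] at this
    exact this
  add_mem' := by
    rintro a b ⟨j, hj⟩ ⟨i, hi⟩
    refine ⟨j + i, ?_⟩
    have h1 := P.R_mul _ _ _ _ hj (P.pow_mem_R (D.y_mem 0) i)
    have h2 := P.R_mul _ _ _ _ hi (P.pow_mem_R (D.y_mem 0) j)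
    rw [← mul_add, mul_assoc (a : P.K), ← pow_add] at h1
    rw [← mul_add, mul_assoc (b : P.K), ← pow_add, add_comm i j] at h2
    have h3 := Submodule.add_mem _ h1 h2
    rw [← add_mul] at h3
    exact h3
  algebraMap_mem' := by
    intro c
    refine ⟨0, ?_⟩
    rw [mul_zero, pow_zero, mul_one, P.R_zero]
    exact Submodule.mem_one.2 ⟨c, rfl⟩

theorem mem_AA (b : BB D G₁ G₂) :
    b ∈ AA D G₁ G₂ ↔ ∃ j : ℕ, (b : P.K) * D.y 0 ^ j ∈ P.R (P.q * D.l * j) := Iff.rfl

theorem zz_mem_AA (i : Fin n) : zz D G₁ G₂ i ∈ AA D G₁ G₂ := by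
  refine ⟨1, ?_⟩
  rw [pow_one, mul_one, coe_zz, div_mul_cancel₀ _ (y_ne D)]
  exact D.y_mem _

/-- integrality from an extension ring to a subring of a field -/
theorem isIntegral_of_subalgebra {K : Type} [Field K] [Algebra ℂ K] (B : Subalgebra ℂ K)
    (S : Subalgebra ℂ B) (T : Subalgebra ℂ K) (hT : ∀ t ∈ T, ∃ s ∈ S, (s : K) = t) (a : B)
    (ha : IsIntegral T (a : K)) : IsIntegral S a := by
  classical
  obtain ⟨r, hr, c, hc⟩ := rel_of_isIntegral _ ha
  have h : ∀ j, ∃ s : S, ((s : B) : K) = c j := fun j => by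
    obtain ⟨s, hs, hs'⟩ := hT _ (c j).2
    exact ⟨⟨s, hs⟩, hs'⟩
  choose d hd using h
  refine isIntegral_of_rel r hr d a ?_
  refine Subtype.ext ?_
  have h2 : ((a ^ r : B) : K) = (a : K) ^ r := rfl
  rw [h2, hc]
  simp only [AddSubmonoidClass.coe_finsetSum]
  refine Finset.sum_congr rfl fun i _ => ?_
  show _ = ((d (r - i) : B) : K) * (a : K) ^ i
  rw [hd]
  rfl

theorem AA_int (a : BB D G₁ G₂) (ha : a ∈ AA D G₁ G₂) :
    IsIntegral (Algebra.adjoin ℂ (Set.range (zz D G₁ G₂))) a := by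
  obtain ⟨j, hj⟩ := ha
  have hy := y_ne D
  rw [mul_comm (P.q * D.l) j] at hj
  have h1 := gint_y D j _ hj
  set T : Subalgebra ℂ P.K := Algebra.adjoin ℂ (Set.range fun i => (zz D G₁ G₂ i : P.K)) with hTdef
  have hT : ∀ w ∈ Submodule.span ℂ (Set.range D.y), w / D.y 0 ∈ T := by
    intro w hw
    refine Submodule.span_induction (p := fun w _ => w / D.y 0 ∈ T) ?_ ?_ ?_ ?_ hw
    · rintro _ ⟨i, rfl⟩
      refine Fin.cases ?_ (fun i => ?_) i
      · rw [div_self hy]; exact T.one_mem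
      · exact Algebra.subset_adjoin ⟨i, rfl⟩
    · rw [zero_div]; exact T.zero_mem
    · intro a b _ _ ha hb
      rw [add_div]; exact T.add_mem ha hb
    · intro c a _ ha
      rw [smul_div_assoc]; exact T.smul_mem ha c
  have h2 := h1.integral_div T hT
  rw [mul_div_assoc, div_self (pow_ne_zero _ hy), mul_one] at h2
  refine isIntegral_of_subalgebra _ _ T ?_ a h2
  intro t ht
  refine Algebra.adjoin_induction (p := fun t _ =>
    ∃ s ∈ Algebra.adjoin ℂ (Set.range (zz D G₁ G₂)), (s : P.K) = t) ?_ ?_ ?_ ?_ ht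
  · rintro _ ⟨i, rfl⟩
    exact ⟨_, Algebra.subset_adjoin ⟨i, rfl⟩, rfl⟩
  · intro c
    exact ⟨algebraMap ℂ _ c, Subalgebra.algebraMap_mem _ _, rfl⟩
  · rintro a b _ _ ⟨s, hs, rfl⟩ ⟨t, ht, rfl⟩
    exact ⟨s + t, Subalgebra.add_mem _ hs ht, rfl⟩
  · rintro a b _ _ ⟨s, hs, rfl⟩ ⟨t, ht, rfl⟩
    exact ⟨s * t, Subalgebra.mul_mem _ hs ht, rfl⟩

/-- the element `h'` with `B = A'[1/h']` -/
theorem exists_h' : ∃ h' : BB D G₁ G₂, h' ∈ AA D G₁ G₂ ∧ IsUnit h' ∧
    ∀ b : BB D G₁ G₂, ∃ N : ℕ, h' ^ N * b ∈ AA D G₁ G₂ := by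
  obtain ⟨jh, hjh⟩ := (P.mem_A _).1 (hh D G₁ G₂).2
  have hJ : (hh D G₁ G₂ : P.K) * P.s ^ (jh + 1) ∈ P.R (P.q * (jh + 1)) := by
    have := P.R_mul _ _ _ _ hjh P.s_mem
    rwa [mul_assoc, ← pow_succ, ← mul_add_one] at this
  have hs := P.s_ne
  have hu0 := u_ne D
  have hmem : (hh D G₁ G₂ : P.K) ^ D.l * (D.u 0 : P.K)⁻¹ ^ (jh + 1) ∈ BB D G₁ G₂ :=
    (BB D G₁ G₂).mul_mem ((BB D G₁ G₂).pow_mem (A_le_BB D G₁ G₂ (hh D G₁ G₂).2) _)
      ((BB D G₁ G₂).pow_mem (inv_mem_BB D G₁ G₂ _ (u_dvd D G₁ G₂)) _)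
  refine ⟨⟨_, hmem⟩, ?_, ?_, ?_⟩
  · refine ⟨jh + 1, ?_⟩
    have h1 : (hh D G₁ G₂ : P.K) ^ D.l * (D.u 0 : P.K)⁻¹ ^ (jh + 1) * D.y 0 ^ (jh + 1) =
        ((hh D G₁ G₂ : P.K) * P.s ^ (jh + 1)) ^ D.l := by
      rw [← D.u_y 0, mul_pow, mul_pow, ← pow_mul, ← pow_mul, inv_pow, mul_comm D.l (jh + 1)]
      field_simp
    show (hh D G₁ G₂ : P.K) ^ D.l * (D.u 0 : P.K)⁻¹ ^ (jh + 1) * D.y 0 ^ (jh + 1) ∈ _
    rw [h1, show P.q * D.l * (jh + 1) = P.q * (jh + 1) * D.l by ring]
    exact P.pow_mem_R hJ _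
  · have h1 : (⟨_, hmem⟩ : BB D G₁ G₂) = ⟨hh D G₁ G₂, A_le_BB D G₁ G₂ (hh D G₁ G₂).2⟩ ^ D.l *
        ⟨(D.u 0 : P.K)⁻¹, inv_mem_BB D G₁ G₂ _ (u_dvd D G₁ G₂)⟩ ^ (jh + 1) := rfl
    rw [h1]
    refine ((isUnit_BB D G₁ G₂ _ dvd_rfl).pow _).mul (IsUnit.pow _ ?_)
    refine IsUnit.of_mul_eq_one ⟨D.u 0, A_le_BB D G₁ G₂ (D.u 0).2⟩ ?_
    exact Subtype.ext (inv_mul_cancel₀ hu0)
  · intro b
    obtain ⟨N₀, hN₀⟩ := b.2
    obtain ⟨j, hj⟩ := P.mem_A_ge hN₀
    -- choose N large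
    set N := N₀ + j with hN
    have hl := D.l_pos
    have hlN : N ≤ D.l * N := Nat.le_mul_of_pos_left _ hl
    refine ⟨N, (jh + 1) * N, ?_⟩
    obtain ⟨t, ht⟩ := Nat.exists_eq_add_of_le (show N₀ ≤ D.l * N by omega)
    have h1 := hj (D.l * N) (by omega)
    have h2 := P.pow_mem_R hjh t
    have h3 := P.R_mul _ _ _ _ (P.R_mul _ _ _ _ h2 (P.pow_s_mem (jh * N₀))) h1
    have h4 : ((⟨_, hmem⟩ : BB D G₁ G₂) ^ N * b : BB D G₁ G₂) * D.y 0 ^ ((jh + 1) * N) =
        ((hh D G₁ G₂ : P.K) * P.s ^ jh) ^ t * P.s ^ (jh * N₀) *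
          ((b : P.K) * (hh D G₁ G₂ : P.K) ^ N₀ * P.s ^ (D.l * N)) := by
      show ((hh D G₁ G₂ : P.K) ^ D.l * (D.u 0 : P.K)⁻¹ ^ (jh + 1)) ^ N * (b : P.K) *
        D.y 0 ^ ((jh + 1) * N) = _
      rw [← D.u_y 0]
      have e1 : ((hh D G₁ G₂ : P.K) ^ D.l * (D.u 0 : P.K)⁻¹ ^ (jh + 1)) ^ N =
          (hh D G₁ G₂ : P.K) ^ N₀ * (hh D G₁ G₂ : P.K) ^ t * ((D.u 0 : P.K)⁻¹ ^ ((jh + 1) * N)) := by
        rw [mul_pow, ← pow_mul, ← pow_mul, ht, pow_add]
      have e2 : ((D.u 0 : P.K) * P.s ^ D.l) ^ ((jh + 1) * N) =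
          (D.u 0 : P.K) ^ ((jh + 1) * N) * (P.s ^ (jh * N₀) * P.s ^ (jh * t) * P.s ^ (D.l * N)) := by
        rw [mul_pow, ← pow_mul, ← pow_add, ← pow_add]
        congr 2
        rw [← mul_add, ← ht]
        ring
      have e3 : (D.u 0 : P.K)⁻¹ ^ ((jh + 1) * N) * (D.u 0 : P.K) ^ ((jh + 1) * N) = 1 := by
        rw [← mul_pow, inv_mul_cancel₀ hu0, one_pow]
      rw [e1, e2, mul_pow, ← pow_mul]
      calc (hh D G₁ G₂ : P.K) ^ N₀ * (hh D G₁ G₂ : P.K) ^ t * (D.u 0 : P.K)⁻¹ ^ ((jh + 1) * N) *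
            (b : P.K) * ((D.u 0 : P.K) ^ ((jh + 1) * N) *
            (P.s ^ (jh * N₀) * P.s ^ (jh * t) * P.s ^ (D.l * N))) =
          ((D.u 0 : P.K)⁻¹ ^ ((jh + 1) * N) * (D.u 0 : P.K) ^ ((jh + 1) * N)) *
            ((hh D G₁ G₂ : P.K) ^ t * P.s ^ (jh * t) * P.s ^ (jh * N₀) *
            ((b : P.K) * (hh D G₁ G₂ : P.K) ^ N₀ * P.s ^ (D.l * N))) := by ring
        _ = _ := by rw [e3, one_mul]
    rw [h4]
    rwa [show P.q * jh * t + P.q * (jh * N₀) + P.q * (D.l * N) =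
      P.q * D.l * ((jh + 1) * N) by
        have : D.l * N = N₀ + t := ht
        calc P.q * jh * t + P.q * (jh * N₀) + P.q * (D.l * N) =
          P.q * jh * (N₀ + t) + P.q * (D.l * N) := by ring
          _ = P.q * D.l * ((jh + 1) * N) := by rw [← this]; ring] at h3

end PCtx

end Crest.Agent.R271.Ctx728
end
end

-- ▼ part R271/Ctx7_728
section

/-!
Row 271, team B (helper728): the section ring on `B` (`GSec`, `GIY`) and the existence of `Model P`.
-/

set_option autoImplicit false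

open scoped BigOperators
open Crest.Agent.R271.Defs710

noncomputable section

namespace Crest.Agent.R271.Ctx728

variable {n : ℕ} {P : PCtx n}

namespace PCtx

variable (D : P.CoordData) (G₁ : P.Gen P.k₀) (G₂ : P.Gen (P.k₀ + 1))

theorem VV_bpf (m : ℕ) (hm : P.k₀ ≤ m) (Q : Ideal (BB D G₁ G₂)) (hQ : Q.IsPrime) :
    ∃ f ∈ VV D G₁ G₂ m, f ∉ Q := by
  obtain ⟨j, a, b, c, hj, ha, hb, h, hc⟩ :=
    P.bpf m hm (Q.comap (Subalgebra.inclusion (A_le_BB D G₁ G₂))) (hQ.comap _)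
  refine ⟨QQ D G₁ G₂ m a ha, QQ_mem D G₁ G₂ m a ha, fun hf => hc ?_⟩
  have h1 := gen_eq D G₁ G₂ hj ha hb h
  have h2 : (⟨c, A_le_BB D G₁ G₂ c.2⟩ : BB D G₁ G₂) *
      ⟨P.s / gg G₁ G₂ ^ P.q, div_gg_mem D G₁ G₂ _ _ P.s_mem⟩ ^ j ∈ Q := by
    rw [← h1]
    exact Q.mul_mem_right _ hf
  exact (Ideal.mul_unit_mem_iff_mem Q ((isUnit_s D G₁ G₂).pow j)).1 h2

theorem isUnit_s_pow (j : ℕ) : IsUnit (QQ D G₁ G₂ (P.q * j) (P.s ^ j) (P.pow_s_mem j)) := by
  have h1 : QQ D G₁ G₂ (P.q * j) (P.s ^ j) (P.pow_s_mem j) =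
      ⟨P.s / gg G₁ G₂ ^ P.q, div_gg_mem D G₁ G₂ _ _ P.s_mem⟩ ^ j := by
    refine Subtype.ext ?_
    show P.s ^ j / gg G₁ G₂ ^ (P.q * j) = (P.s / gg G₁ G₂ ^ P.q) ^ j
    rw [div_pow, ← pow_mul]
  rw [h1]
  exact (isUnit_s D G₁ G₂).pow _

theorem BB_gen : ∃ (Q : ℕ) (S : Finset (BB D G₁ G₂)),
    Algebra.adjoin ℂ (S : Set (BB D G₁ G₂)) = ⊤ ∧
    ∀ b ∈ S, ∃ g ∈ VV D G₁ G₂ Q, IsUnit g ∧ b * g ∈ VV D G₁ G₂ Q := by
  classical
  obtain ⟨S₀, hS₀⟩ := P.A_ft.out
  obtain ⟨j₀, hj₀⟩ := P.mem_A_finset (insert (hh D G₁ G₂) S₀)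
  have hj := hj₀ j₀ le_rfl
  set hi : BB D G₁ G₂ := ⟨(hh D G₁ G₂ : P.K)⁻¹, inv_mem_BB D G₁ G₂ _ dvd_rfl⟩ with hidef
  have h0 := hh_ne D G₁ G₂
  refine ⟨P.q * j₀, insert hi (S₀.image (Subalgebra.inclusion (A_le_BB D G₁ G₂))), ?_, ?_⟩
  · rw [eq_top_iff]
    rintro b -
    obtain ⟨N, hN⟩ := b.2
    set T := Algebra.adjoin ℂ ((insert hi (S₀.image (Subalgebra.inclusion (A_le_BB D G₁ G₂))) :
      Finset (BB D G₁ G₂)) : Set (BB D G₁ G₂)) with hT
    have key : ∀ a : P.A, Subalgebra.inclusion (A_le_BB D G₁ G₂) a ∈ T := by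
      intro a
      have ha : a ∈ Algebra.adjoin ℂ (S₀ : Set P.A) := by rw [hS₀]; trivial
      refine Algebra.adjoin_induction (p := fun (a : P.A) _ =>
        Subalgebra.inclusion (A_le_BB D G₁ G₂) a ∈ T) ?_ ?_ ?_ ?_ ha
      · intro a ha
        refine Algebra.subset_adjoin ?_
        rw [Finset.coe_insert, Finset.coe_image]
        exact Or.inr ⟨a, ha, rfl⟩
      · intro c
        rw [AlgHom.commutes]
        exact T.algebraMap_mem c
      · intro a b _ _ ha hb
        rw [map_add]; exact T.add_mem ha hb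
      · intro a b _ _ ha hb
        rw [map_mul]; exact T.mul_mem ha hb
    have hiT : hi ∈ T := by
      refine Algebra.subset_adjoin ?_
      rw [Finset.coe_insert]
      exact Or.inl rfl
    have h1 : b = Subalgebra.inclusion (A_le_BB D G₁ G₂) ⟨_, hN⟩ * hi ^ N := by
      refine Subtype.ext ?_
      show (b : P.K) = (b : P.K) * (hh D G₁ G₂ : P.K) ^ N * ((hh D G₁ G₂ : P.K)⁻¹) ^ N
      rw [mul_assoc, ← mul_pow, mul_inv_cancel₀ h0, one_pow, mul_one]
    rw [h1]
    exact T.mul_mem (key _) (T.pow_mem hiT _)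
  · intro b hb
    set sj := QQ D G₁ G₂ (P.q * j₀) (P.s ^ j₀) (P.pow_s_mem j₀) with hsj
    have hg := pow_ne_zero (P.q * j₀) (gg_ne G₁ G₂)
    rcases Finset.mem_insert.1 hb with rfl | hb
    · refine ⟨⟨hh D G₁ G₂, A_le_BB D G₁ G₂ (hh D G₁ G₂).2⟩ * sj, ?_,
        (isUnit_BB D G₁ G₂ _ dvd_rfl).mul (isUnit_s_pow D G₁ G₂ j₀), ?_⟩
      · rw [mem_VV]
        show (hh D G₁ G₂ : P.K) * (P.s ^ j₀ / gg G₁ G₂ ^ (P.q * j₀)) * gg G₁ G₂ ^ (P.q * j₀) ∈ _
        rw [mul_assoc, div_mul_cancel₀ _ hg]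
        exact hj _ (Finset.mem_insert_self _ _)
      · rw [mem_VV]
        show (hh D G₁ G₂ : P.K)⁻¹ * ((hh D G₁ G₂ : P.K) * (P.s ^ j₀ / gg G₁ G₂ ^ (P.q * j₀))) *
          gg G₁ G₂ ^ (P.q * j₀) ∈ _
        rw [← mul_assoc, inv_mul_cancel₀ h0, one_mul, div_mul_cancel₀ _ hg]
        exact P.pow_s_mem j₀
    · obtain ⟨a, ha, rfl⟩ := Finset.mem_image.1 hb
      refine ⟨sj, QQ_mem _ _ _ _ _ _, isUnit_s_pow D G₁ G₂ j₀, ?_⟩
      rw [mem_VV]
      show (a : P.K) * (P.s ^ j₀ / gg G₁ G₂ ^ (P.q * j₀)) * gg G₁ G₂ ^ (P.q * j₀) ∈ _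
      rw [mul_assoc, div_mul_cancel₀ _ hg]
      exact hj _ (Finset.mem_insert_of_mem ha)

theorem exists_pow_VV (k N : ℕ) (u : P.K) (hu : u ∈ (P.R k) ^ N) :
    ∃ v ∈ (VV D G₁ G₂ k) ^ N, (v : P.K) * gg G₁ G₂ ^ (k * N) = u := by
  induction N generalizing u with
  | zero =>
    rw [pow_zero, Submodule.mem_one] at hu
    obtain ⟨c, rfl⟩ := hu
    refine ⟨algebraMap ℂ _ c, ?_, ?_⟩
    · rw [pow_zero]; exact Submodule.mem_one.2 ⟨c, rfl⟩
    · rw [mul_zero, pow_zero, mul_one]; rfl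
  | succ N ih =>
    rw [pow_succ] at hu
    refine Submodule.mul_induction_on hu ?_ ?_
    · intro a ha w hw
      obtain ⟨v, hv, hva⟩ := ih a ha
      refine ⟨v * QQ D G₁ G₂ k w hw, ?_, ?_⟩
      · rw [pow_succ]
        exact Submodule.mul_mem_mul hv (QQ_mem _ _ _ _ _ _)
      · show (v : P.K) * (QQ D G₁ G₂ k w hw : P.K) * gg G₁ G₂ ^ (k * (N + 1)) = a * w
        rw [mul_add_one, pow_add, mul_mul_mul_comm, hva, QQ_mul_gg]
    · rintro a b ⟨v, hv, hva⟩ ⟨v', hv', hva'⟩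
      refine ⟨v + v', Submodule.add_mem _ hv hv', ?_⟩
      show ((v : P.K) + v') * gg G₁ G₂ ^ (k * (N + 1)) = a + b
      rw [add_mul, hva, hva']

theorem VV_int (k : ℕ) (hk : P.k₀ ≤ k) (m : ℕ) (f : BB D G₁ G₂)
    (hf : f ∈ VV D G₁ G₂ (m * k)) :
    ∃ r : ℕ, 1 ≤ r ∧ ∃ a : ℕ → BB D G₁ G₂, (∀ i, a i ∈ (VV D G₁ G₂ k) ^ (m * i)) ∧
      f ^ r = ∑ i ∈ Finset.range r, a (r - i) * f ^ i := by
  obtain ⟨r, hr, a, ha, h⟩ := P.int k hk m _ ((mem_VV D G₁ G₂ _ _).1 hf)
  choose v hv hva using fun i => exists_pow_VV D G₁ G₂ k (m * i) (a i) (ha i)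
  refine ⟨r, hr, v, hv, ?_⟩
  have hg : gg G₁ G₂ ^ (m * k * r) ≠ 0 := pow_ne_zero _ (gg_ne G₁ G₂)
  refine Subtype.ext (mul_right_cancel₀ hg ?_)
  have e1 : ((f ^ r : BB D G₁ G₂) : P.K) * gg G₁ G₂ ^ (m * k * r) =
      ((f : P.K) * gg G₁ G₂ ^ (m * k)) ^ r := by
    rw [mul_pow, ← pow_mul]; rfl
  rw [e1, h, AddSubmonoidClass.coe_finsetSum, Finset.sum_mul]
  refine Finset.sum_congr rfl fun i hi => ?_
  have hi' := Finset.mem_range.1 hi
  show _ = (v (r - i) : P.K) * (f : P.K) ^ i * gg G₁ G₂ ^ (m * k * r)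
  rw [← hva (r - i), show m * k * r = k * (m * (r - i)) + m * k * i by
    have : r = (r - i) + i := by omega
    calc m * k * r = m * k * ((r - i) + i) := by rw [← this]
      _ = _ := by ring, pow_add, mul_pow, ← pow_mul]
  ring

theorem gsec : GSec (BB D G₁ G₂) (VV D G₁ G₂) P.k₀ where
  zero := VV_zero D G₁ G₂
  mul := VV_mul D G₁ G₂
  fin := VV_fin D G₁ G₂
  bpf := VV_bpf D G₁ G₂
  gen := BB_gen D G₁ G₂
  int := fun k hk m f hf => VV_int D G₁ G₂ k hk m f hf

theorem BB_ft : Algebra.FiniteType ℂ (BB D G₁ G₂) := by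
  obtain ⟨Q, S, hS, _⟩ := BB_gen D G₁ G₂
  exact ⟨⟨S, hS⟩⟩

theorem exists_linear (w : P.K) (hw : w ∈ Submodule.span ℂ (Set.range D.y)) :
    ∃ p : MvPolynomial (Fin (n + 1)) ℂ, p.IsHomogeneous 1 ∧
      (MvPolynomial.aeval (YY D G₁ G₂) p : P.K) * gg G₁ G₂ ^ (P.q * D.l) = w := by
  refine Submodule.span_induction (p := fun w _ => ∃ p : MvPolynomial (Fin (n + 1)) ℂ,
    p.IsHomogeneous 1 ∧
      (MvPolynomial.aeval (YY D G₁ G₂) p : P.K) * gg G₁ G₂ ^ (P.q * D.l) = w) ?_ ?_ ?_ ?_ hw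
  · rintro _ ⟨j, rfl⟩
    refine ⟨MvPolynomial.X j, MvPolynomial.isHomogeneous_X _ _, ?_⟩
    rw [MvPolynomial.aeval_X]
    exact QQ_mul_gg D G₁ G₂ _ _ (D.y_mem j)
  · refine ⟨0, MvPolynomial.isHomogeneous_zero _ _ _, ?_⟩
    rw [map_zero]
    exact zero_mul _
  · rintro a b _ _ ⟨p, hp, ha⟩ ⟨p', hp', hb⟩
    refine ⟨p + p', hp.add hp', ?_⟩
    rw [map_add, ← ha, ← hb, ← add_mul]
    rfl
  · rintro c a _ ⟨p, hp, ha⟩
    refine ⟨MvPolynomial.C c * p, ?_, ?_⟩
    · have := (MvPolynomial.isHomogeneous_C (Fin (n + 1)) c).mul hp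
      rwa [zero_add] at this
    · rw [map_mul, MvPolynomial.aeval_C, ← ha, Algebra.smul_def, ← mul_assoc]
      rfl

theorem exists_homog (N : ℕ) (u : P.K) (hu : u ∈ (Submodule.span ℂ (Set.range D.y)) ^ N) :
    ∃ p : MvPolynomial (Fin (n + 1)) ℂ, p.IsHomogeneous N ∧
      (MvPolynomial.aeval (YY D G₁ G₂) p : P.K) * gg G₁ G₂ ^ (P.q * D.l * N) = u := by
  induction N generalizing u with
  | zero =>
    rw [pow_zero, Submodule.mem_one] at hu
    obtain ⟨c, rfl⟩ := hu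
    refine ⟨MvPolynomial.C c, MvPolynomial.isHomogeneous_C _ _, ?_⟩
    rw [mul_zero, pow_zero, mul_one, MvPolynomial.aeval_C]
    rfl
  | succ N ih =>
    rw [pow_succ] at hu
    refine Submodule.mul_induction_on hu ?_ ?_
    · intro a ha w hw
      obtain ⟨p, hp, hpa⟩ := ih a ha
      obtain ⟨p', hp', hpw⟩ := exists_linear D G₁ G₂ w hw
      refine ⟨p * p', hp.mul hp', ?_⟩
      rw [map_mul, mul_add_one, pow_add]
      show (MvPolynomial.aeval (YY D G₁ G₂) p : P.K) * (MvPolynomial.aeval (YY D G₁ G₂) p' : P.K) *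
        (gg G₁ G₂ ^ (P.q * D.l * N) * gg G₁ G₂ ^ (P.q * D.l)) = a * w
      rw [mul_mul_mul_comm, hpa, hpw]
    · rintro a b ⟨p, hp, ha⟩ ⟨p', hp', hb⟩
      refine ⟨p + p', hp.add hp', ?_⟩
      rw [map_add, ← ha, ← hb, ← add_mul]
      rfl

theorem giy : GIY (YY D G₁ G₂) (VV D G₁ G₂) (P.q * D.l) := by
  intro m f hf
  obtain ⟨r, hr, a, ha, h⟩ := gint_y D m _ ((mem_VV D G₁ G₂ _ _).1 hf)
  choose p hp hpa using fun i => exists_homog D G₁ G₂ (m * i) (a i) (ha i)
  refine ⟨r, hr, p, hp, ?_⟩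
  have hg : gg G₁ G₂ ^ (m * (P.q * D.l) * r) ≠ 0 := pow_ne_zero _ (gg_ne G₁ G₂)
  refine Subtype.ext (mul_right_cancel₀ hg ?_)
  have e1 : ((f ^ r : BB D G₁ G₂) : P.K) * gg G₁ G₂ ^ (m * (P.q * D.l) * r) =
      ((f : P.K) * gg G₁ G₂ ^ (m * (P.q * D.l))) ^ r := by
    rw [mul_pow, ← pow_mul]; rfl
  rw [e1, h, AddSubmonoidClass.coe_finsetSum, Finset.sum_mul]
  refine Finset.sum_congr rfl fun i hi => ?_
  have hi' := Finset.mem_range.1 hi
  show _ = (MvPolynomial.aeval (YY D G₁ G₂) (p (r - i)) : P.K) * (f : P.K) ^ i *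
    gg G₁ G₂ ^ (m * (P.q * D.l) * r)
  rw [← hpa (r - i), show m * (P.q * D.l) * r =
    P.q * D.l * (m * (r - i)) + m * (P.q * D.l) * i by
    have : r = (r - i) + i := by omega
    calc m * (P.q * D.l) * r = m * (P.q * D.l) * ((r - i) + i) := by rw [← this]
      _ = _ := by ring, pow_add, mul_pow, ← pow_mul]
  ring

end PCtx

open PCtx in
/-- THE CONSTRUCTION of the `FCtx` from the projective context. -/
theorem exists_model (hC : CoordProp) (hJ : JetsProp) (hG : GrowthProp) (hO : OrdFSProp)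
    (P : PCtx n) (hn : 1 ≤ n) : Nonempty (Model P) := by
  obtain ⟨D⟩ := P.exists_coordData hC hn
  obtain ⟨G₁⟩ := P.exists_gen (m := P.k₀) le_rfl
  obtain ⟨G₂⟩ := P.exists_gen (m := P.k₀ + 1) (Nat.le_succ _)
  obtain ⟨h', hh'A, hh'u, hh'l⟩ := exists_h' D G₁ G₂
  obtain ⟨x', hx'⟩ := exists_point P.A (BB D G₁ G₂) (A_le_BB D G₁ G₂) (hh D G₁ G₂)
    (hh_ne D G₁ G₂) (inv_mem_BB D G₁ G₂ _ dvd_rfl) (loc_BB D G₁ G₂) P.x (x_hh D G₁ G₂)
  have hgs := gsec D G₁ G₂
  have hkpos : 1 ≤ P.q * D.l := Nat.mul_pos P.q_pos D.l_pos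
  obtain ⟨hord, hFS⟩ := hO n (BB D G₁ G₂) (VV D G₁ G₂) (zz D G₁ G₂) (P.q * D.l) (YY D G₁ G₂) hn
    (BB_ft D G₁ G₂) (zz_etale D G₁ G₂) hgs.zero hgs.mul hgs.fin hkpos (YY_mem D G₁ G₂)
    (YY_unit D G₁ G₂) (YY_z D G₁ G₂) (giy D G₁ G₂)
  let X : FCtx n :=
    { B := BB D G₁ G₂
      ft := BB_ft D G₁ G₂
      z := zz D G₁ G₂
      etale := zz_etale D G₁ G₂
      A := AA D G₁ G₂
      z_mem := zz_mem_AA D G₁ G₂
      A_int := AA_int D G₁ G₂
      h := h'
      h_mem := hh'A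
      h_unit := hh'u
      h_loc := hh'l
      x := x'
      V := VV D G₁ G₂
      V_fin := hgs.fin
      V_zero := hgs.zero
      V_mul := hgs.mul
      jets := hJ _ _ _ hgs
      ordbd := hord
      growth := hG _ _ _ hgs
      k := P.q * D.l
      k_pos := hkpos
      Y := YY D G₁ G₂
      Y_mem := YY_mem D G₁ G₂
      Y_unit := YY_unit D G₁ G₂
      Y_z := YY_z D G₁ G₂
      FSbd := hFS }
  have hY : ∀ j, (YY D G₁ G₂ j : P.K) * gg G₁ G₂ ^ (P.q * D.l) = D.y j := fun j =>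
    QQ_mul_gg D G₁ G₂ _ _ (D.y_mem j)
  exact ⟨{
    X := X
    Bs := BB D G₁ G₂
    e := AlgEquiv.refl
    A_le := A_le_BB D G₁ G₂
    h := hh D G₁ G₂
    x_h := x_hh D G₁ G₂
    h_inv := inv_mem_BB D G₁ G₂ _ dvd_rfl
    loc := loc_BB D G₁ G₂
    x_e := hx'
    g := gg G₁ G₂
    g_ne := gg_ne G₁ G₂
    e_A := by
      intro b
      show b ∈ AA D G₁ G₂ ↔ ∃ j : ℕ, ((b : BB D G₁ G₂) : P.K) *
        ((YY D G₁ G₂ 0 : P.K) * gg G₁ G₂ ^ (P.q * D.l)) ^ j ∈ P.R (P.q * D.l * j)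
      rw [hY]
      exact mem_AA D G₁ G₂ b
    V_e := fun m b => mem_VV D G₁ G₂ m b
    R_B := div_gg_mem D G₁ G₂
    s_unit := isUnit_s D G₁ G₂
    m₀ := P.k₀
    ga := G₁.a
    gb := G₂.a
    ga_mem := G₁.a_mem
    gb_mem := G₂.a_mem
    ga_ne := G₁.a_ne
    g_eq := rfl
    ga_unit := isUnit_gen D G₁ G₂ G₁ (c₁_dvd D G₁ G₂)
    gb_unit := isUnit_gen D G₁ G₂ G₂ (c₂_dvd D G₁ G₂)
    gint := by
      intro m f hf
      have : (fun j => ((AlgEquiv.refl (R := ℂ) (A₁ := BB D G₁ G₂) (YY D G₁ G₂ j) :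
          BB D G₁ G₂) : P.K) * gg G₁ G₂ ^ (P.q * D.l)) = D.y := funext hY
      show GInt (Submodule.span ℂ (Set.range fun j =>
        ((AlgEquiv.refl (R := ℂ) (A₁ := BB D G₁ G₂) (YY D G₁ G₂ j) :
          BB D G₁ G₂) : P.K) * gg G₁ G₂ ^ (P.q * D.l))) m f
      rw [this]
      exact gint_y D m f hf }⟩

end Crest.Agent.R271.Ctx728
end
end

-- ▼ part R271/Coord_769
section

/-!
Row 271, (11.3): choice of coordinates by linear projection (helper769).
-/

set_option autoImplicit false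

open scoped BigOperators
open Polynomial

namespace Crest.Agent.R271.Coord769

section hom

variable {R : Type*} [CommRing R] [Algebra ℂ R] {ι : Type*}

/-- evaluation of a homogeneous polynomial at `(Y_j X)`. -/
theorem aeval_mul_X_of_homog (Y : ι → R) (d : ℕ) (G : MvPolynomial ι ℂ)
    (hG : G.IsHomogeneous d) :
    MvPolynomial.aeval (fun j => (C (Y j) * X : R[X])) G = C (MvPolynomial.aeval Y G) * X ^ d := by
  classical
  conv_lhs => rw [← MvPolynomial.support_sum_monomial_coeff G]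
  conv_rhs => rw [← MvPolynomial.support_sum_monomial_coeff G]
  rw [map_sum, map_sum, map_sum, Finset.sum_mul]
  refine Finset.sum_congr rfl fun m hm => ?_
  have hd : m.degree = d := by
    have := hG (MvPolynomial.mem_support_iff.mp hm)
    rw [← this, Finsupp.degree_eq_weight_one]; rfl
  rw [MvPolynomial.aeval_monomial, MvPolynomial.aeval_monomial]
  have h1 : (m.prod fun i k => (C (Y i) * X : R[X]) ^ k) =
      C (m.prod fun i k => (Y i) ^ k) * X ^ d := by
    rw [← hd]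
    simp only [Finsupp.prod, mul_pow, Finset.prod_mul_distrib, map_prod, map_pow]
    congr 1
    rw [Finset.prod_pow_eq_pow_sum]
    rfl
  rw [h1, map_mul, ← mul_assoc]
  rfl

/-- coefficients of `G(Y X)`. -/
theorem coeff_aeval_mul_X (Y : ι → R) (G : MvPolynomial ι ℂ) (m : ℕ) :
    (MvPolynomial.aeval (fun j => (C (Y j) * X : R[X])) G).coeff m =
      MvPolynomial.aeval Y (MvPolynomial.homogeneousComponent m G) := by
  classical
  conv_lhs => rw [← MvPolynomial.sum_homogeneousComponent G]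
  rw [map_sum, finsetSum_coeff]
  have h : ∀ i, (MvPolynomial.aeval (fun j => (C (Y j) * X : R[X]))
      (MvPolynomial.homogeneousComponent i G)).coeff m =
      if i = m then MvPolynomial.aeval Y (MvPolynomial.homogeneousComponent m G) else 0 := by
    intro i
    rw [aeval_mul_X_of_homog Y i _ (MvPolynomial.homogeneousComponent_isHomogeneous i G),
      coeff_C_mul, coeff_X_pow]
    by_cases him : i = m
    · subst him; simp
    · simp [him, Ne.symm him]
  simp_rw [h]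
  rw [Finset.sum_ite_eq' (Finset.range (G.totalDegree + 1)) m]
  split_ifs with hm
  · rfl
  · have : MvPolynomial.homogeneousComponent m G = 0 := by
      apply MvPolynomial.homogeneousComponent_eq_zero
      simpa [Nat.lt_succ_iff, not_le] using hm
    rw [this, map_zero]

/-- `F(a + b T)` has degree `≤ d` and `T^d`-coefficient `F(b)`. -/
theorem coeff_aeval_lin (a b : ι → R) (d : ℕ) (F : MvPolynomial ι ℂ) (hF : F.IsHomogeneous d) :
    (MvPolynomial.aeval (fun i => (C (a i) + C (b i) * X : R[X])) F).natDegree ≤ d ∧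
    (MvPolynomial.aeval (fun i => (C (a i) + C (b i) * X : R[X])) F).coeff d =
      MvPolynomial.aeval b F := by
  classical
  have hterm : ∀ m ∈ F.support,
      (MvPolynomial.aeval (fun i => (C (a i) + C (b i) * X : R[X]))
        (MvPolynomial.monomial m (F.coeff m))).natDegree ≤ d ∧
      (MvPolynomial.aeval (fun i => (C (a i) + C (b i) * X : R[X]))
        (MvPolynomial.monomial m (F.coeff m))).coeff d =
      MvPolynomial.aeval b (MvPolynomial.monomial m (F.coeff m)) := by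
    intro m hm
    have hd : m.degree = d := by
      have := hF (MvPolynomial.mem_support_iff.mp hm)
      rw [← this, Finsupp.degree_eq_weight_one]; rfl
    have hlin : ∀ i, (C (a i) + C (b i) * X : R[X]).natDegree ≤ 1 := by
      intro i
      rw [add_comm]
      exact natDegree_linear_le
    have hpow : ∀ i (k : ℕ), ((C (a i) + C (b i) * X : R[X]) ^ k).natDegree ≤ k := by
      intro i k
      calc _ ≤ k * (C (a i) + C (b i) * X : R[X]).natDegree := natDegree_pow_le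
        _ ≤ k * 1 := Nat.mul_le_mul_left _ (hlin i)
        _ = k := mul_one k
    have hpc : ∀ i (k : ℕ), ((C (a i) + C (b i) * X : R[X]) ^ k).coeff k = (b i) ^ k := by
      intro i k
      have := coeff_pow_of_natDegree_le (p := (C (a i) + C (b i) * X : R[X])) (n := 1) (hlin i) (m := k)
      rw [mul_one] at this
      rw [this]
      simp [coeff_C]
    have hprod : (∏ i ∈ m.support, (C (a i) + C (b i) * X : R[X]) ^ (m i)).natDegree ≤ d ∧
        (∏ i ∈ m.support, (C (a i) + C (b i) * X : R[X]) ^ (m i)).coeff d =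
          ∏ i ∈ m.support, (b i) ^ (m i) := by
      rw [← hd]
      have : ∀ s : Finset ι, (∏ i ∈ s, (C (a i) + C (b i) * X : R[X]) ^ (m i)).natDegree ≤
          ∑ i ∈ s, m i ∧ (∏ i ∈ s, (C (a i) + C (b i) * X : R[X]) ^ (m i)).coeff (∑ i ∈ s, m i) =
          ∏ i ∈ s, (b i) ^ (m i) := by
        intro s
        induction s using Finset.induction_on with
        | empty => simp
        | insert i s his ih =>
          rw [Finset.prod_insert his, Finset.sum_insert his, Finset.prod_insert his]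
          refine ⟨natDegree_mul_le.trans (Nat.add_le_add (hpow i _) ih.1), ?_⟩
          rw [coeff_mul_add_eq_of_natDegree_le (hpow i _) ih.1, hpc, ih.2]
      exact this m.support
    rw [MvPolynomial.aeval_monomial, MvPolynomial.aeval_monomial]
    have halg : algebraMap ℂ R[X] (F.coeff m) = C (algebraMap ℂ R (F.coeff m)) := rfl
    rw [halg]
    refine ⟨(natDegree_C_mul_le _ _).trans hprod.1, ?_⟩
    rw [coeff_C_mul]
    congr 1
    exact hprod.2
  conv_lhs => rw [← MvPolynomial.support_sum_monomial_coeff F]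
  constructor
  · rw [map_sum]
    exact natDegree_sum_le_of_forall_le _ _ fun m hm => (hterm m hm).1
  · conv_rhs => rw [← MvPolynomial.support_sum_monomial_coeff F]
    conv_lhs => rw [← MvPolynomial.support_sum_monomial_coeff F]
    rw [map_sum, map_sum, finsetSum_coeff]
    exact Finset.sum_congr rfl fun m hm => (hterm m hm).2

end hom

section proj

variable {K : Type} [Field K] [Algebra ℂ K]

/-- `ℂ[u X | u ∈ U] ⊆ K[X]` -/
noncomputable def RU (U : Submodule ℂ K) : Subalgebra ℂ K[X] :=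
  Algebra.adjoin ℂ ((fun u : K => (C u * X : K[X])) '' (U : Set K))


theorem mem_RU {U : Submodule ℂ K} {u : K} (hu : u ∈ U) : (C u * X : K[X]) ∈ RU U :=
  Algebra.subset_adjoin ⟨u, hu, rfl⟩



theorem isIntegral_RU_trans {U U' : Submodule ℂ K}
    (h : ∀ u ∈ U, IsIntegral (RU U') (C u * X : K[X])) {x : K[X]} (hx : IsIntegral (RU U) x) :
    IsIntegral (RU U') x := by
  let IC := integralClosure (RU U') K[X]
  have hle : RU U ≤ IC.restrictScalars ℂ := by
    refine Algebra.adjoin_le ?_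
    rintro _ ⟨u, hu, rfl⟩
    exact h u hu
  let φ : RU U →+* IC := (Subalgebra.inclusion hle).toRingHom
  obtain ⟨P, hP, hPx⟩ := hx
  have hx' : IsIntegral IC x := by
    refine ⟨P.map φ, hP.map φ, ?_⟩
    rw [eval₂_map]
    exact hPx
  exact isIntegral_trans (R := RU U') (A := IC) x hx'


/-- dehomogenisation of an integral equation -/
theorem homog_of_isIntegral {r : ℕ} (Y : Fin r → K) (q : ℕ) (f : K)
    (hf : IsIntegral (RU (Submodule.span ℂ (Set.range Y))) (C f * X ^ q : K[X])) :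
    ∃ (s : ℕ) (p : ℕ → MvPolynomial (Fin r) ℂ), 1 ≤ s ∧ (∀ i, (p i).IsHomogeneous (q * i)) ∧
      f ^ s + ∑ i ∈ Finset.range s, MvPolynomial.aeval Y (p (s - i)) * f ^ i = 0 := by
  classical
  set S := RU (Submodule.span ℂ (Set.range Y)) with hS
  have hSrange : S ≤ (MvPolynomial.aeval (fun j => (C (Y j) * X : K[X])) :
      MvPolynomial (Fin r) ℂ →ₐ[ℂ] K[X]).range := by
    refine Algebra.adjoin_le ?_
    rintro _ ⟨u, hu, rfl⟩
    rw [SetLike.mem_coe] at hu
    show (C u * X : K[X]) ∈ AlgHom.range _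
    induction hu using Submodule.span_induction with
    | mem x hx =>
      obtain ⟨j, rfl⟩ := hx
      exact ⟨MvPolynomial.X j, by simp⟩
    | zero => rw [map_zero, zero_mul]; exact Subalgebra.zero_mem _
    | add a b _ _ ha hb => rw [map_add, add_mul]; exact Subalgebra.add_mem _ ha hb
    | smul c a _ ha =>
      have : (C (c • a) * X : K[X]) = c • (C a * X) := by
        rw [Algebra.smul_def, map_mul, Algebra.smul_def, mul_assoc]; rfl
      rw [this]; exact Subalgebra.smul_mem _ ha c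
  obtain ⟨P, hP, hPf⟩ := hf
  set s := P.natDegree with hs
  -- preimages of the coefficients
  have hpre : ∀ i, ∃ G : MvPolynomial (Fin r) ℂ,
      MvPolynomial.aeval (fun j => (C (Y j) * X : K[X])) G = (P.coeff i : K[X]) := by
    intro i
    exact hSrange (P.coeff i).2
  choose G hG using hpre
  refine ⟨s, fun i => MvPolynomial.homogeneousComponent (q * i) (G (s - i)), ?_, fun i =>
    MvPolynomial.homogeneousComponent_isHomogeneous _ _, ?_⟩
  · by_contra hlt
    have hs0 : s = 0 := by omega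
    have : P = 1 := hP.natDegree_eq_zero.mp hs0
    rw [this, eval₂_one] at hPf
    exact one_ne_zero hPf
  · rw [eval₂_eq_sum_range] at hPf
    have hco := congrArg (fun Q : K[X] => Q.coeff (q * s)) hPf
    simp only [finsetSum_coeff, coeff_zero] at hco
    rw [← hs, Finset.sum_range_succ] at hco
    have hterm : ∀ i, i ≤ s → ((algebraMap S K[X] (P.coeff i)) * (C f * X ^ q) ^ i).coeff (q * s) =
        MvPolynomial.aeval Y (MvPolynomial.homogeneousComponent (q * (s - i)) (G i)) * f ^ i := by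
      intro i hi
      have h1 : (algebraMap S K[X] (P.coeff i)) = (P.coeff i : K[X]) := rfl
      rw [h1, ← hG i, mul_pow, ← pow_mul, ← C_pow, ← mul_assoc, mul_comm _ (C (f ^ i)), mul_assoc,
        coeff_C_mul]
      have h2 : q * s = q * (s - i) + q * i := by
        rw [← mul_add, Nat.sub_add_cancel hi]
      rw [h2, coeff_mul_X_pow, coeff_aeval_mul_X, mul_comm]
    have hlast : ((algebraMap S K[X] (P.coeff s)) * (C f * X ^ q) ^ s).coeff (q * s) = f ^ s := by
      have : P.coeff s = 1 := hP.coeff_natDegree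
      rw [this, map_one, one_mul, mul_pow, ← pow_mul, ← C_pow, coeff_C_mul, coeff_X_pow,
        if_pos rfl, mul_one]
    rw [hlast, add_comm] at hco
    rw [← hco]
    congr 1
    refine Finset.sum_congr rfl fun i hi => ?_
    have hi' : i < s := Finset.mem_range.mp hi
    rw [hterm i hi'.le]
    have : s - (s - i) = i := by omega
    show MvPolynomial.aeval Y (MvPolynomial.homogeneousComponent (q * (s - i)) (G (s - (s - i)))) *
      f ^ i = _
    rw [this]


end proj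

end Crest.Agent.R271.Coord769
end

-- ▼ part R271/Coord2_769
section

/-!
Row 271, (11.3): choice of coordinates by linear projection, keeping a given `y₀` (helper769).
-/

set_option autoImplicit false

open scoped BigOperators
open Polynomial

namespace Crest.Agent.R271.Coord769

theorem aeval_mul_of_homog {R : Type*} [CommRing R] [Algebra ℂ R] {ι : Type*} (v : ι → R) (c : R)
    (d : ℕ) (G : MvPolynomial ι ℂ) (hG : G.IsHomogeneous d) :
    MvPolynomial.aeval (fun i => v i * c) G = MvPolynomial.aeval v G * c ^ d := by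
  have h := congrArg (Polynomial.eval c) (aeval_mul_X_of_homog v d G hG)
  have h1 : Polynomial.eval c (MvPolynomial.aeval (fun j => (C (v j) * X : R[X])) G) =
      MvPolynomial.aeval (fun i => v i * c) G := by
    have h2 : Polynomial.eval c (MvPolynomial.aeval (fun j => (C (v j) * X : R[X])) G) =
        ((Polynomial.aeval (R := R) c).restrictScalars ℂ)
          (MvPolynomial.aeval (fun j => (C (v j) * X : R[X])) G) := by
      simp [Polynomial.coe_aeval_eq_eval]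
    rw [h2, MvPolynomial.comp_aeval_apply]
    congr 2
    funext i
    simp
  rw [h1] at h
  rw [h, eval_mul, eval_C, eval_pow, eval_X]

variable {K : Type} [Field K] [Algebra ℂ K]

/-- the top form of a relation -/
theorem exists_top_form {r : ℕ} (f : MvPolynomial (Fin r) ℂ) (hf : f ≠ 0) :
    ∃ d, MvPolynomial.homogeneousComponent d f ≠ 0 ∧
      f = ∑ j ∈ Finset.range (d + 1), MvPolynomial.homogeneousComponent j f := by
  classical
  let S := (Finset.range (f.totalDegree + 1)).filter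
    (fun j => MvPolynomial.homogeneousComponent j f ≠ 0)
  have hS : S.Nonempty := by
    by_contra hcon
    rw [Finset.not_nonempty_iff_eq_empty] at hcon
    apply hf
    rw [← MvPolynomial.sum_homogeneousComponent f]
    refine Finset.sum_eq_zero fun i hi => ?_
    by_contra h
    have : i ∈ S := Finset.mem_filter.mpr ⟨hi, h⟩
    rw [hcon] at this
    exact absurd this (Finset.notMem_empty i)
  have hd := Finset.max'_mem S hS
  set d := S.max' hS with hd_def
  have hd' := Finset.mem_filter.mp hd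
  refine ⟨d, hd'.2, ?_⟩
  conv_lhs => rw [← MvPolynomial.sum_homogeneousComponent f]
  symm
  refine Finset.sum_subset ?_ ?_
  · intro i hi
    have h1 := Finset.mem_range.mp hd'.1
    have h2 := Finset.mem_range.mp hi
    exact Finset.mem_range.mpr (by omega)
  · intro i hi hid
    by_contra h
    have : i ∈ S := Finset.mem_filter.mpr ⟨hi, h⟩
    have h3 := Finset.le_max' S i this
    apply hid
    rw [Finset.mem_range]
    omega

/-- one projection step with centre off `y₀` -/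
theorem step2 (n : ℕ) (htr : Algebra.trdeg ℂ K = n) (y₀ : K) (hy : y₀ ≠ 0) (U : Submodule ℂ K)
    [FiniteDimensional ℂ U]
    (hU : n < Module.finrank ℂ U) (g : K) (hg : g ∈ U) (hg0 : g ≠ 0) :
    ∃ l : U →ₗ[ℂ] ℂ, l ⟨g, hg⟩ ≠ 0 ∧
      ∀ u ∈ U, IsIntegral (RU (Submodule.span ℂ {y₀} ⊔ (LinearMap.ker l).map U.subtype))
        (C u * X : K[X]) := by
  classical
  let bU := Module.finBasis ℂ U
  obtain ⟨f, hf0, hfne⟩ : ∃ f : MvPolynomial (Fin (Module.finrank ℂ U)) ℂ,
      MvPolynomial.aeval (fun i => (bU i : K) * y₀⁻¹) f = 0 ∧ f ≠ 0 := by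
    have hnot : ¬ AlgebraicIndependent ℂ (fun i => (bU i : K) * y₀⁻¹) := by
      intro hind
      have := hind.cardinalMk_le_trdeg
      rw [htr, Cardinal.mk_fin] at this
      have h2 : Module.finrank ℂ U ≤ n := by exact_mod_cast this
      omega
    rw [algebraicIndependent_iff] at hnot
    push Not at hnot
    exact hnot
  obtain ⟨d, hF0, hfsum⟩ := exists_top_form f hfne
  set F := MvPolynomial.homogeneousComponent d f with hF
  have hFh : ∀ j, (MvPolynomial.homogeneousComponent j f).IsHomogeneous j := fun j =>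
    MvPolynomial.homogeneousComponent_isHomogeneous j f
  -- the linear form of g
  let G : MvPolynomial (Fin (Module.finrank ℂ U)) ℂ :=
    ∑ i, MvPolynomial.C (bU.repr ⟨g, hg⟩ i) * MvPolynomial.X i
  have hG0 : G ≠ 0 := by
    intro hG
    have hrep : bU.repr ⟨g, hg⟩ = 0 := by
      ext i
      have h1 : MvPolynomial.coeff (Finsupp.single i 1) G = bU.repr ⟨g, hg⟩ i := by
        simp only [G, MvPolynomial.coeff_sum, MvPolynomial.coeff_C_mul, MvPolynomial.coeff_X]
        rw [Finset.sum_eq_single i]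
        · simp
        · intro j _ hj
          rw [if_neg, mul_zero]
          intro h
          exact hj (Finsupp.single_left_injective one_ne_zero h)
        · intro h; exact absurd (Finset.mem_univ i) h
      rw [← h1, hG]; simp
    have : (⟨g, hg⟩ : U) = 0 := by
      rw [← bU.repr.map_eq_zero_iff]; exact hrep
    exact hg0 (congrArg Subtype.val this)
  obtain ⟨lam, hlam⟩ : ∃ lam : Fin (Module.finrank ℂ U) → ℂ, MvPolynomial.eval lam (F * G) ≠ 0 := by
    by_contra hcon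
    push Not at hcon
    have : F * G = 0 := MvPolynomial.funext fun x => by rw [hcon x, map_zero]
    rcases mul_eq_zero.mp this with h | h
    · exact hF0 h
    · exact hG0 h
  rw [map_mul] at hlam
  have hFl : MvPolynomial.eval lam F ≠ 0 := left_ne_zero_of_mul hlam
  have hGl : MvPolynomial.eval lam G ≠ 0 := right_ne_zero_of_mul hlam
  let l : U →ₗ[ℂ] ℂ := bU.constr ℂ lam
  have hlb : ∀ i, l (bU i) = lam i := fun i => bU.constr_basis ℂ lam i
  have hlg : l ⟨g, hg⟩ = MvPolynomial.eval lam G := by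
    conv_lhs => rw [← bU.sum_repr ⟨g, hg⟩]
    rw [map_sum]
    simp only [map_smul, hlb, smul_eq_mul, G, map_sum, map_mul, MvPolynomial.eval_C,
      MvPolynomial.eval_X]
  refine ⟨l, by rw [hlg]; exact hGl, ?_⟩
  -- the element with l e = 1
  let e : U := (l ⟨g, hg⟩)⁻¹ • ⟨g, hg⟩
  have hle : l e = 1 := by
    simp only [e, map_smul, smul_eq_mul]
    exact inv_mul_cancel₀ (by rw [hlg]; exact hGl)
  set U' : Submodule ℂ K := Submodule.span ℂ {y₀} ⊔ (LinearMap.ker l).map U.subtype with hU'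
  have hmem : ∀ u : U, ((u - l u • e : U) : K) ∈ U' := by
    intro u
    refine Submodule.mem_sup_right ⟨u - l u • e, ?_, rfl⟩
    rw [SetLike.mem_coe, LinearMap.mem_ker, map_sub, map_smul, hle, smul_eq_mul, mul_one, sub_self]
  have hy₀ : y₀ ∈ U' := Submodule.mem_sup_left (Submodule.mem_span_singleton_self y₀)
  -- `e X` is integral
  have hint_e : IsIntegral (RU U') (C (e : K) * X : K[X]) := by
    let a : Fin (Module.finrank ℂ U) → RU U' := fun i =>
      ⟨C ((bU i - l (bU i) • e : U) : K) * X, mem_RU (hmem (bU i))⟩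
    let b : Fin (Module.finrank ℂ U) → RU U' := fun i => algebraMap ℂ (RU U') (lam i)
    let c : RU U' := ⟨C y₀ * X, mem_RU hy₀⟩
    let Q : ℕ → (RU U')[X] := fun j => MvPolynomial.aeval
      (fun i => (C (a i) + C (b i) * X : (RU U')[X])) (MvPolynomial.homogeneousComponent j f)
    have hQdeg : ∀ j, (Q j).natDegree ≤ j := fun j => (coeff_aeval_lin a b j _ (hFh j)).1
    have hQco : (Q d).coeff d = algebraMap ℂ (RU U') (MvPolynomial.eval lam F) := by
      have h1 := (coeff_aeval_lin a b d _ (hFh d)).2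
      have h := MvPolynomial.aeval_algebraMap_apply (RU U') lam F
      exact h1.trans h
    set P : (RU U')[X] := ∑ j ∈ Finset.range (d + 1), C (c ^ (d - j)) * Q j with hP
    have hPdeg : P.natDegree ≤ d := by
      refine natDegree_sum_le_of_forall_le _ _ fun j hj => ?_
      have hj' := Finset.mem_range.mp hj
      exact (natDegree_C_mul_le _ _).trans ((hQdeg j).trans (by omega))
    have hPco : P.coeff d = algebraMap ℂ (RU U') (MvPolynomial.eval lam F) := by
      rw [hP, finsetSum_coeff, Finset.sum_range_succ, Finset.sum_eq_zero]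
      · rw [Nat.sub_self, pow_zero, C_1, one_mul, hQco, zero_add]
      · intro j hj
        have hj' := Finset.mem_range.mp hj
        rw [coeff_C_mul, coeff_eq_zero_of_natDegree_lt (lt_of_le_of_lt (hQdeg j) hj'), mul_zero]
    let P' : (RU U')[X] := C (algebraMap ℂ (RU U') (MvPolynomial.eval lam F)⁻¹) * P
    have hmonic : P'.Monic := by
      refine monic_of_natDegree_le_of_coeff_eq_one d ?_ ?_
      · exact (natDegree_C_mul_le _ _).trans hPdeg
      · show (C _ * P).coeff d = 1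
        rw [coeff_C_mul, hPco, ← map_mul, inv_mul_cancel₀ hFl, map_one]
    refine ⟨P', hmonic, ?_⟩
    show Polynomial.eval₂ (algebraMap (RU U') K[X]) (C (e : K) * X) (C _ * P) = 0
    rw [eval₂_mul]
    have hPe : Polynomial.eval₂ (algebraMap (RU U') K[X]) (C (e : K) * X) P = 0 := by
      have hQe : ∀ j, Polynomial.eval₂ (algebraMap (RU U') K[X]) (C (e : K) * X) (Q j) =
          C (MvPolynomial.aeval (fun i => (bU i : K)) (MvPolynomial.homogeneousComponent j f)) *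
            X ^ j := by
        intro j
        have h1 : Polynomial.eval₂ (algebraMap (RU U') K[X]) (C (e : K) * X) (Q j) =
            MvPolynomial.aeval (fun i => (C ((bU i : U) : K) * X : K[X]))
              (MvPolynomial.homogeneousComponent j f) := by
          let φ : (RU U')[X] →ₐ[ℂ] K[X] :=
            (Polynomial.aeval (R := RU U') (C (e : K) * X)).restrictScalars ℂ
          have h2 : Polynomial.eval₂ (algebraMap (RU U') K[X]) (C (e : K) * X) (Q j) = φ (Q j) := rfl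
          rw [h2, MvPolynomial.comp_aeval_apply]
          congr 2
          funext i
          show Polynomial.eval₂ (algebraMap (RU U') K[X]) (C (e : K) * X)
            (C (a i) + C (b i) * X) = _
          rw [eval₂_add, eval₂_mul, eval₂_C, eval₂_C, eval₂_X]
          have ha : algebraMap (RU U') K[X] (a i) = C ((bU i - l (bU i) • e : U) : K) * X := rfl
          have hb : algebraMap (RU U') K[X] (b i) = C (algebraMap ℂ K (lam i)) := rfl
          rw [ha, hb, hlb]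
          have : ((bU i - lam i • e : U) : K) = (bU i : K) - algebraMap ℂ K (lam i) * (e : K) := by
            rw [Submodule.coe_sub, Submodule.coe_smul, Algebra.smul_def]
          rw [this, map_sub, map_mul]
          ring
        rw [h1, aeval_mul_X_of_homog _ j _ (hFh j)]
      rw [hP, eval₂_finsetSum]
      have hterm : ∀ j ∈ Finset.range (d + 1),
          Polynomial.eval₂ (algebraMap (RU U') K[X]) (C (e : K) * X) (C (c ^ (d - j)) * Q j) =
          C (y₀ ^ d) * X ^ d * C (MvPolynomial.aeval (fun i => (bU i : K) * y₀⁻¹)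
            (MvPolynomial.homogeneousComponent j f)) := by
        intro j hj
        have hj' : j ≤ d := by have := Finset.mem_range.mp hj; omega
        rw [eval₂_mul, eval₂_C, hQe, aeval_mul_of_homog _ _ j _ (hFh j)]
        have hc : algebraMap (RU U') K[X] (c ^ (d - j)) = C (y₀ ^ (d - j)) * X ^ (d - j) := by
          rw [map_pow]
          have : algebraMap (RU U') K[X] c = C y₀ * X := rfl
          rw [this, mul_pow, ← C_pow]
        rw [hc]
        have h3 : y₀ ^ d * (y₀⁻¹) ^ j = y₀ ^ (d - j) := by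
          have : y₀ ^ d = y₀ ^ (d - j) * y₀ ^ j := by rw [← pow_add, Nat.sub_add_cancel hj']
          rw [this, mul_assoc, ← mul_pow, mul_inv_cancel₀ hy, one_pow, mul_one]
        have h4 : (X : K[X]) ^ d = X ^ (d - j) * X ^ j := by
          rw [← pow_add, Nat.sub_add_cancel hj']
        rw [← h3, h4, map_mul, map_mul]
        ring
      rw [Finset.sum_congr rfl hterm, ← Finset.mul_sum, ← map_sum, ← map_sum, ← hfsum, hf0,
        map_zero, mul_zero]
    rw [hPe, mul_zero]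
  intro u hu
  have h1 : (C u * X : K[X]) = C (((⟨u, hu⟩ : U) - l ⟨u, hu⟩ • e : U) : K) * X +
      C (algebraMap ℂ K (l ⟨u, hu⟩)) * (C (e : K) * X) := by
    rw [Submodule.coe_sub, Submodule.coe_smul, Algebra.smul_def, map_sub, map_mul]
    ring
  rw [h1]
  refine IsIntegral.add ?_ (IsIntegral.mul ?_ hint_e)
  · exact isIntegral_algebraMap (R := RU U') (x := ⟨_, mem_RU (hmem ⟨u, hu⟩)⟩)
  · exact isIntegral_algebraMap (R := RU U') (x := algebraMap ℂ (RU U') (l ⟨u, hu⟩))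

/-- projection down to dimension `n`, keeping `y₀` -/
theorem reduce2 (n : ℕ) (htr : Algebra.trdeg ℂ K = n) (y₀ : K) (hy : y₀ ≠ 0)
    (J : K →ₗ[ℂ] (Fin n → ℂ)) :
    ∀ (s : ℕ) (U : Submodule ℂ K), FiniteDimensional ℂ U → Module.finrank ℂ U = n + s →
      (∀ e, ∃ u ∈ U, J u = e) →
      ∃ U' ≤ U, FiniteDimensional ℂ U' ∧ Module.finrank ℂ U' = n ∧
        (∀ e, ∃ u ∈ U', J u = e) ∧
        ∀ u ∈ U, IsIntegral (RU (Submodule.span ℂ {y₀} ⊔ U')) (C u * X : K[X]) := by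
  intro s
  induction s with
  | zero =>
    intro U hfd hU hJ
    refine ⟨U, le_rfl, hfd, by simpa using hU, hJ, fun u hu => ?_⟩
    exact isIntegral_algebraMap (R := RU (Submodule.span ℂ {y₀} ⊔ U))
      (x := ⟨_, mem_RU (Submodule.mem_sup_right hu)⟩)
  | succ s ih =>
    intro U hfd hU hJ
    have hker : ∃ g ∈ U, g ≠ 0 ∧ J g = 0 := by
      by_contra hcon
      push Not at hcon
      have hinj : Function.Injective (J.domRestrict U) := by
        rw [← LinearMap.ker_eq_bot, eq_bot_iff]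
        intro u hu
        have h1 : J (u : K) = 0 := hu
        by_contra hne
        exact hcon u u.2 (fun h0 => hne (by
          rw [Submodule.mem_bot]; exact Subtype.ext h0)) h1
      have := LinearMap.finrank_le_finrank_of_injective hinj
      rw [hU, Module.finrank_fin_fun] at this
      omega
    obtain ⟨g, hg, hg0, hJg⟩ := hker
    obtain ⟨l, hl, hint⟩ := step2 n htr y₀ hy U (by omega) g hg hg0
    set U₁ : Submodule ℂ K := (LinearMap.ker l).map U.subtype with hU₁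
    have hU₁le : U₁ ≤ U := by
      rintro _ ⟨u, _, rfl⟩; exact u.2
    have hfin₁ : Module.finrank ℂ U₁ = n + s := by
      have h1 : Module.finrank ℂ U₁ = Module.finrank ℂ (LinearMap.ker l) :=
        LinearEquiv.finrank_eq
          (Submodule.equivMapOfInjective U.subtype U.injective_subtype (LinearMap.ker l)).symm
      have h2 := LinearMap.finrank_range_add_finrank_ker l
      have h3 : Module.finrank ℂ (LinearMap.range l) = 1 := by
        have : LinearMap.range l = ⊤ := by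
          rw [LinearMap.range_eq_top]
          intro c
          refine ⟨(c / l ⟨g, hg⟩) • ⟨g, hg⟩, ?_⟩
          rw [map_smul, smul_eq_mul, div_mul_cancel₀ _ hl]
        rw [this, finrank_top, Module.finrank_self]
      rw [h1]; omega
    have hJ₁ : ∀ e, ∃ u ∈ U₁, J u = e := by
      intro e
      obtain ⟨u, hu, rfl⟩ := hJ e
      refine ⟨u - (l ⟨u, hu⟩ / l ⟨g, hg⟩) • g, ?_, ?_⟩
      · refine ⟨⟨u, hu⟩ - (l ⟨u, hu⟩ / l ⟨g, hg⟩) • ⟨g, hg⟩, ?_, rfl⟩
        rw [SetLike.mem_coe, LinearMap.mem_ker, map_sub, map_smul, smul_eq_mul,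
          div_mul_cancel₀ _ hl, sub_self]
      · rw [map_sub, map_smul, hJg, smul_zero, sub_zero]
    have hfd₁ : FiniteDimensional ℂ U₁ :=
      Submodule.finiteDimensional_of_le hU₁le
    obtain ⟨U', hU'le, hfd', hfin', hJ', hint'⟩ := ih U₁ hfd₁ hfin₁ hJ₁
    refine ⟨U', hU'le.trans hU₁le, hfd', hfin', hJ', fun u hu => ?_⟩
    refine isIntegral_RU_trans (U := Submodule.span ℂ {y₀} ⊔ U₁) ?_ (hint u hu)
    intro v hv
    obtain ⟨a, ha, b, hb, rfl⟩ := Submodule.mem_sup.mp hv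
    rw [map_add, add_mul]
    refine IsIntegral.add ?_ (hint' b hb)
    exact isIntegral_algebraMap (R := RU (Submodule.span ℂ {y₀} ⊔ U'))
      (x := ⟨_, mem_RU (Submodule.mem_sup_left ha)⟩)

/-- (11.3) with `y₀` given: `W = ℂ y₀ + U`. -/
theorem coords2 (n : ℕ) (htr : Algebra.trdeg ℂ K = n) (y₀ : K) (hy : y₀ ≠ 0) (U : Submodule ℂ K)
    (hfd : FiniteDimensional ℂ U) (J : K →ₗ[ℂ] (Fin n → ℂ)) (hJ : ∀ e, ∃ u ∈ U, J u = e) :
    ∃ Y : Fin n → K, (∀ j, Y j ∈ U) ∧ (∀ j, J (Y j) = Pi.single j 1) ∧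
      ∀ u ∈ Submodule.span ℂ {y₀} ⊔ U,
        IsIntegral (RU (Submodule.span ℂ (Set.range (Fin.cons y₀ Y : Fin (n + 1) → K))))
          (C u * X : K[X]) := by
  have hle : n ≤ Module.finrank ℂ U := by
    have hsurj : Function.Surjective (J.domRestrict U) := by
      intro e
      obtain ⟨u, hu, rfl⟩ := hJ e
      exact ⟨⟨u, hu⟩, rfl⟩
    have := LinearMap.finrank_le_finrank_of_surjective hsurj
    rwa [Module.finrank_fin_fun] at this
  obtain ⟨U', hU', hfd', hfin', hJ', hint'⟩ := reduce2 n htr y₀ hy J (Module.finrank ℂ U - n)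
    U hfd (by omega) hJ
  choose Y hYU hYJ using fun j : Fin n => hJ' (Pi.single j 1)
  have hspan : Submodule.span ℂ (Set.range Y) = U' := by
    have hlin : LinearIndependent ℂ Y := by
      have h1 : LinearIndependent ℂ (fun j => J (Y j)) := by
        have : (fun j => J (Y j)) = fun j => (Pi.single j (1 : ℂ) : Fin n → ℂ) :=
          funext hYJ
        rw [this]
        have h := (Pi.basisFun ℂ (Fin n)).linearIndependent
        convert h using 1
        funext j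
        simp
      exact LinearIndependent.of_comp J h1
    refine Submodule.eq_of_le_of_finrank_eq ?_ ?_
    · rw [Submodule.span_le]
      rintro _ ⟨j, rfl⟩
      exact hYU j
    · rw [finrank_span_eq_card hlin, hfin', Fintype.card_fin]
  have hspan' : Submodule.span ℂ (Set.range (Fin.cons y₀ Y : Fin (n + 1) → K)) =
      Submodule.span ℂ {y₀} ⊔ U' := by
    rw [Fin.range_cons, Submodule.span_insert, hspan]
  refine ⟨Y, fun j => hU' (hYU j), hYJ, fun u hu => ?_⟩
  rw [hspan']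
  obtain ⟨a, ha, b, hb, rfl⟩ := Submodule.mem_sup.mp hu
  rw [map_add, add_mul]
  refine IsIntegral.add ?_ (hint' b hb)
  exact isIntegral_algebraMap (R := RU (Submodule.span ℂ {y₀} ⊔ U'))
    (x := ⟨_, mem_RU (Submodule.mem_sup_left ha)⟩)

end Crest.Agent.R271.Coord769
end

-- ▼ part R271/Etale_769
section

/-!
Row 271, (11.3)/(11.5): an étale criterion for coordinates, from a Jacobian determinant (helper769).
-/

set_option autoImplicit false
set_option linter.style.haveILetI false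

open scoped BigOperators TensorProduct

namespace Crest.Agent.R271.Etale769

open KaehlerDifferential

theorem formallyEtale_of_bijective (R S T : Type) [CommRing R] [CommRing S] [CommRing T]
    [Algebra R S] [Algebra S T] [Algebra R T] [IsScalarTower R S T]
    [Subsingleton (Algebra.H1Cotangent R T)]
    (h : Function.Bijective (KaehlerDifferential.mapBaseChange R S T)) :
    Algebra.FormallyEtale S T := by
  have h1 : Subsingleton (Ω[T⁄S]) := by
    rw [← not_nontrivial_iff_subsingleton]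
    intro hnt
    obtain ⟨y, hy⟩ := exists_ne (0 : Ω[T⁄S])
    obtain ⟨y', rfl⟩ := KaehlerDifferential.map_surjective R S T y
    obtain ⟨w, rfl⟩ := h.2 y'
    exact hy ((KaehlerDifferential.exact_mapBaseChange_map R S T _).2 ⟨w, rfl⟩)
  have h2 : Subsingleton (Algebra.H1Cotangent S T) := by
    refine ⟨fun a b => ?_⟩
    have key : ∀ a : Algebra.H1Cotangent S T, a = 0 := by
      intro a
      have hδ : Algebra.H1Cotangent.δ R S T a = 0 := by
        apply h.1
        rw [map_zero]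
        exact (Algebra.H1Cotangent.exact_δ_mapBaseChange R S T _).2 ⟨a, rfl⟩
      obtain ⟨c, rfl⟩ := (Algebra.H1Cotangent.exact_map_δ R S T a).1 hδ
      rw [Subsingleton.elim c 0, map_zero]
    rw [key a, key b]
  exact ⟨h1, h2⟩

theorem bijective_mapBaseChange_of_basis {n : ℕ} (R T : Type) [CommRing R] [CommRing T]
    [Algebra R T] [Algebra (MvPolynomial (Fin n) R) T] [IsScalarTower R (MvPolynomial (Fin n) R) T]
    (b : Module.Basis (Fin n) T (Ω[T⁄R]))
    (hb : ∀ i, b i = D R T (algebraMap (MvPolynomial (Fin n) R) T (MvPolynomial.X i))) :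
    Function.Bijective (KaehlerDifferential.mapBaseChange R (MvPolynomial (Fin n) R) T) := by
  let bS := (KaehlerDifferential.mvPolynomialBasis R (Fin n)).baseChange T
  have h : KaehlerDifferential.mapBaseChange R (MvPolynomial (Fin n) R) T =
      (bS.equiv b (Equiv.refl _)).toLinearMap := by
    refine bS.ext fun i => ?_
    rw [LinearEquiv.coe_coe, Module.Basis.equiv_apply, Equiv.refl_apply, hb]
    simp [bS, Module.Basis.baseChange_apply, KaehlerDifferential.mvPolynomialBasis_apply]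
  rw [h]
  exact (bS.equiv b (Equiv.refl _)).bijective

/-- if the differentials of `z` form a basis, `z` are étale coordinates -/
theorem etale_of_basis {n : ℕ} (R T : Type) [CommRing R] [CommRing T] [Algebra R T]
    [Algebra.FinitePresentation R T] [Subsingleton (Algebra.H1Cotangent R T)]
    (z : Fin n → T) (b : Module.Basis (Fin n) T (Ω[T⁄R])) (hb : ∀ i, b i = D R T (z i)) :
    RingHom.Etale ((MvPolynomial.aeval z : MvPolynomial (Fin n) R →ₐ[R] T) :
      MvPolynomial (Fin n) R →+* T) := by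
  letI : Algebra (MvPolynomial (Fin n) R) T :=
    ((MvPolynomial.aeval z : MvPolynomial (Fin n) R →ₐ[R] T) :
      MvPolynomial (Fin n) R →+* T).toAlgebra
  haveI : IsScalarTower R (MvPolynomial (Fin n) R) T :=
    IsScalarTower.of_algebraMap_eq fun a => ((MvPolynomial.aeval z).commutes a).symm
  have hX : ∀ i, algebraMap (MvPolynomial (Fin n) R) T (MvPolynomial.X i) = z i := fun i =>
    MvPolynomial.aeval_X z i
  haveI : Algebra.FormallyEtale (MvPolynomial (Fin n) R) T :=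
    formallyEtale_of_bijective R (MvPolynomial (Fin n) R) T
      (bijective_mapBaseChange_of_basis R T b fun i => by rw [hX, hb])
  haveI : Algebra.FinitePresentation (MvPolynomial (Fin n) R) T :=
    Algebra.FinitePresentation.of_restrict_scalars_finitePresentation R _ _
  exact (⟨inferInstance, inferInstance⟩ : Algebra.Etale (MvPolynomial (Fin n) R) T)

theorem etale_of_det {n : ℕ} (R T : Type) [CommRing R] [CommRing T] [Algebra R T]
    [Algebra.FinitePresentation R T] [Subsingleton (Algebra.H1Cotangent R T)]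
    (z : Fin n → T) (b : Module.Basis (Fin n) T (Ω[T⁄R]))
    (hdet : IsUnit (b.toMatrix fun j => D R T (z j)).det) :
    RingHom.Etale ((MvPolynomial.aeval z : MvPolynomial (Fin n) R →ₐ[R] T) :
      MvPolynomial (Fin n) R →+* T) := by
  obtain ⟨h1, h2⟩ := (b.is_basis_iff_det (v := fun j => D R T (z j))).2 (by
    rwa [Module.Basis.det_apply])
  exact etale_of_basis R T z (Module.Basis.mk h1 h2.ge) fun i => by
    rw [Module.Basis.mk_apply]

/-- after inverting the Jacobian determinant -/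
theorem etale_away {n : ℕ} (A' T : Type) [CommRing A'] [CommRing T] [Algebra ℂ A'] [Algebra ℂ T]
    [Algebra A' T] [IsScalarTower ℂ A' T] [Algebra.IsStandardSmoothOfRelativeDimension n ℂ A']
    (b : Module.Basis (Fin n) A' (Ω[A'⁄ℂ])) (z : Fin n → A')
    [IsLocalization.Away (b.toMatrix fun j => D ℂ A' (z j)).det T] :
    RingHom.Etale ((MvPolynomial.aeval (fun i => algebraMap A' T (z i)) :
      MvPolynomial (Fin n) ℂ →ₐ[ℂ] T) : MvPolynomial (Fin n) ℂ →+* T) := by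
  classical
  set d := (b.toMatrix fun j => D ℂ A' (z j)).det with hd
  haveI : Algebra.IsStandardSmooth ℂ A' := Algebra.IsStandardSmoothOfRelativeDimension.isStandardSmooth n
  haveI : Algebra.Smooth A' T := Algebra.Smooth.of_isLocalization_Away d
  haveI : Algebra.Smooth ℂ T := Algebra.Smooth.comp ℂ A' T
  let bT : Module.Basis (Fin n) T (Ω[T⁄ℂ]) :=
    b.ofIsLocalizedModule T (Submonoid.powers d) (KaehlerDifferential.map ℂ ℂ A' T)
  refine etale_of_det ℂ T _ bT ?_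
  have hM : (bT.toMatrix fun j => D ℂ T (algebraMap A' T (z j))) =
      (b.toMatrix fun j => D ℂ A' (z j)).map (algebraMap A' T) := by
    ext i j
    rw [Module.Basis.toMatrix_apply, Matrix.map_apply, Module.Basis.toMatrix_apply]
    rw [← KaehlerDifferential.map_D ℂ ℂ A' T]
    exact Module.Basis.ofIsLocalizedModule_repr_apply T (Submonoid.powers d) _ b _ i
  rw [hM, ← RingHom.mapMatrix_apply, ← RingHom.map_det]
  exact IsLocalization.Away.algebraMap_isUnit d


section point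

variable {n : ℕ} {A : Type} [CommRing A] [Algebra ℂ A]

/-- the differential at the point `x'`, in coordinates -/
noncomputable def ev {A' : Type} [CommRing A'] [Algebra ℂ A'] (x' : A' →ₐ[ℂ] ℂ)
    (b : Module.Basis (Fin n) A' (Ω[A'⁄ℂ])) : Ω[A'⁄ℂ] →ₗ[ℂ] (Fin n → ℂ) :=
  LinearMap.pi fun i => x'.toLinearMap ∘ₗ ((b.coord i).restrictScalars ℂ)

theorem ev_apply {A' : Type} [CommRing A'] [Algebra ℂ A'] (x' : A' →ₐ[ℂ] ℂ)
    (b : Module.Basis (Fin n) A' (Ω[A'⁄ℂ])) (w : Ω[A'⁄ℂ]) (i : Fin n) :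
    ev x' b w i = x' (b.repr w i) := rfl

theorem ev_smul {A' : Type} [CommRing A'] [Algebra ℂ A'] (x' : A' →ₐ[ℂ] ℂ)
    (b : Module.Basis (Fin n) A' (Ω[A'⁄ℂ])) (a : A') (w : Ω[A'⁄ℂ]) :
    ev x' b (a • w) = x' a • ev x' b w := by
  funext i
  rw [ev_apply, map_smul, Finsupp.smul_apply, smul_eq_mul, map_mul, Pi.smul_apply, smul_eq_mul,
    ev_apply]

theorem etale_coords (x : A →ₐ[ℂ] ℂ) (t : A) (ht : x t ≠ 0)
    (hsm : Algebra.IsStandardSmoothOfRelativeDimension n ℂ (Localization.Away t)) :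
    ∃ δ : A →ₗ[ℂ] (Fin n → ℂ), Function.Surjective δ ∧
      (∀ a b, δ (a * b) = x a • δ b + x b • δ a) ∧
      ∀ z : Fin n → A, (∀ j, δ (z j) = Pi.single j 1) →
        ∃ h : A, x h ≠ 0 ∧
          RingHom.Etale ((MvPolynomial.aeval (fun i => algebraMap A (Localization.Away h) (z i)) :
            MvPolynomial (Fin n) ℂ →ₐ[ℂ] Localization.Away h) :
            MvPolynomial (Fin n) ℂ →+* Localization.Away h) := by
  classical
  set A' := Localization.Away t with hA'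
  have hu : IsUnit (x t) := isUnit_iff_ne_zero.2 ht
  let x' : A' →ₐ[ℂ] ℂ := IsLocalization.Away.liftAlgHom (S := A') t (f := x) hu
  have hx' : ∀ a, x' (algebraMap A A' a) = x a := fun a =>
    IsLocalization.Away.lift_eq (S := A') t (g := (x : A →+* ℂ)) hu a
  haveI : Nontrivial A' := x'.toRingHom.domain_nontrivial
  haveI : Algebra.IsStandardSmooth ℂ A' :=
    Algebra.IsStandardSmoothOfRelativeDimension.isStandardSmooth n
  have hrank := Algebra.IsStandardSmoothOfRelativeDimension.rank_kaehlerDifferential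
    (R := ℂ) (S := A') n
  have hfinrank : Module.finrank A' (Ω[A'⁄ℂ]) = n := Module.finrank_eq_of_rank_eq hrank
  let b : Module.Basis (Fin n) A' (Ω[A'⁄ℂ]) := Module.finBasisOfFinrankEq A' _ hfinrank
  let δ' : A' →ₗ[ℂ] (Fin n → ℂ) := (ev x' b) ∘ₗ ((D ℂ A') : A' →ₗ[ℂ] Ω[A'⁄ℂ])
  have hδ' : ∀ a, δ' a = ev x' b (D ℂ A' a) := fun a => rfl
  have hL' : ∀ a c, δ' (a * c) = x' a • δ' c + x' c • δ' a := by
    intro a c
    rw [hδ', hδ', hδ', Derivation.leibniz, map_add, ev_smul, ev_smul]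
  let δ : A →ₗ[ℂ] (Fin n → ℂ) := δ' ∘ₗ (IsScalarTower.toAlgHom ℂ A A').toLinearMap
  have hδ : ∀ a, δ a = δ' (algebraMap A A' a) := fun a => rfl
  refine ⟨δ, ?_, ?_, ?_⟩
  · -- surjectivity
    rw [← LinearMap.range_eq_top]
    set V := LinearMap.range δ with hV
    have h1 : ∀ a' : A', δ' a' ∈ V := by
      intro a'
      obtain ⟨k, a, ha⟩ := IsLocalization.Away.surj (S := A') t a'
      have h2 : δ a = x' a' • δ (t ^ k) + (x t) ^ k • δ' a' := by
        rw [hδ, ← ha, ← map_pow, hL', hδ, hx', map_pow x]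
      have h3 : δ' a' = ((x t) ^ k)⁻¹ • (δ a - x' a' • δ (t ^ k)) := by
        rw [h2, add_sub_cancel_left, smul_smul, inv_mul_cancel₀ (pow_ne_zero _ ht), one_smul]
      rw [h3]
      exact V.smul_mem _ (V.sub_mem ⟨a, rfl⟩ (V.smul_mem _ ⟨_, rfl⟩))
    have h2 : ∀ w : Ω[A'⁄ℂ], ev x' b w ∈ V := by
      intro w
      have hw : w ∈ Submodule.span A' (Set.range (D ℂ A')) := by
        rw [KaehlerDifferential.span_range_derivation]
        trivial
      induction hw using Submodule.span_induction with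
      | mem u hu =>
        obtain ⟨a', rfl⟩ := hu
        exact h1 a'
      | zero => rw [map_zero]; exact V.zero_mem
      | add u v _ _ hu hv => rw [map_add]; exact V.add_mem hu hv
      | smul a u _ hu => rw [ev_smul]; exact V.smul_mem _ hu
    rw [eq_top_iff]
    intro v _
    have h3 : v = ∑ i, v i • ev x' b (b i) := by
      funext j
      rw [Finset.sum_apply, Finset.sum_eq_single j]
      · rw [Pi.smul_apply, ev_apply, b.repr_self, Finsupp.single_eq_same, map_one, smul_eq_mul,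
          mul_one]
      · intro i _ hij
        rw [Pi.smul_apply, ev_apply, b.repr_self, Finsupp.single_eq_of_ne (Ne.symm hij), map_zero,
          smul_zero]
      · intro h
        exact absurd (Finset.mem_univ j) h
    rw [h3]
    exact V.sum_mem fun i _ => V.smul_mem _ (h2 _)
  · intro a c
    rw [hδ, hδ, hδ, map_mul, hL', hx', hx']
  · intro z hz
    let M := b.toMatrix fun j => D ℂ A' (algebraMap A A' (z j))
    have hMdet : x' M.det = 1 := by
      have h1 : x'.mapMatrix M = 1 := by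
        ext i j
        have h2 : x' (M i j) = δ (z j) i := rfl
        rw [AlgHom.mapMatrix_apply, Matrix.map_apply, h2, hz, Matrix.one_apply, Pi.single_apply]
      have h3 : x' M.det = (x'.mapMatrix M).det := AlgHom.map_det x' M
      rw [h3, h1, Matrix.det_one]
    let d := M.det
    let T := Localization.Away d
    let s := IsLocalization.Away.sec t d
    have hs : d * algebraMap A A' (t ^ s.2) = algebraMap A A' s.1 :=
      IsLocalization.Away.sec_spec t d
    have hxs : x s.1 ≠ 0 := by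
      rw [← hx', ← hs, map_mul, hx', map_pow]
      have : x' d = 1 := hMdet
      rw [this, one_mul]
      exact pow_ne_zero _ ht
    haveI hloc : IsLocalization.Away (t * s.1) T :=
      IsLocalization.Away.mul_of_associated _ _ d (IsLocalization.Away.associated_sec_fst t d)
    let e : T ≃ₐ[A] Localization.Away (t * s.1) :=
      Localization.algEquiv _ _ |>.symm
    refine ⟨t * s.1, ?_, ?_⟩
    · rw [map_mul]
      exact mul_ne_zero ht hxs
    · have hE := etale_away A' T b (fun j => algebraMap A A' (z j))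
      have hcomp := RingHom.Etale.stableUnderComposition _ (e : T →+* Localization.Away (t * s.1))
        hE (RingHom.Etale.of_bijective e.bijective)
      convert! hcomp using 1
      apply MvPolynomial.ringHom_ext
      · intro r
        simp [IsScalarTower.algebraMap_apply ℂ A (Localization.Away (t * s.1))]
        exact (IsScalarTower.algebraMap_apply ℂ A T r).symm
      · intro i
        simp
        exact IsScalarTower.algebraMap_apply A A' T (z i)

end point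

end Crest.Agent.R271.Etale769
end

-- ▼ part R271/CoordMain_769

/-!
Row 271, (11.3)+(11.5): the theorem `coordProp : Ctx728.CoordProp` (helper769).
-/

set_option autoImplicit false
set_option linter.style.haveILetI false

open scoped BigOperators
open Polynomial

namespace Crest.Agent.R271.CoordMain769

open Crest.Agent.R271 Coord769 Etale769 Ctx728

/-- transcendence degree from a smooth point -/
theorem trdeg_eq_of_smooth {n : ℕ} {K : Type} [Field K] [Algebra ℂ K] (A : Subalgebra ℂ K)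
    (x : A →ₐ[ℂ] ℂ) (hfrac : ∀ u : K, ∃ a b : A, (b : K) ≠ 0 ∧ u * b = a) (t : A) (ht : x t ≠ 0)
    (hsm : Algebra.IsStandardSmoothOfRelativeDimension n ℂ (Localization.Away t)) :
    Algebra.trdeg ℂ K = n := by
  have ht0 : t ≠ 0 := fun h => ht (by rw [h, map_zero])
  have hpow : Submonoid.powers t ≤ nonZeroDivisors A :=
    powers_le_nonZeroDivisors_of_noZeroDivisors ht0
  haveI : IsDomain (Localization.Away t) := IsLocalization.isDomain_localization hpow
  obtain ⟨g, hg⟩ := Algebra.IsStandardSmoothOfRelativeDimension.exists_etale_mvPolynomial n ℂ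
    (Localization.Away t)
  have hgz : g = MvPolynomial.aeval fun i => g (MvPolynomial.X i) := MvPolynomial.aeval_unique g
  have h1 : Algebra.trdeg ℂ (Localization.Away t) = n := by
    refine KT661.trdeg_eq (fun i => g (MvPolynomial.X i)) ?_
    rw [← hgz]
    exact hg
  haveI : FaithfulSMul A (Localization.Away t) :=
    (faithfulSMul_iff_algebraMap_injective _ _).2 (IsLocalization.injective _ hpow)
  haveI : FaithfulSMul ℂ A := (faithfulSMul_iff_algebraMap_injective _ _).2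
    (algebraMap ℂ A).injective
  haveI : FaithfulSMul A K := (faithfulSMul_iff_algebraMap_injective _ _).2
    Subtype.val_injective
  haveI : Algebra.IsAlgebraic A (Localization.Away t) :=
    IsLocalization.isAlgebraic (R := A) (Localization.Away t) (Submonoid.powers t)
  haveI : Algebra.IsAlgebraic A K := by
    refine ⟨fun u => ?_⟩
    obtain ⟨a, b, hb, hab⟩ := hfrac u
    have hb0 : b ≠ 0 := fun h => hb (by rw [h]; rfl)
    refine ⟨C b * X - C a, ?_, ?_⟩
    · intro h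
      have := congrArg (fun p : A[X] => p.coeff 1) h
      simp at this
      exact hb0 this
    · simp only [map_sub, map_mul, aeval_C, aeval_X]
      rw [sub_eq_zero, mul_comm]
      exact hab
  have h2 := trdeg_add_eq ℂ A (A := Localization.Away t)
  have h3 := trdeg_add_eq ℂ A (A := K)
  have h4 : Algebra.trdeg A (Localization.Away t) = 0 := trdeg_eq_zero
  have h5 : Algebra.trdeg A K = 0 := trdeg_eq_zero
  rw [h4, add_zero] at h2
  rw [h5, add_zero] at h3
  rw [← h3, h2, h1]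

/-- a form of degree `d` evaluated in `span` lies in `span ^ d` -/
theorem aeval_mem_pow {K : Type} [Field K] [Algebra ℂ K] {r : ℕ} (y : Fin r → K) (d : ℕ)
    (p : MvPolynomial (Fin r) ℂ) (hp : p.IsHomogeneous d) :
    MvPolynomial.aeval y p ∈ Submodule.span ℂ (Set.range y) ^ d := by
  rw [MvPolynomial.aeval_def, MvPolynomial.eval₂_eq']
  refine Submodule.sum_mem _ fun s hs => ?_
  rw [← Algebra.smul_def]
  refine Submodule.smul_mem _ _ ?_
  have hdeg : ∑ i, s i = d := by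
    have h := hp (MvPolynomial.mem_support_iff.1 hs)
    rw [← h, Finsupp.weight_apply]
    simp [Finsupp.sum_fintype]
  rw [← hdeg]
  clear hs hdeg
  induction (Finset.univ : Finset (Fin r)) using Finset.induction_on with
  | empty => simp [Submodule.one_eq_range]
  | insert i T hi ih =>
    rw [Finset.prod_insert hi, Finset.sum_insert hi, pow_add]
    exact Submodule.mul_mem_mul (Submodule.pow_mem_pow _ (Submodule.subset_span (Set.mem_range_self i)) _) ih

theorem gint_of_isIntegral {K : Type} [Field K] [Algebra ℂ K] {r : ℕ} (y : Fin r → K) (w : K)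
    (h : IsIntegral (RU (Submodule.span ℂ (Set.range y))) (C w * X : K[X])) :
    GInt (Submodule.span ℂ (Set.range y)) 1 w := by
  rw [← pow_one (X : K[X])] at h
  obtain ⟨s, p, hs, hp, heq⟩ := homog_of_isIntegral y 1 w h
  refine ⟨s, hs, fun i => - MvPolynomial.aeval y (p i), fun i => ?_, ?_⟩
  · exact Submodule.neg_mem _ (aeval_mem_pow y _ _ (hp i))
  · rw [eq_neg_of_add_eq_zero_left heq, ← Finset.sum_neg_distrib]
    refine Finset.sum_congr rfl fun i _ => ?_
    rw [neg_mul]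

theorem coordProp : CoordProp := by
  intro n K _ _ A x W y₀ hn hW hy₀ hy0 hft hfrac hsmooth hdiv hjets hint
  obtain ⟨t, ht, hsm⟩ := hsmooth
  have htr := trdeg_eq_of_smooth A x hfrac t ht hsm
  obtain ⟨δ, hδsurj, hδL, hδE⟩ := etale_coords x t ht hsm
  haveI := hW
  -- extend `δ` to `K`
  obtain ⟨δK, hδK⟩ := LinearMap.exists_extend (p := Subalgebra.toSubmodule A)
    (δ : Subalgebra.toSubmodule A →ₗ[ℂ] (Fin n → ℂ))
  have hδK' : ∀ a : A, δK (a : K) = δ a := fun a =>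
    congrArg (fun f : Subalgebra.toSubmodule A →ₗ[ℂ] (Fin n → ℂ) => f a) hδK
  obtain ⟨xK, hxK⟩ := LinearMap.exists_extend (p := Subalgebra.toSubmodule A)
    (x.toLinearMap : Subalgebra.toSubmodule A →ₗ[ℂ] ℂ)
  have hxK' : ∀ a : A, xK (a : K) = x a := fun a =>
    congrArg (fun f : Subalgebra.toSubmodule A →ₗ[ℂ] ℂ => f a) hxK
  let dv : K →ₗ[ℂ] K := LinearMap.mulRight ℂ y₀⁻¹
  have hdv : ∀ w, dv w = w / y₀ := fun w => (div_eq_mul_inv w y₀).symm
  let J : K →ₗ[ℂ] (Fin n → ℂ) := δK ∘ₗ dv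
  let E : K →ₗ[ℂ] ℂ := xK ∘ₗ dv
  have hEy : E y₀ = 1 := by
    have h1 : E y₀ = xK ((1 : A) : K) := by
      change xK (dv y₀) = _
      rw [hdv, div_self hy0]
      rfl
    rw [h1, hxK', map_one]
  have hδ1 : δ 1 = 0 := by
    have h := hδL 1 1
    rw [mul_one, map_one x, one_smul] at h
    exact left_eq_add.1 h
  have hJy : J y₀ = 0 := by
    have h1 : J y₀ = δK ((1 : A) : K) := by
      change δK (dv y₀) = _
      rw [hdv, div_self hy0]
      rfl
    rw [h1, hδK', hδ1]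
  have hδker : ∀ a ∈ (RingHom.ker (x : A →+* ℂ)) ^ 2, δ a = 0 := by
    intro a ha
    rw [pow_two] at ha
    induction ha using Submodule.mul_induction_on' with
    | mem_mul_mem u hu v hv =>
      have hu' : x u = 0 := hu
      have hv' : x v = 0 := hv
      rw [hδL, hu', hv', zero_smul, zero_smul, add_zero]
    | add u _ v _ hu hv => rw [map_add, hu, hv, add_zero]
  let U : Submodule ℂ K := W ⊓ LinearMap.ker E
  haveI hUfd : FiniteDimensional ℂ U := Submodule.finiteDimensional_inf_left W _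
  have hJU : ∀ e, ∃ u ∈ U, J u = e := by
    intro e
    obtain ⟨a, rfl⟩ := hδsurj e
    obtain ⟨b, hbW, hb⟩ := hjets a
    refine ⟨(b : K) * y₀ - E ((b : K) * y₀) • y₀, ⟨W.sub_mem hbW (W.smul_mem _ hy₀), ?_⟩, ?_⟩
    · rw [SetLike.mem_coe, LinearMap.mem_ker, map_sub, map_smul, hEy, smul_eq_mul, mul_one, sub_self]
    · rw [map_sub, map_smul, hJy, smul_zero, sub_zero]
      have h1 : J ((b : K) * y₀) = δ b := by
        change δK (dv _) = _
        rw [hdv, mul_div_cancel_right₀ _ hy0, hδK']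
      have h2 := hδker _ hb
      rw [map_sub, sub_eq_zero] at h2
      rw [h1, h2]
  obtain ⟨Y, hYU, hYJ, hYint⟩ := coords2 n htr y₀ hy0 U hUfd J hJU
  have hWle : W ≤ Submodule.span ℂ {y₀} ⊔ U := by
    intro w hw
    have h1 : w = E w • y₀ + (w - E w • y₀) := by abel
    rw [h1]
    refine Submodule.add_mem_sup (Submodule.smul_mem _ _ (Submodule.mem_span_singleton_self _)) ?_
    refine ⟨W.sub_mem hw (W.smul_mem _ hy₀), ?_⟩
    rw [SetLike.mem_coe, LinearMap.mem_ker, map_sub, map_smul, hEy, smul_eq_mul, mul_one, sub_self]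
  let y : Fin (n + 1) → K := Fin.cons y₀ Y
  have hyW : ∀ j, y j ∈ W := by
    intro j
    refine Fin.cases ?_ (fun i => ?_) j
    · exact hy₀
    · exact (hYU i).1
  let u : Fin (n + 1) → A := fun j => ⟨y j / y₀, hdiv _ (hyW j)⟩
  have hu0 : u 0 = 1 := Subtype.ext (div_self hy0)
  have hδz : ∀ j, δ (u (Fin.succ j)) = Pi.single j 1 := by
    intro j
    rw [← hYJ j, ← hδK']
    change δK (Y j / y₀) = δK (dv (Y j))
    rw [hdv]
  obtain ⟨h, hxh, hEt⟩ := hδE (fun j => u (Fin.succ j)) hδz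
  refine ⟨y, u, h, fun i => algebraMap A (Localization.Away h) (u (Fin.succ i)), hyW, ?_, ?_, hxh,
    ?_, ?_, hEt⟩
  · intro j
    exact div_mul_cancel₀ _ hy0
  · intro w hw
    exact gint_of_isIntegral y w (hYint w (hWle hw))
  · rw [hu0]
    exact one_dvd h
  · intro i
    rw [hu0, map_one, mul_one]

end Crest.Agent.R271.CoordMain769
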