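import Crest.Agent.R271.Defs_710

/-!
Row 271, piece F3 = (6.2), first variation V1: the threshold of an Ekeland point is attained in bounded
degree.  Also: the conversion lemma with control of the degree (`conv`).
-/

set_option autoImplicit false

open scoped ENNReal NNReal Topology BigOperators
open MeasureTheory

noncomputable section

namespace Crest.Agent.R271.V1_992

open Crest.Agent.R271.Defs710

/-! ### small calculus for `IInt` -/

section calculus

variable {n : ℕ} {B : Type} [CommRing B] [Algebra ℂ B] {z : Fin n → B} {y : B →ₐ[ℂ] ℂ}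

theorem IInt_reindex {ι ι' : Type} [Fintype ι] [Fintype ι'] (e : ι' ≃ ι) {I : ι → Ideal B}
    {c : ι → ℝ} (h : IInt z y I c) : IInt z y (fun i => I (e i)) (fun i => c (e i)) := by
  obtain ⟨S, hS, C, hC⟩ := h
  refine ⟨fun i => S (e i), fun i => hS _, C, ?_⟩
  have : ∀ y' : B →ₐ[ℂ] ℂ, wB (fun i => S (e i)) (fun i => c (e i)) y' = wB S c y' := by
    intro y'
    unfold wB
    exact Equiv.prod_comp e (fun i => (ENNReal.ofReal (wt (S i) y')) ^ (-(c i)))
  simpa only [this] using hC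

theorem IInt_ne_bot {I : Ideal B} {c : ℝ} (hc : 0 < c)
    (h : IInt z y (fun _ : Unit => I) (fun _ => c)) : I ≠ ⊥ := by
  rintro rfl
  obtain ⟨S, hS, C, U, hU, hlt⟩ := h
  have h0 : ∀ b ∈ S (), b = 0 := by
    have := hS ()
    rw [Ideal.span_eq_bot] at this
    intro b hb
    exact this b (by simpa using hb)
  have hw : ∀ ζ : Cn n, wB S (fun _ => c) (C.s ζ) = ⊤ := by
    intro ζ
    have : wt (S ()) (C.s ζ) = 0 := by
      unfold wt
      apply Finset.sum_eq_zero
      intro b hb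
      rw [h0 b hb]; simp
    unfold wB
    simp only [Finset.univ_unique, PUnit.default_eq_unit, Finset.prod_singleton, this,
      ENNReal.ofReal_zero]
    exact ENNReal.zero_rpow_of_neg (by linarith)
  have hpos : 0 < volume U := MeasureTheory.Measure.measure_pos_of_mem_nhds _ hU
  have : ∫⁻ ζ in U, wB S (fun _ => c) (C.s ζ) = ⊤ := by
    simp only [hw]
    rw [lintegral_const, Measure.restrict_apply_univ, ENNReal.top_mul hpos.ne']
  rw [this] at hlt
  exact absurd hlt (lt_irrefl _)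

theorem IInt_add_zero [IsNoetherianRing B] {ι κ : Type} [Fintype ι] [Fintype κ] {I : ι → Ideal B}
    {c : ι → ℝ} (J : κ → Ideal B) (h : IInt z y I c) :
    IInt z y (Sum.elim I J) (Sum.elim c (fun _ => 0)) := by
  obtain ⟨S, hS, C, hC⟩ := h
  have hfg : ∀ k, ∃ T : Finset B, Ideal.span (T : Set B) = J k := fun k =>
    (Ideal.fg_of_isNoetherianRing (J k))
  choose T hT using hfg
  refine ⟨Sum.elim S T, ?_, C, ?_⟩
  · rintro (i | k)
    · exact hS i
    · exact hT k
  · have : ∀ y' : B →ₐ[ℂ] ℂ, wB (Sum.elim S T) (Sum.elim c (fun _ => 0)) y' = wB S c y' := by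
      intro y'
      unfold wB
      rw [Fintype.prod_sum_type]
      simp
    simpa only [this] using hC

theorem IInt_zero_add [IsNoetherianRing B] {ι κ : Type} [Fintype ι] [Fintype κ] {I : ι → Ideal B}
    {c : ι → ℝ} (J : κ → Ideal B) (h : IInt z y I c) :
    IInt z y (Sum.elim J I) (Sum.elim (fun _ => 0) c) := by
  have := IInt_reindex (Equiv.sumComm κ ι) (IInt_add_zero J h)
  convert this using 1
  · funext i; rcases i with i | i <;> rfl
  · funext i; rcases i with i | i <;> rfl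

end calculus

/-! ### consequences of the analytic facts -/

section facts

variable {n : ℕ} (X : FCtx n)

instance : IsNoetherianRing X.B := by
  have := X.ft
  exact Algebra.FiniteType.isNoetherianRing ℂ X.B

variable {X}

/-- unit ideals at `y` -/
theorem IInt_unit (af : AFacts X) {y : X.B →ₐ[ℂ] ℂ} {f : X.B} (hf : y f ≠ 0) {b : ℝ} (hb : 0 ≤ b) :
    IInt X.z y (fun _ : Unit => Ideal.span {f}) (fun _ => b) := by
  refine af.ord y f 0 b ?_ hb (by simp)
  intro h
  apply hf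
  rw [zero_add, pow_one] at h
  exact h

/-- multiplying by a function which does not vanish at `y`, with a small loss in the other exponents -/
theorem IInt_mul_unit (af : AFacts X) {y : X.B →ₐ[ℂ] ℂ} {f : X.B} (hf : y f ≠ 0) {b : ℝ} (hb : 0 ≤ b)
    {ι : Type} [Fintype ι] {I : ι → Ideal X.B} {c : ι → ℝ} (hI : ∀ i, I i ≠ ⊥) {a : ℝ} (ha : 0 < a)
    (ha1 : a ≤ 1) (h : IInt X.z y I c) :
    IInt X.z y (Sum.elim I (fun _ : Unit => Ideal.span {f}))
      (Sum.elim (fun i => (1 - a) * c i) (fun _ : Unit => b)) := by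
  have h1 := IInt_add_zero (fun _ : Unit => Ideal.span {f}) h
  have h2 := IInt_zero_add I (IInt_unit af hf (b := b / a) (by positivity))
  have hne : ∀ i, Sum.elim I (fun _ : Unit => Ideal.span {f}) i ≠ ⊥ := by
    rintro (i | i)
    · exact hI i
    · simp only [Sum.elim_inr, ne_eq, Ideal.span_singleton_eq_bot]
      rintro rfl
      exact hf (map_zero y)
  have := af.holder y _ _ _ _ a hne ha.le ha1 h2 h1
  convert this using 1
  funext i
  rcases i with i | i
  · simp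
  · simp only [Sum.elim_inr, mul_zero, add_zero]
    field_simp

/-! ### ideals generated by graded pieces of a filtration -/

/-- `B·F(d,l)` -/
def sp (F : Filt X.V) (d : ℕ) (l : ℝ) : Ideal X.B := Ideal.span (F.F d l : Set X.B)

theorem sp_anti (F : Filt X.V) (d : ℕ) {l l' : ℝ} (h : l ≤ l') : sp F d l' ≤ sp F d l :=
  Ideal.span_mono (F.anti d h)

theorem sp_mul (F : Filt X.V) (d d' : ℕ) (l l' : ℝ) :
    sp F d l * sp F d' l' ≤ sp F (d + d') (l + l') := by
  unfold sp
  rw [Ideal.span_mul_span', Ideal.span_le]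
  rintro _ ⟨a, ha, b, hb, rfl⟩
  exact Ideal.subset_span (F.mul _ _ _ _ _ _ ha hb)

theorem one_mem_F (F : Filt X.V) {l : ℝ} (hl : l ≤ 0) : (1 : X.B) ∈ F.F 0 l := by
  rw [F.zero 0 l hl, X.V_zero]
  exact Submodule.one_le.mp le_rfl

theorem sp_zero (F : Filt X.V) {l : ℝ} (hl : l ≤ 0) : sp F 0 l = ⊤ := by
  rw [Ideal.eq_top_iff_one]
  exact Ideal.subset_span (one_mem_F F hl)

theorem sp_pow (F : Filt X.V) (d : ℕ) (l : ℝ) (p : ℕ) :
    sp F d l ^ p ≤ sp F (p * d) (p * l) := by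
  induction p with
  | zero => simp [sp_zero F le_rfl]
  | succ p ih =>
    rw [pow_succ]
    refine (Ideal.mul_mono ih le_rfl).trans ((sp_mul F _ _ _ _).trans ?_)
    have e1 : p * d + d = (p + 1) * d := by ring
    have e2 : (p : ℝ) * l + l = ((p + 1 : ℕ) : ℝ) * l := by push_cast; ring
    rw [e1, e2]

theorem sp_prod (F : Filt X.V) {ι : Type} (s : Finset ι) (d : ι → ℕ) (l : ι → ℝ) :
    ∏ i ∈ s, sp F (d i) (l i) ≤ sp F (∑ i ∈ s, d i) (∑ i ∈ s, l i) := by
  classical
  induction s using Finset.induction_on with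
  | empty => simp [sp_zero F le_rfl]
  | insert a s ha ih =>
    rw [Finset.prod_insert ha, Finset.sum_insert ha, Finset.sum_insert ha]
    exact (Ideal.mul_mono le_rfl ih).trans (sp_mul F _ _ _ _)

/-- for every large degree there is a section that does not vanish at `y` -/
theorem exists_unit_section (X : FCtx n) : ∃ j₀ : ℕ, ∀ j, j₀ ≤ j → ∀ y : X.B →ₐ[ℂ] ℂ,
    ∃ f ∈ X.V j, y f ≠ 0 := by
  obtain ⟨j₀, hj⟩ := X.jets 0
  refine ⟨j₀, fun j hjj y => ?_⟩
  obtain ⟨f, hf, hf1⟩ := hj j hjj y 1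
  refine ⟨f, hf, ?_⟩
  rw [zero_add, pow_one] at hf1
  have : y (f - 1) = 0 := hf1
  rw [map_sub, map_one, sub_eq_zero] at this
  rw [this]
  exact one_ne_zero


theorem GoodC_good (af : AFacts X) {F : Filt X.V} {y : X.B →ₐ[ℂ] ℂ} {c l : ℝ}
    (hG : GoodC X.z F y c l) : Good X.z F y l := by
  obtain ⟨k, hk, hI⟩ := hG
  have hk0 : (0 : ℝ) < k := by exact_mod_cast hk
  have hne := IInt_ne_bot (by positivity) hI
  have hle : sp F ⌊k * c⌋₊ (k * l) ≤ idl F (k * l) :=
    Ideal.span_mono (fun b hb => ⟨_, hb⟩)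
  refine ⟨k, hk, af.mono y Unit (fun _ => sp F ⌊k * c⌋₊ (k * l)) (fun _ => idl F (k * l))
    _ _ (fun _ => hne) (fun _ => ?_) (fun _ => le_rfl) (fun _ => Or.inr ⟨by positivity, hle⟩) hI⟩
  exact fun hb => hne (le_bot_iff.mp (hb ▸ hle))

/-- a good level is at most the threshold -/
theorem good_le {F : Filt X.V} {y : X.B →ₐ[ℂ] ℂ} (hfin : thr X.z F y ≠ ∞) {l : ℝ}
    (hG : Good X.z F y l) : l ≤ (thr X.z F y).toReal := by
  rcases le_or_gt l 0 with h | h
  · exact h.trans ENNReal.toReal_nonneg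
  · lift l to ℝ≥0 using h.le
    have h1 : (l : ℝ≥0∞) ≤ thr X.z F y := by
      unfold thr
      exact le_iSup₂_of_le l hG le_rfl
    have := ENNReal.toReal_mono hfin h1
    simpa using this

/-- the conversion lemma, with control of the degree -/
theorem conv (af : AFacts X) (F : Filt X.V) (y : X.B →ₐ[ℂ] ℂ) {ι : Type} [Fintype ι] (d : ι → ℕ)
    (l : ι → ℝ) (c : ι → ℝ) (hc : ∀ i, 0 ≤ c i) (hne : ∀ i, sp F (d i) (l i) ≠ ⊥)
    (h : IInt X.z y (fun i => sp F (d i) (l i)) c) (C L : ℝ) (hC : ∑ i, c i * d i < C)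
    (hL : L < ∑ i, c i * l i) : GoodC X.z F y C L := by
  classical
  obtain ⟨j₀, hj₀⟩ := exists_unit_section X
  -- choose `a`
  have hcont : Filter.Tendsto (fun a : ℝ => ∑ i, ((1 - a) * c i) * l i) (𝓝[>] 0)
      (𝓝 (∑ i, c i * l i)) := by
    have : Continuous (fun a : ℝ => ∑ i, ((1 - a) * c i) * l i) := by fun_prop
    have h2 := this.tendsto 0
    simp only [sub_zero, one_mul] at h2
    exact h2.mono_left nhdsWithin_le_nhds
  have hev : ∀ᶠ a in 𝓝[>] (0 : ℝ), L < ∑ i, ((1 - a) * c i) * l i ∧ 0 < a ∧ a ≤ 1 := by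
    refine (hcont.eventually (lt_mem_nhds hL)).and ?_
    exact (eventually_mem_nhdsWithin).and
      (Filter.eventually_of_mem (Ioc_mem_nhdsGT one_pos) (fun a ha => ha.2))
  obtain ⟨a, haL, ha0, ha1⟩ := hev.exists
  set c' : ι → ℝ := fun i => (1 - a) * c i with hc'
  have hc'0 : ∀ i, 0 ≤ c' i := fun i => mul_nonneg (by linarith) (hc i)
  have hc'c : ∀ i, c' i ≤ c i := fun i => by
    simp only [hc']; nlinarith [hc i]
  -- choose `M`
  set gap1 : ℝ := ∑ i, c' i * l i - L with hgap1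
  have hgap1pos : 0 < gap1 := by simp only [hgap1, hc']; linarith
  set gap2 : ℝ := C - ∑ i, c i * d i with hgap2
  have hgap2pos : 0 < gap2 := by simp only [hgap2]; linarith
  obtain ⟨M, hM⟩ := exists_nat_gt (max (max ((∑ i, |l i|) / gap1) ((j₀ + 1) / gap2)) 1)
  have hM1 : (∑ i, |l i|) / gap1 < M := (le_max_left _ _).trans (le_max_left _ _) |>.trans_lt hM
  have hM2 : ((j₀ : ℝ) + 1) / gap2 < M := (le_max_right _ _).trans (le_max_left _ _) |>.trans_lt hM
  have hM3 : (1 : ℝ) < M := (le_max_right _ _).trans_lt hM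
  have hMpos : (0 : ℝ) < M := by linarith
  rw [div_lt_iff₀ hgap1pos] at hM1
  rw [div_lt_iff₀ hgap2pos] at hM2
  set p : ι → ℕ := fun i => ⌊M * c' i⌋₊ with hp
  have hp1 : ∀ i, (p i : ℝ) ≤ M * c' i := fun i => Nat.floor_le (mul_nonneg hMpos.le (hc'0 i))
  have hp2 : ∀ i, M * c' i < p i + 1 := fun i => Nat.lt_floor_add_one _
  have hlev : M * L ≤ ∑ i, (p i : ℝ) * l i := by
    have h1 : ∀ i, M * c' i * l i - |l i| ≤ (p i : ℝ) * l i := by
      intro i
      have h3 : |(M * c' i - p i) * l i| ≤ 1 * |l i| := by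
        rw [abs_mul]
        refine mul_le_mul_of_nonneg_right ?_ (abs_nonneg _)
        rw [abs_le]
        constructor <;> linarith [hp1 i, hp2 i]
      have h4 := (abs_le.mp h3).2
      nlinarith
    have h2 : ∑ i, (M * c' i * l i - |l i|) ≤ ∑ i, (p i : ℝ) * l i :=
      Finset.sum_le_sum (fun i _ => h1 i)
    rw [Finset.sum_sub_distrib] at h2
    have h3 : ∑ i, M * c' i * l i = M * ∑ i, c' i * l i := by
      rw [Finset.mul_sum]; exact Finset.sum_congr rfl (fun i _ => by ring)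
    rw [h3] at h2
    have h5 : M * ∑ i, c' i * l i = M * gap1 + M * L := by simp only [hgap1]; ring
    linarith
  set D : ℕ := ∑ i, p i * d i with hD
  have hDle : (D : ℝ) + j₀ + 1 ≤ M * C := by
    have h1 : (D : ℝ) ≤ ∑ i, M * c i * d i := by
      simp only [hD]; push_cast
      refine Finset.sum_le_sum (fun i _ => ?_)
      refine mul_le_mul_of_nonneg_right ?_ (Nat.cast_nonneg _)
      exact (hp1 i).trans (mul_le_mul_of_nonneg_left (hc'c i) hMpos.le)
    have h3 : ∑ i, M * c i * d i = M * ∑ i, c i * d i := by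
      rw [Finset.mul_sum]; exact Finset.sum_congr rfl (fun i _ => by ring)
    have h5 : M * C = M * gap2 + M * ∑ i, c i * d i := by simp only [hgap2]; ring
    linarith
  set D' : ℕ := ⌊M * C⌋₊ with hD'
  have hDD' : D + j₀ ≤ D' := by
    rw [hD']
    apply Nat.le_floor
    push_cast
    linarith
  obtain ⟨f, hfV, hfy⟩ := hj₀ (D' - D) (by omega) y
  have hf0 : f ≠ 0 := by rintro rfl; exact hfy (map_zero y)
  -- integrability with the unit
  have hunit := IInt_mul_unit af hfy (b := 1 / (M : ℝ)) (by positivity) hne ha0 ha1 h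
  -- lower exponents
  set J : ι ⊕ Unit → Ideal X.B :=
    Sum.elim (fun i => sp F (d i) (l i)) (fun _ : Unit => Ideal.span {f}) with hJ
  set q : ι ⊕ Unit → ℕ := Sum.elim p (fun _ => 1) with hq
  have hJne : ∀ i, J i ≠ ⊥ := by
    rintro (i | i)
    · exact hne i
    · simp only [hJ, Sum.elim_inr, ne_eq, Ideal.span_singleton_eq_bot]; exact hf0
  have h1 : IInt X.z y J (fun j => (1 / (M : ℝ)) * q j) := by
    refine af.mono y _ J J _ _ hJne hJne ?_ (fun i => Or.inl rfl) hunit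
    rintro (i | i)
    · simp only [hq, Sum.elim_inl]
      rw [one_div, inv_mul_le_iff₀ hMpos]
      exact hp1 i
    · simp [hq]
  -- product
  have h2 : IInt X.z y (Sum.elim (fun e : Empty => (e.elim : Ideal X.B)) J)
      (Sum.elim (fun e : Empty => (e.elim : ℝ)) (fun j => (1 / (M : ℝ)) * q j)) := by
    have := IInt_reindex (Equiv.emptySum Empty (ι ⊕ Unit)) h1
    convert this using 1
    · funext i; rcases i with i | i
      · exact i.elim
      · rfl
    · funext i; rcases i with i | i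
      · exact i.elim
      · rfl
  have h3 := (af.prod y Empty (ι ⊕ Unit) (fun e : Empty => (e.elim : Ideal X.B))
    (fun e : Empty => (e.elim : ℝ)) J q (1 / (M : ℝ)) (fun e => e.elim) hJne).mpr h2
  have h4 : IInt X.z y (fun _ : Unit => ∏ j, J j ^ q j) (fun _ => 1 / (M : ℝ)) :=
    IInt_reindex (Equiv.emptySum Empty Unit).symm h3
  -- inclusion
  have hprodne : ∏ j, J j ^ q j ≠ ⊥ := by
    rw [← Ideal.zero_eq_bot, Finset.prod_ne_zero_iff]
    intro j _
    exact pow_ne_zero _ (hJne j)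
  have hle : ∏ j, J j ^ q j ≤ sp F D' (M * L) := by
    rw [Fintype.prod_sum_type]
    simp only [hJ, hq, Sum.elim_inl, Sum.elim_inr, pow_one, Finset.univ_unique,
      Finset.prod_const, Finset.card_singleton]
    have e1 : ∏ i, sp F (d i) (l i) ^ p i ≤ sp F D (∑ i, (p i : ℝ) * l i) := by
      refine le_trans ?_ (sp_prod F Finset.univ (fun i => p i * d i) (fun i => (p i : ℝ) * l i))
      exact Finset.prod_le_prod' (fun i _ => sp_pow F _ _ _)
    have e2 : Ideal.span {f} ≤ sp F (D' - D) 0 := by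
      rw [Ideal.span_singleton_le_iff_mem]
      apply Ideal.subset_span
      rw [F.zero _ _ le_rfl]
      exact hfV
    refine (Ideal.mul_mono e1 e2).trans ((sp_mul F _ _ _ _).trans ?_)
    have e3 : D + (D' - D) = D' := by omega
    rw [e3, add_zero]
    exact sp_anti F _ hlev
  have hspne : sp F D' (M * L) ≠ ⊥ := fun hb => hprodne (le_bot_iff.mp (hb ▸ hle))
  refine ⟨M, by exact_mod_cast hM3.le, ?_⟩
  exact af.mono y Unit _ (fun _ => sp F D' (M * L)) _ _ (fun _ => hprodne) (fun _ => hspne)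
    (fun _ => le_rfl) (fun _ => Or.inr ⟨by positivity, hle⟩) h4

/-! ### the filtration `F_μ` -/

/-- the ideal generated by all `F(j, l + μ j)` -/
def W (F : Filt X.V) (μ l : ℝ) : Ideal X.B := Ideal.span {b | ∃ j : ℕ, b ∈ F.F j (l + μ * j)}


theorem W_mul (F : Filt X.V) (μ l l' : ℝ) : W F μ l * W F μ l' ≤ W F μ (l + l') := by
  unfold W
  rw [Ideal.span_mul_span', Ideal.span_le]
  rintro _ ⟨a, ⟨j, ha⟩, b, ⟨j', hb⟩, rfl⟩
  refine Ideal.subset_span ⟨j + j', ?_⟩
  have := F.mul _ _ _ _ _ _ ha hb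
  have e : l + μ * j + (l' + μ * j') = l + l' + μ * ((j + j' : ℕ) : ℝ) := by push_cast; ring
  rwa [e] at this

theorem W_zero (F : Filt X.V) (μ : ℝ) {l : ℝ} (hl : l ≤ 0) : W F μ l = ⊤ := by
  rw [Ideal.eq_top_iff_one]
  refine Ideal.subset_span ⟨0, ?_⟩
  have : (1 : X.B) ∈ F.F 0 (l + μ * ((0 : ℕ) : ℝ)) := one_mem_F F (by simpa using hl)
  exact this

/-- `⋂_{l₁ < l} W_{l₁}` -/
def WW (F : Filt X.V) (μ l : ℝ) : Submodule ℂ X.B :=
  ⨅ (l₁ : ℝ) (_ : l₁ < l), (W F μ l₁).restrictScalars ℂ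

theorem mem_WW (F : Filt X.V) (μ l : ℝ) (b : X.B) : b ∈ WW F μ l ↔ ∀ l₁ < l, b ∈ W F μ l₁ := by
  unfold WW
  simp only [Submodule.mem_iInf, Submodule.restrictScalars_mem]

/-- the filtration `F_μ` -/
def Fmu (F : Filt X.V) (μ : ℝ) : Filt X.V where
  F m l := F.F m l ⊓ WW F μ l
  le_V m l := inf_le_left.trans (F.le_V m l)
  zero m l hl := by
    rw [F.zero m l hl]
    refine le_antisymm inf_le_left (fun b hb => ⟨hb, ?_⟩)
    refine (mem_WW F μ l b).mpr (fun l₁ hl₁ => ?_)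
    rw [W_zero F μ (hl₁.le.trans hl)]
    exact Submodule.mem_top
  anti m := by
    intro l l' h b hb
    refine ⟨F.anti m h hb.1, (mem_WW F μ l b).mpr (fun l₁ hl₁ => ?_)⟩
    exact (mem_WW F μ l' b).mp hb.2 l₁ (hl₁.trans_le h)
  cont m l b hb := by
    refine ⟨F.cont m l b (fun l' hl' => (hb l' hl').1), (mem_WW F μ l b).mpr (fun l₁ hl₁ => ?_)⟩
    obtain ⟨l₂, h1, h2⟩ := exists_between hl₁
    exact (mem_WW F μ l₂ b).mp (hb l₂ h2).2 l₁ h1
  mul m l m' l' a b ha hb := by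
    refine ⟨F.mul _ _ _ _ _ _ ha.1 hb.1, (mem_WW F μ _ _).mpr (fun l₁ hl₁ => ?_)⟩
    have ha2 := (mem_WW F μ l a).mp ha.2
    have hb2 := (mem_WW F μ l' b).mp hb.2
    set δ : ℝ := (l + l' - l₁) / 2 with hδ
    have hδ0 : 0 < δ := by rw [hδ]; linarith
    have h1 := ha2 (l - δ) (by linarith)
    have h2 := hb2 (l' - δ) (by linarith)
    have h3 := W_mul F μ (l - δ) (l' - δ) (Ideal.mul_mem_mul h1 h2)
    have e : l - δ + (l' - δ) = l₁ := by rw [hδ]; ring
    rw [e] at h3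
    exact h3
  bdd := by
    obtain ⟨C, hC⟩ := F.bdd
    refine ⟨C, fun m l h => ?_⟩
    rw [hC m l h, bot_inf_eq]

theorem Fmu_le (F : Filt X.V) (μ : ℝ) (m : ℕ) (l : ℝ) : (Fmu F μ).F m l ≤ F.F m l := inf_le_left

theorem le_Fmu (F : Filt X.V) {μ : ℝ} (hμ : 0 ≤ μ) (m : ℕ) (l : ℝ) :
    F.F m l ≤ (Fmu F μ).F m (l - μ * m) := by
  intro b hb
  refine ⟨F.anti m ?_ hb, (mem_WW F μ _ _).mpr (fun l₁ hl₁ => ?_)⟩
  · have : 0 ≤ μ * m := by positivity
    linarith
  · refine Ideal.subset_span ⟨m, F.anti m ?_ hb⟩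
    linarith

theorem idl_Fmu_le (F : Filt X.V) (μ : ℝ) {l l₁ : ℝ} (h : l₁ < l) : idl (Fmu F μ) l ≤ W F μ l₁ := by
  unfold idl
  rw [Ideal.span_le]
  rintro b ⟨m, hb⟩
  exact (mem_WW F μ l b).mp hb.2 l₁ h

theorem idl_mono {F G : Filt X.V} (h : ∀ m l, F.F m l ≤ G.F m l) (l : ℝ) : idl F l ≤ idl G l := by
  apply Ideal.span_mono
  rintro b ⟨m, hb⟩
  exact ⟨m, h m l hb⟩

theorem Good_mono (af : AFacts X) {F G : Filt X.V} (h : ∀ m l, F.F m l ≤ G.F m l)
    {y : X.B →ₐ[ℂ] ℂ} {l : ℝ} (hG : Good X.z F y l) : Good X.z G y l := by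
  obtain ⟨k, hk, hI⟩ := hG
  have hk0 : (0 : ℝ) < k := by exact_mod_cast hk
  have hne := IInt_ne_bot (by positivity) hI
  have hle : idl F (k * l) ≤ idl G (k * l) := idl_mono h _
  refine ⟨k, hk, af.mono y Unit (fun _ => idl F (k * l)) (fun _ => idl G (k * l))
    _ _ (fun _ => hne) (fun _ => ?_) (fun _ => le_rfl) (fun _ => Or.inr ⟨by positivity, hle⟩) hI⟩
  exact fun hb => hne (le_bot_iff.mp (hb ▸ hle))

theorem thr_mono (af : AFacts X) {F G : Filt X.V} (h : ∀ m l, F.F m l ≤ G.F m l)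
    (y : X.B →ₐ[ℂ] ℂ) : thr X.z F y ≤ thr X.z G y := by
  unfold thr
  exact iSup₂_le (fun l hl => le_iSup₂_of_le l (Good_mono af h hl) le_rfl)

/-- level `0` is always good -/
theorem Good_zero (af : AFacts X) (F : Filt X.V) (y : X.B →ₐ[ℂ] ℂ) : Good X.z F y 0 := by
  refine ⟨1, le_rfl, ?_⟩
  have h := IInt_unit af (f := (1 : X.B)) (y := y) (by simp) (b := 1 / ((1 : ℕ) : ℝ)) (by positivity)
  have e : idl F (((1 : ℕ) : ℝ) * 0) = Ideal.span {(1 : X.B)} := by
    rw [Ideal.span_singleton_one, Ideal.eq_top_iff_one]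
    exact Ideal.subset_span ⟨0, one_mem_F F (by simp)⟩
  rw [e]
  exact h

/-- levels below the threshold are exceeded by good levels -/
theorem exists_good (af : AFacts X) {F : Filt X.V} {y : X.B →ₐ[ℂ] ℂ} {l : ℝ}
    (hl : l < (thr X.z F y).toReal) : ∃ l' : ℝ, l < l' ∧ Good X.z F y l' := by
  rcases lt_or_ge l 0 with h | h
  · exact ⟨0, h, Good_zero af F y⟩
  · lift l to ℝ≥0 using h
    have h1 : (l : ℝ≥0∞) < thr X.z F y := by
      by_contra hcon
      push Not at hcon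
      have := ENNReal.toReal_mono ENNReal.coe_ne_top hcon
      simp only [ENNReal.coe_toReal] at this
      exact absurd hl (not_lt.mpr this)
    unfold thr at h1
    rw [lt_iSup_iff] at h1
    obtain ⟨l', h2⟩ := h1
    rw [lt_iSup_iff] at h2
    obtain ⟨hg, h3⟩ := h2
    exact ⟨l', by exact_mod_cast h3, hg⟩

/-- the Sum Theorem step: a good level of `F_μ` gives a level of `F` attained in bounded degree -/
theorem step (af : AFacts X) (F : Filt X.V) (μ : ℝ) {l l' : ℝ} (hl : l < l')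
    (hG : Good X.z (Fmu F μ) X.x l') :
    ∃ c' : ℝ, 0 ≤ c' ∧ ∀ c, c' < c → ∀ L, L < l + μ * c' → GoodC X.z F X.x c L := by
  classical
  obtain ⟨k, hk, hI⟩ := hG
  have hk0 : (0 : ℝ) < k := by exact_mod_cast hk
  have hne := IInt_ne_bot (by positivity) hI
  -- choose the loss `e` and the level `l₁`
  obtain ⟨l₁, hl1, hl1'⟩ := exists_between hl
  obtain ⟨e, he0, he1, hel⟩ : ∃ e : ℝ, 0 < e ∧ e < 1 ∧ l < (1 - e) * l₁ := by
    have hcont : Filter.Tendsto (fun e : ℝ => (1 - e) * l₁) (𝓝[>] 0) (𝓝 l₁) := by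
      have : Continuous (fun e : ℝ => (1 - e) * l₁) := by fun_prop
      have h2 := this.tendsto 0
      simp only [sub_zero, one_mul] at h2
      exact h2.mono_left nhdsWithin_le_nhds
    have hev : ∀ᶠ e in 𝓝[>] (0 : ℝ), l < (1 - e) * l₁ ∧ 0 < e ∧ e < 1 := by
      refine (hcont.eventually (lt_mem_nhds hl1)).and ?_
      exact (eventually_mem_nhdsWithin).and
        (Filter.eventually_of_mem (Ioo_mem_nhdsGT one_pos) (fun a ha => ha.2))
    obtain ⟨e, h1, h2, h3⟩ := hev.exists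
    exact ⟨e, h2, h3, h1⟩
  -- finitely many generators of `W`
  have hWle : idl (Fmu F μ) (k * l') ≤ W F μ (k * l₁) :=
    idl_Fmu_le F μ (mul_lt_mul_of_pos_left hl1' hk0)
  obtain ⟨T, hTs, hT⟩ := (Submodule.fg_span_iff_fg_span_finset_subset
    {b : X.B | ∃ j : ℕ, b ∈ F.F j (k * l₁ + μ * j)}).mp
    (IsNoetherian.noetherian (W F μ (k * l₁)))
  have hTW : Ideal.span (T : Set X.B) = W F μ (k * l₁) := hT.symm
  set T' : Finset X.B := T.erase 0 with hT'
  have hT'W : W F μ (k * l₁) ≤ Ideal.span (T' : Set X.B) := by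
    rw [← hTW, Ideal.span_le]
    intro b hb
    by_cases hb0 : b = 0
    · rw [hb0]; exact Ideal.zero_mem _
    · exact Ideal.subset_span (by simpa [hT', hb0] using hb)
  have hdeg : ∀ b : {b // b ∈ T'}, ∃ j : ℕ, b.1 ∈ F.F j (k * l₁ + μ * j) := by
    rintro ⟨b, hb⟩
    exact hTs (Finset.mem_of_mem_erase hb)
  choose dg hdg using hdeg
  set lv : {b // b ∈ T'} → ℝ := fun b => k * l₁ + μ * dg b with hlv
  set J : {b // b ∈ T'} → Ideal X.B := fun b => sp F (dg b) (lv b) with hJ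
  have hmem : ∀ b : {b // b ∈ T'}, b.1 ∈ J b := fun b => Ideal.subset_span (hdg b)
  have hJne : ∀ b, J b ≠ ⊥ := by
    intro b hb
    have h1 := hmem b
    rw [hb, Ideal.mem_bot] at h1
    exact (Finset.ne_of_mem_erase b.2) h1
  have hsup : W F μ (k * l₁) ≤ ⨆ b, J b := by
    refine hT'W.trans ?_
    rw [Ideal.span_le]
    intro b hb
    exact (le_iSup J ⟨b, hb⟩) (hmem ⟨b, hb⟩)
  have hWne : W F μ (k * l₁) ≠ ⊥ := fun hb => hne (le_bot_iff.mp (hb ▸ hWle))
  have hnon : Nonempty {b // b ∈ T'} := by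
    by_contra hcon
    rw [not_nonempty_iff] at hcon
    apply hWne
    rw [← le_bot_iff]
    refine hsup.trans ?_
    rw [iSup_of_empty]
  have hsupne : (⨆ b, J b) ≠ ⊥ := fun hb => hWne (le_bot_iff.mp (hb ▸ hsup))
  have h1 : IInt X.z X.x (fun _ : Unit => ⨆ b, J b) (fun _ => 1 / (k : ℝ)) :=
    af.mono X.x Unit (fun _ => idl (Fmu F μ) (k * l')) (fun _ => ⨆ b, J b) _ _
      (fun _ => hne) (fun _ => hsupne) (fun _ => le_rfl)
      (fun _ => Or.inr ⟨by positivity, hWle.trans hsup⟩) hI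
  have h2 : IInt X.z X.x (Sum.elim (fun e : Empty => (e.elim : Ideal X.B)) (fun _ : Unit => ⨆ b, J b))
      (Sum.elim (fun e : Empty => (e.elim : ℝ)) (fun _ : Unit => 1 / (k : ℝ))) := by
    have := IInt_reindex (Equiv.emptySum Empty Unit) h1
    convert this using 1
    · funext i; rcases i with i | i
      · exact i.elim
      · rfl
    · funext i; rcases i with i | i
      · exact i.elim
      · rfl
  obtain ⟨s, hs0, hs1, hs⟩ := af.sum X.x Empty {b // b ∈ T'} _ _ J (1 / (k : ℝ))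
    (fun e => e.elim) hJne (fun e => e.elim) (by positivity) h2 e he0 he1
  have h3 : IInt X.z X.x J (fun j => (1 - e) * (s j * (1 / (k : ℝ)))) :=
    IInt_reindex (Equiv.emptySum Empty {b // b ∈ T'}).symm hs
  have h1e : 0 < 1 - e := by linarith
  refine ⟨∑ b, (1 - e) * (s b * (1 / (k : ℝ))) * dg b, ?_, ?_⟩
  · refine Finset.sum_nonneg (fun b _ => ?_)
    have := hs0 b
    positivity
  · intro c hc L hL
    refine conv af F X.x dg lv (fun j => (1 - e) * (s j * (1 / (k : ℝ)))) (fun b => ?_) hJne h3 c L hc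
      (hL.trans ?_)
    · have := hs0 b
      positivity
    · have e1 : ∑ b, (1 - e) * (s b * (1 / (k : ℝ))) * lv b =
          (1 - e) * l₁ * ∑ b, s b + μ * ∑ b, (1 - e) * (s b * (1 / (k : ℝ))) * dg b := by
        rw [Finset.mul_sum, Finset.mul_sum, ← Finset.sum_add_distrib]
        refine Finset.sum_congr rfl (fun b _ => ?_)
        simp only [hlv]
        field_simp
      rw [e1, hs1, mul_one]
      linarith

/-- **(6.2) V1**: the threshold of `F` is attained in every degree `c > E`. -/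
theorem V1 (af : AFacts X) (F : Filt X.V) (hfin : thr X.z F X.x ≠ ∞) (E : ℝ)
    (hC : ∃ K μ₀ : ℝ, 0 < μ₀ ∧ ∀ μ, 0 < μ → μ ≤ μ₀ → ∀ F' : Filt X.V,
      (∀ m l, F.F m l ≤ F'.F m (l - μ * m)) → (∀ m l, F'.F m l ≤ F.F m l) →
      thr X.z F' X.x ≠ ∞ →
      (thr X.z F X.x).toReal - μ * (E + K * μ) ≤ (thr X.z F' X.x).toReal) :
    ∀ c, E < c → ∀ l, l < (thr X.z F X.x).toReal → GoodC X.z F X.x c l := by
  intro c hc l hl
  obtain ⟨K, μ₀, hμ₀, hC⟩ := hC
  set A := (thr X.z F X.x).toReal with hA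
  -- choose `μ`
  obtain ⟨μ, hμ, hμμ, hc', hl'⟩ : ∃ μ : ℝ, 0 < μ ∧ μ ≤ μ₀ ∧ E + K * μ + μ < c ∧
      l < A - μ * (E + K * μ) - μ ^ 2 := by
    have t1 : Filter.Tendsto (fun μ : ℝ => E + K * μ + μ) (𝓝[>] 0) (𝓝 E) := by
      have : Continuous (fun μ : ℝ => E + K * μ + μ) := by fun_prop
      have h2 := this.tendsto 0
      simp only [mul_zero, add_zero] at h2
      exact h2.mono_left nhdsWithin_le_nhds
    have t2 : Filter.Tendsto (fun μ : ℝ => A - μ * (E + K * μ) - μ ^ 2) (𝓝[>] 0) (𝓝 A) := by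
      have : Continuous (fun μ : ℝ => A - μ * (E + K * μ) - μ ^ 2) := by fun_prop
      have h2 := this.tendsto 0
      simp only [mul_zero, add_zero, zero_mul, sub_zero, ne_eq, OfNat.ofNat_ne_zero,
        not_false_eq_true, zero_pow] at h2
      exact h2.mono_left nhdsWithin_le_nhds
    have hev : ∀ᶠ μ in 𝓝[>] (0 : ℝ), 0 < μ ∧ μ ≤ μ₀ ∧ E + K * μ + μ < c ∧
        l < A - μ * (E + K * μ) - μ ^ 2 :=
      (eventually_mem_nhdsWithin).and ((Filter.eventually_of_mem (Ioc_mem_nhdsGT hμ₀)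
        (fun a ha => ha.2)).and ((t1.eventually (gt_mem_nhds hc)).and
          (t2.eventually (lt_mem_nhds hl))))
    exact hev.exists
  have hle := Fmu_le F μ
  have hfin' : thr X.z (Fmu F μ) X.x ≠ ∞ := ne_top_of_le_ne_top hfin (thr_mono af hle X.x)
  have hA' := hC μ hμ hμμ (Fmu F μ) (le_Fmu F hμ.le) hle hfin'
  set A' := (thr X.z (Fmu F μ) X.x).toReal with hA'def
  have hμ2 : 0 < μ ^ 2 := by positivity
  obtain ⟨l', hl1, hG⟩ := exists_good af (show A' - μ ^ 2 < A' by linarith)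
  obtain ⟨c', hc0, hstep⟩ := step af F μ hl1 hG
  -- `c'` is small
  have hcc : c' ≤ E + K * μ + μ := by
    have h1 : ∀ L, L < A' - μ ^ 2 + μ * c' → L ≤ A := fun L hL =>
      good_le hfin (GoodC_good af (hstep (c' + 1) (by linarith) L hL))
    have h2 : A' - μ ^ 2 + μ * c' ≤ A := le_of_forall_lt_imp_le_of_dense h1
    have h3 : μ * c' ≤ μ * (E + K * μ + μ) := by nlinarith
    exact le_of_mul_le_mul_left h3 hμ
  refine hstep c (by linarith) l ?_
  have : 0 ≤ μ * c' := by positivity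
  linarith

end facts

end Crest.Agent.R271.V1_992
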