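import Crest.Agent.R271.Assembly_710
import Crest.Agent.R271.CaseB_553
import Crest.Agent.R271.N7e_857
import Crest.Agent.R271.Ord_969
import Crest.Agent.R271.KrullTrdeg_661
import Mathlib
import Crest.Agent.R271.Gibbs2_302
import Crest.Agent.R271.Filt_140
import Crest.Agent.R271.ZZ_593_Mg
import Crest.Agent.R271.V1_992

-- ▼ part R271/CaseBF_376
section

/-!
# Row 271, Part 9.4 in terms of `FCtx`: translation of Case B to power series
-/

set_option autoImplicit false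

open Finset Module
open scoped Nat

noncomputable section

namespace Crest.Agent.R271.CaseBF376

open Crest.Agent.R271.Defs710 Crest.Agent.R271.Assembly710
open Crest.Agent.R271.CaseB553 Crest.Agent.R271.N857

variable {n : ℕ} (X : FCtx n)

/-- the output of Case B consumed by the existence theorem of helper302 -/
def CaseBSum (X : FCtx n) : Prop :=
  ∃ η₃ τ₀ : ℝ, 0 < η₃ ∧ 0 < τ₀ ∧ ∀ τ : ℝ, 0 < τ → τ ≤ τ₀ → ∀ C₁ : ℕ,
    (∀ m, ∀ f ∈ X.V m, f ≠ 0 → ∀ e : ℕ, f ∈ mI X.x ^ e → e ≤ C₁ * m) →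
    (n + η₃) / τ * ∑' m : ℕ, Real.exp (-τ * m) * (finrank ℂ (X.V m) : ℝ) ≤
      ∑' m : ℕ, Real.exp (-τ * m) * ∑ e ∈ Finset.Icc 1 (C₁ * m), (dimOrd X m e : ℝ)

/-- the Taylor expansion at `y` -/
theorem exists_AData (y : X.B →ₐ[ℂ] ℂ) : ∃ w : Fin n → X.B, AData y (⊥ : Ideal X.B) n w :=
  AData.mk' X.z X.etale y ⊥ (fun f hf => by rw [Ideal.mem_bot] at hf; rw [hf, map_zero]) n le_rfl
    (Ord969.fctx_adapted X y)

variable {X}

theorem th_inj {y : X.B →ₐ[ℂ] ℂ} {w : Fin n → X.B} (D : AData y (⊥ : Ideal X.B) n w) :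
    Function.Injective D.th.toLinearMap := by
  have hn := Ord969.isNoetherianRing X
  rw [← LinearMap.ker_eq_bot, LinearMap.ker_eq_bot']
  intro b hb
  have := D.th_eq_zero Ideal.isPrime_bot hb
  simpa using this

theorem map_inf {y : X.B →ₐ[ℂ] ℂ} {w : Fin n → X.B} (D : AData y (⊥ : Ideal X.B) n w)
    (W : Submodule ℂ X.B) (e : ℕ) :
    (W ⊓ ((mI y ^ e).restrictScalars ℂ)).map D.th.toLinearMap =
      W.map D.th.toLinearMap ⊓ mpow1 n e := by
  ext f
  constructor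
  · rintro ⟨b, ⟨hb1, hb2⟩, rfl⟩
    refine ⟨⟨b, hb1, rfl⟩, ?_⟩
    exact (D.th_order_iff b e).2 (Ideal.mem_sup_left hb2)
  · rintro ⟨⟨b, hb1, rfl⟩, hb2⟩
    refine ⟨b, ⟨hb1, ?_⟩, rfl⟩
    have := (D.th_order_iff b e).1 hb2
    rw [sup_bot_eq] at this
    exact this

theorem finrank_map {y : X.B →ₐ[ℂ] ℂ} {w : Fin n → X.B} (D : AData y (⊥ : Ideal X.B) n w)
    (W : Submodule ℂ X.B) :
    finrank ℂ (W.map D.th.toLinearMap) = finrank ℂ W :=
  (LinearEquiv.finrank_eq (Submodule.equivMapOfInjective _ (th_inj D) W)).symm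

theorem finrank_map_inf {y : X.B →ₐ[ℂ] ℂ} {w : Fin n → X.B} (D : AData y (⊥ : Ideal X.B) n w)
    (W : Submodule ℂ X.B) (e : ℕ) :
    finrank ℂ (W.map D.th.toLinearMap ⊓ mpow1 n e : Submodule ℂ (MvPowerSeries (Fin n) ℂ)) =
      finrank ℂ (W ⊓ ((mI y ^ e).restrictScalars ℂ) : Submodule ℂ X.B) := by
  rw [← map_inf D W e, finrank_map D]

theorem dimOrd_eq_zero {C₁ : ℕ}
    (hC : ∀ m, ∀ f ∈ X.V m, f ≠ 0 → ∀ e : ℕ, f ∈ mI X.x ^ e → e ≤ C₁ * m) (m e : ℕ)
    (he : C₁ * m < e) : X.V m ⊓ ((mI X.x ^ e).restrictScalars ℂ) = ⊥ := by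
  rw [eq_bot_iff]
  rintro f ⟨hf, hfe⟩
  by_contra h0
  have h1 := hC m f hf (fun h => h0 (by rw [h]; simp)) e hfe
  omega

theorem sum_dimOrd_eq {C₁ C₂ : ℕ}
    (h1 : ∀ m, ∀ f ∈ X.V m, f ≠ 0 → ∀ e : ℕ, f ∈ mI X.x ^ e → e ≤ C₁ * m)
    (h2 : ∀ m, ∀ f ∈ X.V m, f ≠ 0 → ∀ e : ℕ, f ∈ mI X.x ^ e → e ≤ C₂ * m) (m : ℕ) :
    ∑ e ∈ Finset.Icc 1 (C₁ * m), (dimOrd X m e : ℝ) =
      ∑ e ∈ Finset.Icc 1 (C₂ * m), (dimOrd X m e : ℝ) := by
  have key : ∀ C C' : ℕ, C ≤ C' →
      (∀ m, ∀ f ∈ X.V m, f ≠ 0 → ∀ e : ℕ, f ∈ mI X.x ^ e → e ≤ C * m) →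
      ∑ e ∈ Finset.Icc 1 (C * m), (dimOrd X m e : ℝ) =
      ∑ e ∈ Finset.Icc 1 (C' * m), (dimOrd X m e : ℝ) := by
    intro C C' hCC hC
    refine Finset.sum_subset ?_ ?_
    · exact Finset.Icc_subset_Icc_right (Nat.mul_le_mul_right m hCC)
    · intro e he he'
      rw [Finset.mem_Icc] at he he'
      have hlt : C * m < e := by
        by_contra hcon
        exact he' ⟨he.1, not_lt.1 hcon⟩
      unfold dimOrd
      rw [dimOrd_eq_zero hC m e hlt, finrank_bot, Nat.cast_zero]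
  rw [key C₁ (max C₁ C₂) (le_max_left _ _) h1, ← key C₂ (max C₁ C₂) (le_max_right _ _) h2]

/-- Case B in terms of sums -/
theorem caseBSum (X : FCtx n) (hn : 1 ≤ n) (hB : CaseB X) : CaseBSum X := by
  obtain ⟨c, hc, m₁, hcaps⟩ := hB
  obtain ⟨η, hη, H⟩ := CASEB n hn c hc
  obtain ⟨w, D⟩ := exists_AData X X.x
  obtain ⟨C₀, hC₀⟩ := X.ordbd
  obtain ⟨K, hK⟩ := exists_finrank_le X
  obtain ⟨j₀, hj₀⟩ := X.jets n
  have hfin := X.V_fin
  have hC₀' : ∀ m, ∀ f ∈ X.V m, f ≠ 0 → ∀ e : ℕ, f ∈ mI X.x ^ e → e ≤ C₀ * m :=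
    fun m f hf h0 e he => hC₀ m f hf h0 X.x e he
  obtain ⟨τ0, hτ0, hτ⟩ := H (fun m => (X.V m).map D.th.toLinearMap) (fun m => inferInstance)
    (by
      rintro i j _ ⟨f, hf, rfl⟩ _ ⟨g, hg, rfl⟩
      refine ⟨f * g, X.V_mul i j f g hf hg, ?_⟩
      simp)
    ⟨j₀, fun v hv => by
      obtain ⟨f, hf, hfb⟩ := hj₀ j₀ le_rfl X.x
        (MvPolynomial.aeval (wd D.hd w) (MvPolynomial.monomial v (1 : ℂ)))
      refine ⟨D.th f, ⟨f, hf, rfl⟩, fun u hu => ?_⟩
      rw [D.th_jet hfb hu, MvPolynomial.coeff_monomial]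
      by_cases huv : u = v
      · rw [if_pos huv, if_pos huv.symm]
      · rw [if_neg huv, if_neg fun h => huv h.symm]⟩
    (by
      intro e he
      obtain ⟨j₁, hj₁⟩ := X.growth n e he
      refine ⟨j₁, fun j hj => ?_⟩
      have hdim : ringKrullDim (X.B ⧸ (⊥ : Ideal X.B)) = n := by
        rw [ringKrullDim_eq_of_ringEquiv (RingEquiv.quotientBot X.B)]
        exact Crest.Agent.R271.KT661.krull_eq X.z X.etale
      have h1 := hj₁ ⊥ Ideal.isPrime_bot hdim j hj
      rw [finrank_th X Ideal.isPrime_bot D j]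
      exact h1)
    ⟨((K : ℝ) + 1) ^ n, fun m => by
      rw [finrank_map D]
      have h1 : (finrank ℂ (X.V m) : ℝ) ≤ ((K : ℝ) * m + 1) ^ n := by exact_mod_cast hK m
      refine h1.trans ?_
      rw [← mul_pow]
      refine pow_le_pow_left₀ (by positivity) ?_ n
      have : (0 : ℝ) ≤ K := Nat.cast_nonneg _
      have : (0 : ℝ) ≤ m := Nat.cast_nonneg _
      nlinarith⟩
    C₀
    (by
      intro m
      rw [← map_inf D, dimOrd_eq_zero hC₀' m _ (Nat.lt_succ_self _), Submodule.map_bot])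
    ⟨m₁, fun m hm j hj => by
      rw [finrank_map_inf D, finrank_map_inf D]
      exact hcaps m hm j hj⟩
  refine ⟨η, τ0, hη, hτ0, fun τ h0 h1 C₁ hC₁ => ?_⟩
  have h2 := hτ τ h0 h1
  have e1 : ∀ m : ℕ, Real.exp (-τ * m) * (finrank ℂ ((X.V m).map D.th.toLinearMap) : ℝ) =
      Real.exp (-τ * m) * (finrank ℂ (X.V m) : ℝ) := fun m => by rw [finrank_map D]
  have e2 : ∀ m : ℕ, Real.exp (-τ * m) * ((∑ e ∈ Finset.Icc 1 (C₀ * m),
      finrank ℂ ((X.V m).map D.th.toLinearMap ⊓ mpow1 n e :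
        Submodule ℂ (MvPowerSeries (Fin n) ℂ)) : ℕ) : ℝ) =
      Real.exp (-τ * m) * ∑ e ∈ Finset.Icc 1 (C₁ * m), (dimOrd X m e : ℝ) := fun m => by
    rw [sum_dimOrd_eq hC₁ hC₀' m, Nat.cast_sum]
    congr 1
    refine Finset.sum_congr rfl fun e _ => ?_
    rw [finrank_map_inf D]
    rfl
  simp only [e1, e2] at h2
  exact h2

end Crest.Agent.R271.CaseBF376
end
end

-- ▼ part R241/B11Ekeland
section

/-!
# R241, block B11: Ekeland's variational principle

Stated for a set with a "distance function" `d` which only satisfies the triangle inequality; the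
completeness and lower semicontinuity hypotheses are stated along fast Cauchy sequences.
-/

set_option autoImplicit false

open Filter Topology Set

namespace Crest.Agent.R241.B11

/-- Ekeland's variational principle (weak form). `d` is a nonnegative function with `d x x = 0` and
the triangle inequality. Completeness + lower semicontinuity: every sequence with summable
consecutive distances and bounded `Ψ`-values has a limit `u` with `Ψ u ≤ c` whenever eventually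
`Ψ (x j) ≤ c`. -/
theorem ekeland {α : Type*} (d : α → α → ℝ) (hd0 : ∀ x, d x x = 0) (hdn : ∀ x y, 0 ≤ d x y)
    (hdt : ∀ x y z, d x z ≤ d x y + d y z) (Ψ : α → ℝ) (m₀ : ℝ) (hb : ∀ x, m₀ ≤ Ψ x)
    (hc : ∀ x : ℕ → α, (∀ j, Ψ (x (j + 1)) ≤ Ψ (x j)) →
      Summable (fun j => d (x j) (x (j + 1))) →
      ∃ u, Tendsto (fun j => d (x j) u) atTop (𝓝 0) ∧
        ∀ c, (∀ᶠ j in atTop, Ψ (x j) ≤ c) → Ψ u ≤ c)
    (ε : ℝ) (hε : 0 < ε) (x₀ : α) :
    ∃ u, Ψ u + ε * d x₀ u ≤ Ψ x₀ ∧ ∀ v, Ψ u ≤ Ψ v + ε * d u v := by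
  classical
  -- the sections
  let S : α → Set α := fun x => {y | Ψ y + ε * d x y ≤ Ψ x}
  have hSself : ∀ x, x ∈ S x := fun x => by simp [S, hd0]
  have hStrans : ∀ x y z, y ∈ S x → z ∈ S y → z ∈ S x := by
    intro x y z hy hz
    simp only [S, mem_ofPred_eq] at hy hz ⊢
    nlinarith [hdt x y z]
  have hSb : ∀ x, BddBelow (Ψ '' S x) := fun x => ⟨m₀, by rintro _ ⟨y, -, rfl⟩; exact hb y⟩
  -- choice of the next point
  have hnext : ∀ (x : α) (j : ℕ), ∃ y ∈ S x, Ψ y ≤ sInf (Ψ '' S x) + (1 / 2 : ℝ) ^ j := by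
    intro x j
    have hne : (Ψ '' S x).Nonempty := ⟨_, x, hSself x, rfl⟩
    obtain ⟨_, ⟨y, hy, rfl⟩, hy2⟩ := exists_lt_of_csInf_lt hne
      (show sInf (Ψ '' S x) < sInf (Ψ '' S x) + (1 / 2 : ℝ) ^ j by
        have : (0 : ℝ) < (1 / 2 : ℝ) ^ j := by positivity
        linarith)
    exact ⟨y, hy, hy2.le⟩
  choose nx hnx1 hnx2 using hnext
  let x : ℕ → α := fun j => Nat.rec x₀ (fun j y => nx y j) j
  have hx0 : x 0 = x₀ := rfl
  have hxs : ∀ j, x (j + 1) = nx (x j) j := fun j => rfl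
  have hstep : ∀ j, x (j + 1) ∈ S (x j) := fun j => by rw [hxs]; exact hnx1 _ _
  have hmem : ∀ i j, i ≤ j → x j ∈ S (x i) := by
    intro i j hij
    induction hij with
    | refl => exact hSself _
    | step _ ih => exact hStrans _ _ _ ih (hstep _)
  have hmono : ∀ j, Ψ (x (j + 1)) ≤ Ψ (x j) := by
    intro j
    have h1 := hstep j
    simp only [S, mem_ofPred_eq] at h1
    nlinarith [hdn (x j) (x (j + 1))]
  have hsum : Summable (fun j => d (x j) (x (j + 1))) := by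
    refine summable_of_sum_range_le (c := (Ψ x₀ - m₀) / ε) (fun j => hdn _ _) ?_
    intro N
    have h1 : ∀ N, ε * ∑ j ∈ Finset.range N, d (x j) (x (j + 1)) ≤ Ψ x₀ - Ψ (x N) := by
      intro N
      induction N with
      | zero => simp [hx0]
      | succ N ih =>
        rw [Finset.sum_range_succ, mul_add]
        have h1 := hstep N
        simp only [S, mem_ofPred_eq] at h1
        linarith
    rw [le_div_iff₀ hε, mul_comm]
    linarith [h1 N, hb (x N)]
  obtain ⟨u, hu1, hu2⟩ := hc x hmono hsum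
  -- `u` lies in all sections
  have hanti : ∀ i j, i ≤ j → Ψ (x j) ≤ Ψ (x i) := fun i j hij =>
    antitone_nat_of_succ_le (f := fun j => Ψ (x j)) hmono hij
  have huS : ∀ i, u ∈ S (x i) := by
    intro i
    simp only [S, mem_ofPred_eq]
    -- for every δ > 0, Ψ u ≤ Ψ x_i - ε d(x_i,u) + δ
    refine le_of_forall_pos_le_add fun δ hδ => ?_
    have h1 : ∀ᶠ j in atTop, ε * d (x j) u < δ := by
      have : Tendsto (fun j => ε * d (x j) u) atTop (𝓝 (ε * 0)) := hu1.const_mul ε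
      rw [mul_zero] at this
      exact this.eventually (gt_mem_nhds hδ)
    have h2 : Ψ u ≤ Ψ (x i) - ε * d (x i) u + δ := by
      refine hu2 _ ?_
      filter_upwards [h1, eventually_ge_atTop i] with j hj hij
      have h3 := hmem i j hij
      simp only [S, mem_ofPred_eq] at h3
      nlinarith [hdt (x i) (x j) u]
    linarith
  refine ⟨u, ?_, ?_⟩
  · have := huS 0
    simpa [S, hx0] using this
  · intro v
    by_contra hcon
    push Not at hcon
    have hvS : v ∈ S u := by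
      simp only [S, mem_ofPred_eq]; exact hcon.le
    -- then `Ψ v ≥ Ψ u`
    have h1 : ∀ j, Ψ (x (j + 1)) - (1 / 2 : ℝ) ^ j ≤ Ψ v := by
      intro j
      have h2 : v ∈ S (x j) := hStrans _ _ _ (huS j) hvS
      have h3 : sInf (Ψ '' S (x j)) ≤ Ψ v := csInf_le (hSb _) ⟨v, h2, rfl⟩
      have h4 := hnx2 (x j) j
      rw [← hxs] at h4
      linarith
    have h5 : Ψ u ≤ Ψ v := by
      refine le_of_forall_pos_le_add fun δ hδ => ?_
      refine hu2 _ ?_
      have h6 : ∀ᶠ j : ℕ in atTop, (1 / 2 : ℝ) ^ j < δ :=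
        (tendsto_pow_atTop_nhds_zero_of_lt_one (by norm_num) (by norm_num)).eventually
          (gt_mem_nhds hδ)
      obtain ⟨j, hj⟩ := h6.exists
      filter_upwards [eventually_ge_atTop (j + 1)] with i hi
      have := h1 j
      have := hanti (j + 1) i hi
      linarith
    nlinarith [hdn u v]

end Crest.Agent.R241.B11
end

-- ▼ part R271/Exist1_302
section

/-!
# R271, Part 4: uniform bounds of the functional `H = A + log Z`
-/

set_option autoImplicit false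

open Real Finset Filter Topology

namespace Crest.Agent.R271.Gibbs302

variable {P : Type*} {deg : P → ℝ} {n : ℕ} {c C : ℝ} {κ t : ℝ} {L : P → ℝ}

/-- `d · log (1 + b x) ≤ x / 2 + K` -/
lemma log_lin_bound (d b : ℝ) (hd : 0 < d) (hb : 0 < b) :
    ∃ K : ℝ, ∀ x : ℝ, 0 ≤ x → d * log (1 + b * x) ≤ x / 2 + K := by
  refine ⟨d * log (2 * d * b) + 1 / (2 * b), fun x hx => ?_⟩
  have hs : 0 < 2 * d * b := by positivity
  have hy : 0 < 1 + b * x := by positivity
  have h1 : log ((1 + b * x) / (2 * d * b)) ≤ (1 + b * x) / (2 * d * b) - 1 :=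
    log_le_sub_one_of_pos (by positivity)
  rw [log_div hy.ne' hs.ne'] at h1
  have h2 : d * ((1 + b * x) / (2 * d * b)) = 1 / (2 * b) + x / 2 := by
    field_simp
  nlinarith [mul_le_mul_of_nonneg_left h1 hd.le]

/-- (4.2) lower bound of the functional, coercive in `A` -/
lemma H_lower (hG : Growth deg n c C) {C1 : ℝ} (hC1 : 0 < C1) :
    ∃ K : ℝ, ∀ (κ t A : ℝ) (L : P → ℝ), 1 / 2 ≤ κ → κ ≤ 1 → 0 < t → 0 ≤ A →
      (∀ p, 0 ≤ L p) → (∀ p, L p ≤ A * C1 * deg p) →
      -((n : ℝ) + 1) * log t + A / 2 - K ≤ A + log (Z deg κ t L) := by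
  obtain ⟨K, hK⟩ := log_lin_bound ((n : ℝ) + 1) C1 (by positivity) hC1
  refine ⟨K - log c, fun κ t A L hκ hκ1 ht hA hL hLA => ?_⟩
  have hκ0 : 0 < κ := by linarith
  have hc := hG.c_pos
  have h1 := Z_ge hG ht hκ0 hL (a := A * C1) (by positivity) hLA
  have hpos : 0 < κ + A * C1 := by positivity
  have h2 : log (c / (t * (κ + A * C1)) ^ (n + 1)) ≤ log (Z deg κ t L) :=
    log_le_log (by positivity) h1
  rw [log_div hc.ne' (by positivity), log_pow, log_mul ht.ne' hpos.ne'] at h2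
  have h3 : log (κ + A * C1) ≤ log (1 + C1 * A) := log_le_log hpos (by linarith)
  have h4 := hK A hA
  push_cast at h2
  have h5 : ((n : ℝ) + 1) * log (κ + A * C1) ≤ ((n : ℝ) + 1) * log (1 + C1 * A) :=
    mul_le_mul_of_nonneg_left h3 (by positivity)
  nlinarith

/-- upper bound of `log Z` -/
lemma log_Z_upper (hG : Growth deg n c C) :
    ∃ K : ℝ, ∀ (κ t : ℝ) (L : P → ℝ), 1 / 2 ≤ κ → κ ≤ 1 → 0 < t → t ≤ 1 → (∀ p, 0 ≤ L p) →
      log (Z deg κ t L) ≤ -((n : ℝ) + 1) * log t + K := by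
  have hCpos : 0 < C := by
    have h5 := hG.upper 1 one_pos le_rfl
    have h6 := hG.lower 1 one_pos
    have := hG.c_pos
    simp at h5 h6
    linarith
  refine ⟨log (C * 4 ^ (n + 1)), fun κ t L hκ hκ1 ht ht1 hL => ?_⟩
  have h1 := Z_le hG ht ht1 hκ hκ1 hL
  have hκ0 : 0 < κ := by linarith
  have hZ := Z_pos hG ht hκ0 hL
  have h2 := log_le_log hZ h1
  rw [log_div (by positivity) (by positivity), log_pow] at h2
  push_cast at h2
  linarith

/-- (4.3) -/
lemma H_jensen (hG : Growth deg n c C) {C1 : ℝ} (hC1 : 0 ≤ C1) :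
    ∃ K : ℝ, 0 < K ∧ ∀ (κ t A : ℝ) (L : P → ℝ), 1 / 2 ≤ κ → κ ≤ 1 → 0 < t → t ≤ 1 → 0 ≤ A →
      (∀ p, 0 ≤ L p) → (∀ p, L p ≤ A * C1 * deg p) →
      log (Z deg κ t (fun _ => 0)) - K * A ≤ log (Z deg κ t L) := by
  have hC := C_nonneg hG
  have hc := hG.c_pos
  refine ⟨C1 * (4 * (C * 4 ^ (n + 1)) / c) + 1, by positivity,
    fun κ t A L hκ hκ1 ht ht1 hA hL hLA => ?_⟩
  have hκ0 : 0 < κ := by linarith
  have h1 := log_Z_jensen hG ht hκ0 (L := fun _ => 0) (fun _ => le_rfl) (L' := L)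
    (g := fun p => A * C1 * deg p) (b := A * C1) (by positivity)
    (fun p => by have := hG.deg_nonneg p; positivity) (fun p => le_rfl) hL
    (fun p => by simpa using hLA p)
  have h2 := Ex_lin_le hG ht ht1 hκ hκ1 (L := fun _ => 0) (fun _ => le_rfl) (a := 0) le_rfl
    (fun p => by simp) (φ := fun p => t * (A * C1 * deg p)) (b := A * C1) (by positivity)
    (fun p => by have := hG.deg_nonneg p; positivity) (fun p => by
      apply le_of_eq; ring)
  have h3 : A * C1 * 4 * (C * 4 ^ (n + 1)) * (1 + 0) ^ (n + 1) / c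
      = (C1 * (4 * (C * 4 ^ (n + 1)) / c)) * A := by
    rw [add_zero, one_pow]; ring
  rw [h3] at h2
  nlinarith

end Crest.Agent.R271.Gibbs302
end

-- ▼ part R271/Exist2_302
section

/-!
# R271, Parts 4, 5.3 (numerical half), 6.1: existence of Ekeland points, abstract form
-/

set_option autoImplicit false

open Real Finset Filter Topology

namespace Crest.Agent.R271.Gibbs302

variable {P : Type*} {α : Type*}

/-- the abstract data: `α` = filtrations with finite threshold -/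
structure Data (deg : P → ℝ) (n : ℕ) (c C : ℝ) (A : α → ℝ) (L : α → P → ℝ) (fd : α → α → ℝ)
    (C1 : ℝ) : Prop where
  growth : Growth deg n c C
  C1_pos : 0 < C1
  A_nonneg : ∀ F, 0 ≤ A F
  L_nonneg : ∀ F p, 0 ≤ L F p
  L_le : ∀ F p, L F p ≤ A F * C1 * deg p
  fd_self : ∀ F, fd F F = 0
  fd_nonneg : ∀ F G, 0 ≤ fd F G
  fd_tri : ∀ F G H, fd F H ≤ fd F G + fd G H
  lip : ∀ F G p, L F p - fd F G * deg p ≤ L G p
  complete : ∀ (x : ℕ → α) (M : ℝ), (∀ j, A (x j) ≤ M) →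
    Summable (fun j => fd (x j) (x (j + 1))) →
    ∃ u, Tendsto (fun j => fd (x j) u) atTop (𝓝 0) ∧
      ∀ a, (∀ᶠ j in atTop, A (x j) ≤ a) → A u ≤ a
  scale : ∀ (F : α) (s : ℝ), 0 < s → s < 1 →
    ∃ G, A G ≤ s * A F ∧ (∀ p, s * L F p ≤ L G p) ∧ fd F G ≤ (1 - s) * (A F * C1)

variable {deg : P → ℝ} {n : ℕ} {c C : ℝ} {κ t : ℝ} {A : α → ℝ} {L : α → P → ℝ}
  {fd : α → α → ℝ} {C1 : ℝ}

/-- the functional -/
noncomputable def H (deg : P → ℝ) (A : α → ℝ) (L : α → P → ℝ) (κ t : ℝ) (F : α) : ℝ :=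
  A F + log (Z deg κ t (L F))

/-- (4.5) Ekeland -/
theorem ekeland_point (D : Data deg n c C A L fd C1) (hκ : 1 / 2 ≤ κ) (hκ1 : κ ≤ 1) (ht : 0 < t)
    (ht1 : t ≤ 1) {ε : ℝ} (hε : 0 < ε) (x₀ : α) :
    ∃ F, H deg A L κ t F ≤ H deg A L κ t x₀ ∧
      ∀ G, H deg A L κ t F ≤ H deg A L κ t G + ε * fd F G := by
  have hG := D.growth
  have hκ0 : 0 < κ := by linarith
  obtain ⟨K, hK⟩ := H_lower hG D.C1_pos
  have hlow : ∀ F, -((n : ℝ) + 1) * log t + A F / 2 - K ≤ H deg A L κ t F := fun F =>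
    hK κ t (A F) (L F) hκ hκ1 ht (D.A_nonneg F) (D.L_nonneg F) (D.L_le F)
  have hlow' : ∀ F, -((n : ℝ) + 1) * log t - K ≤ H deg A L κ t F := fun F => by
    have := hlow F
    have := D.A_nonneg F
    linarith
  have hcomp : ∀ x : ℕ → α, (∀ j, H deg A L κ t (x (j + 1)) ≤ H deg A L κ t (x j)) →
      Summable (fun j => fd (x j) (x (j + 1))) →
      ∃ u, Tendsto (fun j => fd (x j) u) atTop (𝓝 0) ∧
        ∀ c, (∀ᶠ j in atTop, H deg A L κ t (x j) ≤ c) → H deg A L κ t u ≤ c := by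
    intro x hmono hsum
    -- bound for `A`
    have hanti : Antitone (fun j => H deg A L κ t (x j)) := antitone_nat_of_succ_le hmono
    set M : ℝ := 2 * (H deg A L κ t (x 0) + ((n : ℝ) + 1) * log t + K) with hM
    have hAM : ∀ j, A (x j) ≤ M := by
      intro j
      have h1 := hlow (x j)
      have h2 := hanti (Nat.zero_le j)
      simp only at h2
      rw [hM]; linarith
    obtain ⟨u, hu, hulsc⟩ := D.complete x M hAM hsum
    refine ⟨u, hu, fun a ha => ?_⟩
    have hM0 : 0 ≤ M := (D.A_nonneg (x 0)).trans (hAM 0)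
    set z0 : ℝ := c / (t * (κ + M * C1)) ^ (n + 1) with hz0
    have hc := hG.c_pos
    have hC1 := D.C1_pos
    have hz0pos : 0 < z0 := by positivity
    have hZ0 : ∀ j, z0 ≤ Z deg κ t (L (x j)) := by
      intro j
      refine Z_ge hG ht hκ0 (D.L_nonneg _) (a := M * C1) (by positivity) (fun p => ?_)
      refine (D.L_le _ p).trans ?_
      apply mul_le_mul_of_nonneg_right _ (hG.deg_nonneg p)
      exact mul_le_mul_of_nonneg_right (hAM j) hC1.le
    set K' : ℝ := 8 * (C * 4 ^ (n + 1)) / t ^ (n + 1) with hK'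
    have hK'0 : 0 ≤ K' := by have := C_nonneg hG; positivity
    have hev : ∀ᶠ j in atTop, log (Z deg κ t (L u)) ≤
        log (Z deg κ t (L (x j))) + fd (x j) u * K' / z0 := by
      have hsmall : ∀ᶠ j in atTop, fd (x j) u < κ / 4 := hu.eventually (gt_mem_nhds (by positivity))
      filter_upwards [hsmall] with j hj
      have h1 := Z_le_add hG ht ht1 hκ hκ1 (D.L_nonneg (x j)) (D.L_nonneg u)
        (D.fd_nonneg (x j) u) hj.le (D.lip (x j) u)
      have hZj := Z_pos hG ht hκ0 (D.L_nonneg (x j))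
      have hZu := Z_pos hG ht hκ0 (D.L_nonneg u)
      have h2 : Z deg κ t (L u) ≤ Z deg κ t (L (x j)) * (1 + fd (x j) u * K' / z0) := by
        refine h1.trans ?_
        rw [mul_add, mul_one]
        have h3 : fd (x j) u * K' = z0 * (fd (x j) u * K' / z0) := by field_simp
        have h4 : z0 * (fd (x j) u * K' / z0) ≤ Z deg κ t (L (x j)) * (fd (x j) u * K' / z0) :=
          mul_le_mul_of_nonneg_right (hZ0 j)
            (div_nonneg (mul_nonneg (D.fd_nonneg _ _) hK'0) hz0pos.le)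
        linarith
      have h5 : 0 < 1 + fd (x j) u * K' / z0 := by
        have := div_nonneg (mul_nonneg (D.fd_nonneg (x j) u) hK'0) hz0pos.le
        linarith
      calc log (Z deg κ t (L u)) ≤ log (Z deg κ t (L (x j)) * (1 + fd (x j) u * K' / z0)) :=
            log_le_log hZu h2
        _ = log (Z deg κ t (L (x j))) + log (1 + fd (x j) u * K' / z0) :=
            log_mul hZj.ne' h5.ne'
        _ ≤ log (Z deg κ t (L (x j))) + fd (x j) u * K' / z0 := by
            have := log_le_sub_one_of_pos h5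
            linarith
    refine le_of_forall_pos_le_add fun δ hδ => ?_
    have hδev : ∀ᶠ j in atTop, fd (x j) u * K' / z0 < δ := by
      have h6 : Tendsto (fun j => fd (x j) u * K' / z0) atTop (𝓝 (0 * K' / z0)) :=
        (hu.mul_const K').div_const z0
      rw [zero_mul, zero_div] at h6
      exact h6.eventually (gt_mem_nhds hδ)
    have hAu : A u ≤ a - log (Z deg κ t (L u)) + δ := by
      refine hulsc _ ?_
      filter_upwards [hev, hδev, ha] with j h1 h2 h3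
      unfold H at h3
      linarith
    unfold H
    linarith
  obtain ⟨u, hu1, hu2⟩ := R241.B11.ekeland fd D.fd_self D.fd_nonneg D.fd_tri (H deg A L κ t)
    (-((n : ℝ) + 1) * log t - K) hlow' hcomp ε hε x₀
  refine ⟨u, ?_, hu2⟩
  have := mul_nonneg hε.le (D.fd_nonneg x₀ u)
  linarith

/-- (6.1) V0 at an Ekeland point: `A ≤ E[t L] + ε A C₁`. -/
theorem V0 (D : Data deg n c C A L fd C1) (hκ : 1 / 2 ≤ κ) (hκ1 : κ ≤ 1) (ht : 0 < t)
    (ht1 : t ≤ 1) {ε : ℝ} (hε : 0 ≤ ε) (F : α)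
    (hF : ∀ G, H deg A L κ t F ≤ H deg A L κ t G + ε * fd F G) :
    A F ≤ Ex deg κ t (L F) (fun p => t * L F p) + ε * (A F * C1) := by
  have hG := D.growth
  have hκ0 : 0 < κ := by linarith
  have hC1 := D.C1_pos
  have hA := D.A_nonneg F
  set b := A F * C1 with hb
  have hb0 : 0 ≤ b := by positivity
  set K5 := (b ^ 2 * 128) * (C * 4 ^ (n + 1)) * (1 + b) ^ (n + 1) / c with hK5
  have hK5' : 0 ≤ K5 := by have := C_nonneg hG; have := hG.c_pos; positivity
  refine le_of_forall_pos_le_add fun η hη => ?_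
  -- choose `δ`
  obtain ⟨δ, hδ0, hδ1, hδb, hδη⟩ : ∃ δ : ℝ, 0 < δ ∧ δ < 1 ∧ δ * b ≤ κ / 4 ∧ δ * K5 ≤ η := by
    refine ⟨min (1 / 2) (min (κ / 4 / (b + 1)) (η / (K5 + 1))), ?_, ?_, ?_, ?_⟩
    · exact lt_min (by norm_num) (lt_min (by positivity) (by positivity))
    · exact lt_of_le_of_lt (min_le_left _ _) (by norm_num)
    · have h1 : min (1 / 2) (min (κ / 4 / (b + 1)) (η / (K5 + 1))) ≤ κ / 4 / (b + 1) :=
        (min_le_right _ _).trans (min_le_left _ _)
      calc _ ≤ κ / 4 / (b + 1) * b := mul_le_mul_of_nonneg_right h1 hb0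
        _ ≤ κ / 4 := by
          rw [div_mul_eq_mul_div, div_le_iff₀ (by positivity)]
          nlinarith
    · have h1 : min (1 / 2) (min (κ / 4 / (b + 1)) (η / (K5 + 1))) ≤ η / (K5 + 1) :=
        (min_le_right _ _).trans (min_le_right _ _)
      calc _ ≤ η / (K5 + 1) * K5 := mul_le_mul_of_nonneg_right h1 hK5'
        _ ≤ η := by
          rw [div_mul_eq_mul_div, div_le_iff₀ (by positivity)]
          nlinarith
  obtain ⟨G, hG1, hG2, hG3⟩ := D.scale F (1 - δ) (by linarith) (by linarith)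
  have h1 := hF G
  have h2 := log_Z_loss hG ht ht1 hκ hκ1 (D.L_nonneg F) (a := b) hb0 (D.L_le F)
    (L' := L G) (g := L F) (b := b) (μ := δ) hb0 hδ0.le hδb (D.L_nonneg F) (D.L_le F)
    (D.L_nonneg G) (fun p => by have := hG2 p; linarith)
  unfold H at h1
  have h3 : ε * fd F G ≤ ε * (δ * b) := by
    apply mul_le_mul_of_nonneg_left _ hε
    have : (1 : ℝ) - (1 - δ) = δ := by ring
    rw [this] at hG3
    exact hG3
  -- `δ A ≤ δ E + δ² K5 + ε δ b`
  have h4 : δ * A F ≤ δ * (Ex deg κ t (L F) (fun p => t * L F p) + ε * b + δ * K5) := by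
    have h5 : δ ^ 2 * K5 = δ * (δ * K5) := by ring
    rw [← hK5] at h2
    nlinarith
  have h6 := le_of_mul_le_mul_left h4 hδ0
  linarith

end Crest.Agent.R271.Gibbs302
end

-- ▼ part R271/Exist3_302
section

/-!
# R271, Parts 4, 5.3 (numerical half), 6.1: existence of Ekeland points, abstract form
-/

set_option autoImplicit false

open Real Finset Filter Topology

namespace Crest.Agent.R271.Gibbs302

variable {P : Type*} {α : Type*}
variable {deg : P → ℝ} {n : ℕ} {c C : ℝ} {κ t : ℝ} {A : α → ℝ} {L : α → P → ℝ}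
  {fd : α → α → ℝ} {C1 : ℝ}

/-- pigeonhole (4.4) -/
def PH : Prop := ∀ (h : ℝ → ℝ) (d K : ℝ), 0 < d →
  (∀ t, 0 < t → t ≤ 1 → h t ≤ -d * Real.log t + K) →
  (∀ t, 0 < t → t ≤ 1 → -d * Real.log t - K ≤ h t) →
  ∀ a : ℝ, 0 < a → ∀ e : ℝ, 0 < e → ∀ t₀ : ℝ, 0 < t₀ →
    ∃ t, 0 < t ∧ t ≤ t₀ ∧ t * (1 + a) ≤ 1 ∧
      h t - h (t * (1 + a)) ≤ (d + e) * Real.log (1 + a)

/-- numerical half of (5.3) -/
theorem caseB_gain (D : Data deg n c C A L fd C1)
    (ord : P → ℝ) (hord0 : ∀ p, 0 ≤ ord p) (hord : ∀ p, ord p ≤ C1 * deg p)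
    (hordF : ∀ s : ℝ, 0 < s → ∃ G, A G ≤ s * n ∧ ∀ p, s * ord p ≤ L G p)
    (η₃ t₃ : ℝ) (hη₃ : 0 < η₃)
    (hB : ∀ κ t : ℝ, 1 / 2 ≤ κ → κ ≤ 1 → 0 < t → t ≤ t₃ → t ≤ 1 →
      n + η₃ ≤ Ex deg κ t (fun _ => 0) (fun p => t * ord p)) :
    ∃ η₁ : ℝ, 0 < η₁ ∧ ∃ G : α, ∀ κ t : ℝ, 1 / 2 ≤ κ → κ ≤ 1 → 0 < t → t ≤ t₃ → t ≤ 1 →
      H deg A L κ t G ≤ log (Z deg κ t (fun _ => 0)) - η₁ := by
  have hG := D.growth
  have hC1 := D.C1_pos
  have hC := C_nonneg hG
  have hc := hG.c_pos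
  set K3 : ℝ := (C1 ^ 2 * 256) * (C * 4 ^ (n + 1)) * (1 + 0) ^ (n + 1) / c with hK3
  have hK30 : 0 ≤ K3 := by positivity
  set s : ℝ := η₃ / (K3 + 1) with hs
  have hs0 : 0 < s := by positivity
  have hsK : s * K3 ≤ η₃ := by
    rw [hs, div_mul_eq_mul_div, div_le_iff₀ (by positivity)]
    nlinarith
  obtain ⟨G, hG1, hG2⟩ := hordF s hs0
  refine ⟨s * η₃ / 2, by positivity, G, fun κ t hκ hκ1 ht ht3 ht1 => ?_⟩
  have hκ0 : 0 < κ := by linarith
  have h1 := log_Z_gain hG ht hκ0 (L := fun _ => 0) (fun _ => le_rfl) (L' := L G)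
    (g := fun p => s * ord p) (b := s * C1) (by positivity)
    (fun p => mul_nonneg hs0.le (hord0 p))
    (fun p => by have := mul_le_mul_of_nonneg_left (hord p) hs0.le; linarith)
    (fun p => by simpa using hG2 p)
  have e1 : Ex deg κ t (fun _ => 0) (fun p => t * (s * ord p))
      = s * Ex deg κ t (fun _ => 0) (fun p => t * ord p) := by
    rw [← Ex_mul_left]
    congr 1; funext p; ring
  have e2 : Ex deg κ t (fun _ => 0) (fun p => (t * (s * ord p)) ^ 2)
      = s ^ 2 * Ex deg κ t (fun _ => 0) (fun p => (t * ord p) ^ 2) := by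
    rw [← Ex_mul_left]
    congr 1; funext p; ring
  rw [e1, e2] at h1
  have h2 := hB κ t hκ hκ1 ht ht3 ht1
  have h3 : Ex deg κ t (fun _ => 0) (fun p => (t * ord p) ^ 2) ≤ K3 := by
    refine Ex_sq_le hG ht ht1 hκ hκ1 (L := fun _ => 0) (fun _ => le_rfl) (a := 0) le_rfl
      (fun p => by simp) (φ := fun p => t * ord p) (b := C1) hC1.le
      (fun p => mul_nonneg ht.le (hord0 p)) (fun p => ?_)
    have := mul_le_mul_of_nonneg_left (hord p) ht.le
    linarith
  unfold H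
  have h4 : s * (n + η₃) ≤ s * Ex deg κ t (fun _ => 0) (fun p => t * ord p) :=
    mul_le_mul_of_nonneg_left h2 hs0.le
  have h5 : s ^ 2 * Ex deg κ t (fun _ => 0) (fun p => (t * ord p) ^ 2) ≤ s * η₃ := by
    calc s ^ 2 * Ex deg κ t (fun _ => 0) (fun p => (t * ord p) ^ 2)
        ≤ s ^ 2 * K3 := mul_le_mul_of_nonneg_left h3 (by positivity)
      _ = s * (s * K3) := by ring
      _ ≤ s * η₃ := mul_le_mul_of_nonneg_left hsK hs0.le
  nlinarith

/-- MAIN abstract existence theorem -/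
theorem exi_abs (hPH : PH) (D : Data deg n c C A L fd C1)
    (ord : P → ℝ) (hord0 : ∀ p, 0 ≤ ord p) (hord : ∀ p, ord p ≤ C1 * deg p)
    (hordF : ∀ s : ℝ, 0 < s → ∃ G, A G ≤ s * n ∧ ∀ p, s * ord p ≤ L G p)
    (η₃ t₃ : ℝ) (hη₃ : 0 < η₃) (ht₃ : 0 < t₃)
    (hB : ∀ κ t : ℝ, 1 / 2 ≤ κ → κ ≤ 1 → 0 < t → t ≤ t₃ → t ≤ 1 →
      n + η₃ ≤ Ex deg κ t (fun _ => 0) (fun p => t * ord p)) :
    ∃ η₀ : ℝ, 0 < η₀ ∧ ∃ K : ℝ, ∀ κ : ℝ, 1 / 2 ≤ κ → κ ≤ 1 → ∀ ε₁ : ℝ, 0 < ε₁ →
      ∀ ε : ℝ → ℝ, (∀ t, 0 < ε t) → ∀ t₀ : ℝ, 0 < t₀ →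
        ∃ (t : ℝ) (F : α) (ε' : ℝ), 0 < t ∧ t ≤ t₀ ∧ t ≤ 1 ∧ 0 < ε' ∧ ε' ≤ ε t ∧
          (∀ G, H deg A L κ t F ≤ H deg A L κ t G + ε' * fd F G) ∧
          η₀ ≤ A F ∧ A F ≤ K ∧
          κ * (Ex deg κ t (L F) (fun p => t * deg p) + ε') ≤ n + 1 + ε₁ - A F := by
  classical
  have hG := D.growth
  have hC1 := D.C1_pos
  have hC := C_nonneg hG
  have hc := hG.c_pos
  obtain ⟨K0, hK0⟩ := H_lower hG D.C1_pos
  obtain ⟨K1, hK1⟩ := log_Z_upper hG
  obtain ⟨K2, hK20, hK2⟩ := H_jensen hG D.C1_pos.le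
  obtain ⟨η₁, hη₁, G₀, hG₀⟩ := caseB_gain D ord hord0 hord hordF η₃ t₃ hη₃ hB
  have hlow : ∀ κ t F, 1 / 2 ≤ κ → κ ≤ 1 → 0 < t →
      -((n : ℝ) + 1) * log t + A F / 2 - K0 ≤ H deg A L κ t F := fun κ t F hκ hκ1 ht =>
    hK0 κ t (A F) (L F) hκ hκ1 ht (D.A_nonneg F) (D.L_nonneg F) (D.L_le F)
  refine ⟨η₁ / (2 * K2), by positivity, 2 * (K0 + K1), ?_⟩
  intro κ hκ hκ1 ε₁ hε₁ ε hε t₀ ht₀
  have hκ0 : 0 < κ := by linarith
  -- the infimum
  set h : ℝ → ℝ := fun t => ⨅ F : α, H deg A L κ t F with hh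
  have hbdd : ∀ t, 0 < t → BddBelow (Set.range (fun F : α => H deg A L κ t F)) := by
    intro t ht
    refine ⟨-((n : ℝ) + 1) * log t - K0, ?_⟩
    rintro _ ⟨F, rfl⟩
    have := hlow κ t F hκ hκ1 ht
    have := D.A_nonneg F
    simp only
    linarith
  have hne : Nonempty α := ⟨G₀⟩
  have hle : ∀ t F, 0 < t → h t ≤ H deg A L κ t F := fun t F ht => ciInf_le (hbdd t ht) F
  have hhlow : ∀ t, 0 < t → -((n : ℝ) + 1) * log t - K0 ≤ h t := by
    intro t ht
    refine le_ciInf (fun F => ?_)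
    have := hlow κ t F hκ hκ1 ht
    have := D.A_nonneg F
    linarith
  have hhup : ∀ t, 0 < t → t ≤ 1 → h t ≤ -((n : ℝ) + 1) * log t + (A G₀ + K1) := by
    intro t ht ht1
    refine (hle t G₀ ht).trans ?_
    unfold H
    have := hK1 κ t (L G₀) hκ hκ1 ht ht1 (D.L_nonneg G₀)
    linarith
  -- constants
  set Am : ℝ := max (2 * (K0 + K1)) 0 with hAm
  have hAm0 : 0 ≤ Am := le_max_right _ _
  set K4 : ℝ := ((1 + Am * C1) ^ 2 * 256) * (C * 4 ^ (n + 1)) * (1 + Am * C1) ^ (n + 1) / c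
    with hK4
  have hK40 : 0 ≤ K4 := by positivity
  set a : ℝ := ε₁ / (4 * (K4 + 1)) with ha
  have ha0 : 0 < a := by positivity
  have haK : a * K4 ≤ ε₁ / 4 := by
    rw [ha, div_mul_eq_mul_div, div_le_iff₀ (by positivity)]
    nlinarith
  set KK : ℝ := max K0 (A G₀ + K1) with hKK
  obtain ⟨t, ht, htt₀, hta, htph⟩ := hPH h ((n : ℝ) + 1) KK (by positivity)
    (fun t ht ht1 => (hhup t ht ht1).trans (by have := le_max_right K0 (A G₀ + K1); linarith))
    (fun t ht ht1 => le_trans (by have := le_max_left K0 (A G₀ + K1); linarith) (hhlow t ht))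
    a ha0 (ε₁ / 8) (by positivity) (min t₀ t₃) (lt_min ht₀ ht₃)
  have ht1 : t ≤ 1 := by nlinarith
  have htt0 : t ≤ t₀ := htt₀.trans (min_le_left _ _)
  have htt3 : t ≤ t₃ := htt₀.trans (min_le_right _ _)
  -- near minimiser
  set e2 : ℝ := min (a * ε₁ / 8) (η₁ / 2) with he2
  have he20 : 0 < e2 := lt_min (by positivity) (by positivity)
  obtain ⟨x₀, hx₀⟩ := exists_lt_of_ciInf_lt (show h t < h t + e2 by linarith)
  set ε' : ℝ := min (ε t) (ε₁ / (2 * (Am * C1 + 1))) with hε'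
  have hε'0 : 0 < ε' := lt_min (hε t) (by positivity)
  obtain ⟨F, hF1, hF2⟩ := ekeland_point D hκ hκ1 ht ht1 hε'0 x₀
  have hHF : H deg A L κ t F ≤ h t + e2 := hF1.trans hx₀.le
  have hJ : h t ≤ log (Z deg κ t (fun _ => 0)) - η₁ :=
    (hle t G₀ ht).trans (hG₀ κ t hκ hκ1 ht htt3 ht1)
  have hHF2 : H deg A L κ t F ≤ log (Z deg κ t (fun _ => 0)) - η₁ / 2 := by
    have : e2 ≤ η₁ / 2 := min_le_right _ _
    linarith
  -- `A F ≤ K`
  have hAF : A F ≤ 2 * (K0 + K1) := by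
    have h1 := hlow κ t F hκ hκ1 ht
    have h2 := hK1 κ t (fun _ => 0) hκ hκ1 ht ht1 (fun _ => le_rfl)
    linarith
  have hAFm : A F ≤ Am := hAF.trans (le_max_left _ _)
  -- `η₀ ≤ A F`
  have hη : η₁ / (2 * K2) ≤ A F := by
    have h1 := hK2 κ t (A F) (L F) hκ hκ1 ht ht1 (D.A_nonneg F) (D.L_nonneg F) (D.L_le F)
    unfold H at hHF2
    have h2 := D.A_nonneg F
    rw [div_le_iff₀ (by positivity)]
    nlinarith
  refine ⟨t, F, ε', ht, htt0, ht1, hε'0, min_le_left _ _, hF2, hη, hAF, ?_⟩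
  -- first variations
  have hLF : ∀ p, L F p ≤ Am * C1 * deg p := fun p => by
    refine (D.L_le F p).trans ?_
    apply mul_le_mul_of_nonneg_right _ (hG.deg_nonneg p)
    exact mul_le_mul_of_nonneg_right hAFm hC1.le
  have hV0 := V0 D hκ hκ1 ht ht1 hε'0.le F hF2
  have htime := log_Z_time hG ht hκ0 (D.L_nonneg F) (a := Am * C1) (by positivity) hLF
    (h := a) ha0.le
  have hsq : Ex deg κ t (L F) (fun p => (t * (κ * deg p + L F p)) ^ 2) ≤ K4 := by
    refine Ex_sq_le hG ht ht1 hκ hκ1 (D.L_nonneg F) (a := Am * C1) (by positivity) hLF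
      (φ := fun p => t * (κ * deg p + L F p)) (b := 1 + Am * C1) (by positivity)
      (fun p => ?_) (fun p => ?_)
    · have h1 := hG.deg_nonneg p
      have h2 := D.L_nonneg F p
      positivity
    · have h1 := hG.deg_nonneg p
      have h2 : κ * deg p ≤ 1 * deg p := mul_le_mul_of_nonneg_right hκ1 h1
      have h3 := mul_le_mul_of_nonneg_left (add_le_add h2 (hLF p)) ht.le
      linarith
  have hta1 : 0 < t * (1 + a) := by positivity
  have hnext : h (t * (1 + a)) ≤ H deg A L κ (t * (1 + a)) F := hle _ F hta1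
  unfold H at hnext hHF
  have hlog : Real.log (1 + a) ≤ a := by
    have := log_le_sub_one_of_pos (show (0 : ℝ) < 1 + a by linarith)
    linarith
  have hph2 : h t - h (t * (1 + a)) ≤ ((n : ℝ) + 1 + ε₁ / 8) * a := by
    refine htph.trans ?_
    apply mul_le_mul_of_nonneg_left hlog (by positivity)
  set EW := Ex deg κ t (L F) (fun p => t * (κ * deg p + L F p)) with hEW
  have he2' : e2 ≤ a * ε₁ / 8 := min_le_left _ _
  -- `a EW ≤ …`
  have h5 : a * EW ≤ a * ((n : ℝ) + 1 + ε₁ / 2) := by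
    have h6 : a ^ 2 / 2 * Ex deg κ t (L F) (fun p => (t * (κ * deg p + L F p)) ^ 2)
        ≤ a * (ε₁ / 8) := by
      calc a ^ 2 / 2 * Ex deg κ t (L F) (fun p => (t * (κ * deg p + L F p)) ^ 2)
          ≤ a ^ 2 / 2 * K4 := mul_le_mul_of_nonneg_left hsq (by positivity)
        _ = a / 2 * (a * K4) := by ring
        _ ≤ a / 2 * (ε₁ / 4) := mul_le_mul_of_nonneg_left haK (by positivity)
        _ = a * (ε₁ / 8) := by ring
    have h7 : 0 < a * ε₁ := by positivity
    have e1 : a * ((n : ℝ) + 1 + ε₁ / 2) = a * ((n : ℝ) + 1) + a * ε₁ / 2 := by ring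
    have e2' : ((n : ℝ) + 1 + ε₁ / 8) * a = a * ((n : ℝ) + 1) + a * ε₁ / 8 := by ring
    have e3 : a * (ε₁ / 8) = a * ε₁ / 8 := by ring
    rw [e1]
    rw [e2'] at hph2
    rw [e3] at h6
    linarith
  have h8 : EW ≤ (n : ℝ) + 1 + ε₁ / 2 := le_of_mul_le_mul_left h5 ha0
  -- split `EW`
  have s1 : Summable fun p => w deg κ t (L F) p * (κ * (t * deg p)) := by
    have := (summable_lin hG ht hκ0 (D.L_nonneg F) (φ := fun p => t * deg p) (a := 1) zero_le_one
      (fun p => mul_nonneg ht.le (hG.deg_nonneg p)) (fun p => by rw [one_mul])).mul_left κ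
    refine this.congr (fun p => by ring)
  have s2 : Summable fun p => w deg κ t (L F) p * (t * L F p) := by
    refine summable_lin hG ht hκ0 (D.L_nonneg F) (φ := fun p => t * L F p) (a := Am * C1)
      (by positivity) (fun p => mul_nonneg ht.le (D.L_nonneg F p)) (fun p => ?_)
    have := mul_le_mul_of_nonneg_left (hLF p) ht.le
    linarith
  have h9 : EW = κ * Ex deg κ t (L F) (fun p => t * deg p) + Ex deg κ t (L F) (fun p => t * L F p) := by
    rw [hEW, ← Ex_mul_left, ← Ex_add s1 s2]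
    congr 1; funext p; ring
  have h10 : ε' * (Am * C1 + 1) ≤ ε₁ / 2 := by
    have h11 : ε' ≤ ε₁ / (2 * (Am * C1 + 1)) := min_le_right _ _
    have h12 : (0 : ℝ) < Am * C1 + 1 := by positivity
    calc ε' * (Am * C1 + 1) ≤ ε₁ / (2 * (Am * C1 + 1)) * (Am * C1 + 1) :=
          mul_le_mul_of_nonneg_right h11 h12.le
      _ = ε₁ / 2 := by field_simp
  have h13 : ε' * (A F * C1) ≤ ε' * (Am * C1) :=
    mul_le_mul_of_nonneg_left (mul_le_mul_of_nonneg_right hAFm hC1.le) hε'0.le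
  have h14 : κ * ε' ≤ 1 * ε' := mul_le_mul_of_nonneg_right hκ1 hε'0.le
  have h15 : κ * (Ex deg κ t (L F) (fun p => t * deg p) + ε')
      = κ * Ex deg κ t (L F) (fun p => t * deg p) + κ * ε' := by ring
  have h16 : ε' * (Am * C1 + 1) = ε' * (Am * C1) + ε' := by ring
  rw [h15]
  rw [h16] at h10
  linarith

end Crest.Agent.R271.Gibbs302
end

-- ▼ part R271/Lim_140
section

/-!
Row 271, team F, (4.5): the space of filtrations with the distance `fdist` is complete.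
-/

set_option autoImplicit false

open scoped ENNReal NNReal Topology BigOperators
open MeasureTheory Filter Crest.Agent.R271.Defs710

noncomputable section

namespace Crest.Agent.R271.F140

variable {B : Type} [CommRing B] [Algebra ℂ B] {V : ℕ → Submodule ℂ B}

/-- limit of a sequence of filtrations -/
def limF (G : ℕ → Filt V) (e : ℕ → ℝ) (h : ∀ k j, k ≤ j → Adm (G k) (G j) (e k)) : Filt V where
  F m l :=
    { carrier := {b | ∀ l' < l, ∀ᶠ k in atTop, b ∈ (G k).F m l'}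
      add_mem' := fun {a b} ha hb l' hl' => by
        filter_upwards [ha l' hl', hb l' hl'] with k h1 h2
        exact Submodule.add_mem _ h1 h2
      zero_mem' := fun l' _ => Eventually.of_forall fun k => Submodule.zero_mem _
      smul_mem' := fun c a ha l' hl' => by
        filter_upwards [ha l' hl'] with k h1
        exact Submodule.smul_mem _ c h1 }
  le_V m l := by
    intro b hb
    obtain ⟨k, hk⟩ := (hb (l - 1) (by linarith)).exists
    exact (G k).le_V m _ hk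
  zero m l hl := by
    refine le_antisymm ?_ ?_
    · intro b hb
      obtain ⟨k, hk⟩ := (hb (l - 1) (by linarith)).exists
      exact (G k).le_V m _ hk
    · intro b hb l' hl'
      refine Eventually.of_forall fun k => ?_
      rw [(G k).zero m l' (by linarith)]
      exact hb
  anti m l l' hll b hb l'' hl'' := hb l'' (lt_of_lt_of_le hl'' hll)
  cont m l b hb l' hl' := by
    obtain ⟨u, hu1, hu2⟩ := exists_between hl'
    exact hb u hu2 l' hu1
  mul m l m' l' a b ha hb := by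
    intro l'' hl''
    have h1 := ha (l - (l + l' - l'') / 2) (by linarith)
    have h2 := hb (l' - (l + l' - l'') / 2) (by linarith)
    filter_upwards [h1, h2] with k h1 h2
    have := (G k).mul m _ m' _ a b h1 h2
    refine (G k).anti (m + m') (le_of_eq ?_) this
    ring
  bdd := by
    obtain ⟨C, hC⟩ := (G 0).bdd
    refine ⟨C + e 0, fun m l hl => ?_⟩
    rw [Submodule.eq_bot_iff]
    intro b hb
    obtain ⟨l', hl1, hl2⟩ := exists_between hl
    obtain ⟨k, hk⟩ := (hb l' hl2).exists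
    have h1 := (h 0 k (Nat.zero_le k)).2 m l'
    have h2 := h1.2 hk
    rw [hC m _ (by linarith)] at h2
    simpa using h2

theorem mem_limF {G : ℕ → Filt V} {e : ℕ → ℝ} {h : ∀ k j, k ≤ j → Adm (G k) (G j) (e k)}
    {m : ℕ} {l : ℝ} {b : B} :
    b ∈ (limF G e h).F m l ↔ ∀ l' < l, ∀ᶠ k in atTop, b ∈ (G k).F m l' := Iff.rfl

theorem adm_limF (G : ℕ → Filt V) (e : ℕ → ℝ) (h : ∀ k j, k ≤ j → Adm (G k) (G j) (e k)) (k : ℕ) :
    Adm (G k) (limF G e h) (e k) := by
  refine ⟨(h k k le_rfl).1, fun m l => ⟨fun b hb => ?_, fun b hb => ?_⟩⟩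
  · rw [mem_limF]
    intro l' hl'
    filter_upwards [eventually_ge_atTop k] with j hj
    exact (G j).anti m hl'.le (((h k j hj).2 m l).1 hb)
  · rw [mem_limF] at hb
    refine (G k).cont m _ b fun l'' hl'' => ?_
    obtain ⟨j, hj1, hj2⟩ := ((hb (l'' + e k * m) (by linarith)).and (eventually_ge_atTop k)).exists
    have := ((h k j hj2).2 m _).2 hj1
    simpa using this

/-- completeness: the limit of a Cauchy sequence, with rate -/
theorem exists_lim (G : ℕ → Filt V) (e : ℕ → ℝ) (h : ∀ k j, k ≤ j → Adm (G k) (G j) (e k)) :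
    ∃ F : Filt V, ∀ k, Adm (G k) F (e k) := ⟨limF G e h, adm_limF G e h⟩

/-- completeness with `fdist` and a rate -/
theorem exists_lim_fdist (G : ℕ → Filt V) (e : ℕ → ℝ) (h : ∀ k j, k ≤ j → fdist (G k) (G j) ≤ e k) :
    ∃ F : Filt V, ∀ k, fdist (G k) F ≤ e k := by
  obtain ⟨F, hF⟩ := exists_lim G e fun k j hkj => fdist_le_iff.1 (h k j hkj)
  exact ⟨F, fun k => fdist_le (hF k)⟩

/-- the metric space of filtrations -/
@[reducible] def filtMetric (V : ℕ → Submodule ℂ B) : MetricSpace (Filt V) where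
  dist := fdist
  dist_self := fdist_self
  dist_comm := fdist_symm
  dist_triangle := fdist_triangle
  eq_of_dist_eq_zero := eq_of_fdist_eq_zero

theorem filt_complete (V : ℕ → Submodule ℂ B) :
    @CompleteSpace (Filt V) (filtMetric V).toUniformSpace := by
  let _ := filtMetric V
  refine Metric.complete_of_convergent_controlled_sequences (fun k => (1 / 2 : ℝ) ^ k)
    (fun k => by positivity) ?_
  intro u hu
  obtain ⟨F, hF⟩ := exists_lim_fdist u (fun k => (1 / 2 : ℝ) ^ k)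
    (fun k j hkj => (hu k k j le_rfl hkj).le)
  refine ⟨F, ?_⟩
  rw [tendsto_iff_dist_tendsto_zero]
  exact squeeze_zero (fun _ => dist_nonneg) hF
    (tendsto_pow_atTop_nhds_zero_of_lt_one (by norm_num) (by norm_num))


end Crest.Agent.R271.F140
end
end

-- ▼ part R271/PH_593
section

/-!
Row 271, (4.4): the pigeonhole principle for the logarithmic derivative.
-/

set_option autoImplicit false

namespace Crest.Agent.R271.PH593

/-- (4.4) -/
theorem pigeonhole (h : ℝ → ℝ) (d K : ℝ) (_hd : 0 < d)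
    (hup : ∀ t, 0 < t → t ≤ 1 → h t ≤ -d * Real.log t + K)
    (hlo : ∀ t, 0 < t → t ≤ 1 → -d * Real.log t - K ≤ h t) (a : ℝ) (ha : 0 < a) (e : ℝ)
    (he : 0 < e) (t₀ : ℝ) (ht₀ : 0 < t₀) :
    ∃ t, 0 < t ∧ t ≤ t₀ ∧ t * (1 + a) ≤ 1 ∧ h t - h (t * (1 + a)) ≤ (d + e) * Real.log (1 + a) := by
  by_contra hcon
  push Not at hcon
  set q : ℝ := 1 + a with hq
  have hq1 : 1 < q := by linarith
  have hq0 : 0 < q := by linarith
  have hlq : 0 < Real.log q := Real.log_pos hq1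
  -- start point `s ≤ min t₀ 1 / q`
  set s : ℝ := min t₀ 1 / q with hs
  have hmin : 0 < min t₀ 1 := lt_min ht₀ one_pos
  have hs0 : 0 < s := div_pos hmin hq0
  have hsq : s * q = min t₀ 1 := div_mul_cancel₀ _ hq0.ne'
  -- the sequence `s / q^j`
  have hpos : ∀ j : ℕ, 0 < s / q ^ j := fun j => div_pos hs0 (pow_pos hq0 j)
  have hle : ∀ j : ℕ, s / q ^ j * q ≤ min t₀ 1 := by
    intro j
    rw [← hsq]
    exact mul_le_mul_of_nonneg_right (div_le_self hs0.le (one_le_pow₀ hq1.le)) hq0.le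
  have hle' : ∀ j : ℕ, s / q ^ j ≤ min t₀ 1 := by
    intro j
    refine le_trans ?_ (hle j)
    nlinarith [hpos j]
  have hstep : ∀ j : ℕ, (d + e) * Real.log q < h (s / q ^ (j + 1)) - h (s / q ^ j) := by
    intro j
    have h1 := hcon (s / q ^ (j + 1)) (hpos _) ((hle' _).trans (min_le_left _ _))
      ((hle _).trans (min_le_right _ _))
    have h2 : s / q ^ (j + 1) * q = s / q ^ j := by
      rw [pow_succ]; field_simp
    rwa [h2] at h1
  have hsum : ∀ N : ℕ, N * ((d + e) * Real.log q) ≤ h (s / q ^ N) - h s := by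
    intro N
    induction N with
    | zero => simp
    | succ N ih =>
      have h1 := hstep N
      push_cast
      linarith
  -- upper bound
  have hub : ∀ N : ℕ, h (s / q ^ N) ≤ -d * Real.log s + d * (N * Real.log q) + K := by
    intro N
    have h1 := hup (s / q ^ N) (hpos N) ((hle' N).trans (min_le_right _ _))
    rw [Real.log_div hs0.ne' (pow_pos hq0 N).ne', Real.log_pow] at h1
    linarith
  have hs1 : s ≤ 1 := by
    have := (hle' 0).trans (min_le_right _ _)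
    simpa using this
  have hlb := hlo s hs0 hs1
  -- choose `N` large
  obtain ⟨N, hN⟩ := exists_nat_gt (2 * K / (e * Real.log q))
  have hN' : 2 * K < N * (e * Real.log q) := by
    rwa [div_lt_iff₀ (by positivity)] at hN
  have h1 := hsum N
  have h2 := hub N
  nlinarith

end Crest.Agent.R271.PH593
end

-- ▼ part R271/Exi_302
section

/-!
# R271: `ExiMain` (Parts 4, 5.3, 6) from the sums form of Case B
-/

set_option autoImplicit false

open scoped ENNReal NNReal Topology BigOperators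
open Finset Module Filter

noncomputable section

namespace Crest.Agent.R271.Exi302

open Crest.Agent.R271.Defs710 Crest.Agent.R271.Assembly710 Crest.Agent.R271.Jump302
open Crest.Agent.R271.Gibbs302

variable {n : ℕ}

/-- sums form of (5.3)/(9.4) -/
def CaseBSum (X : FCtx n) : Prop :=
  ∃ (C₁ : ℕ) (η₃ τ₀ : ℝ), 0 < η₃ ∧ 0 < τ₀ ∧ ∀ τ : ℝ, 0 < τ → τ ≤ τ₀ →
    ((n : ℝ) + η₃) / τ * ∑' m : ℕ, Real.exp (-τ * m) * (finrank ℂ (X.V m) : ℝ) ≤
      ∑' m : ℕ, Real.exp (-τ * m) * ∑ e ∈ Finset.Icc 1 (C₁ * m), (dimOrd X m e : ℝ)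

/-- filtrations with finite threshold at `x` -/
abbrev FT (X : FCtx n) : Type := {F : Filt X.V // thr X.z F X.x ≠ ∞}

/-- threshold as a real number -/
def AA (X : FCtx n) (F : FT X) : ℝ := (thr X.z F.1 X.x).toReal

lemma thr_eq (X : FCtx n) (F : FT X) : thr X.z F.1 X.x = ENNReal.ofReal (AA X F) :=
  (ENNReal.ofReal_toReal F.2).symm

/-- the abstract data -/
theorem data (X : FCtx n) (af : AFacts X) : ∃ c C C1 : ℝ, 0 < C1 ∧
    (∃ C₁ : ℕ, (C₁ : ℝ) ≤ C1 ∧ ∀ m, ∀ f ∈ X.V m, f ≠ 0 → ∀ (y : X.B →ₐ[ℂ] ℂ) (e : ℕ),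
      f ∈ mI y ^ e → e ≤ C₁ * m) ∧
    Data (deg : Idx X.V → ℝ) n c C (AA X) (fun F => LL F.1)
      (fun F G => fdist F.1 G.1) C1 := by
  classical
  have hfd := X.V_fin
  obtain ⟨c, C, hG⟩ := Growth302.growth_V X
  obtain ⟨C₁, hC₁⟩ := X.ordbd
  have hC₁0 : (0 : ℝ) ≤ C₁ := Nat.cast_nonneg _
  refine ⟨c, C, (C₁ : ℝ) + 1, by positivity, ⟨C₁, by linarith, hC₁⟩, ?_⟩
  have hA0 : ∀ F : FT X, 0 ≤ AA X F := fun F => ENNReal.toReal_nonneg
  have hbot : ∀ (F : FT X) (m : ℕ) (l : ℝ), AA X F * (C₁ * m) < l → F.1.F m l = ⊥ :=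
    fun F m l hl => F140.F_eq_bot af hC₁ F.1 (hA0 F) (thr_eq X F).le hl
  refine
    { growth := hG
      C1_pos := by positivity
      A_nonneg := hA0
      L_nonneg := fun F p => LL_nonneg F.1 p
      L_le := ?_
      fd_self := fun F => F140.fdist_self F.1
      fd_nonneg := fun F G => F140.fdist_nonneg F.1 G.1
      fd_tri := fun F G H => F140.fdist_triangle F.1 G.1 H.1
      lip := ?_
      complete := ?_
      scale := ?_ }
  · rintro F ⟨m, i⟩
    have h1 : jump F.1 m i ≤ AA X F * (C₁ * m) := jump_le F.1 i.2 (hbot F m)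
    refine h1.trans ?_
    change AA X F * (C₁ * m) ≤ AA X F * ((C₁ : ℝ) + 1) * (m : ℝ)
    have hm : (0 : ℝ) ≤ m := Nat.cast_nonneg _
    have := mul_nonneg (hA0 F) hm
    nlinarith
  · rintro F G ⟨m, i⟩
    have h1 := (F140.adm_fdist F.1 G.1).2 m
    exact jump_shift (F := F.1) (G := G.1) (m := m) (i := i) i.2 (a := fdist F.1 G.1 * m)
      (fun l => (h1 l).1)
  · intro x M hM hsum
    let _ := F140.filtMetric X.V
    have hcomp : CompleteSpace (Filt X.V) := F140.filt_complete X.V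
    have hc : CauchySeq (fun j => (x j).1) := by
      apply cauchySeq_of_summable_dist
      exact hsum
    obtain ⟨u, hu⟩ := cauchySeq_tendsto_of_complete hc
    have hu2 : Tendsto (fun j => fdist (x j).1 u) atTop (𝓝 0) :=
      tendsto_iff_dist_tendsto_zero.1 hu
    have hlsc : ∀ a : ℝ, (∀ᶠ j in atTop, AA X (x j) ≤ a) → thr X.z u X.x ≤ ENNReal.ofReal a := by
      intro a ha
      by_contra hcon
      push Not at hcon
      obtain ⟨e, he, H⟩ := F140.lt_thr_lsc af.mono u hcon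
      obtain ⟨j, hj1, hj2⟩ := (ha.and (hu2.eventually (gt_mem_nhds he))).exists
      have hadm := (F140.adm_of_fdist_lt hj2).symm
      have h1 := H (x j).1 (fun m l => (hadm.2 m l).1)
      rw [thr_eq X (x j)] at h1
      exact absurd (ENNReal.ofReal_le_ofReal hj1) (not_le.2 h1)
    have hufin : thr X.z u X.x ≠ ∞ :=
      ne_top_of_le_ne_top ENNReal.ofReal_ne_top (hlsc M (Eventually.of_forall hM))
    refine ⟨⟨u, hufin⟩, hu2, fun a ha => ?_⟩
    obtain ⟨j, hj⟩ := ha.exists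
    have ha0 : 0 ≤ a := (hA0 (x j)).trans hj
    exact ENNReal.toReal_le_of_le_ofReal ha0 (hlsc a ha)
  · intro F s hs hs1
    have hthr := F140.thr_scale s hs F.1 X.x
    have hfin : thr X.z (F140.scale s hs F.1) X.x ≠ ∞ := by
      rw [hthr]
      exact ENNReal.mul_ne_top ENNReal.ofReal_ne_top F.2
    refine ⟨⟨F140.scale s hs F.1, hfin⟩, ?_, ?_, ?_⟩
    · unfold AA
      simp only
      rw [hthr, ENNReal.toReal_mul, ENNReal.toReal_ofReal hs.le]
    · rintro ⟨m, i⟩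
      change s * jump F.1 m i ≤ jump (F140.scale s hs F.1) m i
      rw [le_jump_iff _ i.2, F140.scale_F, mul_div_cancel_left₀ _ hs.ne']
      exact (le_jump_iff F.1 i.2 _).1 le_rfl
    · refine F140.fdist_le ⟨?_, fun m l => ⟨?_, ?_⟩⟩
      · have := hA0 F
        have h1s : 0 ≤ 1 - s := by linarith
        positivity
      · rw [F140.scale_F]
        have hm : (0 : ℝ) ≤ m := Nat.cast_nonneg _
        have he0 : 0 ≤ (1 - s) * (AA X F * ((C₁ : ℝ) + 1)) * m := by
          have := hA0 F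
          have h1s : 0 ≤ 1 - s := by linarith
          positivity
        rcases le_or_gt l 0 with hl | hl
        · rw [F.1.zero m l hl, F.1.zero m _ (div_nonpos_of_nonpos_of_nonneg (by linarith) hs.le)]
        · rcases lt_or_ge (AA X F * (C₁ * m)) l with h2 | h2
          · rw [hbot F m l h2]; exact bot_le
          · apply F.1.anti m
            rw [div_le_iff₀ hs]
            have h3 : l ≤ AA X F * ((C₁ : ℝ) + 1) * m := by
              have := mul_nonneg (hA0 F) hm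
              nlinarith
            have h4 : (1 - s) * l ≤ (1 - s) * (AA X F * ((C₁ : ℝ) + 1) * m) :=
              mul_le_mul_of_nonneg_left h3 (by linarith)
            nlinarith
      · rw [F140.scale_F]
        have hm : (0 : ℝ) ≤ m := Nat.cast_nonneg _
        have he0 : 0 ≤ (1 - s) * (AA X F * ((C₁ : ℝ) + 1)) * m := by
          have := hA0 F
          have h1s : 0 ≤ 1 - s := by linarith
          positivity
        rcases le_or_gt l 0 with hl | hl
        · rw [F.1.zero m (l - _) (by linarith)]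
          exact F.1.le_V m _
        · apply F.1.anti m
          have h5 : l ≤ l / s := by
            rw [le_div_iff₀ hs]
            nlinarith
          linarith

/-- lower bound for the sum of the jumps of the order filtration -/
theorem sum_ord_ge (X : FCtx n) (m K : ℕ) :
    ∑ e ∈ Finset.Icc 1 K, (dimOrd X m e : ℝ) ≤
      ∑ i : Fin (finrank ℂ (X.V m)), jump (F140.ordFilt X X.x 1 one_pos) m i := by
  classical
  have hfd := X.V_fin
  have hF : ∀ e : ℕ, (F140.ordFilt X X.x 1 one_pos).F m (e : ℝ)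
      = X.V m ⊓ ((mI X.x ^ e).restrictScalars ℂ) := by
    intro e
    change X.V m ⊓ (mI X.x ^ ⌈(e : ℝ) / 1⌉₊).restrictScalars ℂ = _
    rw [div_one, Nat.ceil_natCast]
  have hdim : ∀ e : ℕ, dimOrd X m e
      = finrank ℂ ((F140.ordFilt X X.x 1 one_pos).F m (e : ℝ)) := by
    intro e
    rw [hF e]; rfl
  have hle : ∀ e : ℕ, dimOrd X m e ≤ finrank ℂ (X.V m) := by
    intro e
    rw [hdim e]
    exact finrank_le _ m _
  -- pointwise bound
  have hpt : ∀ i : Fin (finrank ℂ (X.V m)),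
      (((Finset.Icc 1 K).filter (fun e => (i : ℕ) < dimOrd X m e)).card : ℝ)
        ≤ jump (F140.ordFilt X X.x 1 one_pos) m i := by
    intro i
    set S := (Finset.Icc 1 K).filter (fun e => (i : ℕ) < dimOrd X m e) with hS
    rcases S.eq_empty_or_nonempty with h0 | hne
    · rw [h0, Finset.card_empty, Nat.cast_zero]
      exact jump_nonneg _ i.2
    · set E := S.max' hne with hE
      have hEmem : E ∈ S := S.max'_mem hne
      have h1 : S.card ≤ E := by
        have h2 : S ⊆ Finset.Icc 1 E := by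
          intro e he
          have h3 := S.le_max' e he
          have h4 := (Finset.mem_filter.1 he).1
          rw [Finset.mem_Icc] at h4 ⊢
          exact ⟨h4.1, h3⟩
        have := Finset.card_le_card h2
        simpa using this
      have h5 : (E : ℝ) ≤ jump (F140.ordFilt X X.x 1 one_pos) m i := by
        rw [le_jump_iff _ i.2, ← hdim E]
        exact (Finset.mem_filter.1 hEmem).2
      exact le_trans (by exact_mod_cast h1) h5
  refine le_trans (le_of_eq ?_) (Finset.sum_le_sum (fun i _ => hpt i))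
  -- double counting
  have h6 : ∀ e : ℕ, (dimOrd X m e : ℝ)
      = ∑ i : Fin (finrank ℂ (X.V m)), if (i : ℕ) < dimOrd X m e then (1 : ℝ) else 0 := by
    intro e
    rw [Finset.sum_boole, Fin.card_filter_val_lt, min_eq_right (hle e)]
  rw [Finset.sum_congr rfl (fun e _ => h6 e), Finset.sum_comm]
  refine Finset.sum_congr rfl (fun i _ => ?_)
  rw [Finset.sum_boole]

/-- order function on the index set -/
def ordL (X : FCtx n) : Idx X.V → ℝ := LL (F140.ordFilt X X.x 1 one_pos)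

/-- Case B in the form of expectations -/
theorem caseB_Ex (X : FCtx n) (hB : CaseBSum X) :
    ∃ η₃ t₃ : ℝ, 0 < η₃ ∧ 0 < t₃ ∧ ∀ κ t : ℝ, 1 / 2 ≤ κ → κ ≤ 1 → 0 < t → t ≤ t₃ → t ≤ 1 →
      n + η₃ ≤ Ex (deg : Idx X.V → ℝ) κ t (fun _ => 0) (fun p => t * ordL X p) := by
  classical
  have hfd := X.V_fin
  obtain ⟨c, C, hG⟩ := Growth302.growth_V X
  obtain ⟨C₁, η₃, τ₀, hη, hτ₀, hB⟩ := hB
  refine ⟨η₃, τ₀, hη, hτ₀, fun κ t hκ hκ1 ht htt ht1 => ?_⟩
  have hκ0 : 0 < κ := by linarith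
  have hτ : 0 < t * κ := by positivity
  have hττ : t * κ ≤ τ₀ := le_trans (by nlinarith) htt
  have h1 := hB (t * κ) hτ hττ
  have hL0 : ∀ p : Idx X.V, (0 : ℝ) ≤ (fun _ => 0 : Idx X.V → ℝ) p := fun _ => le_rfl
  have hZpos := Z_pos (deg := (deg : Idx X.V → ℝ)) hG ht hκ0 hL0
  -- the partition function as a sum over `m`
  have hw : ∀ p : Idx X.V, w (deg : Idx X.V → ℝ) κ t (fun _ => 0) p
      = Real.exp (-(t * κ) * (p.1 : ℝ)) := by
    intro p
    unfold w
    congr 1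
    change -(t * (κ * (p.1 : ℝ) + 0)) = _
    ring
  have hsw := summable_w (deg := (deg : Idx X.V → ℝ)) hG ht hκ0 hL0
  have hZ : Z (deg : Idx X.V → ℝ) κ t (fun _ => 0)
      = ∑' m : ℕ, Real.exp (-(t * κ) * m) * (finrank ℂ (X.V m) : ℝ) := by
    unfold Z
    rw [hsw.tsum_sigma' (fun m => (hasSum_fintype _).summable)]
    refine tsum_congr fun m => ?_
    rw [tsum_fintype]
    simp only [hw]
    rw [Finset.sum_const, Finset.card_univ, Fintype.card_fin, nsmul_eq_mul]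
    ring
  -- bound of the order function
  obtain ⟨a, ha0, ha⟩ := exists_LL_le (F140.ordFilt X X.x 1 one_pos)
  have hord0 : ∀ p, 0 ≤ ordL X p := fun p => LL_nonneg _ p
  have hs : Summable fun p => w (deg : Idx X.V → ℝ) κ t (fun _ => 0) p * (t * ordL X p) := by
    refine summable_lin hG ht hκ0 hL0 (φ := fun p => t * ordL X p) ha0
      (fun p => mul_nonneg ht.le (hord0 p)) (fun p => ?_)
    have h0 : t * LL (F140.ordFilt X X.x 1 one_pos) p ≤ t * (a * (p.1 : ℝ)) :=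
      mul_le_mul_of_nonneg_left (ha p) ht.le
    refine h0.trans (le_of_eq ?_)
    ring
  have hN : ∑' p, w (deg : Idx X.V → ℝ) κ t (fun _ => 0) p * (t * ordL X p)
      = ∑' m : ℕ, Real.exp (-(t * κ) * m) * (t * ∑ i : Fin (finrank ℂ (X.V m)),
        jump (F140.ordFilt X X.x 1 one_pos) m i) := by
    rw [hs.tsum_sigma' (fun m => (hasSum_fintype _).summable)]
    refine tsum_congr fun m => ?_
    rw [tsum_fintype]
    simp only [hw]
    rw [← Finset.mul_sum, ← Finset.mul_sum]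
    rfl
  have hsN : Summable fun m : ℕ => Real.exp (-(t * κ) * m) * (t * ∑ i : Fin (finrank ℂ (X.V m)),
        jump (F140.ordFilt X X.x 1 one_pos) m i) := by
    refine hs.sigma.congr (fun m => ?_)
    rw [tsum_fintype]
    simp only [hw]
    rw [← Finset.mul_sum, ← Finset.mul_sum]
    rfl
  have hle : ∀ m : ℕ, Real.exp (-(t * κ) * m) *
      (t * ∑ e ∈ Finset.Icc 1 (C₁ * m), (dimOrd X m e : ℝ)) ≤
      Real.exp (-(t * κ) * m) * (t * ∑ i : Fin (finrank ℂ (X.V m)),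
        jump (F140.ordFilt X X.x 1 one_pos) m i) := by
    intro m
    apply mul_le_mul_of_nonneg_left _ (Real.exp_pos _).le
    exact mul_le_mul_of_nonneg_left (sum_ord_ge X m _) ht.le
  have hsO : Summable fun m : ℕ => Real.exp (-(t * κ) * m) *
      (t * ∑ e ∈ Finset.Icc 1 (C₁ * m), (dimOrd X m e : ℝ)) := by
    refine Summable.of_nonneg_of_le (fun m => ?_) hle hsN
    have : (0 : ℝ) ≤ ∑ e ∈ Finset.Icc 1 (C₁ * m), (dimOrd X m e : ℝ) :=
      Finset.sum_nonneg (fun e _ => Nat.cast_nonneg _)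
    positivity
  have h2 := hsO.tsum_le_tsum hle hsN
  rw [← hN] at h2
  have h3 : ∑' m : ℕ, Real.exp (-(t * κ) * m) *
      (t * ∑ e ∈ Finset.Icc 1 (C₁ * m), (dimOrd X m e : ℝ))
      = t * ∑' m : ℕ, Real.exp (-(t * κ) * m) *
      ∑ e ∈ Finset.Icc 1 (C₁ * m), (dimOrd X m e : ℝ) := by
    rw [← tsum_mul_left]
    refine tsum_congr fun m => ?_
    ring
  rw [h3] at h2
  rw [← hZ] at h1
  unfold Ex
  rw [le_div_iff₀ hZpos]
  refine le_trans ?_ h2
  have h4 : t * (((n : ℝ) + η₃) / (t * κ) * Z (deg : Idx X.V → ℝ) κ t (fun _ => 0))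
      ≤ t * ∑' m : ℕ, Real.exp (-(t * κ) * m) *
      ∑ e ∈ Finset.Icc 1 (C₁ * m), (dimOrd X m e : ℝ) :=
    mul_le_mul_of_nonneg_left h1 ht.le
  refine le_trans ?_ h4
  have h5 : t * (((n : ℝ) + η₃) / (t * κ) * Z (deg : Idx X.V → ℝ) κ t (fun _ => 0))
      = ((n : ℝ) + η₃) / κ * Z (deg : Idx X.V → ℝ) κ t (fun _ => 0) := by
    field_simp
  rw [h5]
  apply mul_le_mul_of_nonneg_right _ hZpos.le
  rw [le_div_iff₀ hκ0]
  have : (0 : ℝ) ≤ n + η₃ := by positivity
  nlinarith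

/-- **ExiMain** from the sums form of Case B -/
theorem exiMain_of (hCB : ∀ (n : ℕ) (X : FCtx n), 1 ≤ n → AFacts X → CaseB X → CaseBSum X) :
    ExiMain := by
  classical
  intro n X hn af hB
  have hfd := X.V_fin
  obtain ⟨η₃, t₃, hη₃, ht₃, hBE⟩ := caseB_Ex X (hCB n X hn af hB)
  obtain ⟨c, C, C1, hC1, ⟨C₁, hC₁le, hC₁⟩, D⟩ := data X af
  have hG := D.growth
  have hord0 : ∀ p, 0 ≤ ordL X p := fun p => LL_nonneg _ p
  have hord : ∀ p, ordL X p ≤ C1 * deg p := by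
    rintro ⟨m, i⟩
    change jump (F140.ordFilt X X.x 1 one_pos) m i ≤ C1 * (m : ℝ)
    refine jump_le _ i.2 (fun l hl => ?_)
    rw [Submodule.eq_bot_iff]
    rintro f ⟨hf1, hf2⟩
    by_contra hne
    have h1 := hC₁ m f hf1 hne X.x _ hf2
    have h2 : l / 1 ≤ (C₁ * m : ℕ) := (Nat.le_ceil _).trans (by exact_mod_cast h1)
    rw [div_one] at h2
    push_cast at h2
    have h3 : (C₁ : ℝ) * m ≤ C1 * m := mul_le_mul_of_nonneg_right hC₁le (Nat.cast_nonneg _)
    linarith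
  have hordF : ∀ s : ℝ, 0 < s → ∃ G : FT X, AA X G ≤ s * n ∧ ∀ p, s * ordL X p ≤ LL G.1 p := by
    intro s hs
    have h1 := F140.thr_ordFilt_le af hn X.x s hs
    have hfin : thr X.z (F140.ordFilt X X.x s hs) X.x ≠ ∞ :=
      ne_top_of_le_ne_top ENNReal.ofReal_ne_top h1
    refine ⟨⟨F140.ordFilt X X.x s hs, hfin⟩,
      ENNReal.toReal_le_of_le_ofReal (by positivity) h1, ?_⟩
    rintro ⟨m, i⟩
    change s * jump (F140.ordFilt X X.x 1 one_pos) m i ≤ jump (F140.ordFilt X X.x s hs) m i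
    rw [le_jump_iff _ i.2]
    have h2 := (le_jump_iff (F140.ordFilt X X.x 1 one_pos) i.2 _).1
      (le_refl (jump (F140.ordFilt X X.x 1 one_pos) m i))
    have h3 : (F140.ordFilt X X.x s hs).F m (s * jump (F140.ordFilt X X.x 1 one_pos) m i)
        = (F140.ordFilt X X.x 1 one_pos).F m (jump (F140.ordFilt X X.x 1 one_pos) m i) := by
      change X.V m ⊓ (mI X.x ^ ⌈s * jump (F140.ordFilt X X.x 1 one_pos) m i / s⌉₊).restrictScalars ℂ
        = X.V m ⊓ (mI X.x ^ ⌈jump (F140.ordFilt X X.x 1 one_pos) m i / 1⌉₊).restrictScalars ℂ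
      rw [mul_div_cancel_left₀ _ hs.ne', div_one]
    rw [h3]; exact h2
  have hPH : PH := fun h d K hd hup hlo a ha e he t₀ ht₀ =>
    PH593.pigeonhole h d K hd hup hlo a ha e he t₀ ht₀
  obtain ⟨η₀, hη₀, K, hmain⟩ := exi_abs hPH D (ordL X) hord0 hord hordF η₃ t₃ hη₃ ht₃ hBE
  refine ⟨η₀, hη₀, fun κ hκ hκ1 ε₁ hε₁ ε hε t₀ ht₀ => ?_⟩
  obtain ⟨t, F, ε', ht, htt, ht1, hε'0, hε', hek, hηA, hAK, hfin⟩ :=
    hmain κ hκ hκ1 ε₁ hε₁ ε hε t₀ ht₀
  have hκ0 : 0 < κ := by linarith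
  have hZZ : ∀ G : Filt X.V, ZZ G t κ = Z (deg : Idx X.V → ℝ) κ t (LL G) := fun G =>
    ZZ593.ZZ_eq G ht (summable_w hG ht hκ0 (fun p => LL_nonneg G p))
  -- Ekeland inequality
  have hek' : ∀ G : Filt X.V, thr X.z G X.x ≠ ∞ →
      (thr X.z F.1 X.x).toReal + Real.log (Z (deg : Idx X.V → ℝ) κ t (LL F.1)) ≤
        (thr X.z G X.x).toReal + Real.log (Z (deg : Idx X.V → ℝ) κ t (LL G)) + ε' * fdist F.1 G :=
    fun G hGf => hek ⟨G, hGf⟩
  refine ⟨t, F.1, ht, htt, ⟨F.2, fun G hGf => ?_⟩, hηA, ?_⟩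
  · rw [hZZ F.1, hZZ G]
    have h1 := hek' G hGf
    have h2 : ε' * fdist F.1 G ≤ ε t * fdist F.1 G :=
      mul_le_mul_of_nonneg_right hε' (F140.fdist_nonneg _ _)
    linarith
  · -- (6.2)
    intro c' hc' l hl
    set E : ℝ := Ex (deg : Idx X.V → ℝ) κ t (LL F.1) (fun p => t * deg p) + ε' with hE
    have hEc : E < c' := by
      refine lt_of_le_of_lt ?_ hc'
      rw [le_div_iff₀ hκ0]
      have : E * κ = κ * E := mul_comm _ _
      rw [this]
      exact hfin
    refine V1_992.V1 af F.1 F.2 E ?_ c' hEc l hl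
    have hA := D.A_nonneg F
    set a : ℝ := AA X F * C1 with ha
    have ha0 : 0 ≤ a := by positivity
    refine ⟨((1 : ℝ) ^ 2 * 128) * (C * 4 ^ (n + 1)) * (1 + a) ^ (n + 1) / c, κ / 4, by positivity,
      fun μ hμ hμ4 F' hF1 hF2 hF'fin => ?_⟩
    have h1 := hek' F' hF'fin
    have hdist : fdist F.1 F' ≤ μ := by
      refine F140.fdist_le ⟨hμ.le, fun m l => ⟨hF1 m l, (hF2 m l).trans (F.1.anti m ?_)⟩⟩
      have : 0 ≤ μ * (m : ℝ) := by positivity
      linarith
    have hloss := log_Z_loss hG ht ht1 hκ hκ1 (D.L_nonneg F) (a := a) ha0 (D.L_le F)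
      (L' := LL F') (g := deg) (b := 1) (μ := μ) zero_le_one hμ.le (by linarith)
      (fun p => hG.deg_nonneg p) (fun p => by rw [one_mul]) (fun p => LL_nonneg F' p)
      (fun p => by
        obtain ⟨m, i⟩ := p
        exact jump_shift (F := F.1) (G := F') (m := m) (i := i) i.2 (a := μ * m)
          (fun l => hF1 m l))
    have h2 : ε' * fdist F.1 F' ≤ ε' * μ := mul_le_mul_of_nonneg_left hdist hε'0.le
    rw [hE]
    nlinarith

end Crest.Agent.R271.Exi302
end
end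

-- ▼ part R271/ExiFinal_376

/-!
# Row 271: `ExiMain`
-/

set_option autoImplicit false

namespace Crest.Agent.R271.CaseBF376

open Crest.Agent.R271.Defs710 Crest.Agent.R271.Assembly710

theorem caseBSum' {n : ℕ} (X : FCtx n) (hn : 1 ≤ n) (hB : CaseB X) : Exi302.CaseBSum X := by
  obtain ⟨η₃, τ₀, h1, h2, h3⟩ := caseBSum X hn hB
  obtain ⟨C₁, hC₁⟩ := X.ordbd
  exact ⟨C₁, η₃, τ₀, h1, h2, fun τ h4 h5 =>
    h3 τ h4 h5 C₁ fun m f hf h0 e he => hC₁ m f hf h0 X.x e he⟩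

theorem exiMain : Assembly710.ExiMain :=
  Exi302.exiMain_of fun _ X hn _ hB => caseBSum' X hn hB

end Crest.Agent.R271.CaseBF376
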