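import Crest.Agent.R271.Defs_710
import Crest.Agent.R271.L0_934

-- ▼ part R271/G1_934
section

/-!
# Row 271, sub-team L: local integrability on general finite dimensional spaces (helper934)

`LIntM μ g a`, linear changes of coordinates, Tonelli lemmas, the Sum Theorem on `Cn n × Cn k`.
-/

set_option autoImplicit false
open MeasureTheory Filter Topology Set Metric
open scoped ENNReal NNReal

namespace Crest.Agent.R271.L934

open Crest.Agent.R271.Defs710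

/-- local integrability near `a` with respect to `μ` -/
def LIntM {V : Type*} [TopologicalSpace V] [MeasurableSpace V] (μ : Measure V) (g : V → ℝ≥0∞)
    (a : V) : Prop := ∃ U ∈ 𝓝 a, ∫⁻ z in U, g z ∂μ < ∞


section general

variable {V : Type*} [TopologicalSpace V] [MeasurableSpace V] [OpensMeasurableSpace V]
  {μ : Measure V} {g g' : V → ℝ≥0∞} {a : V}

theorem LIntM.mono_const (h : LIntM μ g' a) {K : ℝ≥0∞} (hK : K ≠ ∞)
    (hle : ∀ᶠ z in 𝓝 a, g z ≤ K * g' z) : LIntM μ g a := by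
  obtain ⟨U, hU, hlt⟩ := h
  obtain ⟨V, hVs, hV, haV⟩ := _root_.eventually_nhds_iff.1 hle
  obtain ⟨U', hU'U, hU', haU'⟩ := _root_.mem_nhds_iff.1 hU
  refine ⟨U' ∩ V, (hU'.inter hV).mem_nhds ⟨haU', haV⟩, ?_⟩
  calc ∫⁻ z in U' ∩ V, g z ∂μ ≤ ∫⁻ z in U' ∩ V, K * g' z ∂μ := by
        refine setLIntegral_mono' (hU'.inter hV).measurableSet ?_
        intro z hz
        exact hVs z hz.2
    _ ≤ ∫⁻ z in U, K * g' z ∂μ := lintegral_mono_set (inter_subset_left.trans hU'U)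
    _ = K * ∫⁻ z in U, g' z ∂μ := lintegral_const_mul' _ _ hK
    _ < ∞ := ENNReal.mul_lt_top hK.lt_top hlt

theorem LIntM.mono (h : LIntM μ g' a) (hle : ∀ᶠ z in 𝓝 a, g z ≤ g' z) : LIntM μ g a :=
  h.mono_const (K := 1) (by simp) (by simpa using hle)

theorem LIntM.mono_const_ae (h : LIntM μ g' a) {K : ℝ≥0∞} (hK : K ≠ ∞) {W : Set V}
    (hW : W ∈ 𝓝 a) (hle : ∀ᵐ z ∂μ, z ∈ W → g z ≤ K * g' z) : LIntM μ g a := by
  obtain ⟨U, hU, hlt⟩ := h
  obtain ⟨V, hVs, hV, haV⟩ := _root_.mem_nhds_iff.1 hW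
  obtain ⟨U', hU'U, hU', haU'⟩ := _root_.mem_nhds_iff.1 hU
  refine ⟨U' ∩ V, (hU'.inter hV).mem_nhds ⟨haU', haV⟩, ?_⟩
  calc ∫⁻ z in U' ∩ V, g z ∂μ ≤ ∫⁻ z in U' ∩ V, K * g' z ∂μ := by
        refine lintegral_mono_ae ?_
        rw [ae_restrict_iff' (hU'.inter hV).measurableSet]
        filter_upwards [hle] with z hz hz2
        exact hz (hVs hz2.2)
    _ ≤ ∫⁻ z in U, K * g' z ∂μ := lintegral_mono_set (inter_subset_left.trans hU'U)
    _ = K * ∫⁻ z in U, g' z ∂μ := lintegral_const_mul' _ _ hK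
    _ < ∞ := ENNReal.mul_lt_top hK.lt_top hlt

theorem LIntM.congr (h : LIntM μ g' a) (hle : ∀ᶠ z in 𝓝 a, g z = g' z) : LIntM μ g a :=
  h.mono (hle.mono fun _ h => h.le)

end general

section linear

variable {V V' : Type*} [NormedAddCommGroup V] [NormedSpace ℝ V] [FiniteDimensional ℝ V]
  [MeasurableSpace V] [BorelSpace V] {μ : Measure V} [μ.IsAddHaarMeasure]
  [NormedAddCommGroup V'] [NormedSpace ℝ V'] [FiniteDimensional ℝ V']
  [MeasurableSpace V'] [BorelSpace V'] {μ' : Measure V'} [μ'.IsAddHaarMeasure]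

/-- linear change of coordinates -/
theorem LIntM.comp_linear (L : V ≃L[ℝ] V') {g : V' → ℝ≥0∞} {a : V} (h : LIntM μ' g (L a)) :
    LIntM μ (g ∘ L) a := by
  obtain ⟨U, hU, hlt⟩ := h
  obtain ⟨U', hU'U, hU', haU'⟩ := _root_.mem_nhds_iff.1 hU
  refine ⟨L ⁻¹' U', (hU'.preimage L.continuous).mem_nhds haU', ?_⟩
  have hmap : ∫⁻ z in L ⁻¹' U', (g ∘ L) z ∂μ = ∫⁻ z in U', g z ∂(μ.map L) := by
    have e := L.toHomeomorph.measurableEmbedding
    have h1 := (e.restrict_map μ U')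
    have h2 : Measure.map L μ = Measure.map (L.toHomeomorph) μ := rfl
    rw [h2, h1, e.lintegral_map]
    rfl
  rw [hmap]
  have h3 : (μ.map L).IsAddHaarMeasure := L.isAddHaarMeasure_map μ
  have h4 := Measure.isAddLeftInvariant_eq_smul (μ.map L) μ'
  rw [h4, Measure.restrict_smul, lintegral_smul_measure]
  refine ENNReal.mul_lt_top ENNReal.coe_lt_top ?_
  exact lt_of_le_of_lt (lintegral_mono_set hU'U) hlt

end linear

section prod

variable {V W : Type*} [TopologicalSpace V] [MeasurableSpace V] [OpensMeasurableSpace V]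
  [TopologicalSpace W] [MeasurableSpace W] [OpensMeasurableSpace W]
  {μ : Measure V} {ν : Measure W} [SFinite ν] [SFinite μ]

/-- Tonelli: if the inner integral is bounded by a locally integrable function -/
theorem LIntM.of_inner {g : V × W → ℝ≥0∞} {u : V → ℝ≥0∞} {a : V} {b : W} (h : LIntM μ u a)
    {K : ℝ≥0∞} (hK : K ≠ ∞) {W' : Set W} (hW' : W' ∈ 𝓝 b)
    (hle : ∀ᶠ z in 𝓝 a, ∫⁻ w in W', g (z, w) ∂ν ≤ K * u z) : LIntM (μ.prod ν) g (a, b) := by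
  obtain ⟨U, hU, hlt⟩ := h.mono_const hK hle
  obtain ⟨U', hU'U, hU', haU'⟩ := _root_.mem_nhds_iff.1 hU
  obtain ⟨W'', hW''W, hW''o, hbW''⟩ := _root_.mem_nhds_iff.1 hW'
  refine ⟨U' ×ˢ W'', prod_mem_nhds (hU'.mem_nhds haU') (hW''o.mem_nhds hbW''), ?_⟩
  rw [← Measure.prod_restrict]
  calc _ ≤ ∫⁻ x in U', ∫⁻ y in W'', g (x, y) ∂ν ∂μ := lintegral_prod_le _
    _ ≤ ∫⁻ x in U, ∫⁻ y in W', g (x, y) ∂ν ∂μ := by
        refine (lintegral_mono_set hU'U).trans ?_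
        apply lintegral_mono
        intro x
        exact lintegral_mono_set hW''W
    _ < ∞ := hlt

/-- Fubini: inner integrals of a locally integrable function -/
theorem LIntM.inner {g : V × W → ℝ≥0∞} {u : V → ℝ≥0∞} {a : V} {b : W}
    (h : LIntM (μ.prod ν) g (a, b)) {S : Set (V × W)} (hS : S ∈ 𝓝 (a, b))
    (hm : AEMeasurable g ((μ.prod ν).restrict S)) {K : ℝ≥0∞} (hK : K ≠ ∞)
    (hle : ∀ W' ∈ 𝓝 b, ∃ U ∈ 𝓝 a, ∀ᵐ z ∂μ, z ∈ U → u z ≤ K * ∫⁻ w in W', g (z, w) ∂ν) :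
    LIntM μ u a := by
  obtain ⟨T, hT, hlt⟩ := h
  obtain ⟨T1, hT1, hT1o, haT1⟩ := _root_.mem_nhds_iff.1 (Filter.inter_mem hT hS)
  obtain ⟨U, W', hU, hW', haU, hbW', hUW⟩ := isOpen_prod_iff.1 hT1o a b haT1
  obtain ⟨U2, hU2, hle2⟩ := hle W' (hW'.mem_nhds hbW')
  have hsub : U ×ˢ W' ⊆ S := hUW.trans (hT1.trans inter_subset_right)
  have hm' : AEMeasurable g ((μ.restrict U).prod (ν.restrict W')) := by
    rw [Measure.prod_restrict]
    exact hm.mono_measure (Measure.restrict_mono hsub le_rfl)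
  have hfin : ∫⁻ x in U, ∫⁻ y in W', g (x, y) ∂ν ∂μ < ∞ := by
    rw [← lintegral_prod _ hm', Measure.prod_restrict]
    exact lt_of_le_of_lt (lintegral_mono_set (hUW.trans (hT1.trans inter_subset_left))) hlt
  have h1 : LIntM μ (fun x => ∫⁻ y in W', g (x, y) ∂ν) a := ⟨U, hU.mem_nhds haU, hfin⟩
  exact h1.mono_const_ae hK hU2 hle2

end prod

end Crest.Agent.R271.L934
end

-- ▼ part R271/G2_934
section

/-!
# Row 271, sub-team L: the Sum Theorem for two ideals on `Cn n × Cn k` (helper934)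
-/

set_option autoImplicit false
open MeasureTheory Filter Topology Set Metric
open scoped ENNReal NNReal

namespace Crest.Agent.R271.L934

open Crest.Agent.R271.Defs710

/-- `∑ⱼ |hⱼ|²` on any space -/
noncomputable def sqV {V : Type*} {κ : Type} [Fintype κ] (h : κ → V → ℂ) (v : V) : ℝ := ∑ j, ‖h j v‖ ^ 2

theorem sqV_nonneg {V : Type*} {κ : Type} [Fintype κ] (h : κ → V → ℂ) (v : V) : 0 ≤ sqV h v :=
  Finset.sum_nonneg fun _ _ => by positivity

/-- the integrand `∏ᵢ (∑ⱼ |hᵢⱼ|²)^{-cᵢ}` -/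
noncomputable def wV {V : Type*} {ι : Type} [Fintype ι] {κ : ι → Type} [∀ i, Fintype (κ i)]
    (h : ∀ i, κ i → V → ℂ) (c : ι → ℝ) (v : V) : ℝ≥0∞ :=
  ∏ i, (ENNReal.ofReal (sqV (h i) v)) ^ (-(c i))

theorem sum_thm_V (hS : SumThm) {V : Type} [NormedAddCommGroup V] [NormedSpace ℂ V]
    [FiniteDimensional ℂ V] [MeasurableSpace V] [BorelSpace V] {μ : Measure V} [μ.IsAddHaarMeasure]
    (ι ι' : Type) [Fintype ι] [Fintype ι'] [Nonempty ι']
    (κ : ι → Type) [∀ i, Fintype (κ i)] (κ' : ι' → Type) [∀ i, Fintype (κ' i)]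
    (h : ∀ i, κ i → V → ℂ) (g : ∀ i, κ' i → V → ℂ) (c : ι → ℝ) (θ : ι' → ℝ)
    (hh : ∀ i j, AnalyticAt ℂ (h i j) 0) (hg : ∀ i j, AnalyticAt ℂ (g i j) 0)
    (hc : ∀ i, 0 ≤ c i) (hθ : ∀ i, 0 ≤ θ i)
    (H : LIntM μ (fun v => wV h c v * ⨅ i : ι', (ENNReal.ofReal (sqV (g i) v)) ^ (-(θ i))) 0)
    {ε : ℝ} (hε : 0 < ε) (hε1 : ε < 1) :
      ∃ s : ι' → ℝ, (∀ i, 0 ≤ s i) ∧ ∑ i, s i = 1 ∧
        LIntM μ (fun v => wV h (fun i => (1 - ε) * c i) v *
          wV g (fun i => (1 - ε) * (s i * θ i)) v) 0 := by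
  have : FiniteDimensional ℝ V := FiniteDimensional.trans ℝ ℂ V
  let N := Module.finrank ℂ V
  let L : Cn N ≃L[ℂ] V := ContinuousLinearEquiv.ofFinrankEq (by simp [N])
  let L' : Cn N ≃L[ℝ] V := ⟨L.toLinearEquiv.restrictScalars ℝ, L.continuous, L.symm.continuous⟩
  have e0 : L' 0 = 0 := map_zero L'
  have hL : ∀ f : V → ℂ, AnalyticAt ℂ f 0 → AnalyticAt ℂ (fun ζ => f (L ζ)) 0 := by
    intro f hf
    have h1 : AnalyticAt ℂ (fun ζ => L ζ) 0 := L.analyticAt 0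
    have h2 : AnalyticAt ℂ f (L 0) := by rwa [map_zero]
    exact AnalyticAt.fun_comp h2 h1
  have H' : LInt (fun ζ => wInt (fun i j (ζ : Cn N) => h i j (L ζ)) c ζ *
      ⨅ i : ι', (ENNReal.ofReal (Defs710.sq (fun j (ζ : Cn N) => g i j (L ζ)) ζ)) ^ (-(θ i))) 0 := by
    have h1 := LIntM.comp_linear (μ := (volume : Measure (Cn N))) (μ' := μ) L' (a := 0)
      (g := fun v => wV h c v * ⨅ i : ι', (ENNReal.ofReal (sqV (g i) v)) ^ (-(θ i)))
      (by rw [e0]; exact H)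
    exact h1
  obtain ⟨s, hs0, hs1, hs⟩ := hS N ι ι' κ κ' _ _ c θ (fun i j => hL _ (hh i j))
    (fun i j => hL _ (hg i j)) hc hθ H' ε hε hε1
  refine ⟨s, hs0, hs1, ?_⟩
  have h2 := LIntM.comp_linear (μ := μ) (μ' := (volume : Measure (Cn N))) L'.symm (a := 0)
      (g := fun ζ => wInt (fun i j (ζ : Cn N) => h i j (L ζ)) (fun i => (1 - ε) * c i) ζ *
          wInt (fun i j (ζ : Cn N) => g i j (L ζ)) (fun i => (1 - ε) * (s i * θ i)) ζ)
      (by rw [map_zero]; exact hs)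
  refine h2.congr (Filter.Eventually.of_forall fun v => ?_)
  have e1 : ∀ v, L (L'.symm v) = v := fun v => L'.apply_symm_apply v
  simp only [Function.comp_apply, wV, wInt, sqV, Defs710.sq, e1]

/-- two ideals, same exponent `θ` -/
theorem sum_thm_two (hS : SumThm) {V : Type} [NormedAddCommGroup V] [NormedSpace ℂ V]
    [FiniteDimensional ℂ V] [MeasurableSpace V] [BorelSpace V] {μ : Measure V} [μ.IsAddHaarMeasure]
    (ι : Type) [Fintype ι] (κ : ι → Type) [∀ i, Fintype (κ i)] (κ₁ κ₂ : Type) [Fintype κ₁]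
    [Fintype κ₂] (h : ∀ i, κ i → V → ℂ) (g₁ : κ₁ → V → ℂ) (g₂ : κ₂ → V → ℂ) (c : ι → ℝ) (θ : ℝ)
    (hh : ∀ i j, AnalyticAt ℂ (h i j) 0) (hg₁ : ∀ j, AnalyticAt ℂ (g₁ j) 0)
    (hg₂ : ∀ j, AnalyticAt ℂ (g₂ j) 0)
    (hc : ∀ i, 0 ≤ c i) (hθ : 0 ≤ θ)
    (H : LIntM μ (fun v => wV h c v * (ENNReal.ofReal (sqV g₁ v + sqV g₂ v)) ^ (-θ)) 0)
    {ε : ℝ} (hε : 0 < ε) (hε1 : ε < 1) :
      ∃ s₁ s₂ : ℝ, 0 ≤ s₁ ∧ 0 ≤ s₂ ∧ s₁ + s₂ = (1 - ε) * θ ∧
        LIntM μ (fun v => wV h (fun i => (1 - ε) * c i) v *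
          ((ENNReal.ofReal (sqV g₁ v)) ^ (-s₁) * (ENNReal.ofReal (sqV g₂ v)) ^ (-s₂))) 0 := by
  let κ' : Bool → Type := fun b => match b with
    | true => κ₁
    | false => κ₂
  letI : ∀ i, Fintype (κ' i) := fun b => match b with
    | true => (inferInstance : Fintype κ₁)
    | false => (inferInstance : Fintype κ₂)
  let g : ∀ i, κ' i → V → ℂ := fun b => match b with
    | true => g₁
    | false => g₂
  have hg : ∀ i j, AnalyticAt ℂ (g i j) 0 := by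
    intro i
    cases i
    · exact hg₂
    · exact hg₁
  have e0 : sqV (g true) = sqV g₁ := rfl
  have e1 : sqV (g false) = sqV g₂ := rfl
  have H' : LIntM μ (fun v => wV h c v *
      ⨅ i : Bool, (ENNReal.ofReal (sqV (g i) v)) ^ (-θ)) 0 := by
    refine H.mono_const (K := 2 ^ θ) (ENNReal.rpow_ne_top_of_nonneg hθ (by simp)) ?_
    refine Filter.Eventually.of_forall fun v => ?_
    rw [← mul_assoc, mul_comm ((2:ℝ≥0∞) ^ θ), mul_assoc]
    gcongr
    -- `min (a^-θ) (b^-θ) ≤ 2^θ (a+b)^-θ`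
    have key : ∀ a b : ℝ, 0 ≤ a → 0 ≤ b → b ≤ a →
        (ENNReal.ofReal a) ^ (-θ) ≤ 2 ^ θ * (ENNReal.ofReal (a + b)) ^ (-θ) := by
      intro a b ha hb hba
      have h1 : ENNReal.ofReal (a + b) ≤ 2 * ENNReal.ofReal a := by
        rw [show (2:ℝ≥0∞) = ENNReal.ofReal 2 by norm_num, ← ENNReal.ofReal_mul (by norm_num)]
        exact ENNReal.ofReal_le_ofReal (by linarith)
      rw [ENNReal.rpow_neg, ENNReal.rpow_neg]
      have h2 : (ENNReal.ofReal (a + b)) ^ θ ≤ 2 ^ θ * (ENNReal.ofReal a) ^ θ := by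
        rw [← ENNReal.mul_rpow_of_nonneg _ _ hθ]
        exact ENNReal.rpow_le_rpow h1 hθ
      have h20 : (2:ℝ≥0∞) ^ θ ≠ 0 := by
        intro h0
        rcases ENNReal.rpow_eq_zero_iff.1 h0 with ⟨h1, -⟩ | ⟨h1, -⟩
        · exact absurd h1 (by norm_num)
        · exact absurd h1 (by norm_num)
      have h2t : (2:ℝ≥0∞) ^ θ ≠ ∞ := ENNReal.rpow_ne_top_of_nonneg hθ (by simp)
      calc ((ENNReal.ofReal a) ^ θ)⁻¹ = 2 ^ θ * (2 ^ θ * (ENNReal.ofReal a) ^ θ)⁻¹ := by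
            rw [ENNReal.mul_inv (Or.inl h20) (Or.inl h2t), ← mul_assoc,
              ENNReal.mul_inv_cancel h20 h2t, one_mul]
        _ ≤ 2 ^ θ * ((ENNReal.ofReal (a + b)) ^ θ)⁻¹ := by gcongr
    rcases le_total (sqV g₂ v) (sqV g₁ v) with h | h
    · refine (iInf_le _ true).trans ?_
      rw [e0]
      exact key _ _ (sqV_nonneg _ _) (sqV_nonneg _ _) h
    · refine (iInf_le _ false).trans ?_
      rw [e1, add_comm]
      exact key _ _ (sqV_nonneg _ _) (sqV_nonneg _ _) h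
  obtain ⟨s, hs0, hs1, hs⟩ := sum_thm_V hS ι Bool κ κ' h g c (fun _ => θ) hh hg hc (fun _ => hθ)
    H' hε hε1
  have h1ε : 0 ≤ 1 - ε := by linarith
  refine ⟨(1 - ε) * (s true * θ), (1 - ε) * (s false * θ), ?_, ?_, ?_, ?_⟩
  · exact mul_nonneg h1ε (mul_nonneg (hs0 true) hθ)
  · exact mul_nonneg h1ε (mul_nonneg (hs0 false) hθ)
  · rw [Fintype.sum_bool] at hs1
    rw [← mul_add, ← add_mul, hs1, one_mul]
  · refine hs.congr (Filter.Eventually.of_forall fun v => ?_)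
    congr 1
    simp only [wV, Fintype.prod_bool]
    rw [e0, e1]

end Crest.Agent.R271.L934
end

-- ▼ part R271/G3_934

/-!
# Row 271, sub-team L: (AF9) for germs (helper934)
-/

set_option autoImplicit false
open MeasureTheory Filter Topology Set Metric
open scoped ENNReal NNReal

namespace Crest.Agent.R271.L934

open Crest.Agent.R271.Defs710

/-! ### powers -/

theorem rpow_neg_le {x m : ℝ≥0∞} (hxm : x ≤ m) (hm : m ≠ ∞) (hm0 : m ≠ 0) {p q : ℝ} (hp : 0 ≤ p)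
    (hpq : p ≤ q) : x ^ (-p) ≤ m ^ (q - p) * x ^ (-q) := by
  rcases eq_or_ne x 0 with rfl | hx
  · rcases (hp.trans hpq).eq_or_lt with hq | hq
    · have hp0 : p = 0 := le_antisymm (hq ▸ hpq) hp
      subst hp0
      rw [← hq]; simp
    · rw [ENNReal.zero_rpow_of_neg (by linarith : -q < 0), ENNReal.mul_top]
      · exact le_top
      · intro h0
        rcases ENNReal.rpow_eq_zero_iff.1 h0 with ⟨h1, -⟩ | ⟨h1, -⟩
        · exact hm0 h1
        · exact hm h1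
  · have hxt : x ≠ ∞ := ne_top_of_le_ne_top hm hxm
    calc x ^ (-p) = x ^ ((q - p) + -q) := by congr 1; ring
      _ = x ^ (q - p) * x ^ (-q) := ENNReal.rpow_add _ _ hx hxt
      _ ≤ m ^ (q - p) * x ^ (-q) :=
          mul_le_mul' (ENNReal.rpow_le_rpow hxm (by linarith)) le_rfl

theorem rpow_neg_anti {x y : ℝ≥0∞} (hxy : x ≤ y) {p : ℝ} (hp : 0 ≤ p) : y ^ (-p) ≤ x ^ (-p) := by
  rw [ENNReal.rpow_neg, ENNReal.rpow_neg]
  exact ENNReal.inv_le_inv.2 (ENNReal.rpow_le_rpow hxy hp)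

/-- `x ≤ K y` gives `y^{-p} ≤ K^p x^{-p}` -/
theorem rpow_neg_le_mul {x y K : ℝ≥0∞} (hK0 : K ≠ 0) (hK : K ≠ ∞) (hxy : x ≤ K * y) {p : ℝ}
    (hp : 0 ≤ p) : y ^ (-p) ≤ K ^ p * x ^ (-p) := by
  have h2 : x ^ p ≤ K ^ p * y ^ p := by
    rw [← ENNReal.mul_rpow_of_nonneg _ _ hp]
    exact ENNReal.rpow_le_rpow hxy hp
  have h20 : K ^ p ≠ 0 := by
    intro h0
    rcases ENNReal.rpow_eq_zero_iff.1 h0 with ⟨h1, -⟩ | ⟨h1, -⟩
    · exact hK0 h1
    · exact hK h1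
  have h2t : K ^ p ≠ ∞ := ENNReal.rpow_ne_top_of_nonneg hp hK
  rw [ENNReal.rpow_neg, ENNReal.rpow_neg]
  calc (y ^ p)⁻¹ = K ^ p * (K ^ p * y ^ p)⁻¹ := by
        rw [ENNReal.mul_inv (Or.inl h20) (Or.inl h2t), ← mul_assoc,
          ENNReal.mul_inv_cancel h20 h2t, one_mul]
    _ ≤ K ^ p * (x ^ p)⁻¹ := by gcongr

/-! ### coordinates on `Cn k` -/

theorem finrank_Cn (k : ℕ) : Module.finrank ℝ (Cn k) = 2 * k := by
  simp [Cn, Module.finrank_pi_fintype, mul_comm]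

/-- the coordinate functions of the second factor -/
def tau {n k : ℕ} (i : Fin k) (p : Cn n × Cn k) : ℂ := p.2 i

theorem tau_analyticAt {n k : ℕ} (i : Fin k) (a : Cn n × Cn k) :
    AnalyticAt ℂ (tau (n := n) i) a := by
  have h : tau (n := n) i = fun p : Cn n × Cn k =>
      ((ContinuousLinearMap.proj (R := ℂ) (φ := fun _ : Fin k => ℂ) i).comp
        (ContinuousLinearMap.snd ℂ (Cn n) (Cn k))) p := rfl
  rw [h]
  exact ContinuousLinearMap.analyticAt _ _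

theorem norm_sq_le_sum {k : ℕ} (v : Cn k) : ‖v‖ ^ 2 ≤ ∑ i, ‖v i‖ ^ 2 := by
  have h0 : 0 ≤ ∑ i, ‖v i‖ ^ 2 := by positivity
  have h1 : ‖v‖ ≤ Real.sqrt (∑ i, ‖v i‖ ^ 2) := by
    rw [pi_norm_le_iff_of_nonneg (Real.sqrt_nonneg _)]
    intro i
    apply Real.le_sqrt_of_sq_le
    exact Finset.single_le_sum (f := fun i => ‖v i‖ ^ 2) (fun _ _ => by positivity)
      (Finset.mem_univ i)
  calc ‖v‖ ^ 2 ≤ (Real.sqrt (∑ i, ‖v i‖ ^ 2)) ^ 2 := by gcongr
    _ = _ := Real.sq_sqrt h0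

theorem sum_le_norm_sq {k : ℕ} (v : Cn k) : ∑ i, ‖v i‖ ^ 2 ≤ k * ‖v‖ ^ 2 := by
  calc ∑ i, ‖v i‖ ^ 2 ≤ ∑ _i : Fin k, ‖v‖ ^ 2 := by
        apply Finset.sum_le_sum
        intro i _
        gcongr
        exact norm_le_pi_norm v i
    _ = k * ‖v‖ ^ 2 := by simp

instance instHaarProd (n k : ℕ) : (volume : Measure (Cn n × Cn k)).IsAddHaarMeasure :=
  Measure.prod.instIsAddHaarMeasure _ _

/-- if `F · |τ|^{-2b}` is locally integrable with `F` bounded below then `b < k` -/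
theorem exponent_lt {n k : ℕ} (hk : 1 ≤ k) {F : Cn n × Cn k → ℝ≥0∞} {b : ℝ} (hb : 0 ≤ b)
    {κ : ℝ≥0∞} (hκ : κ ≠ 0) (hF : ∀ᶠ p in 𝓝 (0 : Cn n × Cn k), κ ≤ F p)
    (H : LIntM volume (fun p => F p * (ENNReal.ofReal (∑ i, ‖p.2 i‖ ^ 2)) ^ (-b))
      (0 : Cn n × Cn k)) : b < k := by
  have hk' : (0:ℝ) < k := by exact_mod_cast hk
  -- comparison with the norm
  have h1 : LIntM volume (fun p : Cn n × Cn k => κ * ((ENNReal.ofReal ‖p.2‖) ^ (-(2 * b))))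
      (0 : Cn n × Cn k) := by
    refine H.mono_const (K := (ENNReal.ofReal k) ^ b)
      (ENNReal.rpow_ne_top_of_nonneg hb ENNReal.ofReal_ne_top) ?_
    filter_upwards [hF] with p hp
    have e1 : ENNReal.ofReal (∑ i, ‖p.2 i‖ ^ 2) ≤ ENNReal.ofReal k * (ENNReal.ofReal ‖p.2‖) ^ 2 := by
      rw [← ENNReal.ofReal_pow (norm_nonneg _), ← ENNReal.ofReal_mul hk'.le]
      exact ENNReal.ofReal_le_ofReal (sum_le_norm_sq _)
    have e2 := rpow_neg_le_mul (p := b) (x := ENNReal.ofReal (∑ i, ‖p.2 i‖ ^ 2))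
      (y := (ENNReal.ofReal ‖p.2‖) ^ 2) (K := ENNReal.ofReal k) (by simp; omega)
      ENNReal.ofReal_ne_top e1 hb
    have e3 : ((ENNReal.ofReal ‖p.2‖) ^ 2) ^ (-b) = (ENNReal.ofReal ‖p.2‖) ^ (-(2 * b)) := by
      rw [← ENNReal.rpow_natCast, ← ENNReal.rpow_mul]
      congr 1; push_cast; ring
    rw [e3] at e2
    calc κ * (ENNReal.ofReal ‖p.2‖) ^ (-(2 * b))
        ≤ F p * ((ENNReal.ofReal k) ^ b * (ENNReal.ofReal (∑ i, ‖p.2 i‖ ^ 2)) ^ (-b)) := by gcongr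
      _ = _ := by ring
  obtain ⟨T, hT, hlt⟩ := h1
  obtain ⟨T1, hT1, hT1o, haT1⟩ := _root_.mem_nhds_iff.1 hT
  obtain ⟨U, W', hU, hW', haU, hbW', hUW⟩ := isOpen_prod_iff.1 hT1o 0 0 haT1
  have hm : Measurable (fun w : Cn k => (ENNReal.ofReal ‖w‖) ^ (-(2 * b))) :=
    (ENNReal.measurable_ofReal.comp measurable_norm).pow_const _
  have h2 : ∫⁻ p in U ×ˢ W', κ * ((ENNReal.ofReal ‖p.2‖) ^ (-(2 * b))) =
      (∫⁻ _ in U, κ) * ∫⁻ w in W', (ENNReal.ofReal ‖w‖) ^ (-(2 * b)) := by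
    rw [Measure.volume_eq_prod, ← Measure.prod_restrict]
    exact lintegral_prod_mul (f := fun _ : Cn n => κ) aemeasurable_const hm.aemeasurable
  have h3 : (∫⁻ _ in U, κ) * ∫⁻ w in W', (ENNReal.ofReal ‖w‖) ^ (-(2 * b)) < ∞ := by
    rw [← h2]
    exact lt_of_le_of_lt (lintegral_mono_set (hUW.trans hT1)) hlt
  have h4 : (∫⁻ _ in U, κ : ℝ≥0∞) ≠ 0 := by
    rw [setLIntegral_const]
    exact mul_ne_zero hκ (hU.measure_pos volume ⟨0, haU⟩).ne'
  have h5 : ∫⁻ w in W', (ENNReal.ofReal ‖w‖) ^ (-(2 * b)) < ∞ := by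
    by_contra hcon
    rw [not_lt, top_le_iff] at hcon
    rw [hcon, ENNReal.mul_top h4] at h3
    exact lt_irrefl _ h3
  have h6 := exponent_lt_of_integrable (volume : Measure (Cn k)) (by rw [finrank_Cn]; omega)
    (hW'.mem_nhds hbW') h5
  rw [finrank_Cn] at h6
  push_cast at h6
  linarith

/-- continuity of `sqV` -/
theorem sqV_continuousAt {V : Type*} [NormedAddCommGroup V] [NormedSpace ℂ V] {κ : Type}
    [Fintype κ] {h : κ → V → ℂ} {a : V} (hh : ∀ j, AnalyticAt ℂ (h j) a) :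
    ContinuousAt (sqV h) a := by
  unfold sqV
  exact tendsto_finsetSum _ fun j _ => ((hh j).continuousAt.norm.pow 2)

/-- (AF9) for germs, parameter in `ℂᵏ` -/
theorem af9 (hS : SumThm) {n k : ℕ} (hk : 1 ≤ k) {κ : Type} [Fintype κ]
    (f : κ → Cn n × Cn k → ℂ) (hf : ∀ j, AnalyticAt ℂ (f j) 0) {c : ℝ} (hc : 0 ≤ c)
    (H : LInt (fun z => (ENNReal.ofReal (sqV f (z, 0))) ^ (-c)) 0) {ε : ℝ} (hε : 0 < ε)
    (hε1 : ε < 1) :
    LIntM volume (fun p => (ENNReal.ofReal (sqV f p)) ^ (-((1 - ε) * c))) (0 : Cn n × Cn k) := by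
  have hk' : (1:ℝ) ≤ k := by exact_mod_cast hk
  rcases hc.eq_or_lt with rfl | hc
  · refine ⟨ball 0 1, ball_mem_nhds _ one_pos, ?_⟩
    simp only [mul_zero, neg_zero, ENNReal.rpow_zero]
    rw [setLIntegral_one]
    exact measure_ball_lt_top
  -- constants
  set e : ℝ := ε * c / (2 * (c + k)) with he
  have hck : 0 < c + k := by linarith
  have he0 : 0 < e := by positivity
  have he1 : e < 1 := by
    rw [he, div_lt_one (by positivity)]
    nlinarith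
  have heck : e * (c + k) = ε * c / 2 := by
    rw [he]; field_simp
  set c' : ℝ := (c + k) * (1 - e) with hc'
  have hc'k : (k:ℝ) < c' := by
    have : c' = c + k - ε * c / 2 := by rw [hc', ← heck]; ring
    rw [this]; nlinarith
  have hc'0 : 0 < c' := by linarith
  -- bounds near 0
  set A : Cn n → ℝ := fun z => sqV f (z, 0) with hA
  have hAc : ContinuousAt A 0 := by
    have h1 : ContinuousAt (fun z : Cn n => ((z, 0) : Cn n × Cn k)) 0 := by fun_prop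
    have h2 : ContinuousAt (sqV f) ((0 : Cn n), (0 : Cn k)) := sqV_continuousAt hf
    exact ContinuousAt.comp (f := fun z : Cn n => ((z, 0) : Cn n × Cn k)) h2 h1
  set M : ℝ := sqV f 0 + 1 with hM
  have hM0 : 0 < M := by have := sqV_nonneg f 0; linarith
  have hAM : ∀ᶠ z in 𝓝 (0 : Cn n), A z < M := hAc.eventually_lt_const (by
    show sqV f (0, 0) < M
    have : ((0 : Cn n), (0 : Cn k)) = 0 := rfl
    rw [this]; linarith)
  have hWM : ∀ᶠ p in 𝓝 (0 : Cn n × Cn k), sqV f p < M :=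
    (sqV_continuousAt hf).eventually_lt_const (by linarith)
  -- step 1
  obtain ⟨C, hC, hCle⟩ := lintegral_add_sq_le' (volume : Measure (Cn k)) (c := c') (by
    rw [finrank_Cn]; push_cast; linarith)
  have step1 : LIntM volume (fun p : Cn n × Cn k =>
      (ENNReal.ofReal (A p.1 + ‖p.2‖ ^ 2)) ^ (-c')) (0 : Cn n × Cn k) := by
    rw [Measure.volume_eq_prod]
    refine LIntM.of_inner (μ := (volume : Measure (Cn n))) (ν := (volume : Measure (Cn k)))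
      (a := 0) (b := 0) (u := fun z => (ENNReal.ofReal (A z)) ^ (-c)) H
      (K := C * (ENNReal.ofReal M) ^ (c - (c' - k))) ?_ (W' := univ) univ_mem ?_
    · refine ENNReal.mul_ne_top hC (ENNReal.rpow_ne_top_of_nonneg ?_ ENNReal.ofReal_ne_top)
      have : c' = c + k - ε * c / 2 := by rw [hc', ← heck]; ring
      rw [this]; nlinarith
    · filter_upwards [hAM] with z hz
      rw [Measure.restrict_univ]
      refine (hCle (A z) (sqV_nonneg _ _)).trans ?_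
      rw [mul_assoc, finrank_Cn]
      gcongr
      have e1 : c' - ((2 * k : ℕ) : ℝ) / 2 = c' - k := by push_cast; ring
      rw [e1]
      refine rpow_neg_le (ENNReal.ofReal_le_ofReal hz.le) ENNReal.ofReal_ne_top
        (by simpa using hM0) (by linarith) ?_
      have : c' = c + k - ε * c / 2 := by rw [hc', ← heck]; ring
      rw [this]; nlinarith
  -- Lipschitz bound
  have hLip : ∃ K : ℝ, 0 < K ∧ ∀ᶠ p in 𝓝 (0 : Cn n × Cn k),
      A p.1 ≤ K * (sqV f p + ‖p.2‖ ^ 2) := by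
    have h1 : ∀ j, ∃ K : ℝ≥0, ∃ s ∈ 𝓝 (0 : Cn n × Cn k), LipschitzOnWith K (f j) s := fun j =>
      (hf j).hasStrictFDerivAt.exists_lipschitzOnWith
    choose K s hs hL using h1
    have h2 : (⋂ j, s j) ∈ 𝓝 (0 : Cn n × Cn k) := by
      rw [Filter.iInter_mem]; exact hs
    obtain ⟨r, hr, hrs⟩ := Metric.mem_nhds_iff.1 h2
    set K2 : ℝ := ∑ j, 2 * ((K j : ℝ)) ^ 2 with hK2
    have hK20 : 0 ≤ K2 := by positivity
    refine ⟨2 + K2, by linarith, ?_⟩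
    filter_upwards [ball_mem_nhds (0 : Cn n × Cn k) hr] with p hp
    have hp0 : ((p.1, 0) : Cn n × Cn k) ∈ ball (0 : Cn n × Cn k) r := by
      rw [mem_ball_zero_iff] at hp ⊢
      refine lt_of_le_of_lt ?_ hp
      rw [Prod.norm_def, Prod.norm_def]
      simp
    calc A p.1 = ∑ j, ‖f j (p.1, 0)‖ ^ 2 := rfl
      _ ≤ ∑ j, (2 * ‖f j p‖ ^ 2 + 2 * ((K j : ℝ)) ^ 2 * ‖p.2‖ ^ 2) := by
          apply Finset.sum_le_sum
          intro j _
          have h3 := (hL j).dist_le_mul _ (mem_iInter.1 (hrs hp0) j) _ (mem_iInter.1 (hrs hp) j)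
          have h4 : dist ((p.1, 0) : Cn n × Cn k) p = ‖p.2‖ := by
            rw [dist_eq_norm, Prod.norm_def]
            simp
          rw [h4, dist_eq_norm] at h3
          have h5 : ‖f j (p.1, 0)‖ ≤ ‖f j p‖ + K j * ‖p.2‖ := by
            calc ‖f j (p.1, 0)‖ = ‖f j p + (f j (p.1, 0) - f j p)‖ := by congr 1; ring
              _ ≤ ‖f j p‖ + ‖f j (p.1, 0) - f j p‖ := norm_add_le _ _
              _ ≤ _ := by gcongr
          have h6 : 0 ≤ ‖f j (p.1, 0)‖ := norm_nonneg _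
          calc ‖f j (p.1, 0)‖ ^ 2 ≤ (‖f j p‖ + K j * ‖p.2‖) ^ 2 := by gcongr
            _ ≤ _ := by nlinarith [sq_nonneg (‖f j p‖ - K j * ‖p.2‖)]
      _ = 2 * sqV f p + K2 * ‖p.2‖ ^ 2 := by
          rw [Finset.sum_add_distrib, ← Finset.mul_sum, ← Finset.sum_mul]
          rfl
      _ ≤ (2 + K2) * (sqV f p + ‖p.2‖ ^ 2) := by
          have h7 : 0 ≤ sqV f p := sqV_nonneg _ _
          have h8 : 0 ≤ ‖p.2‖ ^ 2 := by positivity
          nlinarith
  obtain ⟨K, hK, hKle⟩ := hLip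
  -- step 2
  have step2 : LIntM volume (fun p : Cn n × Cn k => wV (fun (i : Empty) => (i.elim : Empty → _ → ℂ))
      (fun i : Empty => i.elim) p *
      (ENNReal.ofReal (sqV f p + sqV (fun i : Fin k => tau (n := n) i) p)) ^ (-c')) 0 := by
    refine step1.mono_const (K := (ENNReal.ofReal (K + 1)) ^ c')
      (ENNReal.rpow_ne_top_of_nonneg hc'0.le ENNReal.ofReal_ne_top) ?_
    filter_upwards [hKle] with p hp
    have e1 : wV (fun (i : Empty) => (i.elim : Empty → Cn n × Cn k → ℂ))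
      (fun i : Empty => i.elim) p = 1 := by simp [wV]
    rw [e1, one_mul]
    refine rpow_neg_le_mul (by simpa using by linarith) ENNReal.ofReal_ne_top ?_ hc'0.le
    rw [← ENNReal.ofReal_mul (by linarith)]
    apply ENNReal.ofReal_le_ofReal
    have h1 : ‖p.2‖ ^ 2 ≤ sqV (fun i : Fin k => tau (n := n) i) p := norm_sq_le_sum p.2
    have h2 : 0 ≤ sqV f p := sqV_nonneg _ _
    have h3 : 0 ≤ ‖p.2‖ ^ 2 := by positivity
    nlinarith
  -- step 3
  obtain ⟨s₁, s₂, hs₁, hs₂, hsum, hI⟩ := sum_thm_two hS Empty (fun i => Empty) κ (Fin k) _ f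
    (fun i : Fin k => tau (n := n) i) _ c' (fun i => i.elim) hf (fun i => tau_analyticAt i 0)
    (fun i => i.elim) hc'0.le step2 he0 he1
  have hI' : LIntM volume (fun p : Cn n × Cn k => (ENNReal.ofReal (sqV f p)) ^ (-s₁) *
      (ENNReal.ofReal (∑ i, ‖p.2 i‖ ^ 2)) ^ (-s₂)) 0 := by
    refine hI.congr (Filter.Eventually.of_forall fun p => ?_)
    have e1 : ∀ (g : (i : Empty) → (fun i => Empty) i → Cn n × Cn k → ℂ) (c : Empty → ℝ),
      wV g c p = 1 := by intro g c; simp [wV]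
    rw [e1, one_mul]
    rfl
  -- step 4
  have hs₂k : s₂ < k := by
    refine exponent_lt hk hs₂ (κ := (ENNReal.ofReal M) ^ (-s₁)) ?_ ?_ hI'
    · intro h0
      rcases ENNReal.rpow_eq_zero_iff.1 h0 with ⟨h1, -⟩ | ⟨h1, -⟩
      · simp at h1; linarith
      · exact ENNReal.ofReal_ne_top h1
    · filter_upwards [hWM] with p hp
      exact rpow_neg_anti (ENNReal.ofReal_le_ofReal hp.le) hs₁
  -- step 5
  have hs₁c : (1 - ε) * c ≤ s₁ := by
    have h1 : s₁ = (1 - e) * c' - s₂ := by linarith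
    have h2 : (1 - e) * c' = (c + k) - 2 * (e * (c + k)) + e * (e * (c + k)) := by rw [hc']; ring
    rw [heck] at h2
    have h3 : 0 ≤ e * (ε * c / 2) := by positivity
    nlinarith
  refine hI'.mono_const (K := (ENNReal.ofReal M) ^ (s₁ - (1 - ε) * c))
    (ENNReal.rpow_ne_top_of_nonneg (by linarith) ENNReal.ofReal_ne_top) ?_
  have hτ1 : ∀ᶠ p in 𝓝 (0 : Cn n × Cn k), ∑ i, ‖p.2 i‖ ^ 2 < 1 := by
    have h1 : ContinuousAt (fun p : Cn n × Cn k => ∑ i, ‖p.2 i‖ ^ 2) 0 := by fun_prop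
    exact h1.eventually_lt_const (by simp)
  filter_upwards [hWM, hτ1] with p hp hp1
  calc (ENNReal.ofReal (sqV f p)) ^ (-((1 - ε) * c))
      ≤ (ENNReal.ofReal M) ^ (s₁ - (1 - ε) * c) * (ENNReal.ofReal (sqV f p)) ^ (-s₁) :=
        rpow_neg_le (ENNReal.ofReal_le_ofReal hp.le) ENNReal.ofReal_ne_top (by simpa using hM0)
          (by have : 0 ≤ 1 - ε := by linarith
              positivity) hs₁c
    _ ≤ (ENNReal.ofReal M) ^ (s₁ - (1 - ε) * c) * ((ENNReal.ofReal (sqV f p)) ^ (-s₁) *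
        (ENNReal.ofReal (∑ i, ‖p.2 i‖ ^ 2)) ^ (-s₂)) := by
        gcongr
        have h1 : (1:ℝ≥0∞) ≤ (ENNReal.ofReal (∑ i, ‖p.2 i‖ ^ 2)) ^ (-s₂) := by
          calc (1:ℝ≥0∞) = 1 ^ (-s₂) := by simp
            _ ≤ _ := rpow_neg_anti (by
              rw [← ENNReal.ofReal_one]; exact ENNReal.ofReal_le_ofReal hp1.le) hs₂
        calc (ENNReal.ofReal (sqV f p)) ^ (-s₁) = (ENNReal.ofReal (sqV f p)) ^ (-s₁) * 1 := by
              rw [mul_one]
          _ ≤ _ := by gcongr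

end Crest.Agent.R271.L934

namespace Crest.Agent.R271.L934

open Crest.Agent.R271.Defs710

/-- (AF9) in the form used by helper103 -/
def AF9Germ (n k : ℕ) : Prop := ∀ (m : ℕ) (f : Fin m → Cn n × Cn k → ℂ) (c : ℝ),
  (∀ j, AnalyticAt ℂ (f j) 0) → 0 ≤ c →
  LInt (fun ζ => (ENNReal.ofReal (∑ j, ‖f j (ζ, 0)‖ ^ 2)) ^ (-c)) 0 →
  ∀ ε : ℝ, 0 < ε → ε < 1 → ∃ U ∈ 𝓝 (0 : Cn n × Cn k),
    ∫⁻ p in U, (ENNReal.ofReal (∑ j, ‖f j p‖ ^ 2)) ^ (-((1 - ε) * c)) < ∞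

theorem af9Germ (hS : SumThm) (n k : ℕ) (hk : 1 ≤ k) : AF9Germ n k := by
  intro m f c hf hc H ε hε hε1
  exact af9 hS hk f hf hc H hε hε1

end Crest.Agent.R271.L934
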