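import Mathlib
import Crest.Agent.R271.Defs_710
import Crest.Agent.R271.IInt_821
import Crest.Agent.R271.Ord_969

-- ▼ part R271/Holder_821
section

/-!
Row 271, team L (helper821): `Holder X`, unconditional.
-/

set_option autoImplicit false

open scoped Topology
open Filter

noncomputable section

namespace Crest.Agent.R271.Local821

open Crest.Agent.R271.Defs710

variable {n : ℕ} (X : FCtx n)

/-- germs at `y` of nonzero functions are nonzero -/
theorem germInj (y : X.B →ₐ[ℂ] ℂ) : GermInj X.z y := fun C _ hb =>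
  Ord969.fctx_frequently_ne X y C hb

/-- (AF3) convexity of the integrability conditions -/
theorem holder : Holder X := holderFact X (germInj X)

end Crest.Agent.R271.Local821
end
end

-- ▼ part R271/GenA_86
section

/-! R271, team N, N1 (GEN): algebraic part.  `B` formally smooth over a perfect field `k`, with
`Ω[B/k]` free on `dz_i`; `P` a prime.  Then generically on `V(P)` the ideal `P` is generated by
functions `f_j` (`j ∉ I`) whose differentials complete `dz_i` (`i ∈ I`) to a basis. -/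

set_option autoImplicit false

namespace Crest.Agent.R271.Gen86

open KaehlerDifferential TensorProduct

universe u v

variable {k : Type u} {B : Type v} [Field k] [CommRing B] [Algebra k B]

section
variable (P : Ideal B) [P.IsPrime]

local notation "Rₚ" => Localization.AtPrime P
local notation "Kₚ" => P.ResidueField

instance fsR [Algebra.FormallySmooth k B] : Algebra.FormallySmooth k (Localization.AtPrime P) := by
  have : Algebra.FormallySmooth B (Localization.AtPrime P) := .of_isLocalization P.primeCompl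
  exact .comp k B _

instance essK [Algebra.EssFiniteType k B] : Algebra.EssFiniteType k P.ResidueField :=
  Algebra.EssFiniteType.comp k B _

/-- the basis `1 ⊗ dz_i` of `K ⊗ Ω_R` -/
noncomputable def basW {n : ℕ} (bs : Module.Basis (Fin n) B Ω[B⁄k]) :
    Module.Basis (Fin n) Kₚ (Kₚ ⊗[Rₚ] Ω[Rₚ⁄k]) :=
  haveI : Algebra.FormallyEtale B Rₚ := .of_isLocalization P.primeCompl
  Algebra.TensorProduct.basis Kₚ
    ((Algebra.TensorProduct.basis Rₚ bs).map (tensorKaehlerEquivOfFormallyEtale k B Rₚ))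

/-- the vector `1 ⊗ dx` for `x : R` -/
noncomputable def dW (x : Rₚ) : Kₚ ⊗[Rₚ] Ω[Rₚ⁄k] := 1 ⊗ₜ D k Rₚ x


lemma dW_sub (x y : Rₚ) : dW (k := k) P (x - y) = dW P x - dW P y := by
  simp [dW, tmul_sub]

lemma dW_mul (x y : Rₚ) : dW (k := k) P (x * y) =
    algebraMap Rₚ Kₚ x • dW P y + algebraMap Rₚ Kₚ y • dW P x := by
  simp only [dW, Derivation.leibniz, tmul_add, tmul_smul, algebraMap_smul]

lemma dW_sum {ι : Type*} (s : Finset ι) (f : ι → Rₚ) :
    dW (k := k) P (∑ i ∈ s, f i) = ∑ i ∈ s, dW P (f i) := by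
  simp [dW, tmul_sum]

lemma dW_alg {n : ℕ} (bs : Module.Basis (Fin n) B Ω[B⁄k]) (b : B) :
    dW (k := k) P (algebraMap B Rₚ b) =
      ∑ i, algebraMap B Kₚ (bs.repr (D k B b) i) • basW P bs i := by
  have : Algebra.FormallyEtale B Rₚ := .of_isLocalization P.primeCompl
  have h1 : D k Rₚ (algebraMap B Rₚ b) =
      ∑ i, algebraMap B Rₚ (bs.repr (D k B b) i) • (map k k B Rₚ (bs i)) := by
    rw [← map_D k k B Rₚ b]
    conv_lhs => rw [← bs.sum_repr (D k B b)]
    rw [map_sum]
    refine Finset.sum_congr rfl fun i _ => ?_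
    rw [map_smul, algebraMap_smul]
  rw [dW, h1, tmul_sum]
  refine Finset.sum_congr rfl fun i _ => ?_
  have h2 : basW P bs i = (1 : Kₚ) ⊗ₜ[Rₚ] (map k k B Rₚ (bs i)) := by
    simp [basW]
  rw [h2, tmul_smul, IsScalarTower.algebraMap_apply B Rₚ Kₚ]
  exact (algebraMap_smul Kₚ _ _).symm

lemma repr_dW {n : ℕ} (bs : Module.Basis (Fin n) B Ω[B⁄k]) (b : B) (i : Fin n) :
    (basW P bs).repr (dW (k := k) P (algebraMap B Rₚ b)) i =
      algebraMap B Kₚ (bs.repr (D k B b) i) := by
  rw [dW_alg P bs b, map_sum, Finsupp.finsetSum_apply]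
  have : ∀ x, ((basW P bs).repr (algebraMap B Kₚ ((bs.repr (D k B b)) x) • basW P bs x)) i =
      if x = i then algebraMap B Kₚ ((bs.repr (D k B b)) x) else 0 := by
    intro x
    rw [map_smul, Module.Basis.repr_self, Finsupp.smul_apply, Finsupp.single_apply]
    split_ifs <;> simp
  simp only [this]
  simp

/-- every element of `K ⊗ Ω_K`-kernel is `1 ⊗ dx`, `x ∈ m` -/
lemma mem_ker_iff (w : Kₚ ⊗[Rₚ] Ω[Rₚ⁄k]) :
    w ∈ LinearMap.ker (mapBaseChange k Rₚ Kₚ) ↔
      ∃ x ∈ IsLocalRing.maximalIdeal Rₚ, dW (k := k) P x = w := by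
  have hsurj : Function.Surjective (algebraMap Rₚ Kₚ) := Ideal.Quotient.mk_surjective
  have h := exact_kerCotangentToTensor_mapBaseChange k Rₚ Kₚ hsurj
  have hk : RingHom.ker (algebraMap Rₚ Kₚ) = IsLocalRing.maximalIdeal Rₚ :=
    IsLocalRing.ker_residue
  constructor
  · intro hw
    obtain ⟨c, hc⟩ := (h w).1 hw
    obtain ⟨x, rfl⟩ := Ideal.toCotangent_surjective _ c
    exact ⟨x.1, hk ▸ x.2, hc⟩
  · rintro ⟨x, hx, rfl⟩
    have hx' : x ∈ RingHom.ker (algebraMap Rₚ Kₚ) := hk ▸ hx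
    exact (h _).2 ⟨Ideal.toCotangent _ ⟨x, hx'⟩, rfl⟩

lemma dW_eq_zero [PerfectField k] [Algebra.EssFiniteType k B] [Algebra.FormallySmooth k B]
    (x : Rₚ) (hx : x ∈ IsLocalRing.maximalIdeal Rₚ) (h0 : dW (k := k) P x = 0) :
    x ∈ IsLocalRing.maximalIdeal Rₚ ^ 2 := by
  have hsurj : Function.Surjective (algebraMap Rₚ Kₚ) := Ideal.Quotient.mk_surjective
  have hk : RingHom.ker (algebraMap Rₚ Kₚ) = IsLocalRing.maximalIdeal Rₚ :=
    IsLocalRing.ker_residue
  have hfs : Algebra.FormallySmooth k Kₚ := inferInstance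
  obtain ⟨l, hl⟩ := (Algebra.FormallySmooth.iff_split_injection (R := k)
    (P := Localization.AtPrime P) (A := P.ResidueField) hsurj).1 hfs
  have hx' : x ∈ RingHom.ker (algebraMap Rₚ Kₚ) := hk ▸ hx
  have h1 : Ideal.toCotangent (RingHom.ker (algebraMap Rₚ Kₚ)) ⟨x, hx'⟩ = 0 := by
    have h2 := LinearMap.congr_fun hl (Ideal.toCotangent _ ⟨x, hx'⟩)
    rw [LinearMap.comp_apply, kerCotangentToTensor_toCotangent, LinearMap.id_apply] at h2
    rw [← h2]
    have : (1 : Kₚ) ⊗ₜ[Rₚ] D k Rₚ x = 0 := h0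
    rw [this, map_zero]
  rw [Ideal.toCotangent_eq_zero] at h1
  rw [← hk]; exact h1

/-- linear algebra: complement of a subspace by basis vectors -/
lemma exists_compl_basis {F W : Type*} [Field F] [AddCommGroup W] [Module F W] {n : ℕ}
    (e : Module.Basis (Fin n) F W) (V : Submodule F W) :
    ∃ (I : Finset (Fin n)) (g : {j // j ∉ I} → W),
      (∀ j, g j ∈ V) ∧ (∀ v ∈ V, ∃ c : {j // j ∉ I} → F, v = ∑ j, c j • g j) ∧
      (∀ c : {j // j ∉ I} → F, ∑ j, c j • g j = 0 → ∀ j, c j = 0) ∧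
      I.card + Module.finrank F V = n ∧
      (∀ v ∈ V, (∀ j, j ∉ I → e.repr v j = 0) → v = 0) := by
  classical
  have : Module.Finite F W := Module.Finite.of_basis e
  obtain ⟨κ, a, ha, hsp, hli⟩ := exists_linearIndependent' F (fun i => V.mkQ (e i))
  have : Finite κ := Finite.of_injective a ha
  have : Fintype κ := Fintype.ofFinite κ
  have hspan : Submodule.span F (Set.range ((fun i => V.mkQ (e i)) ∘ a)) = ⊤ := by
    rw [hsp]
    have h1 : Set.range (fun i => V.mkQ (e i)) = V.mkQ '' Set.range e := by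
      rw [← Set.range_comp]; rfl
    rw [h1, ← Submodule.map_span, e.span_eq, Submodule.map_top, Submodule.range_mkQ]
  let I : Finset (Fin n) := Finset.univ.image a
  have hIcard : I.card = Module.finrank F (W ⧸ V) := by
    rw [Finset.card_image_of_injective _ ha, Finset.card_univ,
      ← Module.finrank_eq_card_basis (Module.Basis.mk hli hspan.ge)]
  have hn : Module.finrank F W = n := by
    rw [Module.finrank_eq_card_basis e, Fintype.card_fin]
  have hsum : I.card + Module.finrank F V = n := by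
    rw [hIcard, ← hn]; exact Submodule.finrank_quotient_add_finrank V
  have hcompl : Fintype.card {j // j ∉ I} = Module.finrank F V := by
    rw [Fintype.card_subtype_compl]
    simp only [Fintype.card_fin, Fintype.card_coe]
    omega
  let g0 : Module.Basis (Fin (Module.finrank F V)) F V := Module.finBasis F V
  let g1 := g0.reindex ((Fintype.equivFinOfCardEq hcompl).symm)
  refine ⟨I, fun j => (g1 j).1, fun j => (g1 j).2, ?_, ?_, hsum, ?_⟩
  · intro v hv
    refine ⟨fun j => g1.repr ⟨v, hv⟩ j, ?_⟩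
    have := congrArg Subtype.val (g1.sum_repr ⟨v, hv⟩)
    rw [Submodule.coe_sum] at this
    exact this.symm
  · intro c hc j
    have h0 : ∑ j, c j • g1 j = 0 := by
      apply Subtype.ext
      rw [Submodule.coe_sum]
      exact hc
    exact Fintype.linearIndependent_iff.1 g1.linearIndependent c h0 j
  intro v hv hz
  have h1 : v = ∑ i ∈ I, e.repr v i • e i := by
    conv_lhs => rw [← e.sum_repr v]
    symm
    apply Finset.sum_subset (Finset.subset_univ _)
    intro i _ hi
    rw [hz i hi, zero_smul]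
  have h2 : ∑ x : κ, e.repr v (a x) • V.mkQ (e (a x)) = 0 := by
    have h3 : V.mkQ v = 0 := by simpa using hv
    rw [h1, map_sum] at h3
    rw [← h3]
    rw [Finset.sum_image (fun x _ y _ h => ha h)]
    refine Finset.sum_congr rfl fun x _ => ?_
    rw [map_smul]
  have h4 : ∀ x : κ, e.repr v (a x) = 0 := by
    intro x
    exact Fintype.linearIndependent_iff.1 hli (fun x => e.repr v (a x)) h2 x
  rw [h1]
  apply Finset.sum_eq_zero
  intro i hi
  obtain ⟨x, _, rfl⟩ := Finset.mem_image.1 hi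
  rw [h4 x, zero_smul]

lemma finrank_ker_add {F W W' : Type*} [Field F] [AddCommGroup W] [Module F W]
    [AddCommGroup W'] [Module F W'] {n : ℕ} (e : Module.Basis (Fin n) F W) (φ : W →ₗ[F] W')
    (hφ : Function.Surjective φ) :
    Module.finrank F (LinearMap.ker φ) + Module.finrank F W' = n := by
  have : Module.Finite F W := Module.Finite.of_basis e
  have h1 := LinearMap.finrank_range_add_finrank_ker φ
  rw [LinearMap.range_eq_top.2 hφ, finrank_top, Module.finrank_eq_card_basis e,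
    Fintype.card_fin] at h1
  omega

/-- Nakayama + clearing denominators: if the differentials of the `p i ∈ P` span those of the
maximal ideal of `B_P`, then `P` is generated by the `p i` near the generic point of `V(P)`. -/
theorem clear [PerfectField k] [IsNoetherianRing B] [Algebra.EssFiniteType k B]
    [Algebra.FormallySmooth k B] {ι : Type*} [Fintype ι] (p : ι → B) (hp : ∀ i, p i ∈ P)
    (hspan : ∀ x ∈ IsLocalRing.maximalIdeal Rₚ, ∃ c : ι → Kₚ,
      dW (k := k) P x = ∑ j, c j • dW P (algebraMap B Rₚ (p j))) :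
    ∃ h : B, h ∉ P ∧ ∀ b ∈ P, h * b ∈ Ideal.span (Set.range p) := by
  classical
  have hsurj : Function.Surjective (algebraMap Rₚ Kₚ) := Ideal.Quotient.mk_surjective
  have hmax : IsLocalRing.maximalIdeal Rₚ ≤
      Ideal.span (Set.range fun j => algebraMap B Rₚ (p j)) := by
    have : IsNoetherianRing Rₚ := IsLocalization.isNoetherianRing P.primeCompl _ inferInstance
    refine Submodule.le_of_le_smul_of_le_jacobson_bot (I := IsLocalRing.maximalIdeal Rₚ)
      (IsNoetherian.noetherian _) (IsLocalRing.maximalIdeal_le_jacobson _) ?_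
    intro x hx
    obtain ⟨c, h1⟩ := hspan x hx
    choose r hr using fun j => hsurj (c j)
    have h2 : dW (k := k) P (x - ∑ j, r j * algebraMap B Rₚ (p j)) = 0 := by
      rw [dW_sub, dW_sum, h1, sub_eq_zero]
      refine Finset.sum_congr rfl fun j _ => ?_
      rw [dW_mul, ← IsScalarTower.algebraMap_apply B Rₚ Kₚ,
        Ideal.algebraMap_residueField_eq_zero.2 (hp j), zero_smul, add_zero, hr]
    have hpm : ∀ j, algebraMap B Rₚ (p j) ∈ IsLocalRing.maximalIdeal Rₚ := fun j =>
      (IsLocalization.AtPrime.to_map_mem_maximal_iff Rₚ P _).2 (hp j)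
    have h3 : x - ∑ j, r j * algebraMap B Rₚ (p j) ∈ IsLocalRing.maximalIdeal Rₚ :=
      sub_mem hx (Ideal.sum_mem _ fun j _ => Ideal.mul_mem_left _ _ (hpm j))
    have h4 := dW_eq_zero (k := k) P _ h3 h2
    have h5 : x = (∑ j, r j * algebraMap B Rₚ (p j)) +
        (x - ∑ j, r j * algebraMap B Rₚ (p j)) := by ring
    rw [h5]
    refine Submodule.add_mem_sup ?_ ?_
    · exact Ideal.sum_mem _ fun j _ =>
        Ideal.mul_mem_left _ _ (Ideal.subset_span ⟨j, rfl⟩)
    · rw [smul_eq_mul, ← pow_two]; exact h4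
  have h1 : ∀ b ∈ P, ∃ t : B, t ∉ P ∧ t * b ∈ Ideal.span (Set.range p) := by
    intro b hb
    have h2 : algebraMap B Rₚ b ∈ (Ideal.span (Set.range p)).map (algebraMap B Rₚ) := by
      rw [Ideal.map_span, ← Set.range_comp]
      exact hmax ((IsLocalization.AtPrime.to_map_mem_maximal_iff Rₚ P _).2 hb)
    obtain ⟨⟨a, t⟩, hat⟩ := (IsLocalization.mem_map_algebraMap_iff P.primeCompl Rₚ).1 h2
    simp only at hat
    rw [← map_mul] at hat
    obtain ⟨c, hc⟩ := (IsLocalization.eq_iff_exists P.primeCompl Rₚ).1 hat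
    refine ⟨c.1 * t.1, fun h => ?_, ?_⟩
    · exact (P.primeCompl.mul_mem c.2 t.2) h
    · have : c.1 * t.1 * b = c.1 * (b * t.1) := by ring
      rw [this, hc]
      exact Ideal.mul_mem_left _ _ a.2
  obtain ⟨T, hT⟩ := (IsNoetherian.noetherian P : P.FG)
  have h3 : ∀ b : {b // b ∈ T}, ∃ t : B, t ∉ P ∧ t * b.1 ∈ Ideal.span (Set.range p) := fun b =>
    h1 b.1 (hT ▸ Submodule.subset_span b.2)
  choose t ht ht' using h3
  refine ⟨∏ b, t b, ?_, ?_⟩
  · intro h
    obtain ⟨b, _, hb⟩ := Ideal.IsPrime.prod_mem_iff.1 h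
    exact ht b hb
  · intro b hb
    rw [← hT] at hb
    induction hb using Submodule.span_induction with
    | mem x hx =>
      obtain ⟨c, hc⟩ : t ⟨x, hx⟩ ∣ ∏ b, t b := Finset.dvd_prod_of_mem t (Finset.mem_univ _)
      rw [hc]
      have : t ⟨x, hx⟩ * c * x = c * (t ⟨x, hx⟩ * x) := by ring
      rw [this]
      exact Ideal.mul_mem_left _ _ (ht' ⟨x, hx⟩)
    | zero => simp
    | add x y _ _ hx hy => rw [mul_add]; exact add_mem hx hy
    | smul a x _ hx =>
      rw [smul_eq_mul]
      have : (∏ b, t b) * (a * x) = a * ((∏ b, t b) * x) := by ring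
      rw [this]
      exact Ideal.mul_mem_left _ _ hx

theorem gen_alg [PerfectField k] [IsNoetherianRing B] [Algebra.EssFiniteType k B]
    [Algebra.FormallySmooth k B] {n : ℕ} (bs : Module.Basis (Fin n) B Ω[B⁄k]) :
    ∃ (I : Finset (Fin n)) (f : {j // j ∉ I} → B) (h : B), h ∉ P ∧ (∀ j, f j ∈ P) ∧
      (∀ b ∈ P, h * b ∈ Ideal.span (Set.range f)) ∧
      (Matrix.of fun j l : {j // j ∉ I} => bs.repr (D k B (f j)) l).det ∉ P ∧
      I.card = Module.finrank Kₚ Ω[Kₚ⁄k] := by
  classical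
  set V : Submodule Kₚ (Kₚ ⊗[Rₚ] Ω[Rₚ⁄k]) := LinearMap.ker (mapBaseChange k Rₚ Kₚ) with hV
  obtain ⟨I, g, hgV, hgspan, hgli, hcard, hcompl⟩ := exists_compl_basis (basW P bs) V
  have hsurj : Function.Surjective (algebraMap Rₚ Kₚ) := Ideal.Quotient.mk_surjective
  have hk : RingHom.ker (algebraMap Rₚ Kₚ) = IsLocalRing.maximalIdeal Rₚ :=
    IsLocalRing.ker_residue
  have hex : ∀ j, ∃ p s : B, p ∈ P ∧ s ∉ P ∧
      dW (k := k) P (algebraMap B Rₚ p) = algebraMap B Kₚ s • g j := by
    intro j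
    obtain ⟨x, hx, hxg⟩ := (mem_ker_iff P _).1 (hgV j)
    obtain ⟨p, s, rfl⟩ := IsLocalization.exists_mk'_eq P.primeCompl x
    refine ⟨p, s.1, (IsLocalization.AtPrime.mk'_mem_maximal_iff Rₚ P p s).1 hx, s.2, ?_⟩
    rw [← hxg, ← IsLocalization.mk'_spec Rₚ p s, dW_mul]
    have : algebraMap Rₚ Kₚ (IsLocalization.mk' Rₚ p s) = 0 := by
      have : IsLocalization.mk' Rₚ p s ∈ RingHom.ker (algebraMap Rₚ Kₚ) := hk ▸ hx
      exact this
    rw [this, zero_smul, zero_add, ← IsScalarTower.algebraMap_apply B Rₚ Kₚ]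
  choose p s hp hs hps using hex
  have hs0 : ∀ j, algebraMap B Kₚ (s j) ≠ 0 := by
    intro j h0
    exact hs j (Ideal.algebraMap_residueField_eq_zero.1 h0)
  obtain ⟨h, hh, hspan⟩ := clear (k := k) P p hp (by
    intro x hx
    have hxV : dW (k := k) P x ∈ V := (mem_ker_iff P _).2 ⟨x, hx, rfl⟩
    obtain ⟨c, h1⟩ := hgspan _ hxV
    refine ⟨fun j => c j * (algebraMap B Kₚ (s j))⁻¹, ?_⟩
    rw [h1]
    refine Finset.sum_congr rfl fun j _ => ?_
    rw [hps, smul_smul, mul_assoc, inv_mul_cancel₀ (hs0 j), mul_one])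
  refine ⟨I, p, h, hh, hp, hspan, ?_, ?_⟩
  · intro hdet
    have h1 : (Matrix.of fun j l : {j // j ∉ I} =>
        algebraMap B Kₚ (bs.repr (D k B (p j)) l)).det = 0 := by
      have h2 := Ideal.algebraMap_residueField_eq_zero.2 hdet
      rw [RingHom.map_det] at h2
      exact h2
    obtain ⟨v, hv0, hv⟩ := Matrix.exists_vecMul_eq_zero_iff.2 h1
    apply hv0
    have hw : (∑ j, v j • dW (k := k) P (algebraMap B Rₚ (p j))) = 0 := by
      apply hcompl
      · refine Submodule.sum_mem _ fun j _ => Submodule.smul_mem _ _ ?_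
        rw [hps]
        exact Submodule.smul_mem _ _ (hgV j)
      · intro l hl
        have h3 := congrFun hv ⟨l, hl⟩
        rw [map_sum, Finsupp.finsetSum_apply]
        simp only [Matrix.vecMul, dotProduct, Matrix.of_apply, Pi.zero_apply] at h3
        rw [← h3]
        refine Finset.sum_congr rfl fun j _ => ?_
        rw [map_smul, Finsupp.smul_apply, repr_dW, smul_eq_mul]
    have hw2 : (∑ j, (v j * algebraMap B Kₚ (s j)) • g j) = 0 := by
      rw [← hw]
      refine Finset.sum_congr rfl fun j _ => ?_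
      rw [hps, smul_smul]
    funext j
    have h4 := hgli (fun j => v j * algebraMap B Kₚ (s j)) hw2 j
    exact (mul_eq_zero.1 h4).resolve_right (hs0 j)
  · have h1 := finrank_ker_add (basW P bs) (mapBaseChange k Rₚ Kₚ)
      (mapBaseChange_surjective k Rₚ Kₚ hsurj)
    rw [← hV] at h1
    exact Nat.add_right_cancel (hcard.trans ((Nat.add_comm _ _).trans h1).symm)

/-- functions in `P` with invertible Jacobian w.r.t. `z` generate `P` near the generic point of
`V(P)` (used for maximal ideals `P`). -/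
theorem local_gen [PerfectField k] [IsNoetherianRing B] [Algebra.EssFiniteType k B]
    [Algebra.FormallySmooth k B] {n : ℕ} (bs : Module.Basis (Fin n) B Ω[B⁄k])
    (w : Fin n → B) (hw : ∀ i, w i ∈ P)
    (hdet : (Matrix.of fun j l : Fin n => bs.repr (D k B (w j)) l).det ∉ P) :
    ∃ h : B, h ∉ P ∧ ∀ b ∈ P, h * b ∈ Ideal.span (Set.range w) := by
  classical
  refine clear (k := k) P w hw ?_
  intro x _
  set M : Matrix (Fin n) (Fin n) Kₚ := Matrix.of fun j l =>
    algebraMap B Kₚ (bs.repr (D k B (w j)) l) with hM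
  have hM0 : M.det ≠ 0 := by
    intro h0
    apply hdet
    rw [← Ideal.algebraMap_residueField_eq_zero, RingHom.map_det]
    exact h0
  have hMu : IsUnit M.det := isUnit_iff_ne_zero.2 hM0
  set v : Fin n → Kₚ := fun l => (basW P bs).repr (dW (k := k) P x) l with hv
  refine ⟨Matrix.vecMul v M⁻¹, ?_⟩
  have h1 : Matrix.vecMul (Matrix.vecMul v M⁻¹) M = v := by
    rw [Matrix.vecMul_vecMul, Matrix.nonsing_inv_mul _ hMu, Matrix.vecMul_one]
  apply (basW P bs).repr.injective
  ext l
  rw [map_sum, Finsupp.finsetSum_apply]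
  have h2 := congrFun h1 l
  simp only [hv] at h2
  rw [← h2]
  simp only [Matrix.vecMul, dotProduct]
  refine Finset.sum_congr rfl fun j _ => ?_
  rw [map_smul, Finsupp.smul_apply, repr_dW, smul_eq_mul, hM, Matrix.of_apply]

end

end Crest.Agent.R271.Gen86
end

-- ▼ part R271/GenB_86
section

/-! R271, team N, N1 (GEN): `GenFact`. -/

set_option autoImplicit false

namespace Crest.Agent.R271.Gen86

open KaehlerDifferential TensorProduct

section Dim

variable {A S : Type*} [CommRing A] [CommRing S] [Algebra A S]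

theorem ringKrullDim_le_of_isIntegral [Algebra.IsIntegral A S] :
    ringKrullDim S ≤ ringKrullDim A := by
  apply Order.krullDim_le_of_strictMono (PrimeSpectrum.comap (algebraMap A S))
  intro p q hpq
  have h1 : p.asIdeal < q.asIdeal := hpq
  exact Ideal.IsIntegral.comap_lt_comap (R := A) h1

theorem exists_ltSeries_lift [Algebra.IsIntegral A S] (hinj : Function.Injective (algebraMap A S))
    (l : LTSeries (PrimeSpectrum A)) : ∃ L : LTSeries (PrimeSpectrum S), L.length = l.length := by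
  obtain ⟨P, -, hP, hPl⟩ := Ideal.exists_ideal_over_prime_of_isIntegral
    l.head.asIdeal (⊥ : Ideal S) (by
      change RingHom.ker (algebraMap A S) ≤ _
      rw [(RingHom.injective_iff_ker_eq_bot _).1 hinj]; exact bot_le)
  have : P.LiesOver l.head.asIdeal := ⟨hPl.symm⟩
  have : Algebra.HasGoingUp A S := Algebra.HasGoingUp.of_isIntegral
  obtain ⟨L, hL, -, -⟩ := Ideal.exists_ltSeries_of_hasGoingUp l P
  exact ⟨L, hL⟩

/-- an injective integral extension has the same dimension -/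
theorem ringKrullDim_eq_of_isIntegral_of_injective [Algebra.IsIntegral A S]
    (hinj : Function.Injective (algebraMap A S)) : ringKrullDim S = ringKrullDim A := by
  refine le_antisymm ringKrullDim_le_of_isIntegral ?_
  refine iSup_le fun l => ?_
  obtain ⟨L, hL⟩ := exists_ltSeries_lift (S := S) hinj l
  rw [← hL]
  exact le_iSup (fun L : LTSeries (PrimeSpectrum S) => (L.length : WithBot ℕ∞)) L

end Dim

/-- `dim Ω_{K/k} = dim A` for a finitely generated domain `A` with fraction field `K`, char. 0 -/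
theorem finrank_kaehler {k A K : Type*} [Field k] [CharZero k] [CommRing A] [IsDomain A]
    [Algebra k A] [Algebra.FiniteType k A] [Field K] [Algebra A K] [IsFractionRing A K]
    [Algebra k K] [IsScalarTower k A K] (d : ℕ) (hd : ringKrullDim A = d) :
    Module.finrank K Ω[K⁄k] = d := by
  obtain ⟨s, g, hg, hint⟩ := exists_integral_inj_algHom_of_fg k A
  let _ : Algebra (MvPolynomial (Fin s) k) A := g.toRingHom.toAlgebra
  have hgA : algebraMap (MvPolynomial (Fin s) k) A = g.toRingHom := rfl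
  have : IsScalarTower k (MvPolynomial (Fin s) k) A := IsScalarTower.of_algebraMap_eq fun x => by
    rw [hgA]; exact (g.commutes x).symm
  have : Algebra.IsIntegral (MvPolynomial (Fin s) k) A := ⟨hint⟩
  have hs : s = d := by
    have h1 := ringKrullDim_eq_of_isIntegral_of_injective (A := MvPolynomial (Fin s) k) (S := A) hg
    rw [hd, MvPolynomial.ringKrullDim_of_isNoetherianRing, ringKrullDim_eq_zero_of_field,
      zero_add, Nat.card_eq_fintype_card, Fintype.card_fin] at h1
    exact_mod_cast h1.symm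
  let _ : Algebra (MvPolynomial (Fin s) k) K := ((algebraMap A K).comp g.toRingHom).toAlgebra
  have : IsScalarTower (MvPolynomial (Fin s) k) A K := IsScalarTower.of_algebraMap_eq' rfl
  have : IsScalarTower k (MvPolynomial (Fin s) k) K := IsScalarTower.of_algebraMap_eq fun x => by
    rw [IsScalarTower.algebraMap_apply k A K, IsScalarTower.algebraMap_apply k
      (MvPolynomial (Fin s) k) A, ← IsScalarTower.algebraMap_apply (MvPolynomial (Fin s) k) A K]
  have hinjK : Function.Injective (algebraMap (MvPolynomial (Fin s) k) K) :=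
    (IsFractionRing.injective A K).comp hg
  have : FaithfulSMul (MvPolynomial (Fin s) k) K := (faithfulSMul_iff_algebraMap_injective _ _).2 hinjK
  have : FaithfulSMul (MvPolynomial (Fin s) k) A := (faithfulSMul_iff_algebraMap_injective _ _).2 hg
  let _ : Algebra (FractionRing (MvPolynomial (Fin s) k)) K := FractionRing.liftAlgebra _ K
  have : IsScalarTower (MvPolynomial (Fin s) k) (FractionRing (MvPolynomial (Fin s) k)) K :=
    FractionRing.isScalarTower_liftAlgebra _ K
  have halgAK : Algebra.IsAlgebraic A K := IsLocalization.isAlgebraic K (nonZeroDivisors A)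
  have halg : Algebra.IsAlgebraic (MvPolynomial (Fin s) k) K :=
    Algebra.IsIntegral.trans_isAlgebraic _ A K
  have halg' : Algebra.IsAlgebraic (FractionRing (MvPolynomial (Fin s) k)) K :=
    (IsFractionRing.comap_isAlgebraic_iff (A := MvPolynomial (Fin s) k)
      (K := FractionRing (MvPolynomial (Fin s) k)) (C := K)).1 halg
  have : CharZero (FractionRing (MvPolynomial (Fin s) k)) := inferInstance
  have : Algebra.IsSeparable (FractionRing (MvPolynomial (Fin s) k)) K := inferInstance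
  have h1 : Algebra.FormallyEtale (FractionRing (MvPolynomial (Fin s) k)) K :=
    Algebra.FormallyEtale.of_isSeparable _ K
  have h2 : Algebra.FormallyEtale (MvPolynomial (Fin s) k)
      (FractionRing (MvPolynomial (Fin s) k)) :=
    .of_isLocalization (nonZeroDivisors (MvPolynomial (Fin s) k))
  have h3 : Algebra.FormallyEtale (MvPolynomial (Fin s) k) K :=
    .comp _ (FractionRing (MvPolynomial (Fin s) k)) K
  have e := tensorKaehlerEquivOfFormallyEtale k (MvPolynomial (Fin s) k) K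
  rw [← e.finrank_eq, Module.finrank_baseChange,
    Module.finrank_eq_card_basis (mvPolynomialBasis k (Fin s)), Fintype.card_fin, hs]

open Crest.Agent.R271.Defs710

/-- existence of the permutation moving `{i < d}` to `I` -/
lemma exists_perm {n d : ℕ} (I : Finset (Fin n)) (hI : I.card = d) :
    ∃ e : Equiv.Perm (Fin n), ∀ i, e i ∈ I ↔ i.1 < d := by
  classical
  have hdn : d ≤ n := by
    rw [← hI]; simpa using Finset.card_le_univ I
  have hc : Fintype.card {i : Fin n // i.1 < d} = Fintype.card {i // i ∈ I} := by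
    rw [Fintype.card_coe, hI, Fintype.card_subtype]
    have : (Finset.univ.filter fun i : Fin n => i.1 < d) =
        Finset.univ.image (Fin.castLE hdn) := by
      ext i
      simp only [Finset.mem_filter, Finset.mem_univ, true_and, Finset.mem_image]
      constructor
      · intro h; exact ⟨⟨i.1, h⟩, rfl⟩
      · rintro ⟨a, rfl⟩; exact a.2
    rw [this, Finset.card_image_of_injective _ (Fin.castLE_injective hdn), Finset.card_univ,
      Fintype.card_fin]
  let e0 := Fintype.equivOfCardEq hc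
  refine ⟨e0.extendSubtype, fun i => ⟨fun h => ?_, fun h => e0.extendSubtype_mem i h⟩⟩
  by_contra h'
  exact e0.extendSubtype_not_mem i h' h

theorem genFact {n : ℕ} (X : FCtx n) : GenFact X := by
  classical
  intro P d hP hd
  have : P.IsPrime := hP
  have hft := X.ft
  have hnoeth : IsNoetherianRing X.B := Algebra.FiniteType.isNoetherianRing ℂ X.B
  let _ : Algebra (MvPolynomial (Fin n) ℂ) X.B :=
    (MvPolynomial.aeval X.z : MvPolynomial (Fin n) ℂ →ₐ[ℂ] X.B).toRingHom.toAlgebra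
  have hal : algebraMap (MvPolynomial (Fin n) ℂ) X.B =
    (MvPolynomial.aeval X.z : MvPolynomial (Fin n) ℂ →ₐ[ℂ] X.B).toRingHom := rfl
  have : IsScalarTower ℂ (MvPolynomial (Fin n) ℂ) X.B := IsScalarTower.of_algebraMap_eq fun x => by
    rw [hal]; exact ((MvPolynomial.aeval X.z : MvPolynomial (Fin n) ℂ →ₐ[ℂ] X.B).commutes x).symm
  have het : Algebra.Etale (MvPolynomial (Fin n) ℂ) X.B := X.etale
  have hfs : Algebra.FormallySmooth ℂ X.B := .comp ℂ (MvPolynomial (Fin n) ℂ) X.B
  let bs : Module.Basis (Fin n) X.B Ω[X.B⁄ℂ] :=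
    (Algebra.TensorProduct.basis X.B (mvPolynomialBasis ℂ (Fin n))).map
      (tensorKaehlerEquivOfFormallyEtale ℂ (MvPolynomial (Fin n) ℂ) X.B)
  have hbs : ∀ i, bs i = D ℂ X.B (X.z i) := by
    intro i
    simp only [bs, Module.Basis.map_apply, Algebra.TensorProduct.basis_apply,
      mvPolynomialBasis_apply, tensorKaehlerEquivOfFormallyEtale_apply, mapBaseChange_tmul,
      one_smul, map_D]
    rw [hal]
    simp
  have hreprz : ∀ i l, bs.repr (D ℂ X.B (X.z i)) l = if i = l then 1 else 0 := by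
    intro i l
    rw [← hbs, Module.Basis.repr_self, Finsupp.single_apply]
  obtain ⟨I, f, h, hh, hfP, hspan, hdet, hcard⟩ := gen_alg (k := ℂ) P bs
  have hId : I.card = d := by
    rw [hcard]
    exact finrank_kaehler (k := ℂ) (A := X.B ⧸ P) d hd
  obtain ⟨e, he⟩ := exists_perm I hId
  refine ⟨h * (Matrix.of fun j l : {j // j ∉ I} => bs.repr (D ℂ X.B (f j)) l).det, ?_, ?_⟩
  · intro hmem
    rcases hP.mem_or_mem hmem with h1 | h1
    · exact hh h1
    · exact hdet h1
  intro y hyP hy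
  rw [map_mul] at hy
  have hy1 : y h ≠ 0 := left_ne_zero_of_mul hy
  have hy2 := right_ne_zero_of_mul hy
  let w : Fin n → X.B := fun i =>
    if hi : e i ∈ I then X.z (e i) - algebraMap ℂ X.B (y (X.z (e i))) else f ⟨e i, hi⟩
  have hw0 : ∀ i, y (w i) = 0 := by
    intro i
    simp only [w]
    split_ifs with hi
    · rw [map_sub, AlgHom.commutes, Algebra.algebraMap_self, RingHom.id_apply, sub_self]
    · exact hyP _ (hfP _)
  have hwd : ∀ i : Fin n, d ≤ i.1 → ∃ hi : e i ∉ I, w i = f ⟨e i, hi⟩ := by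
    intro i hi
    have h1 : e i ∉ I := fun h => absurd ((he i).1 h) (not_lt.2 hi)
    exact ⟨h1, by simp only [w, dif_neg h1]⟩
  have hmprime : (mI y).IsPrime := RingHom.ker_isPrime _
  -- the full Jacobian
  have hJ : (Matrix.of fun j l : Fin n => bs.repr (D ℂ X.B (w j)) l).det ∉ mI y := by
    intro hmem
    have h0 : y (Matrix.of fun j l : Fin n => bs.repr (D ℂ X.B (w j)) l).det = 0 := hmem
    rw [AlgHom.map_det] at h0
    obtain ⟨v, hv0, hv⟩ := Matrix.exists_mulVec_eq_zero_iff.2 h0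
    have hrow : ∀ j, ∑ l, y (bs.repr (D ℂ X.B (w j)) l) * v l = 0 := by
      intro j
      have := congrFun hv j
      simpa [Matrix.mulVec, dotProduct] using this
    have hvI : ∀ l, l ∈ I → v l = 0 := by
      intro l hl
      have h1 := hrow (e.symm l)
      have h2 : w (e.symm l) = X.z l - algebraMap ℂ X.B (y (X.z l)) := by
        simp only [w, Equiv.apply_symm_apply, dif_pos hl]
      rw [h2, map_sub, Derivation.map_algebraMap, sub_zero] at h1
      simp only [hreprz] at h1
      simpa using h1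
    have hvn : ∀ j : {j // j ∉ I}, ∑ l : {l // l ∉ I}, y (bs.repr (D ℂ X.B (f j)) l) * v l = 0 := by
      intro j
      have h1 := hrow (e.symm j.1)
      have h2 : w (e.symm j.1) = f j := by
        have : e (e.symm j.1) ∉ I := by rw [Equiv.apply_symm_apply]; exact j.2
        simp only [w, dif_neg this]
        congr 1
        exact Subtype.ext (Equiv.apply_symm_apply _ _)
      rw [h2] at h1
      rw [← h1, ← Finset.sum_subtype (Finset.univ.filter (· ∉ I)) (by simp)
        (fun l => y (bs.repr (D ℂ X.B (f j)) l) * v l)]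
      apply Finset.sum_subset (Finset.subset_univ _)
      intro l _ hl
      have : l ∈ I := by simpa using hl
      rw [hvI l this, mul_zero]
    apply hy2
    rw [AlgHom.map_det]
    apply Matrix.exists_mulVec_eq_zero_iff.1
    refine ⟨fun l => v l, ?_, ?_⟩
    · intro hz
      apply hv0
      funext l
      by_cases hl : l ∈ I
      · exact hvI l hl
      · exact congrFun hz ⟨l, hl⟩
    · funext j
      simpa [Matrix.mulVec, dotProduct] using hvn j
  obtain ⟨g, hg, hgspan⟩ := local_gen (k := ℂ) (mI y) bs w hw0 hJ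
  refine ⟨w, hw0, fun i hi => ?_, h * g, ?_, ?_, ?_⟩
  · obtain ⟨h1, h2⟩ := hwd i hi
    rw [h2]; exact hfP _
  · rw [map_mul]; exact mul_ne_zero hy1 hg
  · intro b hb
    have h1 : Ideal.span (Set.range f) ≤ Ideal.span (w '' {i | d ≤ i.1}) := by
      apply Ideal.span_mono
      rintro _ ⟨j, rfl⟩
      have h2 : e (e.symm j.1) ∉ I := by rw [Equiv.apply_symm_apply]; exact j.2
      refine ⟨e.symm j.1, ?_, ?_⟩
      · exact not_lt.1 fun h3 => h2 ((he _).2 h3)
      · simp only [w, dif_neg h2]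
        congr 1
        exact Subtype.ext (Equiv.apply_symm_apply _ _)
    have h2 : h * g * b = g * (h * b) := by ring
    rw [h2]
    exact Ideal.mul_mem_left _ _ (h1 (hspan b hb))
  · intro b hb
    have h2 : h * g * b = h * (g * b) := by ring
    rw [h2]
    exact Ideal.mul_mem_left _ _ (hgspan b hb)

end Crest.Agent.R271.Gen86
end

-- ▼ part R271/Disc1_846
section

/-!
Row 271, team N, piece N4 (DISC), part 1: from a maximal ideal `m` of a finitely generated
`ℂ`-domain `R` with `m = (u) + m²` and `uⁱ ∉ mⁱ⁺¹` one gets a holomorphic disc of points of `R`,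
by the inverse function theorem.
-/

set_option autoImplicit false
set_option linter.unusedSectionVars false

open scoped Topology
open MvPolynomial Asymptotics

namespace Crest.Agent.R271.Disc846

section poly

variable {σ : Type} [Fintype σ]

/-- the ideal of the point `β` -/
noncomputable def ptI (β : σ → ℂ) : Ideal (MvPolynomial σ ℂ) :=
  RingHom.ker (MvPolynomial.eval β)

lemma mem_ptI (β : σ → ℂ) (p : MvPolynomial σ ℂ) : p ∈ ptI β ↔ eval β p = 0 := Iff.rfl

lemma sub_eval_mem_span (β : σ → ℂ) (p : MvPolynomial σ ℂ) :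
    p - C (eval β p) ∈ Ideal.span (Set.range fun o : σ => (X o - C (β o) : MvPolynomial σ ℂ)) := by
  classical
  induction p using MvPolynomial.induction_on with
  | C a => simp
  | add p q hp hq =>
    have : p + q - C (eval β (p + q)) = (p - C (eval β p)) + (q - C (eval β q)) := by
      simp only [map_add]; ring
    rw [this]
    exact Ideal.add_mem _ hp hq
  | mul_X p o hp =>
    have : p * X o - C (eval β (p * X o)) = X o * (p - C (eval β p)) +
        C (eval β p) * (X o - C (β o)) := by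
      simp only [map_mul, eval_X]; ring
    rw [this]
    refine Ideal.add_mem _ (Ideal.mul_mem_left _ _ hp) (Ideal.mul_mem_left _ _ ?_)
    exact Ideal.subset_span ⟨o, rfl⟩

lemma ptI_le_span (β : σ → ℂ) :
    ptI β ≤ Ideal.span (Set.range fun o : σ => (X o - C (β o) : MvPolynomial σ ℂ)) := by
  intro p hp
  have h := sub_eval_mem_span β p
  rw [mem_ptI] at hp
  rwa [hp, map_zero, sub_zero] at h

/-- polynomials in the square of the ideal of `β` have zero derivative at `β` -/
lemma hasStrictFDerivAt_of_mem_sq (β : σ → ℂ) (p : MvPolynomial σ ℂ) (hp : p ∈ ptI β ^ 2) :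
    HasStrictFDerivAt (fun b : σ → ℂ => eval b p) (0 : (σ → ℂ) →L[ℂ] ℂ) β := by
  rw [pow_two] at hp
  have hd : ∀ q : MvPolynomial σ ℂ, ∃ L, HasStrictFDerivAt (fun b : σ → ℂ => eval b q)
      (L : (σ → ℂ) →L[ℂ] ℂ) β := by
    intro q
    have : ContDiff ℂ 1 (fun b : σ → ℂ => eval b q) := by
      induction q using MvPolynomial.induction_on with
      | C a => simpa using contDiff_const
      | add p q hp hq => simpa using hp.add hq
      | mul_X p o hp => simpa using hp.mul (contDiff_apply ℂ ℂ o)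
    exact ⟨_, this.contDiffAt.hasStrictFDerivAt one_ne_zero⟩
  induction hp using Submodule.mul_induction_on' with
  | mem_mul_mem a ha b hb =>
    obtain ⟨La, hLa⟩ := hd a
    obtain ⟨Lb, hLb⟩ := hd b
    have h := hLa.fun_mul hLb
    rw [mem_ptI] at ha hb
    have h0 : eval β a • Lb + eval β b • La = 0 := by
      ext v
      simp [ha, hb]
    rw [h0] at h
    simpa only [map_mul] using h
  | add a _ b _ ha hb =>
    have h := ha.fun_add hb
    rw [add_zero] at h
    simpa only [map_add] using h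

end poly

section main

variable {σ : Type} [Fintype σ]

/-- The local solution curve: if `E o = X o - β o - c o • X o₀ - Q o`. -/
theorem exists_curve (β : σ → ℂ) (o₀ : σ) (c : σ → ℂ) (Q : σ → MvPolynomial σ ℂ)
    (hβ : β o₀ = 0) (hc : c o₀ = 1) (hQ₀ : Q o₀ = 0) (hQ : ∀ o, Q o ∈ ptI β ^ 2) :
    ∃ b : ℂ → (σ → ℂ), b 0 = β ∧ AnalyticAt ℂ b 0 ∧ (∀ᶠ τ in 𝓝 (0 : ℂ), b τ o₀ = τ) ∧
      ∀ᶠ τ in 𝓝 (0 : ℂ), ∀ o, eval (b τ) (X o - C (β o) - C (c o) * X o₀ - Q o) = 0 := by
  classical
  -- the map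
  let f : (σ → ℂ) → (σ → ℂ) := fun b o => b o - β o - eval b (Q o)
  have hfβ : f β = 0 := by
    funext o
    have : eval β (Q o) = 0 := by
      have := Ideal.pow_le_self (two_ne_zero) (hQ o)
      exact (mem_ptI β _).1 this
    simp [f, this]
  have hcd : ContDiff ℂ 1 f := by
    rw [contDiff_pi]
    intro o
    have hq : ∀ q : MvPolynomial σ ℂ, ContDiff ℂ 1 (fun b : σ → ℂ => eval b q) := by
      intro q
      induction q using MvPolynomial.induction_on with
      | C a => simpa using contDiff_const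
      | add p q hp hq => simpa using hp.add hq
      | mul_X p o hp => simpa using hp.mul (contDiff_apply ℂ ℂ o)
    exact ((contDiff_apply ℂ ℂ o).sub contDiff_const).sub (hq _)
  have hfd : HasFDerivAt f ((ContinuousLinearEquiv.refl ℂ (σ → ℂ) :
      (σ → ℂ) ≃L[ℂ] (σ → ℂ)) : (σ → ℂ) →L[ℂ] (σ → ℂ)) β := by
    rw [hasFDerivAt_pi']
    intro o
    have h1 : HasFDerivAt (fun b : σ → ℂ => b o - β o - eval b (Q o))
        (ContinuousLinearMap.proj (R := ℂ) (φ := fun _ : σ => ℂ) o - 0) β := by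
      have h2 := (hasStrictFDerivAt_of_mem_sq β (Q o) (hQ o)).hasFDerivAt
      have h3 : HasFDerivAt (fun b : σ → ℂ => b o - β o)
          (ContinuousLinearMap.proj (R := ℂ) (φ := fun _ : σ => ℂ) o) β :=
        ((ContinuousLinearMap.proj (R := ℂ) (φ := fun _ : σ => ℂ) o).hasFDerivAt).sub_const _
      exact h3.fun_sub h2
    have e1 : (ContinuousLinearMap.proj (R := ℂ) (φ := fun _ : σ => ℂ) o - 0) =
        (ContinuousLinearMap.proj (R := ℂ) (φ := fun _ : σ => ℂ) o).comp
          ((ContinuousLinearEquiv.refl ℂ (σ → ℂ) : (σ → ℂ) ≃L[ℂ] (σ → ℂ)) :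
            (σ → ℂ) →L[ℂ] (σ → ℂ)) := by
      ext v
      simp
    rw [e1] at h1
    exact h1
  have h1 : (1 : WithTop ℕ∞) ≠ 0 := by norm_num
  let g := hcd.contDiffAt.localInverse hfd h1
  have hg : ContDiffAt ℂ 1 g 0 := by
    have := hcd.contDiffAt.to_localInverse hfd h1
    rwa [hfβ] at this
  have hg0 : g 0 = β := by
    have := hcd.contDiffAt.localInverse_apply_image hfd h1
    rwa [hfβ] at this
  have hfg : ∀ᶠ w in 𝓝 (0 : σ → ℂ), f (g w) = w := by
    have := (hcd.contDiffAt.hasStrictFDerivAt' hfd h1).eventually_right_inverse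
    rw [hfβ] at this
    exact this
  let L : ℂ →L[ℂ] (σ → ℂ) := (ContinuousLinearMap.id ℂ ℂ).smulRight c
  have hL : ∀ τ, L τ = τ • c := fun τ => rfl
  have hL0 : L 0 = 0 := map_zero L
  refine ⟨fun τ => g (L τ), ?_, ?_, ?_, ?_⟩
  · simp only [hL0, hg0]
  · have hcomp : ContDiffAt ℂ 1 (fun τ => g (L τ)) 0 := by
      have h2 : ContDiffAt ℂ 1 g (L 0) := by rwa [hL0]
      exact h2.comp (0 : ℂ) L.contDiff.contDiffAt
    obtain ⟨u, hu, hdiff⟩ : ∃ u ∈ 𝓝 (0 : ℂ), DifferentiableOn ℂ (fun τ => g (L τ)) u := by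
      obtain ⟨u, hu, h0u, hdu⟩ := hcomp.contDiffOn' (le_refl 1) (by simp)
      refine ⟨u, hu.mem_nhds h0u, ?_⟩
      have := hdu.differentiableOn (by norm_num)
      simpa using this
    exact hdiff.analyticAt hu
  · have htend : Filter.Tendsto (fun τ : ℂ => L τ) (𝓝 0) (𝓝 0) := by
      simpa [hL0] using L.continuous.tendsto 0
    filter_upwards [htend.eventually hfg] with τ hτ
    have := congrFun hτ o₀
    simp only [f, hβ, hQ₀, map_zero, sub_zero, hL, Pi.smul_apply, hc, smul_eq_mul, mul_one] at this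
    exact this
  · have htend : Filter.Tendsto (fun τ : ℂ => L τ) (𝓝 0) (𝓝 0) := by
      simpa [hL0] using L.continuous.tendsto 0
    filter_upwards [htend.eventually hfg] with τ hτ o
    have h0 := congrFun hτ o₀
    have ho := congrFun hτ o
    simp only [f, hβ, hQ₀, map_zero, sub_zero, hL, Pi.smul_apply, hc, smul_eq_mul, mul_one] at h0 ho
    simp only [hL, map_sub, map_mul, eval_X, eval_C, h0]
    linear_combination ho

end main

end Crest.Agent.R271.Disc846
end

-- ▼ part R271/Disc2_846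
section

/-!
Row 271, team N, piece N4 (DISC), part 2: holomorphic discs in `Hom(R,ℂ)` from a uniformizer.
-/

set_option autoImplicit false
set_option linter.unusedSectionVars false

open scoped Topology
open MvPolynomial Asymptotics

namespace Crest.Agent.R271.Disc846

section flat

lemma eq_zero_of_pow_smul_isBigO {g : ℂ → ℂ} (hg : ContinuousAt g 0) (n : ℕ)
    (h : (fun τ : ℂ => τ ^ n * g τ) =O[𝓝 0] (fun τ : ℂ => τ ^ (n + 1))) : g 0 = 0 := by
  obtain ⟨C, hC⟩ := h.bound
  have h1 : ∀ᶠ τ in 𝓝[≠] (0 : ℂ), ‖g τ‖ ≤ C * ‖τ‖ := by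
    filter_upwards [hC.filter_mono nhdsWithin_le_nhds, self_mem_nhdsWithin] with τ hτ h0
    have h0' : τ ≠ 0 := h0
    have hpos : 0 < ‖τ‖ ^ n := pow_pos (norm_pos_iff.2 h0') n
    simp only [norm_mul, norm_pow, pow_succ] at hτ
    have : ‖τ‖ ^ n * ‖g τ‖ ≤ ‖τ‖ ^ n * (C * ‖τ‖) := by
      calc ‖τ‖ ^ n * ‖g τ‖ ≤ C * (‖τ‖ ^ n * ‖τ‖) := hτ
        _ = _ := by ring
    exact le_of_mul_le_mul_left this hpos
  have h2 : Filter.Tendsto (fun τ : ℂ => C * ‖τ‖) (𝓝[≠] 0) (𝓝 0) := by
    have : Filter.Tendsto (fun τ : ℂ => C * ‖τ‖) (𝓝 0) (𝓝 (C * ‖(0 : ℂ)‖)) :=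
      (continuous_const.mul continuous_norm).tendsto 0
    rw [norm_zero, mul_zero] at this
    exact this.mono_left nhdsWithin_le_nhds
  have h3 : Filter.Tendsto g (𝓝[≠] 0) (𝓝 0) :=
    squeeze_zero_norm' h1 h2
  have h4 : Filter.Tendsto g (𝓝[≠] 0) (𝓝 (g 0)) := hg.tendsto.mono_left nhdsWithin_le_nhds
  exact tendsto_nhds_unique h4 h3

lemma eventually_zero_of_flat {F : ℂ → ℂ} (hF : AnalyticAt ℂ F 0)
    (h : ∀ k : ℕ, F =O[𝓝 0] (fun τ : ℂ => τ ^ k)) : ∀ᶠ τ in 𝓝 0, F τ = 0 := by
  by_contra hne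
  obtain ⟨n, g, hg, hg0, hFg⟩ := hF.exists_eventuallyEq_pow_smul_nonzero_iff.2 hne
  apply hg0
  refine eq_zero_of_pow_smul_isBigO hg.continuousAt n ?_
  refine (Filter.EventuallyEq.isBigO ?_).trans (h (n + 1))
  filter_upwards [hFg] with τ hτ
  rw [hτ, sub_zero, smul_eq_mul]

lemma coeff_zero_of_flat (k : ℕ) (a : ℕ → ℂ)
    (h : (fun τ : ℂ => ∑ i ∈ Finset.range k, a i * τ ^ i) =O[𝓝 0] (fun τ : ℂ => τ ^ k)) :
    ∀ i < k, a i = 0 := by
  classical
  intro i hi
  induction i using Nat.strong_induction_on with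
  | _ i ih =>
  -- split the sum at i
  have hsplit : ∀ τ : ℂ, ∑ j ∈ Finset.range k, a j * τ ^ j =
      τ ^ i * (a i + τ * ∑ j ∈ Finset.range (k - i - 1), a (i + 1 + j) * τ ^ j) := by
    intro τ
    have h1 : k = i + (1 + (k - i - 1)) := by omega
    have h2 : ∑ j ∈ Finset.range i, a j * τ ^ j = 0 := by
      refine Finset.sum_eq_zero fun j hj => ?_
      have hji := Finset.mem_range.1 hj
      rw [ih j hji (hji.trans hi), zero_mul]
    conv_lhs => rw [h1, Finset.sum_range_add, Finset.sum_range_add]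
    rw [h2, zero_add, Finset.sum_range_one, mul_add, ← mul_assoc, Finset.mul_sum]
    congr 1
    · rw [add_zero]; ring
    · refine Finset.sum_congr rfl fun j _ => ?_
      rw [← add_assoc]; ring
  have hO : (fun τ : ℂ => τ ^ i * (a i + τ * ∑ j ∈ Finset.range (k - i - 1),
      a (i + 1 + j) * τ ^ j)) =O[𝓝 0] (fun τ : ℂ => τ ^ (i + 1)) := by
    have h1 : (fun τ : ℂ => τ ^ k) =O[𝓝 0] (fun τ : ℂ => τ ^ (i + 1)) := by
      have : k = (i + 1) + (k - i - 1) := by omega
      rw [this]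
      have h2 : (fun τ : ℂ => τ ^ (k - i - 1)) =O[𝓝 0] (fun _ : ℂ => (1 : ℂ)) :=
        (continuous_pow (k - i - 1)).continuousAt.isBigO_one ℂ
      have h3 := (isBigO_refl (fun τ : ℂ => τ ^ (i + 1)) (𝓝 0)).mul h2
      simpa [pow_add] using h3
    refine IsBigO.trans ?_ h1
    have h4 : (fun τ : ℂ => τ ^ i * (a i + τ * ∑ j ∈ Finset.range (k - i - 1),
      a (i + 1 + j) * τ ^ j)) = fun τ : ℂ => ∑ i ∈ Finset.range k, a i * τ ^ i := by
      funext τ
      exact (hsplit τ).symm
    rw [h4]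
    exact h
  have hc : ContinuousAt (fun τ : ℂ => a i + τ * ∑ j ∈ Finset.range (k - i - 1),
      a (i + 1 + j) * τ ^ j) 0 := by
    apply Continuous.continuousAt
    fun_prop
  have := eq_zero_of_pow_smul_isBigO hc i hO
  simpa using this

end flat

section decomp

variable {σ : Type} [Fintype σ]

lemma analyticAt_eval {b : ℂ → (σ → ℂ)} {τ₀ : ℂ} (hb : AnalyticAt ℂ b τ₀) (p : MvPolynomial σ ℂ) :
    AnalyticAt ℂ (fun τ => eval (b τ) p) τ₀ := by
  induction p using MvPolynomial.induction_on with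
  | C a => simpa using analyticAt_const
  | add p q hp hq => simpa using hp.fun_add hq
  | mul_X p o hp =>
    have h1 : AnalyticAt ℂ (fun τ => b τ o) τ₀ := by
      have := (ContinuousLinearMap.proj (R := ℂ) (φ := fun _ : σ => ℂ) o).analyticAt (b τ₀)
      exact this.comp hb
    simpa using hp.fun_mul h1

lemma isBigO_of_mem_pow {b : ℂ → (σ → ℂ)} (hb : AnalyticAt ℂ b 0) (β : σ → ℂ) (hb0 : b 0 = β)
    (k : ℕ) : ∀ p ∈ ptI β ^ k, (fun τ => eval (b τ) p) =O[𝓝 0] (fun τ : ℂ => τ ^ k) := by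
  induction k with
  | zero =>
    intro p _
    simpa using (analyticAt_eval hb p).continuousAt.isBigO_one ℂ
  | succ k ih =>
    intro p hp
    rw [pow_succ] at hp
    induction hp using Submodule.mul_induction_on' with
    | mem_mul_mem p hp q hq =>
      have h1 := ih p hp
      have h2 : (fun τ => eval (b τ) q) =O[𝓝 0] (fun τ : ℂ => τ) := by
        have hd := (analyticAt_eval hb q).differentiableAt.isBigO_sub
        have hq0 : eval (b 0) q = 0 := by rw [hb0]; exact (mem_ptI β q).1 hq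
        simpa [hq0] using hd
      have h3 := h1.mul h2
      simpa [map_mul, pow_succ] using h3
    | add p _ q _ hp hq => simpa [map_add] using hp.add hq

variable (β : σ → ℂ) (o₀ : σ) (c : σ → ℂ) (Q : σ → MvPolynomial σ ℂ)

/-- the equations of the curve -/
noncomputable def Eq (o : σ) : MvPolynomial σ ℂ := X o - C (β o) - C (c o) * X o₀ - Q o

lemma ptI_le (hQ : ∀ o, Q o ∈ ptI β ^ 2) :
    ptI β ≤ Ideal.span {X o₀} ⊔ Ideal.span (Set.range (Eq β o₀ c Q)) ⊔ ptI β ^ 2 := by
  refine (ptI_le_span β).trans (Ideal.span_le.2 ?_)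
  rintro _ ⟨o, rfl⟩
  have h : (X o - C (β o) : MvPolynomial σ ℂ) = (C (c o) * X o₀ + Eq β o₀ c Q o) + Q o := by
    simp only [Eq]; ring
  simp only
  rw [h]
  refine Ideal.add_mem _ (Ideal.mem_sup_left (Ideal.add_mem _ (Ideal.mem_sup_left ?_)
    (Ideal.mem_sup_right ?_))) (Ideal.mem_sup_right (hQ o))
  · exact Ideal.mul_mem_left _ _ (Ideal.subset_span rfl)
  · exact Ideal.subset_span ⟨o, rfl⟩

lemma pow_le_gen {S : Type*} [CommRing S] (M J : Ideal S) (X : S) (hX : X ∈ M)
    (h : M ≤ Ideal.span {X} ⊔ J ⊔ M ^ 2) (k : ℕ) :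
    M ^ k ≤ Ideal.span {X ^ k} ⊔ J ⊔ M ^ (k + 1) := by
  induction k with
  | zero =>
    have : Ideal.span {X ^ 0} = ⊤ := by
      rw [pow_zero]; exact Ideal.span_singleton_one
    rw [this]; simp
  | succ k ih =>
    have hXk : Ideal.span {X ^ k} ≤ M ^ k := by
      rw [Ideal.span_singleton_le_iff_mem]
      exact Ideal.pow_mem_pow hX k
    calc M ^ (k + 1) = M ^ k * M := pow_succ _ _
      _ ≤ (Ideal.span {X ^ k} ⊔ J ⊔ M ^ (k + 1)) * M := Ideal.mul_mono_left ih
      _ = Ideal.span {X ^ k} * M ⊔ J * M ⊔ M ^ (k + 1) * M := by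
          rw [Ideal.sup_mul, Ideal.sup_mul]
      _ ≤ Ideal.span {X ^ (k + 1)} ⊔ J ⊔ M ^ (k + 1 + 1) := by
          refine sup_le (sup_le ?_ ?_) ?_
          · calc Ideal.span {X ^ k} * M
                ≤ Ideal.span {X ^ k} * (Ideal.span {X} ⊔ J ⊔ M ^ 2) :=
                  Ideal.mul_mono_right h
              _ = Ideal.span {X ^ k} * Ideal.span {X} ⊔ Ideal.span {X ^ k} * J ⊔
                    Ideal.span {X ^ k} * M ^ 2 := by rw [Ideal.mul_sup, Ideal.mul_sup]
              _ ≤ _ := by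
                  refine sup_le (sup_le ?_ ?_) ?_
                  · rw [Ideal.span_singleton_mul_span_singleton, ← pow_succ]
                    exact le_sup_left.trans le_sup_left
                  · exact Ideal.mul_le_right.trans (le_sup_right.trans le_sup_left)
                  · refine le_trans ?_ le_sup_right
                    calc Ideal.span {X ^ k} * M ^ 2 ≤ M ^ k * M ^ 2 := Ideal.mul_mono_left hXk
                      _ = M ^ (k + 1 + 1) := by rw [← pow_add]
          · exact Ideal.mul_le_left.trans (le_sup_right.trans le_sup_left)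
          · rw [← pow_succ]; exact le_sup_right

lemma ptI_pow_le (hβ : β o₀ = 0) (hQ : ∀ o, Q o ∈ ptI β ^ 2) (k : ℕ) :
    ptI β ^ k ≤ Ideal.span {X o₀ ^ k} ⊔ Ideal.span (Set.range (Eq β o₀ c Q)) ⊔
      ptI β ^ (k + 1) := by
  refine pow_le_gen (ptI β) _ (X o₀) ?_ (ptI_le β o₀ c Q hQ) k
  rw [mem_ptI, eval_X, hβ]

lemma decomp (hβ : β o₀ = 0) (hQ : ∀ o, Q o ∈ ptI β ^ 2) (k : ℕ) (p : MvPolynomial σ ℂ) :
    ∃ a : ℕ → ℂ, p - ∑ i ∈ Finset.range k, C (a i) * X o₀ ^ i ∈
      Ideal.span (Set.range (Eq β o₀ c Q)) ⊔ ptI β ^ k := by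
  classical
  set M := ptI β with hM
  set J := Ideal.span (Set.range (Eq β o₀ c Q)) with hJ
  have hX : (X o₀ : MvPolynomial σ ℂ) ∈ M := by
    rw [hM, mem_ptI, eval_X, hβ]
  induction k with
  | zero => exact ⟨0, by simp⟩
  | succ k ih =>
    obtain ⟨a, ha⟩ := ih
    have h1 : p - ∑ i ∈ Finset.range k, C (a i) * X o₀ ^ i ∈
        Ideal.span {(X o₀ : MvPolynomial σ ℂ) ^ k} ⊔ (J ⊔ M ^ (k + 1)) := by
      have : J ⊔ M ^ k ≤ Ideal.span {(X o₀ : MvPolynomial σ ℂ) ^ k} ⊔ (J ⊔ M ^ (k + 1)) := by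
        refine sup_le (le_sup_left.trans le_sup_right) ?_
        rw [← sup_assoc]
        exact ptI_pow_le β o₀ c Q hβ hQ k
      exact this ha
    obtain ⟨y, hy, e, he, hye⟩ := Submodule.mem_sup.1 h1
    obtain ⟨s, rfl⟩ := Ideal.mem_span_singleton'.1 hy
    refine ⟨Function.update a k (eval β s), ?_⟩
    rw [Finset.sum_range_succ]
    have h2 : ∑ i ∈ Finset.range k, C (Function.update a k (eval β s) i) * X o₀ ^ i =
        ∑ i ∈ Finset.range k, C (a i) * X o₀ ^ i := by
      refine Finset.sum_congr rfl fun i hi => ?_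
      rw [Function.update_of_ne (Finset.mem_range.1 hi).ne]
    rw [h2, Function.update_self]
    have h3 : p - (∑ i ∈ Finset.range k, C (a i) * X o₀ ^ i + C (eval β s) * X o₀ ^ k) =
        (s - C (eval β s)) * X o₀ ^ k + e := by
      linear_combination -hye
    rw [h3]
    refine Ideal.add_mem _ (Ideal.mem_sup_right ?_) he
    rw [pow_succ']
    refine Ideal.mul_mem_mul ?_ (Ideal.pow_mem_pow hX k)
    rw [hM, mem_ptI]; simp

end decomp

section main

variable {R : Type*} [CommRing R] [Algebra ℂ R]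

/-- powers of a uniformizer are linearly independent modulo powers of the maximal ideal -/
lemma indep (m : Ideal R) (u : R) (hu : u ∈ m) (hind : ∀ i : ℕ, u ^ i ∉ m ^ (i + 1)) (k : ℕ)
    (a : ℕ → ℂ) (h : ∑ i ∈ Finset.range k, algebraMap ℂ R (a i) * u ^ i ∈ m ^ k) :
    ∀ i < k, a i = 0 := by
  intro i hi
  induction i using Nat.strong_induction_on with
  | _ i ih =>
  by_contra hai
  apply hind i
  have h1 : k = i + (1 + (k - i - 1)) := by omega
  have h2 : ∑ j ∈ Finset.range i, algebraMap ℂ R (a j) * u ^ j = 0 := by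
    refine Finset.sum_eq_zero fun j hj => ?_
    have hji := Finset.mem_range.1 hj
    rw [ih j hji (hji.trans hi), map_zero, zero_mul]
  have h3 : algebraMap ℂ R (a i) * u ^ i =
      ∑ j ∈ Finset.range k, algebraMap ℂ R (a j) * u ^ j -
        ∑ j ∈ Finset.range (k - i - 1), algebraMap ℂ R (a (i + (1 + j))) * u ^ (i + (1 + j)) := by
    conv_rhs => rw [h1, Finset.sum_range_add, Finset.sum_range_add]
    rw [h2, Finset.sum_range_one]
    have : i + (1 + (k - i - 1)) - i - 1 = k - i - 1 := by omega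
    rw [this]
    simp
  have h4 : algebraMap ℂ R (a i) * u ^ i ∈ m ^ (i + 1) := by
    rw [h3]
    refine Ideal.sub_mem _ (Ideal.pow_le_pow_right (by omega) h) (Ideal.sum_mem _ fun j _ => ?_)
    refine Ideal.mul_mem_left _ _ (Ideal.pow_le_pow_right (by omega) (Ideal.pow_mem_pow hu _))
  have h5 : u ^ i = algebraMap ℂ R (a i)⁻¹ * (algebraMap ℂ R (a i) * u ^ i) := by
    rw [← mul_assoc, ← map_mul, inv_mul_cancel₀ hai, map_one, one_mul]
  rw [h5]
  exact Ideal.mul_mem_left _ _ h4

/-- Holomorphic discs from a uniformizer. -/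
theorem exists_disc_of_uniformizer [IsDomain R] (hft : Algebra.FiniteType ℂ R) (x : R →ₐ[ℂ] ℂ)
    (u : R) (hxu : x u = 0)
    (hm : RingHom.ker (x : R →+* ℂ) ≤ Ideal.span {u} ⊔ RingHom.ker (x : R →+* ℂ) ^ 2)
    (hind : ∀ i : ℕ, u ^ i ∉ RingHom.ker (x : R →+* ℂ) ^ (i + 1)) :
    ∃ γ : ℂ → (R →ₐ[ℂ] ℂ), γ 0 = x ∧
      (∃ r : ℝ, 0 < r ∧ ∀ g : R, AnalyticOnNhd ℂ (fun τ => γ τ g) (Metric.ball 0 r)) ∧
      (∀ᶠ τ in 𝓝 (0 : ℂ), γ τ u = τ) ∧
      ∀ g : R, g ≠ 0 → ∀ᶠ τ in 𝓝[≠] (0 : ℂ), γ τ g ≠ 0 := by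
  classical
  have hN : IsNoetherianRing R := Algebra.FiniteType.isNoetherianRing ℂ R
  set m : Ideal R := RingHom.ker (x : R →+* ℂ) with hmdef
  have hmem : ∀ g : R, g ∈ m ↔ x g = 0 := fun g => Iff.rfl
  obtain ⟨N, f, hf⟩ := Algebra.FiniteType.iff_quotient_mvPolynomial''.1 hft
  let σ := Option (Fin N)
  let v : σ → R := fun o => o.elim u (fun i => f (X i))
  let π : MvPolynomial σ ℂ →ₐ[ℂ] R := aeval v
  have hπ : Function.Surjective π := by
    intro g
    obtain ⟨p, rfl⟩ := hf g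
    refine ⟨rename some p, ?_⟩
    change (aeval v) (rename some p) = f p
    rw [aeval_rename]
    have : (aeval (v ∘ some) : MvPolynomial (Fin N) ℂ →ₐ[ℂ] R) = f := by
      apply MvPolynomial.algHom_ext
      intro i
      simp [v]
    rw [this]
  let β : σ → ℂ := fun o => x (v o)
  have hev : ∀ p, eval β p = x (π p) := by
    intro p
    have : (x.comp π) = aeval β := by
      apply MvPolynomial.algHom_ext
      intro o
      simp [π, β]
    have h2 := DFunLike.congr_fun this p
    simp only [AlgHom.comp_apply] at h2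
    rw [h2]
    rfl
  have hcomap : ptI β = Ideal.comap π m := by
    ext p
    rw [mem_ptI, Ideal.mem_comap, hmem, hev]
  have hmap : Ideal.map π (ptI β) = m := by
    rw [hcomap]; exact Ideal.map_comap_of_surjective _ hπ m
  have hlift : ∀ (k : ℕ) (q : R), q ∈ m ^ k → ∃ Q ∈ ptI β ^ k, π Q = q := by
    intro k q hq
    rw [← hmap, ← Ideal.map_pow] at hq
    exact (Ideal.mem_map_iff_of_surjective _ hπ).1 hq
  have hπm : ∀ (k : ℕ) (Q : MvPolynomial σ ℂ), Q ∈ ptI β ^ k → π Q ∈ m ^ k := by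
    intro k Q hQ
    rw [← hmap, ← Ideal.map_pow]
    exact Ideal.mem_map_of_mem _ hQ
  have hβ : β none = 0 := hxu
  have hπX : ∀ o, π (X o) = v o := fun o => by simp [π]
  have hπC : ∀ a, π (C a) = algebraMap ℂ R a := fun a => by simp [π]
  have hex : ∀ o : σ, ∃ (c : ℂ) (Q : MvPolynomial σ ℂ), Q ∈ ptI β ^ 2 ∧
      π (X o - C (β o) - C c * X none - Q) = 0 ∧ (o = none → c = 1 ∧ Q = 0) := by
    intro o
    rcases o with _ | i
    · refine ⟨1, 0, Ideal.zero_mem _, ?_, fun _ => ⟨rfl, rfl⟩⟩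
      rw [hβ]; simp
    · have h1 : v (some i) - algebraMap ℂ R (β (some i)) ∈ m := by
        rw [hmem, map_sub, AlgHom.commutes]; simp [β]
      obtain ⟨y, hy, q, hq, hyq⟩ := Submodule.mem_sup.1 (hm h1)
      obtain ⟨a, rfl⟩ := Ideal.mem_span_singleton'.1 hy
      have h2 : (a - algebraMap ℂ R (x a)) * u + q ∈ m ^ 2 := by
        refine Ideal.add_mem _ ?_ hq
        rw [pow_two]
        refine Ideal.mul_mem_mul ?_ hxu
        rw [hmem, map_sub, AlgHom.commutes]; simp
      obtain ⟨Q, hQ, hQq⟩ := hlift 2 _ h2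
      refine ⟨x a, Q, hQ, ?_, fun h => by simp at h⟩
      rw [map_sub, map_sub, map_sub, map_mul, hπX, hπX, hπC, hπC, hQq]
      have : v none = u := rfl
      rw [this]
      linear_combination -hyq
  choose c Q hQ hπE hnone using hex
  obtain ⟨b, hb0, hban, hbu, hbE⟩ := exists_curve β none c Q hβ (hnone none rfl).1
    (hnone none rfl).2 hQ
  have hπJ : ∀ p ∈ Ideal.span (Set.range (Eq β none c Q)), π p = 0 := by
    intro p hp
    have : Ideal.span (Set.range (Eq β none c Q)) ≤ RingHom.ker (π : MvPolynomial σ ℂ →+* R) := by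
      rw [Ideal.span_le]
      rintro _ ⟨o, rfl⟩
      exact hπE o
    exact this hp
  have hJev : ∀ᶠ τ in 𝓝 (0 : ℂ), ∀ p ∈ Ideal.span (Set.range (Eq β none c Q)),
      eval (b τ) p = 0 := by
    filter_upwards [hbE] with τ hτ p hp
    have : Ideal.span (Set.range (Eq β none c Q)) ≤ RingHom.ker (eval (b τ)) := by
      rw [Ideal.span_le]
      rintro _ ⟨o, rfl⟩
      exact hτ o
    exact this hp
  -- (A) elements of the kernel vanish along the curve
  have hA : ∀ p, π p = 0 → ∀ᶠ τ in 𝓝 (0 : ℂ), eval (b τ) p = 0 := by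
    intro p hp
    refine eventually_zero_of_flat (analyticAt_eval hban p) fun k => ?_
    obtain ⟨a, ha⟩ := decomp β none c Q hβ hQ k p
    obtain ⟨j, hj, q, hq, hjq⟩ := Submodule.mem_sup.1 ha
    have h1 : ∑ i ∈ Finset.range k, algebraMap ℂ R (a i) * u ^ i ∈ m ^ k := by
      have h2 := hπm k q hq
      have h3 : π q = - ∑ i ∈ Finset.range k, algebraMap ℂ R (a i) * u ^ i := by
        have h4 := congrArg π hjq
        rw [map_add, hπJ j hj, zero_add, map_sub, hp, zero_sub, map_sum] at h4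
        rw [h4]
        congr 1
        refine Finset.sum_congr rfl fun i _ => ?_
        rw [map_mul, map_pow, hπX, hπC]
        rfl
      rw [h3] at h2
      exact neg_mem_iff.1 h2
    have h0 := indep m u hxu hind k a h1
    have h5 : p = j + q := by
      rw [hjq]
      have : ∑ i ∈ Finset.range k, C (a i) * (X none : MvPolynomial σ ℂ) ^ i = 0 := by
        refine Finset.sum_eq_zero fun i hi => ?_
        rw [h0 i (Finset.mem_range.1 hi), map_zero, zero_mul]
      rw [this, sub_zero]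
    have h6 := isBigO_of_mem_pow hban β hb0 k q hq
    refine (Filter.EventuallyEq.isBigO ?_).trans h6
    filter_upwards [hJev] with τ hτ
    rw [h5, map_add, hτ j hj, zero_add]
  -- (C) elements outside the kernel do not vanish identically
  have hC : ∀ p, π p ≠ 0 → ∀ᶠ τ in 𝓝[≠] (0 : ℂ), eval (b τ) p ≠ 0 := by
    intro p hp
    rcases (analyticAt_eval hban p).eventually_eq_zero_or_eventually_ne_zero with h | h
    · exfalso
      apply hp
      have hmne : m ≠ ⊤ := by
        intro h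
        have : (1 : R) ∈ m := h ▸ Submodule.mem_top
        rw [hmem, map_one] at this
        exact one_ne_zero this
      have hK := Ideal.iInf_pow_eq_bot_of_isDomain (I := m) hmne
      have : π p ∈ (⨅ i : ℕ, m ^ i) := by
        rw [Ideal.mem_iInf]
        intro k
        obtain ⟨a, ha⟩ := decomp β none c Q hβ hQ k p
        obtain ⟨j, hj, q, hq, hjq⟩ := Submodule.mem_sup.1 ha
        have h6 := isBigO_of_mem_pow hban β hb0 k q hq
        have h7 : (fun τ : ℂ => ∑ i ∈ Finset.range k, (-a i) * τ ^ i) =O[𝓝 0]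
            (fun τ : ℂ => τ ^ k) := by
          refine (Filter.EventuallyEq.isBigO ?_).trans h6
          filter_upwards [hJev, h, hbu] with τ hτ hτ' hτu
          have h8 := congrArg (eval (b τ)) hjq
          rw [map_add, hτ j hj, zero_add, map_sub, hτ', zero_sub, map_sum] at h8
          rw [h8, ← Finset.sum_neg_distrib]
          refine Finset.sum_congr rfl fun i _ => ?_
          rw [map_mul, map_pow, eval_X, eval_C, hτu]
          ring
        have h0 := coeff_zero_of_flat k (fun i => -a i) h7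
        have h5 : p = j + q := by
          rw [hjq]
          have : ∑ i ∈ Finset.range k, C (a i) * (X none : MvPolynomial σ ℂ) ^ i = 0 := by
            refine Finset.sum_eq_zero fun i hi => ?_
            have := h0 i (Finset.mem_range.1 hi)
            rw [neg_eq_zero.1 this, map_zero, zero_mul]
          rw [this, sub_zero]
        rw [h5, map_add, hπJ j hj, zero_add]
        exact hπm k q hq
      rw [hK] at this
      exact this
    · exact h
  -- good parameters
  have hgood : ∀ᶠ τ in 𝓝 (0 : ℂ), ∀ p, π p = 0 → eval (b τ) p = 0 := by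
    obtain ⟨s, hs⟩ := (isNoetherian_def.1 (inferInstance : IsNoetherianRing (MvPolynomial σ ℂ)))
      (RingHom.ker (π : MvPolynomial σ ℂ →+* R))
    have h1 : ∀ᶠ τ in 𝓝 (0 : ℂ), ∀ p ∈ s, eval (b τ) p = 0 := by
      rw [Filter.eventually_all_finset]
      intro p hp
      apply hA
      have : p ∈ RingHom.ker (π : MvPolynomial σ ℂ →+* R) := by
        rw [← hs]; exact Submodule.subset_span hp
      exact this
    filter_upwards [h1] with τ hτ p hp
    have h2 : RingHom.ker (π : MvPolynomial σ ℂ →+* R) ≤ RingHom.ker (eval (b τ)) := by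
      rw [← hs]
      refine Submodule.span_le.2 fun q hq => hτ q hq
    exact h2 hp
  let e := Ideal.quotientKerAlgEquivOfSurjective hπ
  let γ : ℂ → (R →ₐ[ℂ] ℂ) := fun τ =>
    if h : ∀ p, π p = 0 → eval (b τ) p = 0 then
      (Ideal.Quotient.liftₐ (RingHom.ker π) (aeval (b τ)) (fun p hp => h p hp)).comp
        (e.symm : R →ₐ[ℂ] _)
    else x
  have hγ : ∀ τ, (∀ p, π p = 0 → eval (b τ) p = 0) → ∀ p, γ τ (π p) = eval (b τ) p := by
    intro τ h p
    simp only [γ, dif_pos h]
    have h1 : e.symm (π p) = Ideal.Quotient.mk _ p := by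
      rw [AlgEquiv.symm_apply_eq]
      rfl
    simp only [AlgHom.comp_apply]
    change (Ideal.Quotient.liftₐ (RingHom.ker π) (aeval (b τ)) _) (e.symm (π p)) = _
    rw [h1]
    rfl
  have hγ' : ∀ p, (fun τ => γ τ (π p)) =ᶠ[𝓝 0] (fun τ => eval (b τ) p) := by
    intro p
    filter_upwards [hgood] with τ hτ
    exact hγ τ hτ p
  obtain ⟨r, hr, hball⟩ := Metric.eventually_nhds_iff_ball.1
    (hgood.and hban.eventually_analyticAt)
  refine ⟨γ, ?_, ⟨r, hr, ?_⟩, ?_, ?_⟩
  · ext g
    obtain ⟨p, rfl⟩ := hπ g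
    have h0 := (hγ' p).eq_of_nhds
    rw [h0, hb0, hev]
  · intro g τ hτ
    obtain ⟨p, rfl⟩ := hπ g
    have h1 : (fun τ => γ τ (π p)) =ᶠ[𝓝 τ] (fun τ => eval (b τ) p) := by
      filter_upwards [Metric.isOpen_ball.mem_nhds hτ] with τ' hτ'
      exact hγ τ' (hball τ' hτ').1 p
    exact (analyticAt_eval (hball τ hτ).2 p).congr h1.symm
  · have h1 := hγ' (X none)
    filter_upwards [h1, hbu] with τ h2 h3
    rw [hπX] at h2
    have : v none = u := rfl
    rw [this] at h2
    rw [h2, eval_X, h3]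
  · intro g hg
    obtain ⟨p, rfl⟩ := hπ g
    filter_upwards [hC p hg, (hγ' p).filter_mono nhdsWithin_le_nhds] with τ h1 h2
    rw [h2]; exact h1

end main

end Crest.Agent.R271.Disc846
end

-- ▼ part R271/Disc3_846
section

/-!
Row 271, team N, piece N4 (DISC), part 3: for a prime `P` strictly below the maximal ideal of a
point `y` of a finitely generated `ℂ`-algebra and `h ∉ P` there is a holomorphic disc in `V(P)`
through `y` on which `h` has no zero except possibly at the centre.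

* Noether normalisation and going down over a line: a curve prime `Q` (`exists_curve_prime`);
* the normalisation of the curve (`exists_normalisation`), a point over `y` (`exists_lift_pt`) and
  a uniformizer (`exists_uniformizer`);
* `exists_disc_of_uniformizer` of part 2.
-/

set_option autoImplicit false

open scoped Topology

namespace Crest.Agent.R271.Disc846

section S1

theorem exists_curve_prime {D : Type*} [CommRing D] [IsDomain D] [Algebra ℂ D]
    (hft : Algebra.FiniteType ℂ D) (x : D →ₐ[ℂ] ℂ) (t : D) (ht : t ≠ 0) (hxt : x t = 0)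
    (h : D) (hh : h ≠ 0) :
    ∃ Q : Ideal D, Q.IsPrime ∧ Q ≤ RingHom.ker (x : D →+* ℂ) ∧ h ∉ Q ∧
      ∃ s : D, x s = 0 ∧
        Function.Injective (Polynomial.aeval (R := ℂ) (Ideal.Quotient.mk Q s)) ∧
        (Polynomial.aeval (R := ℂ) (Ideal.Quotient.mk Q s) : Polynomial ℂ →ₐ[ℂ] D ⧸ Q).Finite := by
  classical
  obtain ⟨d, g, ginj, gfin⟩ := exists_finite_inj_algHom_of_fg ℂ D
  let : Algebra (MvPolynomial (Fin d) ℂ) D := g.toRingHom.toAlgebra
  have : Module.Finite (MvPolynomial (Fin d) ℂ) D := gfin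
  have hgmap : ∀ p, algebraMap (MvPolynomial (Fin d) ℂ) D p = g p := fun p => rfl
  have : FaithfulSMul (MvPolynomial (Fin d) ℂ) D :=
    (faithfulSMul_iff_algebraMap_injective _ _).2 ginj
  have : Algebra.IsIntegral (MvPolynomial (Fin d) ℂ) D := inferInstance
  have key : ∀ b : D, b ≠ 0 → ∃ c : MvPolynomial (Fin d) ℂ, c ≠ 0 ∧ g c ∈ Ideal.span {b} := by
    intro b hb
    have h1 := Ideal.comap_ne_bot_of_integral_mem (R := MvPolynomial (Fin d) ℂ)
      (I := Ideal.span {b}) hb (Ideal.mem_span_singleton_self b) (Algebra.IsIntegral.isIntegral b)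
    obtain ⟨c, hc, hc0⟩ := Submodule.exists_mem_ne_zero_of_ne_bot h1
    exact ⟨c, hc0, hc⟩
  obtain ⟨c, hc0, hc⟩ := key h hh
  obtain ⟨c1, hc10, hc1⟩ := key t ht
  set a : Fin d → ℂ := fun i => x (g (MvPolynomial.X i)) with ha
  have hxg : ∀ p, x (g p) = MvPolynomial.eval a p := by
    intro p
    have : x.comp g = (MvPolynomial.aeval a : MvPolynomial (Fin d) ℂ →ₐ[ℂ] ℂ) := by
      ext i
      simp [ha]
    have h2 := DFunLike.congr_fun this p
    rw [AlgHom.comp_apply] at h2
    rw [h2]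
    exact RingHom.congr_fun (MvPolynomial.coe_aeval_eq_eval a) p
  have hc1a : MvPolynomial.eval a c1 = 0 := by
    rw [← hxg]
    obtain ⟨q, hq⟩ := Ideal.mem_span_singleton'.1 hc1
    rw [← hq, map_mul, hxt, mul_zero]
  obtain ⟨w, hw⟩ : ∃ w, MvPolynomial.eval w (c * c1) ≠ 0 := by
    by_contra hcon
    push Not at hcon
    exact mul_ne_zero hc0 hc10 (MvPolynomial.funext (fun v => by rw [hcon v, map_zero]))
  have hwc : MvPolynomial.eval w c ≠ 0 := fun h0 => hw (by rw [map_mul, h0, zero_mul])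
  have hwc1 : MvPolynomial.eval w c1 ≠ 0 := fun h0 => hw (by rw [map_mul, h0, mul_zero])
  have hwa : w ≠ a := fun h0 => hwc1 (h0 ▸ hc1a)
  obtain ⟨i0, hi0⟩ : ∃ i, w i ≠ a i := by
    by_contra hcon
    push Not at hcon
    exact hwa (funext hcon)
  set v : Fin d → ℂ := fun i => w i - a i with hv
  have hv0 : v i0 ≠ 0 := sub_ne_zero.2 hi0
  let ℓ : MvPolynomial (Fin d) ℂ →ₐ[ℂ] Polynomial ℂ :=
    MvPolynomial.aeval (fun i => Polynomial.C (a i) + Polynomial.C (v i) * Polynomial.X)
  have hℓX : ∀ i, ℓ (MvPolynomial.X i) = Polynomial.C (a i) + Polynomial.C (v i) * Polynomial.X :=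
    fun i => by simp [ℓ]
  have hℓev : ∀ (z : ℂ) p, Polynomial.eval z (ℓ p) = MvPolynomial.eval (fun i => a i + v i * z) p := by
    intro z p
    induction p using MvPolynomial.induction_on with
    | C b => simp [ℓ]
    | add p q hp hq => simp [hp, hq]
    | mul_X p i hp => simp [hp, hℓX]
  let 𝔭 : Ideal (MvPolynomial (Fin d) ℂ) := RingHom.ker (ℓ : MvPolynomial (Fin d) ℂ →+* Polynomial ℂ)
  have h𝔭 : 𝔭.IsPrime := RingHom.ker_isPrime _
  have hmem𝔭 : ∀ p, p ∈ 𝔭 ↔ ℓ p = 0 := fun p => Iff.rfl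
  let m : Ideal D := RingHom.ker (x : D →+* ℂ)
  have hm : m.IsPrime := RingHom.ker_isPrime _
  have hmem : ∀ b, b ∈ m ↔ x b = 0 := fun b => Iff.rfl
  have hle : 𝔭 ≤ m.under (MvPolynomial (Fin d) ℂ) := by
    intro p hp
    rw [Ideal.mem_comap, hmem, hgmap, hxg]
    have h3 := hℓev 0 p
    rw [(hmem𝔭 p).1 hp] at h3
    simpa using h3.symm
  obtain ⟨Q, hQm, hQp, hQo⟩ := Ideal.exists_ideal_le_liesOver_of_le (p := 𝔭)
    (q := m.under (MvPolynomial (Fin d) ℂ)) m hle
  have hcQ : ∀ p, g p ∈ Q ↔ ℓ p = 0 := by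
    intro p
    rw [← hmem𝔭, hQo.over, Ideal.mem_comap, hgmap]
  have hhQ : h ∉ Q := by
    intro hh'
    have h4 : g c ∈ Q := (Ideal.span_singleton_le_iff_mem Q).2 hh' hc
    rw [hcQ] at h4
    have h5 := hℓev 1 c
    rw [h4] at h5
    apply hwc
    have h6 : (fun i => a i + v i * 1) = w := by
      funext i; simp [hv]
    rw [h6] at h5
    simpa using h5.symm
  let sA : MvPolynomial (Fin d) ℂ :=
    MvPolynomial.C (v i0)⁻¹ * (MvPolynomial.X i0 - MvPolynomial.C (a i0))
  have hℓs : ℓ sA = Polynomial.X := by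
    have e1 : ℓ (MvPolynomial.C (v i0)⁻¹) = Polynomial.C (v i0)⁻¹ := by simp [ℓ]
    have e2 : ℓ (MvPolynomial.C (a i0)) = Polynomial.C (a i0) := by simp [ℓ]
    simp only [sA, map_mul, map_sub, hℓX, e1, e2]
    rw [add_sub_cancel_left, ← mul_assoc, ← Polynomial.C_mul, inv_mul_cancel₀ hv0]
    simp
  refine ⟨Q, hQp, hQm, hhQ, g sA, ?_, ?_, ?_⟩
  · rw [hxg]
    simp [sA]
  · -- injectivity
    rw [injective_iff_map_eq_zero]
    intro q hq
    have e3 : Polynomial.aeval (Ideal.Quotient.mk Q (g sA)) q =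
        Ideal.Quotient.mk Q (g (Polynomial.aeval sA q)) := by
      have : (Polynomial.aeval (Ideal.Quotient.mk Q (g sA)) : Polynomial ℂ →ₐ[ℂ] D ⧸ Q) =
        ((Ideal.Quotient.mkₐ ℂ Q).comp g).comp (Polynomial.aeval sA) := by
        ext; simp
      exact DFunLike.congr_fun this q
    rw [e3, Ideal.Quotient.eq_zero_iff_mem, hcQ] at hq
    have e4 : ℓ (Polynomial.aeval sA q) = q := by
      have : ℓ.comp (Polynomial.aeval sA) = AlgHom.id ℂ (Polynomial ℂ) := by
        ext; simp [hℓs]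
      exact DFunLike.congr_fun this q
    rw [e4] at hq
    exact hq
  · -- finiteness
    have e5 : ((Ideal.Quotient.mkₐ ℂ Q).comp g) =
        (Polynomial.aeval (Ideal.Quotient.mk Q (g sA)) : Polynomial ℂ →ₐ[ℂ] D ⧸ Q).comp ℓ := by
      apply MvPolynomial.algHom_ext
      intro i
      have e6 : MvPolynomial.X i - (MvPolynomial.C (a i) + MvPolynomial.C (v i) * sA) ∈ 𝔭 := by
        rw [hmem𝔭]
        have e1 : ∀ b, ℓ (MvPolynomial.C b) = Polynomial.C b := fun b => by simp [ℓ]
        simp only [map_sub, map_add, map_mul, hℓX, hℓs, e1]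
        ring
      have e7 : g (MvPolynomial.X i - (MvPolynomial.C (a i) + MvPolynomial.C (v i) * sA)) ∈ Q :=
        (hcQ _).2 ((hmem𝔭 _).1 e6)
      rw [map_sub, ← Ideal.Quotient.eq] at e7
      have eC : ∀ b : ℂ, g (MvPolynomial.C b) = algebraMap ℂ D b := fun b => by
        have := g.commutes b
        simp
      simp only [AlgHom.comp_apply, Ideal.Quotient.mkₐ_eq_mk, hℓX]
      rw [e7]
      simp only [map_add, map_mul, Polynomial.aeval_C, Polynomial.aeval_X, eC]
      rfl
    have e8 : ((Ideal.Quotient.mkₐ ℂ Q).comp g).Finite := by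
      apply AlgHom.Finite.comp
      · exact AlgHom.Finite.of_surjective _ (Ideal.Quotient.mkₐ_surjective ℂ Q)
      · exact gfin
    rw [e5] at e8
    exact AlgHom.Finite.of_comp_finite e8

end S1

section S4

attribute [local instance] FractionRing.liftAlgebra FractionRing.isScalarTower_liftAlgebra

theorem exists_normalisation {D : Type*} [CommRing D] [IsDomain D] [Algebra ℂ D] (s : D)
    (hinj : Function.Injective (Polynomial.aeval (R := ℂ) s))
    (hfin : (Polynomial.aeval (R := ℂ) s : Polynomial ℂ →ₐ[ℂ] D).Finite) :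
    ∃ (R : Subalgebra ℂ (FractionRing D)), 
      IsDedekindDomain R ∧ Algebra.FiniteType ℂ R ∧
      ∃ φ : D →ₐ[ℂ] R, Function.Injective φ ∧ (φ : D →+* R).IsIntegral := by
  classical
  let : Algebra (Polynomial ℂ) D := (Polynomial.aeval (R := ℂ) s).toRingHom.toAlgebra
  have hmap : ∀ p : Polynomial ℂ, algebraMap (Polynomial ℂ) D p = Polynomial.aeval s p := fun p => rfl
  have : Module.Finite (Polynomial ℂ) D := hfin
  have : FaithfulSMul (Polynomial ℂ) D := (faithfulSMul_iff_algebraMap_injective _ _).2 hinj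
  have : IsScalarTower ℂ (Polynomial ℂ) D := IsScalarTower.of_algebraMap_eq (fun r => by
    rw [hmap]; simp)
  have : CharZero (FractionRing (Polynomial ℂ)) :=
    charZero_of_injective_algebraMap (IsFractionRing.injective (Polynomial ℂ) _)
  have : FiniteDimensional (FractionRing (Polynomial ℂ)) (FractionRing D) := inferInstance
  have : Algebra.IsSeparable (FractionRing (Polynomial ℂ)) (FractionRing D) := inferInstance
  have hded : IsDedekindDomain (integralClosure (Polynomial ℂ) (FractionRing D)) := inferInstance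
  have hfin2 : Module.Finite (Polynomial ℂ) (integralClosure (Polynomial ℂ) (FractionRing D)) :=
    IsIntegralClosure.finite (Polynomial ℂ) (FractionRing (Polynomial ℂ)) (FractionRing D) _
  have : IsScalarTower ℂ (Polynomial ℂ) (FractionRing D) := inferInstance
  have hint : ∀ d : D, algebraMap D (FractionRing D) d ∈ integralClosure (Polynomial ℂ) (FractionRing D) := by
    intro d
    exact (Algebra.IsIntegral.isIntegral (R := Polynomial ℂ) d).algebraMap
  refine ⟨(integralClosure (Polynomial ℂ) (FractionRing D)).restrictScalars ℂ, hded, ?_, ?_⟩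
  · have h1 : Algebra.FiniteType (Polynomial ℂ) (integralClosure (Polynomial ℂ) (FractionRing D)) := inferInstance
    have h2 : Algebra.FiniteType ℂ (Polynomial ℂ) := inferInstance
    have h3 : Algebra.FiniteType ℂ (integralClosure (Polynomial ℂ) (FractionRing D)) := h2.trans h1
    exact h3
  · refine ⟨(IsScalarTower.toAlgHom ℂ D (FractionRing D)).codRestrict _ hint, ?_, ?_⟩
    · intro a b hab
      apply IsFractionRing.injective D (FractionRing D)
      exact congrArg Subtype.val hab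
    · apply RingHom.IsIntegral.tower_top (algebraMap (Polynomial ℂ) D)
      have h4 : (algebraMap (Polynomial ℂ) (integralClosure (Polynomial ℂ) (FractionRing D))).IsIntegral :=
        algebraMap_isIntegral_iff.2 inferInstance
      exact h4

end S4

section S5

theorem exists_lift_pt {D R : Type*} [CommRing D] [CommRing R] [Algebra ℂ D] [Algebra ℂ R]
    (hft : Algebra.FiniteType ℂ R) (φ : D →ₐ[ℂ] R) (hφ : Function.Injective φ)
    (hint : (φ : D →+* R).IsIntegral) (x : D →ₐ[ℂ] ℂ) : ∃ x' : R →ₐ[ℂ] ℂ, x'.comp φ = x := by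
  classical
  let : Algebra D R := (φ : D →+* R).toAlgebra
  have hmap : ∀ d : D, algebraMap D R d = φ d := fun d => rfl
  have : Algebra.IsIntegral D R := ⟨hint⟩
  have hxs : Function.Surjective (x : D →+* ℂ) := fun c => ⟨algebraMap ℂ D c, by simp⟩
  have hmax : (RingHom.ker (x : D →+* ℂ)).IsMaximal := RingHom.ker_isMaximal_of_surjective _ hxs
  obtain ⟨N, hN, hNc⟩ := Ideal.exists_ideal_over_maximal_of_isIntegral (S := R)
    (RingHom.ker (x : D →+* ℂ)) (by
      intro d hd
      rw [RingHom.mem_ker, hmap] at hd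
      have : d = 0 := hφ (by rw [hd, map_zero])
      rw [this]; exact Ideal.zero_mem _)
  let := Ideal.Quotient.field N
  have hft2 : Algebra.FiniteType ℂ (R ⧸ N) := hft.of_surjective (Ideal.Quotient.mkₐ ℂ N) (Ideal.Quotient.mkₐ_surjective ℂ N)
  have hfin : Module.Finite ℂ (R ⧸ N) := finite_of_finite_type_of_isJacobsonRing ℂ (R ⧸ N)
  have hbij : Function.Bijective (algebraMap ℂ (R ⧸ N)) :=
    IsAlgClosed.algebraMap_bijective_of_isIntegral
  let e : ℂ ≃ₐ[ℂ] (R ⧸ N) := AlgEquiv.ofBijective (Algebra.ofId ℂ (R ⧸ N)) hbij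
  refine ⟨(e.symm : (R ⧸ N) →ₐ[ℂ] ℂ).comp (Ideal.Quotient.mkₐ ℂ N), ?_⟩
  set x' := (e.symm : (R ⧸ N) →ₐ[ℂ] ℂ).comp (Ideal.Quotient.mkₐ ℂ N) with hx'
  have hker : ∀ r ∈ N, x' r = 0 := by
    intro r hr
    rw [hx', AlgHom.comp_apply, Ideal.Quotient.mkₐ_eq_mk, Ideal.Quotient.eq_zero_iff_mem.2 hr,
      map_zero]
  ext d
  have h1 : d - algebraMap ℂ D (x d) ∈ RingHom.ker (x : D →+* ℂ) := by
    rw [RingHom.mem_ker]; simp
  rw [← hNc, Ideal.mem_comap, hmap] at h1
  have h2 := hker _ h1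
  rw [map_sub, map_sub, AlgHom.commutes, AlgHom.commutes, sub_eq_zero] at h2
  simpa using h2

end S5

section S6

theorem exists_uniformizer {R : Type*} [CommRing R] [IsDedekindDomain R] (N : Ideal R)
    (hN : N.IsMaximal) (hN0 : N ≠ ⊥) :
    ∃ u ∈ N, N ≤ Ideal.span {u} ⊔ N ^ 2 ∧ ∀ i, u ^ i ∉ N ^ (i + 1) := by
  classical
  have hNp : N.IsPrime := hN.isPrime
  have hlt : N ^ 2 < N := by
    apply lt_of_le_of_ne (Ideal.pow_le_self two_ne_zero)
    intro h
    have h1 : N ^ 2 = N ^ 1 := by rw [pow_one]; exact h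
    have := Ideal.pow_right_strictAnti N hN0 hNp.ne_top
    exact absurd (this.injective h1) (by norm_num)
  obtain ⟨u, huN, hu2⟩ := SetLike.exists_of_lt hlt
  refine ⟨u, huN, ?_, ?_⟩
  · intro c hc
    obtain ⟨d, e, he, hde⟩ := Ideal.exists_mul_add_mem_pow_succ (P := N) hN0 (i := 1) u c
      (by rwa [pow_one]) hu2 (by rwa [pow_one])
    rw [← hde]
    exact Ideal.add_mem _ (Ideal.mem_sup_left (Ideal.mem_span_singleton'.2 ⟨d, mul_comm _ _⟩))
      (Ideal.mem_sup_right he)
  · intro i hi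
    have hNpr : Prime N := Ideal.prime_of_isPrime hN0 hNp
    have h1 : N ∣ Ideal.span {u} := Ideal.dvd_iff_le.2 ((Ideal.span_singleton_le_iff_mem N).2 huN)
    obtain ⟨J, hJ⟩ := h1
    have h2 : ¬ N ∣ J := by
      rintro ⟨J', hJ'⟩
      apply hu2
      rw [← Ideal.span_singleton_le_iff_mem, ← Ideal.dvd_iff_le]
      exact ⟨J', by rw [hJ, hJ', pow_two, mul_assoc]⟩
    have h3 : N ^ (i + 1) ∣ N ^ i * J ^ i := by
      rw [← mul_pow, ← hJ, Ideal.span_singleton_pow, Ideal.dvd_iff_le,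
        Ideal.span_singleton_le_iff_mem]
      exact hi
    rw [pow_succ, mul_dvd_mul_iff_left (pow_ne_zero i hNpr.ne_zero)] at h3
    exact h2 (hNpr.dvd_of_dvd_pow h3)

end S6

section S7

/-- **holomorphic disc** in `V(P)` through `y`, outside `V(h)` except at the centre -/
theorem exists_disc {B : Type*} [CommRing B] [Algebra ℂ B] (hft : Algebra.FiniteType ℂ B)
    (y : B →ₐ[ℂ] ℂ) (P : Ideal B) (hP : P.IsPrime) (hPy : P ≤ RingHom.ker (y : B →+* ℂ))
    (hne : P ≠ RingHom.ker (y : B →+* ℂ)) (h : B) (hh : h ∉ P) :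
    ∃ γ : ℂ → (B →ₐ[ℂ] ℂ), γ 0 = y ∧ ∃ r : ℝ, 0 < r ∧
      (∀ b, AnalyticOnNhd ℂ (fun τ => γ τ b) (Metric.ball 0 r)) ∧
      (∀ τ, ∀ f ∈ P, γ τ f = 0) ∧
      (∀ τ ∈ Metric.ball (0 : ℂ) r, τ ≠ 0 → γ τ h ≠ 0) := by
  classical
  obtain ⟨t0, ht0, ht0P⟩ := SetLike.exists_of_lt (lt_of_le_of_ne hPy hne)
  have hftD : Algebra.FiniteType ℂ (B ⧸ P) :=
    hft.of_surjective (Ideal.Quotient.mkₐ ℂ P) (Ideal.Quotient.mkₐ_surjective ℂ P)
  let x : (B ⧸ P) →ₐ[ℂ] ℂ := Ideal.Quotient.liftₐ P y (fun a ha => hPy ha)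
  have hx : ∀ b, x (Ideal.Quotient.mk P b) = y b := fun b => rfl
  obtain ⟨Q, hQ, hQx, hhQ, s, hxs, hinj, hfin⟩ := exists_curve_prime hftD x
    (Ideal.Quotient.mk P t0) (fun h0 => ht0P (Ideal.Quotient.eq_zero_iff_mem.1 h0))
    (by rw [hx]; exact ht0) (Ideal.Quotient.mk P h)
    (fun h0 => hh (Ideal.Quotient.eq_zero_iff_mem.1 h0))
  let x1 : ((B ⧸ P) ⧸ Q) →ₐ[ℂ] ℂ := Ideal.Quotient.liftₐ Q x (fun a ha => hQx ha)
  have hx1 : ∀ b, x1 (Ideal.Quotient.mk Q b) = x b := fun b => rfl
  obtain ⟨R, hRd, hRft, φ, hφinj, hφint⟩ := exists_normalisation (Ideal.Quotient.mk Q s) hinj hfin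
  obtain ⟨x', hx'⟩ := exists_lift_pt hRft φ hφinj hφint x1
  have hsur : Function.Surjective (x' : R →+* ℂ) := fun c => ⟨algebraMap ℂ R c, by simp⟩
  have hmax : (RingHom.ker (x' : R →+* ℂ)).IsMaximal := RingHom.ker_isMaximal_of_surjective _ hsur
  have hs0 : Ideal.Quotient.mk Q s ≠ 0 := by
    intro h0
    have h1 : Polynomial.aeval (R := ℂ) (Ideal.Quotient.mk Q s) Polynomial.X =
        Polynomial.aeval (R := ℂ) (Ideal.Quotient.mk Q s) 0 := by
      rw [Polynomial.aeval_X, map_zero, h0]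
    exact Polynomial.X_ne_zero (hinj h1)
  have hker0 : RingHom.ker (x' : R →+* ℂ) ≠ ⊥ := by
    intro h0
    have h1 : φ (Ideal.Quotient.mk Q s) ∈ RingHom.ker (x' : R →+* ℂ) := by
      rw [RingHom.mem_ker]
      have h2 : x' (φ (Ideal.Quotient.mk Q s)) = x1 (Ideal.Quotient.mk Q s) :=
        DFunLike.congr_fun hx' _
      exact h2.trans hxs
    rw [h0, Ideal.mem_bot] at h1
    exact hs0 (hφinj (by rw [h1, map_zero]))
  obtain ⟨u, huN, hu1, hu2⟩ := exists_uniformizer (RingHom.ker (x' : R →+* ℂ)) hmax hker0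
  obtain ⟨γ, hγ0, ⟨r, hr, hγr⟩, -, hγn⟩ :=
    exists_disc_of_uniformizer hRft x' u huN hu1 hu2
  let π : B →ₐ[ℂ] R := φ.comp ((Ideal.Quotient.mkₐ ℂ Q).comp (Ideal.Quotient.mkₐ ℂ P))
  have hπP : ∀ f ∈ P, π f = 0 := by
    intro f hf
    have h1 : π f = φ (Ideal.Quotient.mk Q (Ideal.Quotient.mk P f)) := rfl
    rw [h1, Ideal.Quotient.eq_zero_iff_mem.2 hf, map_zero, map_zero]
  have hπh : π h ≠ 0 := by
    have h1 : π h = φ (Ideal.Quotient.mk Q (Ideal.Quotient.mk P h)) := rfl
    intro h0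
    rw [h1, ← map_zero φ] at h0
    exact hhQ (Ideal.Quotient.eq_zero_iff_mem.1 (hφinj h0))
  have h3 := hγn (π h) hπh
  rw [eventually_nhdsWithin_iff, Metric.eventually_nhds_iff_ball] at h3
  obtain ⟨r', hr', hr'2⟩ := h3
  refine ⟨fun τ => (γ τ).comp π, ?_, min r r', lt_min hr hr', ?_, ?_, ?_⟩
  · ext b
    have h1 : x' (φ (Ideal.Quotient.mk Q (Ideal.Quotient.mk P b))) =
        x1 (Ideal.Quotient.mk Q (Ideal.Quotient.mk P b)) := DFunLike.congr_fun hx' _
    have h2 : (γ 0) (π b) = x' (π b) := by rw [hγ0]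
    exact h2.trans h1
  · intro b
    exact (hγr (π b)).mono (Metric.ball_subset_ball (min_le_left _ _))
  · intro τ f hf
    rw [AlgHom.comp_apply, hπP f hf, map_zero]
  · intro τ hτ hτ0
    exact hr'2 τ (Metric.ball_subset_ball (min_le_right _ _) hτ) hτ0

open Crest.Agent.R271.Defs710 in
/-- **N4** -/
theorem discFact {n : ℕ} (X : FCtx n) : DiscFact X := by
  intro y P h hP hPy hne hh
  obtain ⟨γ, hγ0, r, hr, hγr, hγP, hγh⟩ := exists_disc X.ft y P hP hPy hne h hh
  refine ⟨γ, hγ0, fun f => hγr f 0 (Metric.mem_ball_self hr), ?_⟩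
  rw [eventually_nhdsWithin_iff]
  filter_upwards [Metric.ball_mem_nhds (0 : ℂ) hr] with τ hτ hτ0
  exact ⟨hγP τ, hγh τ hτ hτ0⟩

end S7

end Crest.Agent.R271.Disc846
end

-- ▼ part R271/L6_934

/-!
# Row 271, sub-team L: transfer of the Sum Theorem to ideals of `B` (helper934)

`sumIdeal_of_sumThm : SumThm → SumIdeal X`.
-/

set_option autoImplicit false
open MeasureTheory Filter Topology Set Metric
open scoped ENNReal NNReal

namespace Crest.Agent.R271.L934

open Crest.Agent.R271.Defs710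

section

variable {n : ℕ} {B : Type} [CommRing B] [Algebra ℂ B]

theorem Chart_analyticAt {z : Fin n → B} {y : B →ₐ[ℂ] ℂ} (C : Chart z y) (b : B) :
    AnalyticAt ℂ (fun ζ => C.s ζ b) 0 := C.anal b 0 (mem_ball_self C.r_pos)

theorem Chart_tendsto {z : Fin n → B} {y : B →ₐ[ℂ] ℂ} (C : Chart z y) (b : B) :
    ContinuousAt (fun ζ => C.s ζ b) 0 := (Chart_analyticAt C b).continuousAt

theorem wt_nonneg (S : Finset B) (y : B →ₐ[ℂ] ℂ) : 0 ≤ wt S y :=
  Finset.sum_nonneg fun _ _ => by positivity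

/-- comparison of weights: `|S|² ≤ K |T|²` near `y` if `S ⊆ (T)` -/
theorem wt_le_of_subset_span {z : Fin n → B} {y : B →ₐ[ℂ] ℂ} (C : Chart z y) (S T : Finset B)
    (h : ∀ s ∈ S, s ∈ Ideal.span (T : Set B)) :
    ∃ K : ℝ, 0 < K ∧ ∀ᶠ ζ in 𝓝 (0 : Cn n), wt S (C.s ζ) ≤ K * wt T (C.s ζ) := by
  classical
  have h1 : ∀ s : B, ∃ f : B → B, s ∈ S → ∑ t ∈ T, f t * t = s := by
    intro s
    by_cases hs : s ∈ S
    · obtain ⟨f, -, hf⟩ := Submodule.mem_span_finset.1 (h s hs)
      exact ⟨f, fun _ => by simpa [smul_eq_mul] using hf⟩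
    · exact ⟨0, fun h => absurd h hs⟩
  choose f hf using h1
  set k : Cn n → ℝ := fun ζ => ∑ s ∈ S, ∑ t ∈ T, ‖C.s ζ (f s t)‖ ^ 2 with hk
  have hkc : ContinuousAt k 0 := by
    apply tendsto_finsetSum
    intro s _
    apply tendsto_finsetSum
    intro t _
    exact (Chart_tendsto C (f s t)).norm.pow 2
  have hev : ∀ᶠ ζ in 𝓝 (0 : Cn n), k ζ < k 0 + 1 := hkc.eventually_lt_const (by linarith)
  have hk0 : 0 ≤ k 0 := by positivity
  refine ⟨k 0 + 1, by linarith, ?_⟩
  filter_upwards [hev] with ζ hζ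
  have hW : 0 ≤ wt T (C.s ζ) := wt_nonneg T _
  calc wt S (C.s ζ) = ∑ s ∈ S, ‖C.s ζ s‖ ^ 2 := rfl
    _ ≤ ∑ s ∈ S, (∑ t ∈ T, ‖C.s ζ (f s t)‖ ^ 2) * wt T (C.s ζ) := by
        apply Finset.sum_le_sum
        intro s hs
        have e : C.s ζ s = ∑ t ∈ T, C.s ζ (f s t) * C.s ζ t := by
          conv_lhs => rw [← hf s hs]
          simp [map_sum, map_mul]
        rw [e]
        calc ‖∑ t ∈ T, C.s ζ (f s t) * C.s ζ t‖ ^ 2
            ≤ (∑ t ∈ T, ‖C.s ζ (f s t)‖ * ‖C.s ζ t‖) ^ 2 := by
              gcongr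
              exact (norm_sum_le _ _).trans (by simp)
          _ ≤ (∑ t ∈ T, ‖C.s ζ (f s t)‖ ^ 2) * ∑ t ∈ T, ‖C.s ζ t‖ ^ 2 :=
              Finset.sum_mul_sq_le_sq_mul_sq _ _ _
          _ = (∑ t ∈ T, ‖C.s ζ (f s t)‖ ^ 2) * wt T (C.s ζ) := rfl
    _ = k ζ * wt T (C.s ζ) := by rw [← Finset.sum_mul]
    _ ≤ (k 0 + 1) * wt T (C.s ζ) := by gcongr

theorem sq_coe (S : Finset B) (w : Cn n → (B →ₐ[ℂ] ℂ)) (ζ : Cn n) :
    Defs710.sq (fun (b : {b // b ∈ S}) (ζ : Cn n) => w ζ (b : B)) ζ = wt S (w ζ) := by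
  unfold Defs710.sq wt
  exact Finset.sum_coe_sort S (fun b => ‖w ζ b‖ ^ 2)

theorem LInt_mono_const {g g' : Cn n → ℝ≥0∞} {a : Cn n} (h : LInt g' a) {K : ℝ≥0∞} (hK : K ≠ ∞)
    (hle : ∀ᶠ z in 𝓝 a, g z ≤ K * g' z) : LInt g a := by
  obtain ⟨U, hU, hlt⟩ := h
  obtain ⟨V, hVs, hV, haV⟩ := _root_.eventually_nhds_iff.1 hle
  obtain ⟨U', hU'U, hU', haU'⟩ := _root_.mem_nhds_iff.1 hU
  refine ⟨U' ∩ V, (hU'.inter hV).mem_nhds ⟨haU', haV⟩, ?_⟩
  calc ∫⁻ z in U' ∩ V, g z ≤ ∫⁻ z in U' ∩ V, K * g' z := by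
        refine setLIntegral_mono' (hU'.inter hV).measurableSet ?_
        intro z hz
        exact hVs z hz.2
    _ ≤ ∫⁻ z in U, K * g' z := lintegral_mono_set (inter_subset_left.trans hU'U)
    _ = K * ∫⁻ z in U, g' z := lintegral_const_mul' _ _ hK
    _ < ∞ := ENNReal.mul_lt_top hK.lt_top hlt

/-- the Sum Theorem for ideals, from the germ version; `B` Noetherian -/
theorem sumIdeal_core (hS : SumThm) [IsNoetherianRing B] (z : Fin n → B) (y : B →ₐ[ℂ] ℂ)
    (ι κ : Type) [Fintype ι] [Fintype κ] [Nonempty κ]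
    (I : ι → Ideal B) (c : ι → ℝ) (J : κ → Ideal B) (θ : ℝ) (hc : ∀ i, 0 ≤ c i) (hθ : 0 ≤ θ)
    (hI : IInt z y (Sum.elim I (fun _ : Unit => ⨆ j, J j)) (Sum.elim c (fun _ : Unit => θ)))
    (ε : ℝ) (hε : 0 < ε) (hε1 : ε < 1) : ∃ s : κ → ℝ, (∀ j, 0 ≤ s j) ∧ ∑ j, s j = 1 ∧
      IInt z y (Sum.elim I J) (Sum.elim (fun i => (1 - ε) * c i) (fun j => (1 - ε) * (s j * θ))) := by
  classical
  obtain ⟨S, hSp, C, hC⟩ := hI
  -- generators of the `J j`
  have hT : ∀ j, ∃ T : Finset B, Ideal.span (T : Set B) = J j := fun j =>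
    (isNoetherianRing_iff_ideal_fg B).1 inferInstance (J j)
  choose T hT using hT
  set h : ∀ i : ι, {b // b ∈ S (Sum.inl i)} → Cn n → ℂ := fun i b ζ => C.s ζ (b : B) with hh
  set g : ∀ j : κ, {b // b ∈ T j} → Cn n → ℂ := fun j b ζ => C.s ζ (b : B) with hg
  -- comparison for the last factor
  obtain ⟨K, hK, hKev⟩ := wt_le_of_subset_span C (S (Sum.inr ())) (Finset.univ.biUnion T) (by
    intro s hs
    have h1 : s ∈ Ideal.span (S (Sum.inr ()) : Set B) := Ideal.subset_span hs
    rw [hSp] at h1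
    have h2 : (⨆ j, J j) ≤ Ideal.span ((Finset.univ.biUnion T : Finset B) : Set B) := by
      apply iSup_le
      intro j
      rw [← hT j]
      apply Ideal.span_mono
      intro b hb
      simp only [Finset.coe_biUnion, Set.mem_iUnion]
      exact ⟨j, Finset.mem_coe.2 (Finset.mem_univ j), hb⟩
    exact h2 h1)
  have hwU : ∀ y' : B →ₐ[ℂ] ℂ, wt (Finset.univ.biUnion T) y' ≤ ∑ j, wt (T j) y' := by
    intro y'
    unfold wt
    calc ∑ b ∈ Finset.univ.biUnion T, ‖y' b‖ ^ 2
        ≤ ∑ b ∈ Finset.univ.biUnion T, ∑ j, (if b ∈ T j then ‖y' b‖ ^ 2 else 0) := by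
          apply Finset.sum_le_sum
          intro b hb
          obtain ⟨j, -, hj⟩ := Finset.mem_biUnion.1 hb
          calc ‖y' b‖ ^ 2 = (if b ∈ T j then ‖y' b‖ ^ 2 else 0) := by rw [if_pos hj]
            _ ≤ _ := Finset.single_le_sum (f := fun j => (if b ∈ T j then ‖y' b‖ ^ 2 else 0))
              (fun j _ => by split_ifs <;> positivity) (Finset.mem_univ j)
      _ = ∑ j, ∑ b ∈ Finset.univ.biUnion T, (if b ∈ T j then ‖y' b‖ ^ 2 else 0) :=
          Finset.sum_comm
      _ ≤ ∑ j, ∑ b ∈ T j, ‖y' b‖ ^ 2 := by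
          apply Finset.sum_le_sum
          intro j _
          rw [← Finset.sum_filter]
          apply Finset.sum_le_sum_of_subset_of_nonneg
          · intro b hb
            exact (Finset.mem_filter.1 hb).2
          · intro _ _ _; positivity
  have hmain : LInt (fun ζ => wInt h c ζ * ⨅ j : κ, (ENNReal.ofReal (Defs710.sq (g j) ζ)) ^ (-θ)) 0 := by
    have hcard : (0:ℝ) < Fintype.card κ := by exact_mod_cast Fintype.card_pos
    refine LInt_mono_const hC (K := (ENNReal.ofReal (K * Fintype.card κ)) ^ θ) ?_ ?_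
    · exact ENNReal.rpow_ne_top_of_nonneg hθ ENNReal.ofReal_ne_top
    · filter_upwards [hKev] with ζ hζ
      simp only [wB, wInt, Fintype.prod_sum_type, Sum.elim_inl, Sum.elim_inr, hh, hg, sq_coe,
        Finset.univ_unique, Finset.prod_singleton]
      rw [← mul_assoc, mul_comm (ENNReal.ofReal (K * Fintype.card κ) ^ θ), mul_assoc]
      gcongr
      -- the index with the largest weight
      obtain ⟨j0, -, hj0⟩ := Finset.exists_max_image Finset.univ (fun j => wt (T j) (C.s ζ))
        Finset.univ_nonempty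
      have h1 : wt (S (Sum.inr ())) (C.s ζ) ≤ K * Fintype.card κ * wt (T j0) (C.s ζ) := by
        calc _ ≤ K * wt (Finset.univ.biUnion T) (C.s ζ) := hζ
          _ ≤ K * ∑ j, wt (T j) (C.s ζ) := by gcongr; exact hwU _
          _ ≤ K * ∑ _j : κ, wt (T j0) (C.s ζ) := by
              gcongr with j hj
              exact hj0 j hj
          _ = K * Fintype.card κ * wt (T j0) (C.s ζ) := by
              rw [Finset.sum_const, nsmul_eq_mul, Finset.card_univ]; ring
      refine (iInf_le _ j0).trans ?_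
      have hKc : (0:ℝ) < K * Fintype.card κ := by positivity
      have e1 : ENNReal.ofReal (wt (S (Sum.inr ())) (C.s ζ)) ≤
          ENNReal.ofReal (K * Fintype.card κ) * ENNReal.ofReal (wt (T j0) (C.s ζ)) := by
        rw [← ENNReal.ofReal_mul hKc.le]
        exact ENNReal.ofReal_le_ofReal h1
      set a := ENNReal.ofReal (K * Fintype.card κ) with ha
      have ha0 : a ≠ 0 := by rw [ha]; simpa using hKc
      have hat : a ≠ ∞ := ENNReal.ofReal_ne_top
      set u := ENNReal.ofReal (wt (S (Sum.inr ())) (C.s ζ)) with hu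
      set v := ENNReal.ofReal (wt (T j0) (C.s ζ)) with hv
      -- `v^{-θ} ≤ a^θ u^{-θ}`
      rw [ENNReal.rpow_neg, ENNReal.rpow_neg]
      have e2 : u ^ θ ≤ a ^ θ * v ^ θ := by
        rw [← ENNReal.mul_rpow_of_nonneg _ _ hθ]
        exact ENNReal.rpow_le_rpow e1 hθ
      have haθ0 : a ^ θ ≠ 0 := by
        intro h0
        rcases ENNReal.rpow_eq_zero_iff.1 h0 with ⟨h1, -⟩ | ⟨h1, -⟩
        · exact ha0 h1
        · exact hat h1
      have haθt : a ^ θ ≠ ∞ := ENNReal.rpow_ne_top_of_nonneg hθ hat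
      calc (v ^ θ)⁻¹ = a ^ θ * (a ^ θ * v ^ θ)⁻¹ := by
            rw [ENNReal.mul_inv (Or.inl haθ0) (Or.inl haθt), ← mul_assoc,
              ENNReal.mul_inv_cancel haθ0 haθt, one_mul]
        _ ≤ a ^ θ * (u ^ θ)⁻¹ := by gcongr
  obtain ⟨s, hs0, hs1, hs⟩ := hS n ι κ _ _ h g c (fun _ => θ)
    (fun i b => Chart_analyticAt C _) (fun j b => Chart_analyticAt C _) hc (fun _ => hθ) hmain ε hε hε1
  refine ⟨s, hs0, hs1, Sum.elim (fun i => S (Sum.inl i)) T, ?_, C, ?_⟩
  · rintro (i | j)
    · simpa using hSp (Sum.inl i)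
    · exact hT j
  · convert hs using 2 with ζ
    simp only [wB, wInt, Fintype.prod_sum_type, Sum.elim_inl, Sum.elim_inr]
    congr 1
    · apply Finset.prod_congr rfl; intro i _; rw [hh]; rw [sq_coe]
    · apply Finset.prod_congr rfl; intro i _; rw [hg]; rw [sq_coe]

end

theorem sumIdeal_of_sumThm (hS : SumThm) {n : ℕ} (X : FCtx n) : SumIdeal X := by
  intro y ι κ _ _ _ I c J θ _ _ hc hθ h ε hε hε1
  haveI : IsNoetherianRing X.B := by
    haveI := X.ft
    exact Algebra.FiniteType.isNoetherianRing ℂ X.B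
  exact sumIdeal_core hS X.z y ι κ I c J θ hc hθ h ε hε hε1

end Crest.Agent.R271.L934
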