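import Mathlib
import Crest.Agent.R271.Defs_710
import Crest.Agent.R271.Rd3_692

/-!
Row 271 (0.2): change of charts, `ChartChange` (helper692).
-/

set_option autoImplicit false

open scoped Topology ENNReal
open Filter Set MeasureTheory

noncomputable section

namespace Crest.Agent.R271.Rd692

open Crest.Agent.R271.Defs710

variable {n : ℕ}

/-! ### elementary facts on `LInt` -/

lemma lint_iff_ball {g : Cn n → ℝ≥0∞} {a : Cn n} :
    LInt g a ↔ ∃ r > 0, ∫⁻ ζ in Metric.ball a r, g ζ < ∞ := by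
  constructor
  · rintro ⟨U, hU, h⟩
    obtain ⟨r, hr, hrU⟩ := Metric.mem_nhds_iff.mp hU
    exact ⟨r, hr, lt_of_le_of_lt (lintegral_mono_set hrU) h⟩
  · rintro ⟨r, hr, h⟩
    exact ⟨_, Metric.ball_mem_nhds a hr, h⟩

lemma LInt.congr_aux {g g' : Cn n → ℝ≥0∞} {a : Cn n} (h : g =ᶠ[𝓝 a] g') (hg : LInt g a) :
    LInt g' a := by
  obtain ⟨U, hU, hint⟩ := hg
  obtain ⟨V, hV, hVo, haV⟩ := mem_nhds_iff.mp (inter_mem hU h)
  refine ⟨V, hVo.mem_nhds haV, ?_⟩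
  have h1 : ∫⁻ ζ in V, g' ζ = ∫⁻ ζ in V, g ζ :=
    setLIntegral_congr_fun hVo.measurableSet fun ζ hζ => ((hV hζ).2 : g ζ = g' ζ).symm
  rw [h1]
  exact lt_of_le_of_lt (lintegral_mono_set fun ζ hζ => (hV hζ).1) hint

lemma lint_congr {g g' : Cn n → ℝ≥0∞} {a : Cn n} (h : g =ᶠ[𝓝 a] g') : LInt g a ↔ LInt g' a :=
  ⟨LInt.congr_aux h, LInt.congr_aux h.symm⟩

lemma lint_translate {g : Cn n → ℝ≥0∞} {a b : Cn n} :
    LInt (fun ζ => g (a + ζ)) b ↔ LInt g (a + b) := by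
  rw [lint_iff_ball, lint_iff_ball]
  have h : ∀ r : ℝ, ∫⁻ ζ in Metric.ball b r, g (a + ζ) = ∫⁻ ζ in Metric.ball (a + b) r, g ζ := by
    intro r
    have h1 := (measurePreserving_add_left (volume : Measure (Cn n)) a).setLIntegral_comp_preimage_emb
      (measurableEmbedding_addLeft a) g (Metric.ball (a + b) r)
    have h2 : (fun x => a + x) ⁻¹' Metric.ball (a + b) r = Metric.ball b r := by
      ext x; simp [Metric.mem_ball]
    rw [h2] at h1
    exact h1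
  simp only [h]

/-! ### charts -/

section

variable {B : Type} [CommRing B] [Algebra ℂ B] {z : Fin n → B}



/-- points of the chart `C'` at `C.s ζ` are points of the chart `C`. -/
lemma chart_ev_eq {y : B →ₐ[ℂ] ℂ} (C : Chart z y) {ζ : Cn n}
    (hζ : ζ ∈ Metric.ball (0 : Cn n) C.r) (C' : Chart z (C.s ζ)) :
    ∀ᶠ η in 𝓝 (0 : Cn n), C.s (ζ + η) = C'.s η := by
  obtain ⟨T, ε, hε, hT⟩ := C'.surj
  have hc : ContinuousAt (fun η : Cn n => ζ + η) 0 := by fun_prop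
  have h1 : ∀ᶠ η in 𝓝 (0 : Cn n), ζ + η ∈ Metric.ball (0 : Cn n) C.r := by
    apply hc.eventually_mem
    rw [add_zero]
    exact Metric.isOpen_ball.mem_nhds hζ
  have h2 : ∀ b ∈ T, ∀ᶠ η in 𝓝 (0 : Cn n), ‖C.s (ζ + η) b - C.s ζ b‖ < ε := by
    intro b _
    have h3 : ContinuousAt (fun ζ => C.s ζ b) (ζ + 0) := by
      rw [add_zero]
      exact (C.anal b ζ hζ).continuousAt
    have h4 : ContinuousAt (fun η : Cn n => C.s (ζ + η) b) 0 :=
      ContinuousAt.comp (g := fun ζ => C.s ζ b) (f := fun η : Cn n => ζ + η) h3 hc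
    have h5 := (Metric.continuousAt_iff'.mp h4) ε hε
    simpa [dist_eq_norm] using h5
  have h6 : ∀ᶠ η in 𝓝 (0 : Cn n), ∀ b ∈ T, ‖C.s (ζ + η) b - C.s ζ b‖ < ε := by
    rw [Filter.eventually_all_finset]
    exact h2
  filter_upwards [h1, h6] with η hη1 hη2
  have h7 := hT (C.s (ζ + η)) hη2
  have h8 : (fun i => C.s (ζ + η) (z i) - C.s ζ (z i)) = η := by
    funext i
    rw [C.s_z _ hη1, C.s_z _ hζ]
    simp
  rw [h8] at h7
  exact h7

lemma lintB_iff {y : B →ₐ[ℂ] ℂ} (C : Chart z y) {ζ : Cn n}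
    (hζ : ζ ∈ Metric.ball (0 : Cn n) C.r) (C' : Chart z (C.s ζ)) (g : (B →ₐ[ℂ] ℂ) → ℝ≥0∞) :
    LInt (fun η => g (C'.s η)) 0 ↔ LInt (fun ζ' => g (C.s ζ')) ζ := by
  have h1 : (fun η => g (C'.s η)) =ᶠ[𝓝 (0 : Cn n)] fun η => g (C.s (ζ + η)) := by
    filter_upwards [chart_ev_eq C hζ C'] with η hη
    rw [hη]
  rw [lint_congr h1]
  have h2 := lint_translate (g := fun ζ' => g (C.s ζ')) (a := ζ) (b := (0 : Cn n))
  rw [add_zero] at h2
  exact h2

end

theorem chartChange (X : FCtx n) : ChartChange X := by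
  intro y C ζ hζ g
  constructor
  · rintro ⟨C', h⟩
    exact (lintB_iff C hζ C' g).mp h
  · intro h
    obtain ⟨C'⟩ := chartEx X (C.s ζ)
    exact ⟨C', (lintB_iff C hζ C' g).mpr h⟩


end Crest.Agent.R271.Rd692
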