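import Crest.Agent.R271.Defs_710
import Crest.Agent.R271.Assembly_710
import Crest.Agent.R271.N0b_710
import Crest.Agent.R271.NSpec_647
import Crest.Agent.R271.AF5_785
import Crest.Agent.R271.Ord_969
import Crest.Agent.R271.Rd3_692
import Mathlib
import Crest.Agent.R271.CaseA3_112
import Crest.Agent.R271.V1_992
import Crest.Agent.R271.N0_710
import Crest.Agent.R271.Rd4_692
import Crest.Agent.R271.IInt_821
import Crest.Agent.R271.L6_934_Mg
import Crest.Agent.R271.NonInt_821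
import Crest.Agent.R271.L0_934
import Crest.Agent.R271.GSpec_792
import Crest.Agent.R271.G3_792
import Crest.Agent.R271.AlgA_255_Mg

-- ▼ part R271/Facts_710
section

/-!
Row 271: top level assembly from the leaves (as hypotheses), for the final file `S0413.lean`.
-/

set_option autoImplicit false

open scoped ENNReal NNReal Topology BigOperators
open MeasureTheory

noncomputable section

namespace Crest.Agent.R271.Facts710

open Crest.Agent.R271.Defs710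

/-- ANALYSIS: `AFacts` from its fields -/
theorem analysisMain
    (chart : ∀ (n : ℕ) (X : FCtx n), ChartEx X)
    (change : ∀ (n : ℕ) (X : FCtx n), ChartChange X)
    (gens : ∀ (n : ℕ) (X : FCtx n), GensFact X)
    (mult : ∀ (n : ℕ) (X : FCtx n), MultIdeal X)
    (sum : ∀ (n : ℕ) (X : FCtx n), SumIdeal X)
    (holder : ∀ (n : ℕ) (X : FCtx n), Holder X)
    (mono : ∀ (n : ℕ) (X : FCtx n), MonoFact X)
    (prod : ∀ (n : ℕ) (X : FCtx n), ProdFact X)
    (ord : ∀ (n : ℕ) (X : FCtx n), OrdFact X)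
    (nonint : ∀ (n : ℕ) (X : FCtx n), NonIntFact X)
    (fubini : ∀ (n : ℕ) (X : FCtx n), FubiniFact X)
    (spec : ∀ (n : ℕ) (X : FCtx n), SpecFact X)
    (disc : ∀ (n : ℕ) (X : FCtx n), DiscFact X)
    (gen : ∀ (n : ℕ) (X : FCtx n), GenFact X) : AnalysisMain :=
  fun n X _ => ⟨chart n X, change n X, gens n X, mult n X, sum n X, holder n X, mono n X, prod n X,
    ord n X, nonint n X, fubini n X, spec n X, disc n X, gen n X⟩

/-- ABSTRACT PART from its four statements -/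
theorem abstractMain (hA : Assembly710.CaseA) (hE : Assembly710.ExiMain)
    (hN : ∀ (n : ℕ) (X : FCtx n), 1 ≤ n → AFacts X → N647.NonIsoStmt X)
    (hI : Assembly710.IsoMain) : AbstractMain :=
  Assembly710.abstractMain hA hE (N0x710.nonIsoMain_of hN) hI

end Crest.Agent.R271.Facts710
end
end

-- ▼ part R271/OrdFact_785
section

/-!
Row 271: (AF5) `OrdFact X` for every context `X`.
-/

set_option autoImplicit false
open MeasureTheory Filter Topology Set Metric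
open scoped ENNReal NNReal

namespace Crest.Agent.R271.AF5x785

open Crest.Agent.R271.Defs710

theorem ordFact {n : ℕ} (X : FCtx n) : OrdFact X := by
  intro y f e c hf hc hce
  obtain ⟨C⟩ := Crest.Agent.R271.Rd692.chartEx X y
  have hne : ¬ (fun ζ => C.s (0 + ζ) f) =O[𝓝 0] fun ζ : Cn n => ‖ζ‖ ^ (e + 1) := by
    intro h
    apply hf
    rw [Crest.Agent.R271.Ord969.fctx_mem_pow_iff X y C]
    simpa using h
  obtain ⟨U, hU, hint⟩ := af5 (f := fun ζ => C.s ζ f) (a := (0 : Cn n))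
    (C.anal f 0 (mem_ball_self C.r_pos)) hne hc hce
  refine ⟨fun _ => {f}, fun _ => by simp, C, U, hU, ?_⟩
  convert hint using 3 with ζ
  simp [wB, wt]

end Crest.Agent.R271.AF5x785
end

-- ▼ part R271/CaseA4_112
section

/-!
Row 271, Case A (5.2), part 4: étale coordinates, leading forms, vanishing orders in charts.
-/

set_option autoImplicit false

open scoped Topology BigOperators
open Filter Metric Asymptotics MvPolynomial Module
open Crest.Agent.R271.Defs710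

noncomputable section

namespace Crest.Agent.R271.CaseA112

section alg

variable {n : ℕ} {B : Type} [CommRing B] [Algebra ℂ B]

theorem mem_mI {y : B →ₐ[ℂ] ℂ} {b : B} : b ∈ mI y ↔ y b = 0 := by
  rw [mI, RingHom.mem_ker]; rfl

/-- the coordinate `zᵢ - zᵢ(y)` -/
def uu (z : Fin n → B) (y : B →ₐ[ℂ] ℂ) (i : Fin n) : B := z i - algebraMap ℂ B (y (z i))

theorem uu_mem (z : Fin n → B) (y : B →ₐ[ℂ] ℂ) (i : Fin n) : uu z y i ∈ mI y := by
  rw [mem_mI, uu, map_sub, AlgHom.commutes]; simp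

/-- étale coordinates generate `𝔪/𝔪²` -/
theorem mI_le (z : Fin n → B)
    (het : RingHom.Etale ((MvPolynomial.aeval z : MvPolynomial (Fin n) ℂ →ₐ[ℂ] B) :
      MvPolynomial (Fin n) ℂ →+* B)) (y : B →ₐ[ℂ] ℂ) (b : B) (hb : b ∈ mI y) :
    b ∈ Ideal.span (Set.range (uu z y)) ⊔ mI y ^ 2 := by
  let _ : Algebra (MvPolynomial (Fin n) ℂ) B :=
    ((MvPolynomial.aeval z : MvPolynomial (Fin n) ℂ →ₐ[ℂ] B) : MvPolynomial (Fin n) ℂ →+* B).toAlgebra
  have het' : Algebra.Etale (MvPolynomial (Fin n) ℂ) B := het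
  have hun : Algebra.FormallyUnramified (MvPolynomial (Fin n) ℂ) B := inferInstance
  set J : Ideal B := Ideal.span (Set.range (uu z y)) ⊔ mI y ^ 2 with hJ
  have hJle : J ≤ mI y := by
    refine sup_le ?_ (Ideal.pow_le_self two_ne_zero)
    rw [Ideal.span_le]
    rintro _ ⟨i, rfl⟩
    exact uu_mem z y i
  let f : (B ⧸ J) →+* ℂ := Ideal.Quotient.lift J (y : B →+* ℂ) (fun a ha => mem_mI.mp (hJle ha))
  have hf : IsNilpotent (RingHom.ker f) := by
    refine ⟨2, ?_⟩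
    rw [Ideal.zero_eq_bot, eq_bot_iff, pow_two, Ideal.mul_le]
    intro a ha c hc
    obtain ⟨a, rfl⟩ := Ideal.Quotient.mk_surjective a
    obtain ⟨c, rfl⟩ := Ideal.Quotient.mk_surjective c
    have ha' : a ∈ mI y := by
      rw [mem_mI]
      exact (Ideal.Quotient.lift_mk J (y : B →+* ℂ) _).symm.trans ((RingHom.mem_ker).mp ha)
    have hc' : c ∈ mI y := by
      rw [mem_mI]
      exact (Ideal.Quotient.lift_mk J (y : B →+* ℂ) _).symm.trans ((RingHom.mem_ker).mp hc)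
    rw [← map_mul, Ideal.mem_bot, Ideal.Quotient.eq_zero_iff_mem]
    refine (le_sup_right : _ ≤ J) ?_
    rw [pow_two]
    exact Ideal.mul_mem_mul ha' hc'
  let g₁ : B →ₐ[MvPolynomial (Fin n) ℂ] (B ⧸ J) := Ideal.Quotient.mkₐ (MvPolynomial (Fin n) ℂ) J
  let g₂' : B →+* (B ⧸ J) := (algebraMap ℂ (B ⧸ J)).comp (y : B →+* ℂ)
  have hcomm : ∀ r : MvPolynomial (Fin n) ℂ,
      g₂' (algebraMap (MvPolynomial (Fin n) ℂ) B r) =
        algebraMap (MvPolynomial (Fin n) ℂ) (B ⧸ J) r := by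
    have : g₂'.comp (algebraMap (MvPolynomial (Fin n) ℂ) B) =
        algebraMap (MvPolynomial (Fin n) ℂ) (B ⧸ J) := by
      apply MvPolynomial.ringHom_ext
      · intro a
        have h1 : algebraMap (MvPolynomial (Fin n) ℂ) B (C a) = algebraMap ℂ B a :=
          MvPolynomial.aeval_C z a
        have h2 : algebraMap (MvPolynomial (Fin n) ℂ) (B ⧸ J) (C a) =
            Ideal.Quotient.mk J (algebraMap ℂ B a) := by
          rw [← h1]; rfl
        rw [h2, RingHom.comp_apply, h1]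
        show algebraMap ℂ (B ⧸ J) (y (algebraMap ℂ B a)) = _
        rw [AlgHom.commutes]
        rfl
      · intro i
        have h1 : algebraMap (MvPolynomial (Fin n) ℂ) B (X i) = z i := MvPolynomial.aeval_X z i
        have h2 : algebraMap (MvPolynomial (Fin n) ℂ) (B ⧸ J) (X i) =
            Ideal.Quotient.mk J (z i) := by
          rw [← h1]; rfl
        rw [h2, RingHom.comp_apply, h1]
        show algebraMap ℂ (B ⧸ J) (y (z i)) = _
        have h3 : algebraMap ℂ (B ⧸ J) (y (z i)) = Ideal.Quotient.mk J (algebraMap ℂ B (y (z i))) := rfl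
        rw [h3, eq_comm, Ideal.Quotient.eq]
        exact (le_sup_left : _ ≤ J) (Ideal.subset_span ⟨i, rfl⟩)
    intro r
    exact RingHom.congr_fun this r
  let g₂ : B →ₐ[MvPolynomial (Fin n) ℂ] (B ⧸ J) := { g₂' with commutes' := hcomm }
  have hg : g₁ = g₂ := by
    refine Algebra.FormallyUnramified.lift_unique_of_ringHom f hf g₁ g₂ ?_
    ext b
    show f (Ideal.Quotient.mk J b) = f (algebraMap ℂ (B ⧸ J) (y b))
    have h3 : algebraMap ℂ (B ⧸ J) (y b) = Ideal.Quotient.mk J (algebraMap ℂ B (y b)) := rfl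
    rw [h3]
    show y b = y (algebraMap ℂ B (y b))
    rw [AlgHom.commutes]
    rfl
  have := AlgHom.congr_fun hg b
  have h4 : Ideal.Quotient.mk J b = algebraMap ℂ (B ⧸ J) (y b) := this
  rw [mem_mI.mp hb, map_zero, Ideal.Quotient.eq_zero_iff_mem] at h4
  exact h4

/-- `a ∈ 𝔪^j` is a homogeneous form in the coordinates modulo `𝔪^{j+1}` -/
theorem exists_form (z : Fin n → B)
    (het : RingHom.Etale ((MvPolynomial.aeval z : MvPolynomial (Fin n) ℂ →ₐ[ℂ] B) :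
      MvPolynomial (Fin n) ℂ →+* B)) (y : B →ₐ[ℂ] ℂ) (j : ℕ) :
    ∀ b ∈ mI y ^ j, ∃ P : MvPolynomial (Fin n) ℂ, P.IsHomogeneous j ∧
      b - aeval (uu z y) P ∈ mI y ^ (j + 1) := by
  -- degree one
  have hsub : ∀ b : B, b - algebraMap ℂ B (y b) ∈ mI y := by
    intro b
    rw [mem_mI, map_sub, AlgHom.commutes]; simp
  have hone : ∀ b ∈ mI y, ∃ P : MvPolynomial (Fin n) ℂ, P.IsHomogeneous 1 ∧
      b - aeval (uu z y) P ∈ mI y ^ 2 := by
    intro b hb
    obtain ⟨a, ha, c, hc, rfl⟩ := Submodule.mem_sup.mp (mI_le z het y b hb)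
    obtain ⟨k, hk⟩ := (Ideal.mem_span_range_iff_exists_fun).mp ha
    refine ⟨∑ i, C (y (k i)) * X i, ?_, ?_⟩
    · refine IsHomogeneous.sum _ _ _ fun i _ => ?_
      have := (isHomogeneous_C (Fin n) (y (k i))).mul (isHomogeneous_X ℂ i)
      simpa using this
    · have h1 : a + c - aeval (uu z y) (∑ i, C (y (k i)) * X i : MvPolynomial (Fin n) ℂ) =
          ∑ i, (k i - algebraMap ℂ B (y (k i))) * uu z y i + c := by
        rw [← hk, map_sum]
        simp only [map_mul, aeval_C, aeval_X, sub_mul, Finset.sum_sub_distrib]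
        ring
      rw [h1]
      refine Ideal.add_mem _ (Ideal.sum_mem _ fun i _ => ?_) hc
      rw [pow_two]
      exact Ideal.mul_mem_mul (hsub _) (uu_mem z y i)
  have haev : ∀ (k : ℕ) (P : MvPolynomial (Fin n) ℂ), P.IsHomogeneous k →
      aeval (uu z y) P ∈ mI y ^ k := by
    intro k P hP
    rw [MvPolynomial.aeval_def, MvPolynomial.eval₂_eq]
    refine Ideal.sum_mem _ fun d hd => Ideal.mul_mem_left _ _ ?_
    have hdk : ∑ i ∈ d.support, d i = k := by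
      have h1 := hP (mem_support_iff.mp hd)
      have h2 : d.degree = k := by
        rw [← h1, Finsupp.degree_eq_weight_one]
        rfl
      rw [← h2, Finsupp.degree_apply]
    rw [← hdk, ← Finset.prod_pow_eq_pow_sum]
    exact Ideal.prod_mem_prod fun i _ => Ideal.pow_mem_pow (uu_mem z y i) _
  induction j with
  | zero =>
    intro b _
    refine ⟨C (y b), isHomogeneous_C _ _, ?_⟩
    rw [aeval_C, zero_add, pow_one]
    exact hsub b
  | succ j ih =>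
    intro b hb
    rw [pow_succ] at hb
    induction hb using Submodule.mul_induction_on' with
    | mem_mul_mem a ha c hc =>
      obtain ⟨P, hP, hPa⟩ := ih a ha
      obtain ⟨Q, hQ, hQc⟩ := hone c hc
      refine ⟨P * Q, hP.mul hQ, ?_⟩
      have h1 : a * c - aeval (uu z y) (P * Q) =
          (a - aeval (uu z y) P) * c + aeval (uu z y) P * (c - aeval (uu z y) Q) := by
        rw [map_mul]; ring
      rw [h1]
      refine Ideal.add_mem _ ?_ ?_
      · rw [pow_succ (mI y) (j + 1)]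
        exact Ideal.mul_mem_mul hPa hc
      · have : mI y ^ (j + 1 + 1) = mI y ^ j * mI y ^ 2 := by rw [← pow_add]
        rw [this]
        exact Ideal.mul_mem_mul (haev j P hP) hQc
    | add a _ c _ iha ihc =>
      obtain ⟨P, hP, hPa⟩ := iha
      obtain ⟨Q, hQ, hQc⟩ := ihc
      refine ⟨P + Q, hP.add hQ, ?_⟩
      have h1 : a + c - aeval (uu z y) (P + Q) =
          (a - aeval (uu z y) P) + (c - aeval (uu z y) Q) := by
        rw [map_add]; ring
      rw [h1]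
      exact Ideal.add_mem _ hPa hQc

/-- powers of the maximal ideal and growth, along any family of points -/
theorem isBigO_pow {T : Type*} {l : Filter T} (s : T → (B →ₐ[ℂ] ℂ)) (ρ : T → ℝ)
    (y : B →ₐ[ℂ] ℂ) (h : ∀ b ∈ mI y, (fun t => s t b) =O[l] ρ)
    (hbd : ∀ b : B, (fun t => s t b) =O[l] fun _ => (1 : ℝ)) (k : ℕ) :
    ∀ b ∈ mI y ^ k, (fun t => s t b) =O[l] fun t => ρ t ^ k := by
  induction k with
  | zero => intro b _; simpa using hbd b
  | succ k ih =>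
    intro b hb
    rw [pow_succ] at hb
    induction hb using Submodule.mul_induction_on' with
    | mem_mul_mem a ha c hc =>
      have := (ih a ha).mul (h c hc)
      simpa [map_mul, pow_succ] using this
    | add a _ c _ iha ihc =>
      have := iha.add ihc
      simpa [map_add] using this

end alg

end Crest.Agent.R271.CaseA112
end
end

-- ▼ part R271/CaseA_112
section

/-!
Row 271, Case A (5.2): if the initial forms of `V_m ∩ 𝔪_x^j` fill more than a fraction `1 - (2n)^{-n}`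
of `Sym^j` for some `m, j` with `n m < (n+1) j`, then the main local theorem holds.
-/

set_option autoImplicit false

open scoped Topology BigOperators ENNReal
open Filter Metric Asymptotics MvPolynomial Module MeasureTheory
open Crest.Agent.R271.Defs710

noncomputable section

namespace Crest.Agent.R271.CaseA112

/-- `V_m ∩ 𝔪_x^j` -/
def VJ {n : ℕ} (X : FCtx n) (m j : ℕ) : Submodule ℂ X.B :=
  X.V m ⊓ (mI X.x ^ j).restrictScalars ℂ

section

variable {n : ℕ} (X : FCtx n)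

theorem mem_VJ {m j : ℕ} {f : X.B} : f ∈ VJ X m j ↔ f ∈ X.V m ∧ f ∈ mI X.x ^ j := by
  rw [VJ, Submodule.mem_inf, Submodule.restrictScalars_mem]

instance (m j : ℕ) : FiniteDimensional ℂ (VJ X m j) :=
  haveI := X.V_fin m
  Submodule.finiteDimensional_of_le (inf_le_left : VJ X m j ≤ X.V m)

/-- the leading form map -/
theorem exists_lead (m j : ℕ) :
    ∃ lead : VJ X m j →ₗ[ℂ] MvPolynomial (Fin n) ℂ, (∀ f, (lead f).IsHomogeneous j) ∧
      (∀ f : VJ X m j, (f : X.B) - aeval (uu X.z X.x) (lead f) ∈ mI X.x ^ (j + 1)) ∧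
      (finrank ℂ (VJ X m j) : ℝ) - (finrank ℂ (VJ X m (j + 1)) : ℝ) ≤
        (finrank ℂ (LinearMap.range lead) : ℝ) := by
  set T : Submodule ℂ X.B := (mI X.x ^ (j + 1)).restrictScalars ℂ with hT
  set H := homogeneousSubmodule (Fin n) ℂ j with hH
  let μ : H →ₗ[ℂ] (X.B ⧸ T) :=
    T.mkQ ∘ₗ (aeval (uu X.z X.x) : MvPolynomial (Fin n) ℂ →ₐ[ℂ] X.B).toLinearMap ∘ₗ H.subtype
  have hμr : ∀ f : VJ X m j, T.mkQ f ∈ LinearMap.range μ := by
    intro f
    obtain ⟨P, hP, hPf⟩ := exists_form X.z X.etale X.x j f ((mem_VJ X).mp f.2).2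
    refine ⟨⟨P, hP⟩, ?_⟩
    show T.mkQ (aeval (uu X.z X.x) P) = T.mkQ f
    rw [eq_comm, Submodule.mkQ_apply, Submodule.mkQ_apply, Submodule.Quotient.eq]
    exact hPf
  obtain ⟨σ, hσ⟩ := μ.rangeRestrict.exists_rightInverse_of_surjective (LinearMap.range_rangeRestrict μ)
  have hσ' : ∀ y, μ (σ y) = (y : X.B ⧸ T) := by
    intro y
    have := congrArg Subtype.val (LinearMap.congr_fun hσ y)
    simpa using this
  let q : VJ X m j →ₗ[ℂ] LinearMap.range μ :=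
    LinearMap.codRestrict _ (T.mkQ ∘ₗ (VJ X m j).subtype) hμr
  let lead : VJ X m j →ₗ[ℂ] MvPolynomial (Fin n) ℂ := H.subtype ∘ₗ σ ∘ₗ q
  have hlq : ∀ f : VJ X m j, T.mkQ (aeval (uu X.z X.x) (lead f)) = T.mkQ f := by
    intro f
    have := hσ' (q f)
    exact this
  refine ⟨lead, fun f => (σ (q f)).2, ?_, ?_⟩
  · intro f
    have := hlq f
    rw [eq_comm, Submodule.mkQ_apply, Submodule.mkQ_apply, Submodule.Quotient.eq] at this
    exact this
  · have hrk := LinearMap.finrank_range_add_finrank_ker lead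
    have hker : finrank ℂ (LinearMap.ker lead) ≤ finrank ℂ (VJ X m (j + 1)) := by
      rw [← Submodule.finrank_map_subtype_eq (VJ X m j) (LinearMap.ker lead)]
      refine Submodule.finrank_mono ?_
      rintro _ ⟨f, hf, rfl⟩
      rw [Submodule.coe_subtype, mem_VJ]
      refine ⟨((mem_VJ X).mp f.2).1, ?_⟩
      have h1 := hlq f
      have h2 : lead f = 0 := LinearMap.mem_ker.mp hf
      rw [h2, map_zero, map_zero, eq_comm, Submodule.mkQ_apply,
        Submodule.Quotient.mk_eq_zero] at h1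
      exact h1
    have : (finrank ℂ (VJ X m j) : ℝ) = (finrank ℂ (LinearMap.range lead) : ℝ) +
        (finrank ℂ (LinearMap.ker lead) : ℝ) := by exact_mod_cast hrk.symm
    have h2 : (finrank ℂ (LinearMap.ker lead) : ℝ) ≤ (finrank ℂ (VJ X m (j + 1)) : ℝ) := by
      exact_mod_cast hker
    linarith

/-- in a chart, an element of `𝔪_y^k` is `O(|ζ|^k)` -/
theorem chart_isBigO {y : X.B →ₐ[ℂ] ℂ} (Ch : Chart X.z y) (k : ℕ) (b : X.B) (hb : b ∈ mI y ^ k) :
    (fun ζ => Ch.s ζ b) =O[𝓝 0] fun ζ => ‖ζ‖ ^ k := by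
  have han : ∀ b : X.B, AnalyticAt ℂ (fun ζ => Ch.s ζ b) 0 := fun b =>
    Ch.anal b 0 (mem_ball_self Ch.r_pos)
  refine isBigO_pow (fun ζ => Ch.s ζ) (fun ζ => ‖ζ‖) y ?_ ?_ k b hb
  · intro b hb
    have h0 : Ch.s 0 b = 0 := by rw [Ch.s_zero]; exact mem_mI.mp hb
    have := (han b).differentiableAt.isBigO_sub
    simp only [h0, sub_zero] at this
    exact this.norm_right
  · intro b
    have := (han b).continuousAt.isBigO_one ℝ
    exact this

/-- along a line in a chart, an element of `𝔪^k` at the base point is `O(t^k)` -/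
theorem line_isBigO {y : X.B →ₐ[ℂ] ℂ} (Ch : Chart X.z y) {ζ : Cn n} (hζ : ζ ∈ ball (0 : Cn n) Ch.r)
    (v : Cn n) (k : ℕ) (b : X.B) (hb : b ∈ mI (Ch.s ζ) ^ k) :
    (fun t : ℂ => Ch.s (ζ + t • v) b) =O[𝓝 0] fun t : ℂ => t ^ k := by
  have han : ∀ b : X.B, AnalyticAt ℂ (fun t : ℂ => Ch.s (ζ + t • v) b) 0 := by
    intro b
    have h1 : AnalyticAt ℂ (fun ζ => Ch.s ζ b) (ζ + (0:ℂ) • v) := by
      simpa using Ch.anal b ζ hζ
    have h2 : AnalyticAt ℂ (fun t : ℂ => ζ + t • v) 0 := by fun_prop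
    exact AnalyticAt.fun_comp (f := fun t : ℂ => ζ + t • v) (g := fun ζ => Ch.s ζ b) h1 h2
  have := isBigO_pow (l := 𝓝 (0:ℂ)) (fun t : ℂ => Ch.s (ζ + t • v)) (fun t => ‖t‖) (Ch.s ζ)
    (fun b hb => ?_) (fun b => ?_) k b hb
  · refine this.trans ?_
    refine IsBigO.of_bound 1 (Eventually.of_forall fun t => ?_)
    simp
  · have h0 : (fun t : ℂ => Ch.s (ζ + t • v) b) 0 = 0 := by
      show Ch.s (ζ + (0:ℂ) • v) b = 0
      rw [zero_smul, add_zero]; exact mem_mI.mp hb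
    have := (han b).differentiableAt.isBigO_sub
    simp only [h0, sub_zero] at this
    exact this.norm_right
  · exact (han b).continuousAt.isBigO_one ℝ

/-- CASE A. -/
theorem caseA (hn : 1 ≤ n) (hX : AFacts X) (m j : ℕ) (hj : 1 ≤ j)
    (hmj : (n : ℝ) * m < (n + 1) * j)
    (hD : (1 - 1 / (2 * n : ℝ) ^ n) * (Nat.choose (n + j - 1) j : ℝ) <
      (finrank ℂ (VJ X m j) : ℝ) - (finrank ℂ (VJ X m (j + 1)) : ℝ)) :
    MLT X := by
  classical
  have hn0 : (0:ℝ) < n := by exact_mod_cast hn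
  have hj0 : (0:ℝ) < j := by exact_mod_cast hj
  obtain ⟨Ch⟩ := hX.chart X.x
  obtain ⟨lead, hlead, hlm, hrank⟩ := exists_lead X m j
  -- the exponent
  set lo : ℝ := max ((m:ℝ) / (n + 1)) ((j:ℝ) / (2 * n)) with hlo
  have hlo1 : lo < (j:ℝ) / n := by
    rw [hlo]
    refine max_lt ?_ ?_
    · rw [div_lt_div_iff₀ (by positivity) hn0]; nlinarith
    · rw [div_lt_div_iff₀ (by positivity) hn0]; nlinarith
  set k : ℝ := (lo + (j:ℝ) / n) / 2 with hk
  have hk1 : lo < k := by rw [hk]; linarith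
  have hk2 : k < (j:ℝ) / n := by rw [hk]; linarith
  have hkm : (m:ℝ) / (n + 1) < k := lt_of_le_of_lt (le_max_left _ _) hk1
  have hkj : (j:ℝ) / (2 * n) < k := lt_of_le_of_lt (le_max_right _ _) hk1
  have hk0 : 0 < k := lt_trans (by positivity) hkj
  set N : ℕ := ⌈k⌉₊ - 1 with hN
  have hceil : 1 ≤ ⌈k⌉₊ := Nat.one_le_iff_ne_zero.mpr (Nat.ceil_pos.mpr hk0).ne'
  have hNk : (N:ℝ) < k := by
    have : N < ⌈k⌉₊ := by omega
    exact Nat.lt_ceil.mp this
  have hkN : k ≤ (N:ℝ) + 1 := by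
    have h1 : k ≤ (⌈k⌉₊ : ℝ) := Nat.le_ceil k
    have h2 : ((N + 1 : ℕ) : ℝ) = (⌈k⌉₊ : ℝ) := by
      congr 1; omega
    push_cast at h2
    linarith
  have hjN : j < 2 * n * (N + 1) := by
    have h1 : (j:ℝ) < 2 * n * k := by
      have := (div_lt_iff₀ (by positivity : (0:ℝ) < 2 * n)).mp hkj
      linarith
    have h2 : (2 * n : ℝ) * k ≤ 2 * n * (N + 1) := mul_le_mul_of_nonneg_left hkN (by positivity)
    have h3 : (j:ℝ) < ((2 * n * (N + 1) : ℕ) : ℝ) := by push_cast; linarith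
    exact_mod_cast h3
  -- the shell
  have hsh := shell (n := n) (j := j) (N := N) hjN (E := VJ X m j)
    (fun f ζ => Ch.s ζ (f : X.B)) lead hlead
    (fun f => Ch.anal f 0 (mem_ball_self Ch.r_pos))
    (fun f => by
      have h1 := chart_isBigO X Ch (j + 1) _ (hlm f)
      refine h1.congr' ?_ EventuallyEq.rfl
      filter_upwards [ball_mem_nhds (0 : Cn n) Ch.r_pos] with ζ hζ
      rw [map_sub]
      congr 1
      have h2 : (Ch.s ζ) (aeval (uu X.z X.x) (lead f)) =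
          aeval (fun i => Ch.s ζ (uu X.z X.x i)) (lead f) := by
        exact MvPolynomial.comp_aeval_apply (uu X.z X.x) (Ch.s ζ) (lead f)
      rw [h2]
      have h3 : (fun i => Ch.s ζ (uu X.z X.x i)) = ζ := by
        funext i
        rw [uu, map_sub, AlgHom.commutes, Ch.s_z ζ hζ]
        simp
      rw [h3]
      rfl)
    (lt_of_lt_of_le hD hrank)
  obtain ⟨δ, hδ, hδb⟩ := (Metric.nhdsWithin_basis_ball (x := (0 : Cn n))).eventually_iff.mp hsh
  -- the generators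
  set bs := Module.finBasis ℂ (VJ X m j) with hbs
  set S : Finset X.B := Finset.univ.image fun i => ((bs i : VJ X m j) : X.B) with hS
  have hSmem : ∀ f ∈ S, f ∈ VJ X m j := by
    intro f hf
    obtain ⟨i, _, rfl⟩ := Finset.mem_image.mp hf
    exact (bs i).2
  have hSne0 : ∀ f ∈ S, f ≠ 0 := by
    intro f hf
    obtain ⟨i, _, rfl⟩ := Finset.mem_image.mp hf
    intro h
    exact bs.ne_zero i (Subtype.ext h)
  have hfr : 0 < finrank ℂ (VJ X m j) := by
    have h1 : (0:ℝ) ≤ (1 - 1 / (2 * n : ℝ) ^ n) * (Nat.choose (n + j - 1) j : ℝ) := by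
      refine mul_nonneg ?_ (by positivity)
      have : (1:ℝ) ≤ (2 * n : ℝ) ^ n := by
        refine one_le_pow₀ ?_
        have : (1:ℝ) ≤ n := by exact_mod_cast hn
        linarith
      rw [sub_nonneg, div_le_one (by positivity)]
      exact this
    have h2 : (0:ℝ) < (finrank ℂ (VJ X m j) : ℝ) := by
      have : (0:ℝ) ≤ (finrank ℂ (VJ X m (j + 1)) : ℝ) := by positivity
      linarith
    exact_mod_cast h2
  have hSnon : S.Nonempty := by
    refine Finset.Nonempty.image ?_ _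
    exact ⟨⟨0, hfr⟩, Finset.mem_univ _⟩
  -- if all members of `S` lie in an ideal then so does `VJ`
  have hSspan : ∀ (I : Ideal X.B), (∀ f ∈ S, f ∈ I) → ∀ f ∈ VJ X m j, f ∈ I := by
    intro I hI f hf
    have h1 : (⟨f, hf⟩ : VJ X m j) = ∑ i, bs.repr ⟨f, hf⟩ i • bs i := (bs.sum_repr _).symm
    have h2 : f = ∑ i, bs.repr ⟨f, hf⟩ i • ((bs i : VJ X m j) : X.B) := by
      have h3 := congrArg (VJ X m j).subtype h1
      rw [map_sum] at h3
      simpa only [Submodule.subtype_apply, map_smul] using h3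
    rw [h2]
    refine Ideal.sum_mem _ fun i _ => ?_
    rw [Algebra.smul_def]
    exact Ideal.mul_mem_left _ _ (hI _ (Finset.mem_image_of_mem _ (Finset.mem_univ _)))
  set r₂ : ℝ := min δ Ch.r / 2 with hr₂
  have hmin : 0 < min δ Ch.r := lt_min hδ Ch.r_pos
  refine ⟨1, fun _ => S, fun _ => m, fun _ => 1 / k, Ch, r₂ / 2, r₂, ?_, ?_, ?_, ?_, ?_, ?_, ?_, ?_⟩
  · intro _
    exact ⟨hSnon, fun f hf => ⟨((mem_VJ X).mp (hSmem f hf)).1, hSne0 f hf⟩⟩
  · intro _; positivity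
  · simp only [Finset.univ_unique, Finset.sum_const, Finset.card_singleton, one_smul]
    have := (div_lt_iff₀ (by positivity : (0:ℝ) < (n:ℝ) + 1)).mp hkm
    rw [one_div, inv_mul_lt_iff₀ hk0]
    linarith
  · positivity
  · rw [hr₂]; linarith
  · rw [hr₂]
    have : min δ Ch.r ≤ Ch.r := min_le_right _ _
    linarith
  · -- not integrable at `x`
    intro hint
    have h1 : LIntB X.z X.x (wB (fun _ : Fin 1 => S) (fun _ => 1 / k)) := by
      have := (hX.change X.x Ch 0 (mem_ball_self Ch.r_pos)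
        (wB (fun _ : Fin 1 => S) (fun _ => 1 / k))).mpr hint
      rwa [Ch.s_zero] at this
    have h2 : wB (fun _ : Fin 1 => S) (fun _ => 1 / k) =
        wB (fun _ : Unit => S) (fun _ => 1 / k) := by
      funext y
      simp [wB]
    rw [h2] at h1
    have h3 := (hX.gens X.x Unit (fun _ => Ideal.span (S : Set X.B)) (fun _ => 1 / k)
      (fun _ => S) (fun _ => rfl)).mpr h1
    refine hX.nonint X.x (Ideal.span (S : Set X.B)) j (1 / k) ?_ ?_ hn h3
    · rw [Ideal.span_le]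
      intro f hf
      exact ((mem_VJ X).mp (hSmem f hf)).2
    · rw [one_div, ← div_eq_inv_mul, le_div_iff₀ hk0]
      have := (lt_div_iff₀ hn0).mp hk2
      linarith
  · -- integrable on the shell
    intro ζ hζ1 hζ2
    have hζpos : 0 < ‖ζ‖ := lt_of_lt_of_le (by positivity) hζ1
    have hζδ : ‖ζ‖ < δ := by
      have : min δ Ch.r ≤ δ := min_le_left _ _
      rw [hr₂] at hζ2; linarith
    have hζr : ‖ζ‖ < Ch.r := by
      have : min δ Ch.r ≤ Ch.r := min_le_right _ _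
      rw [hr₂] at hζ2; linarith
    have hζball : ζ ∈ ball (0 : Cn n) Ch.r := by simpa using hζr
    have hζne : ζ ≠ 0 := norm_pos_iff.mp hζpos
    obtain ⟨f, v, hfv⟩ := hδb ⟨by simpa using hζδ, hζne⟩
    -- some generator has small order
    have hex : ∃ b ∈ S, b ∉ mI (Ch.s ζ) ^ (N + 1) := by
      by_contra hcon
      push Not at hcon
      exact hfv (line_isBigO X Ch hζball v (N + 1) f (hSspan _ hcon f f.2))
    obtain ⟨b, hbS, hb⟩ := hex
    have hcN : (1 / k) * (N:ℝ) < 1 := by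
      rw [one_div, inv_mul_lt_iff₀ hk0]; linarith
    have h1 := hX.ord (Ch.s ζ) b N (1 / k) hb (by positivity) hcN
    have h2 := (hX.gens (Ch.s ζ) Unit (fun _ => Ideal.span {b}) (fun _ => 1 / k)
      (fun _ => {b}) (fun _ => by simp)).mp h1
    obtain ⟨C', U, hU, hUint⟩ := h2
    have h3 : LIntB X.z (Ch.s ζ) (wB (fun _ : Fin 1 => S) (fun _ => 1 / k)) := by
      refine ⟨C', U, hU, lt_of_le_of_lt ?_ hUint⟩
      refine lintegral_mono fun ζ' => ?_
      simp only [wB, Finset.univ_unique, Finset.prod_singleton]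
      rw [ENNReal.rpow_neg, ENNReal.rpow_neg]
      refine ENNReal.inv_le_inv.mpr ?_
      refine ENNReal.rpow_le_rpow (ENNReal.ofReal_le_ofReal ?_) (by positivity)
      simp only [wt, Finset.sum_singleton]
      exact Finset.single_le_sum (f := fun b => ‖(C'.s ζ') b‖ ^ 2)
        (fun _ _ => by positivity) hbS
    exact (hX.change X.x Ch ζ hζball _).mp h3

end

end Crest.Agent.R271.CaseA112
end
end

-- ▼ part R271/CaseAMain_112
section

/-! Row 271: `CaseA` of `Assembly_710`. -/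

set_option autoImplicit false

noncomputable section

namespace Crest.Agent.R271.CaseA112

open Crest.Agent.R271.Defs710 Crest.Agent.R271.Assembly710

/-- (5.2), in the form used by the assembly -/
theorem caseAMain : CaseA := by
  intro n X hn hX hB
  have hn0 : (0:ℝ) < n := by exact_mod_cast hn
  have hnot : ¬ Caps X (1 / (2 * n : ℝ) ^ n) := fun h => hB ⟨_, by positivity, h⟩
  rw [Caps] at hnot
  push Not at hnot
  obtain ⟨m, -, j, hmj, hD⟩ := hnot 0
  have hj : 1 ≤ j := by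
    rcases Nat.eq_zero_or_pos j with h | h
    · subst h; omega
    · exact h
  have hch : (j + n - 1).choose (n - 1) = (n + j - 1).choose j := by
    have h1 : j + n - 1 = n + j - 1 := by omega
    rw [h1, ← Nat.choose_symm (by omega : j ≤ n + j - 1)]
    congr 1; omega
  rw [hch] at hD
  exact caseA X hn hX m j hj (by exact_mod_cast hmj) hD

end Crest.Agent.R271.CaseA112
end
end

-- ▼ part R271/Iso_399
section

/-!
Row 271, piece F4 = Part 7 (`IsoMain`): an isolated centre and a threshold attained in degree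
`c₀ < n+1` give the Main Local Theorem.
-/

set_option autoImplicit false

open scoped ENNReal NNReal Topology BigOperators
open MeasureTheory

noncomputable section

namespace Crest.Agent.R271.Iso399

open Crest.Agent.R271.Defs710 Crest.Agent.R271.Assembly710 Crest.Agent.R271.V1_992

variable {n : ℕ} {X : FCtx n}

/-- the sections of every large degree have no common zeros -/
theorem exists_span_top (X : FCtx n) : ∃ j₀ : ℕ, ∀ j, j₀ ≤ j →
    Ideal.span (X.V j : Set X.B) = ⊤ := by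
  obtain ⟨j₀, hj₀⟩ := exists_unit_section X
  refine ⟨j₀, fun j hj => ?_⟩
  by_contra hne
  obtain ⟨m, hm, hle⟩ := Ideal.exists_le_maximal _ hne
  obtain ⟨y, rfl⟩ := N0x710.exists_pt m hm
  obtain ⟨f, hf, hfy⟩ := hj₀ j hj y
  exact hfy ((N0x710.mem_mI y f).mp (hle (Ideal.subset_span hf)))

/-- the ideal `𝔞_l(F)` is generated by the sections of a single degree -/
theorem exists_degree (F : Filt X.V) (l : ℝ) : ∃ m' : ℕ, sp F m' l = idl F l := by
  classical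
  obtain ⟨j₀, hj₀⟩ := exists_span_top X
  obtain ⟨T, hTs, hT⟩ := (Submodule.fg_span_iff_fg_span_finset_subset
    {b : X.B | ∃ m : ℕ, b ∈ F.F m l}).mp (IsNoetherian.noetherian (idl F l))
  have hTs' : ∀ b ∈ T, ∃ m : ℕ, b ∈ F.F m l := fun b hb => hTs hb
  choose! dg hdg using hTs'
  refine ⟨T.sup dg + j₀, le_antisymm (Ideal.span_mono fun b hb => ⟨_, hb⟩) ?_⟩
  have hT' : idl F l = Ideal.span (T : Set X.B) := hT
  rw [hT', Ideal.span_le]
  intro b hb
  have hle : dg b ≤ T.sup dg := Finset.le_sup hb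
  have h1 : b ∈ sp F (dg b) l := Ideal.subset_span (hdg b hb)
  have h2 : sp F (T.sup dg + j₀ - dg b) 0 = ⊤ := by
    unfold sp
    rw [F.zero _ _ le_rfl]
    exact hj₀ _ (by omega)
  have h3 := sp_mul F (dg b) (T.sup dg + j₀ - dg b) l 0
  rw [h2, Ideal.mul_top, add_zero] at h3
  have h4 : dg b + (T.sup dg + j₀ - dg b) = T.sup dg + j₀ := by omega
  rw [h4] at h3
  exact h3 h1

/-- finite sets of nonzero generators -/
theorem exists_gens (F : Filt X.V) (d : ℕ) (l : ℝ) (h : sp F d l ≠ ⊥) :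
    ∃ S : Finset X.B, S.Nonempty ∧ (∀ f ∈ S, f ∈ X.V d ∧ f ≠ 0) ∧
      Ideal.span (S : Set X.B) = sp F d l := by
  classical
  obtain ⟨T, hTs, hT⟩ := (Submodule.fg_span_iff_fg_span_finset_subset
    (F.F d l : Set X.B)).mp (IsNoetherian.noetherian (sp F d l))
  have hT' : sp F d l = Ideal.span (T : Set X.B) := hT
  have hsp : Ideal.span ((T.erase 0 : Finset X.B) : Set X.B) = sp F d l := by
    refine le_antisymm ?_ ?_
    · rw [hT']
      exact Ideal.span_mono (by simp)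
    · rw [hT', Ideal.span_le]
      intro b hb
      by_cases hb0 : b = 0
      · rw [hb0]; exact Ideal.zero_mem _
      · exact Ideal.subset_span (by simp [hb0]; exact hb)
  refine ⟨T.erase 0, ?_, ?_, hsp⟩
  · rw [Finset.nonempty_iff_ne_empty]
    intro he
    apply h
    rw [← hsp, he]
    simp
  · intro f hf
    exact ⟨F.le_V d l (hTs (Finset.mem_of_mem_erase hf)), Finset.ne_of_mem_erase hf⟩

/-- local integrability in a chart -/
theorem IInt_iff_LInt (af : AFacts X) {y : X.B →ₐ[ℂ] ℂ} (C : Chart X.z y) {ζ : Cn n}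
    (hζ : ζ ∈ Metric.ball (0 : Cn n) C.r) {ι : Type} [Fintype ι] {I : ι → Ideal X.B} {c : ι → ℝ}
    {S : ι → Finset X.B} (hS : ∀ i, Ideal.span (S i : Set X.B) = I i) :
    IInt X.z (C.s ζ) I c ↔ LInt (fun ζ' => wB S c (C.s ζ')) ζ :=
  (af.gens (C.s ζ) ι I c S hS).trans (af.change y C ζ hζ _)

theorem LInt_eventually {g : Cn n → ℝ≥0∞} {a : Cn n} (h : LInt g a) : ∀ᶠ ζ in 𝓝 a, LInt g ζ := by
  obtain ⟨U, hU, hlt⟩ := h
  filter_upwards [eventually_mem_nhds_iff.mpr hU] with ζ hζ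
  exact ⟨U, hζ, hlt⟩

/-- two ideals -/
def e2 : Fin 2 ≃ Unit ⊕ Unit where
  toFun := ![Sum.inl (), Sum.inr ()]
  invFun := Sum.elim (fun _ => 0) (fun _ => 1)
  left_inv := by intro i; fin_cases i <;> rfl
  right_inv := by rintro (⟨⟩ | ⟨⟩) <;> rfl

theorem IInt_two (af : AFacts X) {y : X.B →ₐ[ℂ] ℂ} {I₁ I₂ : Ideal X.B} {c₁ c₂ τ : ℝ}
    (h₁ : I₁ ≠ ⊥) (h₂ : I₂ ≠ ⊥) (hτ0 : 0 ≤ τ) (hτ1 : τ ≤ 1)
    (hI₁ : IInt X.z y (fun _ : Unit => I₁) (fun _ => c₁))
    (hI₂ : IInt X.z y (fun _ : Unit => I₂) (fun _ => c₂)) :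
    IInt X.z y ![I₁, I₂] ![(1 - τ) * c₁, τ * c₂] := by
  have a1 := IInt_add_zero (fun _ : Unit => I₂) hI₁
  have a2 := IInt_zero_add (fun _ : Unit => I₁) hI₂
  have hne : ∀ i, Sum.elim (fun _ : Unit => I₁) (fun _ : Unit => I₂) i ≠ ⊥ := by
    rintro (i | i)
    · exact h₁
    · exact h₂
  have a3 := IInt_reindex e2 (af.holder y _ _ _ _ (1 - τ) hne (by linarith) (by linarith) a1 a2)
  convert a3 using 1
  · funext i
    fin_cases i <;> rfl
  · funext i
    fin_cases i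
    · simp [e2]
    · simp [e2]

theorem isoMain : IsoMain := by
  intro n X hn af F c₀ hfin hApos hc₀ hgood hiso
  set A : ℝ := (thr X.z F X.x).toReal with hA
  obtain ⟨l₁, k₁, b, hl₁, hk₁, hb, hoff⟩ := hiso
  have hk₁0 : (0 : ℝ) < k₁ := by exact_mod_cast hk₁
  obtain ⟨m', hm'⟩ := exists_degree F (k₁ * l₁)
  have hthr0 : thr X.z F X.x ≠ 0 := by
    intro h0
    rw [hA, h0] at hApos
    simp at hApos
  have hI2 : sp F m' (k₁ * l₁) ≠ ⊥ := by
    rw [hm']
    exact N0x710.idl_ne_bot F hthr0 _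
  -- choice of `τ`
  set c₁ : ℝ := max c₀ 0 with hc₁
  have hc₁n : c₁ < n + 1 := max_lt hc₀ (by positivity)
  obtain ⟨τ, hτ0, hτ1, hτ⟩ : ∃ τ : ℝ, 0 < τ ∧ τ < 1 ∧ (1 - τ) * c₁ + τ * (m' / k₁) < n + 1 := by
    have hcont : Filter.Tendsto (fun τ : ℝ => (1 - τ) * c₁ + τ * (m' / k₁)) (𝓝[>] 0) (𝓝 c₁) := by
      have : Continuous (fun τ : ℝ => (1 - τ) * c₁ + τ * (m' / k₁)) := by fun_prop
      have h2 := this.tendsto 0
      simp only [sub_zero, one_mul, zero_mul, add_zero] at h2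
      exact h2.mono_left nhdsWithin_le_nhds
    have hev : ∀ᶠ τ in 𝓝[>] (0 : ℝ), (1 - τ) * c₁ + τ * (m' / k₁) < n + 1 ∧ 0 < τ ∧ τ < 1 := by
      refine (hcont.eventually (gt_mem_nhds hc₁n)).and ?_
      exact (eventually_mem_nhdsWithin).and
        (Filter.eventually_of_mem (Ioo_mem_nhdsGT one_pos) (fun a ha => ha.2))
    obtain ⟨τ, h1, h2, h3⟩ := hev.exists
    exact ⟨τ, h2, h3, h1⟩
  -- choice of `ρ`
  set ρ : ℝ := τ * (l₁ - A) / 2 with hρ
  have hρ0 : 0 < ρ := by rw [hρ]; have := sub_pos.mpr hl₁; positivity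
  have hlev : A < (1 - τ) * (A - ρ) + τ * l₁ := by
    have h1 : (1 - τ) * ρ ≤ ρ := by nlinarith
    have h2 : τ * (l₁ - A) = 2 * ρ := by rw [hρ]; ring
    nlinarith
  obtain ⟨k, hk, hI1⟩ := hgood (A - ρ) (by linarith)
  have hk0 : (0 : ℝ) < k := by exact_mod_cast hk
  set m₁ : ℕ := ⌊k * c₀⌋₊ with hm₁
  change IInt X.z X.x (fun _ : Unit => sp F m₁ (k * (A - ρ))) (fun _ => 1 / (k : ℝ)) at hI1
  have hI1ne : sp F m₁ (k * (A - ρ)) ≠ ⊥ := IInt_ne_bot (by positivity) hI1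
  have hm₁le : (m₁ : ℝ) ≤ k * c₁ := by
    rcases le_or_gt 0 c₀ with h | h
    · refine (Nat.floor_le (by positivity)).trans ?_
      exact mul_le_mul_of_nonneg_left (le_max_left _ _) hk0.le
    · have : m₁ = 0 := by
        rw [hm₁]
        apply Nat.floor_of_nonpos
        nlinarith
      rw [this, Nat.cast_zero]
      exact mul_nonneg hk0.le (le_max_right _ _)
  -- generators
  obtain ⟨S₁, hS₁n, hS₁V, hS₁⟩ := exists_gens F m₁ (k * (A - ρ)) hI1ne
  obtain ⟨S₂, hS₂n, hS₂V, hS₂⟩ := exists_gens F m' (k₁ * l₁) hI2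
  obtain ⟨C⟩ := af.chart X.x
  -- the data
  set d : Fin 2 → ℕ := ![m₁, m'] with hd
  set lv : Fin 2 → ℝ := ![k * (A - ρ), k₁ * l₁] with hlv
  set S : Fin 2 → Finset X.B := ![S₁, S₂] with hS
  set c : Fin 2 → ℝ := ![(1 - τ) * (1 / k), τ * (1 / k₁)] with hc
  have hspan : ∀ i, Ideal.span (S i : Set X.B) = sp F (d i) (lv i) := by
    intro i
    fin_cases i
    · exact hS₁
    · exact hS₂
  have hIne : ∀ i, sp F (d i) (lv i) ≠ ⊥ := by
    intro i
    fin_cases i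
    · exact hI1ne
    · exact hI2
  have hcpos : ∀ i, 0 < c i := by
    intro i
    fin_cases i
    · change 0 < (1 - τ) * (1 / (k : ℝ))
      have : 0 < 1 - τ := by linarith
      positivity
    · change 0 < τ * (1 / (k₁ : ℝ))
      positivity
  have hIeq : (fun i => sp F (d i) (lv i)) = ![sp F m₁ (k * (A - ρ)), sp F m' (k₁ * l₁)] := by
    funext i
    fin_cases i <;> rfl
  -- the shell
  have hint0 : ∀ᶠ ζ in 𝓝 (0 : Cn n), LInt (fun ζ' => wB (fun _ : Unit => S₁) (fun _ => 1 / (k : ℝ))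
      (C.s ζ')) ζ := by
    apply LInt_eventually
    rw [← IInt_iff_LInt af C (Metric.mem_ball_self C.r_pos)
      (I := fun _ => sp F m₁ (k * (A - ρ))) (fun _ => hS₁), C.s_zero]
    exact hI1
  have hbne : ∀ᶠ ζ in 𝓝 (0 : Cn n), C.s ζ b ≠ 0 := by
    have hcont : ContinuousAt (fun ζ => C.s ζ b) 0 :=
      (C.anal b 0 (Metric.mem_ball_self C.r_pos)).continuousAt
    apply hcont.eventually_ne
    rw [C.s_zero]
    exact hb
  have hball : ∀ᶠ ζ in 𝓝 (0 : Cn n), ζ ∈ Metric.ball (0 : Cn n) C.r :=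
    Metric.ball_mem_nhds _ C.r_pos
  obtain ⟨δ, hδ0, hδ⟩ := Metric.eventually_nhds_iff.mp (hint0.and (hbne.and hball))
  refine ⟨2, S, d, c, C, min δ C.r / 3, min δ C.r / 2, ?_, hcpos, ?_, ?_, ?_, ?_, ?_, ?_⟩
  · intro i
    fin_cases i
    · exact ⟨hS₁n, hS₁V⟩
    · exact ⟨hS₂n, hS₂V⟩
  · rw [Fin.sum_univ_two]
    change (1 - τ) * (1 / (k : ℝ)) * m₁ + τ * (1 / (k₁ : ℝ)) * m' < n + 1
    have h1 : (1 - τ) * (1 / (k : ℝ)) * m₁ ≤ (1 - τ) * c₁ := by
      have h2 : 1 / (k : ℝ) * m₁ ≤ c₁ := by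
        rw [one_div, inv_mul_le_iff₀ hk0]
        exact hm₁le
      rw [mul_assoc]
      exact mul_le_mul_of_nonneg_left h2 (by linarith)
    have h3 : τ * (1 / (k₁ : ℝ)) * m' = τ * (m' / k₁) := by ring
    linarith
  · have : 0 < min δ C.r := lt_min hδ0 C.r_pos
    positivity
  · have : 0 < min δ C.r := lt_min hδ0 C.r_pos
    linarith
  · have h1 : 0 < min δ C.r := lt_min hδ0 C.r_pos
    have h2 : min δ C.r ≤ C.r := min_le_right _ _
    linarith
  · intro hL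
    rw [← IInt_iff_LInt af C (Metric.mem_ball_self C.r_pos) hspan, C.s_zero] at hL
    obtain ⟨L, hL1, hL2⟩ := exists_between hlev
    have hsum : ∑ i, c i * lv i = (1 - τ) * (A - ρ) + τ * l₁ := by
      rw [Fin.sum_univ_two]
      change (1 - τ) * (1 / (k : ℝ)) * (k * (A - ρ)) + τ * (1 / (k₁ : ℝ)) * (k₁ * l₁) = _
      field_simp
    have hG := conv af F X.x d lv c (fun i => (hcpos i).le) hIne hL (∑ i, c i * d i + 1) L
      (by linarith) (by rw [hsum]; exact hL2)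
    have := good_le hfin (GoodC_good af hG)
    linarith
  · intro ζ hζ1 hζ2
    have hm0 : 0 < min δ C.r := lt_min hδ0 C.r_pos
    have hζδ : dist ζ 0 < δ := by
      rw [dist_zero_right]
      have : min δ C.r ≤ δ := min_le_left _ _
      linarith
    obtain ⟨hLζ, hbζ, hζr⟩ := hδ hζδ
    have hζ0 : ζ ≠ 0 := by
      rintro rfl
      rw [norm_zero] at hζ1
      linarith
    have hne : C.s ζ ≠ X.x := by
      intro he
      apply hζ0
      funext i
      have := C.s_z ζ hζr i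
      rw [he] at this
      simpa using this.symm
    have hi1 : IInt X.z (C.s ζ) (fun _ : Unit => sp F m₁ (k * (A - ρ))) (fun _ => 1 / (k : ℝ)) :=
      (IInt_iff_LInt af C hζr (fun _ => hS₁)).mpr hLζ
    have hi2 : IInt X.z (C.s ζ) (fun _ : Unit => sp F m' (k₁ * l₁)) (fun _ => 1 / (k₁ : ℝ)) := by
      rw [hm']
      exact hoff _ hne hbζ
    have h12 := IInt_two af hI1ne hI2 hτ0.le hτ1.le hi1 hi2
    rw [← hIeq] at h12
    exact (IInt_iff_LInt af C hζr hspan).mp h12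

end Crest.Agent.R271.Iso399
end
end

-- ▼ part R271/Fin_710
section

/-!
Row 271: final assembly, from the leaves which are not landed yet.
-/

set_option autoImplicit false

open scoped ENNReal NNReal Topology BigOperators
open MeasureTheory

noncomputable section

namespace Crest.Agent.R271.Fin710

open Crest.Agent.R271.Defs710

theorem aFacts (hS : SumThm) {n : ℕ} (X : FCtx n) (hM : MultIdeal X) (hF : FubiniFact X)
    (hSp : SpecFact X) : AFacts X where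
  chart := Rd692.chartEx X
  change := Rd692.chartChange X
  gens := Local821.gensFact X
  mult := hM
  sum := L934.sumIdeal_of_sumThm hS X
  holder := Local821.holder X
  mono := Local821.monoFact X
  prod := Local821.prodFact X
  ord := AF5x785.ordFact X
  nonint := Local821.nonIntFact X
  fubini := hF
  spec := hSp
  disc := Disc846.discFact X
  gen := Gen86.genFact X

theorem abstractMain (hE : Assembly710.ExiMain)
    (hN : ∀ (n : ℕ) (X : FCtx n), 1 ≤ n → AFacts X → N647.NonIsoStmt X) : AbstractMain :=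
  Facts710.abstractMain CaseA112.caseAMain hE hN Iso399.isoMain

end Crest.Agent.R271.Fin710
end
end

-- ▼ part R271/G4a_131
section

/-!
Row 271, G4: growth of the elements of `B` (BB4) and local facts for `MultIdeal` (AF7). helper131.
-/

set_option autoImplicit false

open scoped Topology ENNReal NNReal BigOperators
open Filter Set MeasureTheory

noncomputable section

namespace Crest.Agent.R271.G4x131

open Crest.Agent.R271.Defs710 Crest.Agent.R271.Rd692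

variable {n : ℕ}

/-! ### growth -/

section growth

variable (X : FCtx n)

/-- `1 + |z|²` -/
def W (y : X.B →ₐ[ℂ] ℂ) : ℝ := 1 + ∑ i, ‖y (X.z i)‖ ^ 2

lemma one_le_W (y : X.B →ₐ[ℂ] ℂ) : 1 ≤ W X y := by
  unfold W
  have : 0 ≤ ∑ i, ‖y (X.z i)‖ ^ 2 := Finset.sum_nonneg fun i _ => by positivity
  linarith

lemma W_pos (y : X.B →ₐ[ℂ] ℂ) : 0 < W X y := lt_of_lt_of_le one_pos (one_le_W X y)

/-- polynomial growth in `z` -/
def PG (b : X.B) : Prop := ∃ (C : ℝ) (K : ℕ), 1 ≤ C ∧ ∀ y : X.B →ₐ[ℂ] ℂ, ‖y b‖ ≤ C * W X y ^ K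

lemma PG.add {a b : X.B} (ha : PG X a) (hb : PG X b) : PG X (a + b) := by
  obtain ⟨C, K, hC, h⟩ := ha
  obtain ⟨C', K', hC', h'⟩ := hb
  refine ⟨C + C', K + K', by linarith, fun y => ?_⟩
  have h1 := one_le_W X y
  have hK : W X y ^ K ≤ W X y ^ (K + K') := pow_le_pow_right₀ h1 (by omega)
  have hK' : W X y ^ K' ≤ W X y ^ (K + K') := pow_le_pow_right₀ h1 (by omega)
  rw [map_add]
  calc ‖y a + y b‖ ≤ ‖y a‖ + ‖y b‖ := norm_add_le _ _
    _ ≤ C * W X y ^ K + C' * W X y ^ K' := add_le_add (h y) (h' y)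
    _ ≤ C * W X y ^ (K + K') + C' * W X y ^ (K + K') := by gcongr
    _ = _ := by ring

lemma PG.mul {a b : X.B} (ha : PG X a) (hb : PG X b) : PG X (a * b) := by
  obtain ⟨C, K, hC, h⟩ := ha
  obtain ⟨C', K', hC', h'⟩ := hb
  refine ⟨C * C', K + K', by nlinarith, fun y => ?_⟩
  rw [map_mul, norm_mul]
  calc ‖y a‖ * ‖y b‖ ≤ (C * W X y ^ K) * (C' * W X y ^ K') :=
        mul_le_mul (h y) (h' y) (norm_nonneg _) (by have := W_pos X y; positivity)
    _ = _ := by ring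

lemma PG.const (c : ℂ) : PG X (algebraMap ℂ X.B c) := by
  refine ⟨1 + ‖c‖, 0, by have := norm_nonneg c; linarith, fun y => ?_⟩
  simp

lemma PG.z (i : Fin n) : PG X (X.z i) := by
  refine ⟨1, 1, le_refl _, fun y => ?_⟩
  have h1 : ‖y (X.z i)‖ ^ 2 ≤ ∑ i, ‖y (X.z i)‖ ^ 2 :=
    Finset.single_le_sum (f := fun i => ‖y (X.z i)‖ ^ 2) (fun i _ => by positivity) (Finset.mem_univ i)
  unfold W
  nlinarith [norm_nonneg (y (X.z i)), sq_nonneg (‖y (X.z i)‖ - 1)]

/-- the subalgebra of elements of polynomial growth -/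
def PGalg : Subalgebra ℂ X.B where
  carrier := {b | PG X b}
  mul_mem' := fun ha hb => PG.mul X ha hb
  add_mem' := fun ha hb => PG.add X ha hb
  algebraMap_mem' := PG.const X

lemma adjoin_le : Algebra.adjoin ℂ (Set.range X.z) ≤ PGalg X := by
  apply Algebra.adjoin_le
  rintro _ ⟨i, rfl⟩
  exact PG.z X i

/-- root bound: `a` integral over functions of polynomial growth -/
lemma root_bound {r : ℕ} (a : ℂ) (p : ℕ → ℂ) (h : a ^ r = - ∑ i ∈ Finset.range r, p i * a ^ i)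
    : ‖a‖ ≤ 1 + ∑ i ∈ Finset.range r, ‖p i‖ := by
  have hS : 0 ≤ ∑ i ∈ Finset.range r, ‖p i‖ := Finset.sum_nonneg fun i _ => norm_nonneg _
  by_cases ha : ‖a‖ ≤ 1
  · linarith
  push Not at ha
  rcases Nat.eq_zero_or_pos r with hr | hr
  · subst hr
    simp at h
  have h1 : ‖a‖ ^ r ≤ ∑ i ∈ Finset.range r, ‖p i‖ * ‖a‖ ^ (r - 1) := by
    rw [← norm_pow, h, norm_neg]
    refine (norm_sum_le _ _).trans (Finset.sum_le_sum fun i hi => ?_)
    rw [norm_mul, norm_pow]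
    have : i ≤ r - 1 := by have := Finset.mem_range.mp hi; omega
    gcongr
    exact ha.le
  rw [← Finset.sum_mul] at h1
  have h2 : ‖a‖ ^ r = ‖a‖ * ‖a‖ ^ (r - 1) := by
    rw [← pow_succ']; congr 1; omega
  rw [h2] at h1
  have h3 : 0 < ‖a‖ ^ (r - 1) := by positivity
  have h4 := le_of_mul_le_mul_right h1 h3
  linarith

lemma PG_of_mem_A {a : X.B} (ha : a ∈ X.A) : PG X a := by
  obtain ⟨p, hp, hpa⟩ := X.A_int a ha
  have hcoef : ∀ i, PG X (p.coeff i : X.B) := fun i => adjoin_le X (p.coeff i).2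
  -- finite sum of the coefficients
  choose C K hC hCK using hcoef
  set r := p.natDegree with hr
  set Kt := ∑ i ∈ Finset.range r, K i with hKt
  refine ⟨1 + ∑ i ∈ Finset.range r, C i, Kt, ?_, fun y => ?_⟩
  · have : 0 ≤ ∑ i ∈ Finset.range r, C i := Finset.sum_nonneg fun i _ => by linarith [hC i]
    linarith
  have h1 : (y a) ^ r = - ∑ i ∈ Finset.range r, y (p.coeff i : X.B) * (y a) ^ i := by
    have h2 : ∑ i ∈ Finset.range (r + 1), (p.coeff i : X.B) * a ^ i = 0 := by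
      rw [Polynomial.eval₂_eq_sum_range] at hpa
      exact hpa
    rw [Finset.sum_range_succ] at h2
    have h3 : (p.coeff r : X.B) = 1 := by
      rw [hr, show p.coeff p.natDegree = 1 from hp]; rfl
    rw [h3, one_mul] at h2
    have h4 := congrArg y h2
    simp only [map_add, map_sum, map_mul, map_pow, map_zero] at h4
    linear_combination h4
  have h5 := root_bound (y a) (fun i => y (p.coeff i : X.B)) h1
  have h6 := one_le_W X y
  have h7 : ∀ i ∈ Finset.range r, ‖y (p.coeff i : X.B)‖ ≤ C i * W X y ^ Kt := by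
    intro i hi
    refine (hCK i y).trans ?_
    have : K i ≤ Kt := Finset.single_le_sum (f := K) (fun _ _ => Nat.zero_le _) hi
    have hp : W X y ^ K i ≤ W X y ^ Kt := pow_le_pow_right₀ h6 this
    exact mul_le_mul_of_nonneg_left hp (by linarith [hC i])
  calc ‖y a‖ ≤ 1 + ∑ i ∈ Finset.range r, ‖y (p.coeff i : X.B)‖ := h5
    _ ≤ 1 * W X y ^ Kt + ∑ i ∈ Finset.range r, C i * W X y ^ Kt := by
        refine add_le_add ?_ (Finset.sum_le_sum h7)
        rw [one_mul]; exact one_le_pow₀ h6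
    _ = _ := by rw [← Finset.sum_mul]; ring

/-- BB4: growth of an arbitrary element of `B` -/
theorem growthB (b : X.B) : ∃ (C : ℝ) (N K : ℕ), 1 ≤ C ∧
    ∀ y : X.B →ₐ[ℂ] ℂ, ‖y b‖ * ‖y X.h‖ ^ N ≤ C * W X y ^ K := by
  obtain ⟨N, hN⟩ := X.h_loc b
  obtain ⟨C, K, hC, h⟩ := PG_of_mem_A X hN
  refine ⟨C, N, K, hC, fun y => ?_⟩
  have := h y
  rw [map_mul, map_pow, norm_mul, norm_pow] at this
  rwa [mul_comm]

theorem growth_h : ∃ (C : ℝ) (K : ℕ), 1 ≤ C ∧ ∀ y : X.B →ₐ[ℂ] ℂ, ‖y X.h‖ ≤ C * W X y ^ K :=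
  PG_of_mem_A X X.h_mem

end growth

end Crest.Agent.R271.G4x131
end
end

-- ▼ part R271/G4_747
section

/-!
# Row 271, G4 (helper747): multiplier ideals (AF7), `MultIdeal X`, from the global solver (G3) and
algebraicity (G2).
-/

set_option autoImplicit false

open scoped ENNReal NNReal Topology BigOperators
open MeasureTheory Filter Set Metric

noncomputable section

namespace Crest.Agent.R271.G4_747

open Crest.Agent.R271.Defs710 Crest.Agent.R271.GSpec792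

/-! ### `LInt` calculus -/

variable {n : ℕ}

theorem LInt.mono_near {f g : Cn n → ℝ≥0∞} {a : Cn n} (hg : LInt g a) {K : ℝ≥0∞} (hK : K ≠ ∞)
    (h : ∀ᶠ ζ in 𝓝 a, f ζ ≤ K * g ζ) : LInt f a := by
  obtain ⟨U, hU, hfin⟩ := hg
  obtain ⟨W, hWsub, hWo, haW⟩ := _root_.mem_nhds_iff.1 (inter_mem hU h)
  refine ⟨W, hWo.mem_nhds haW, ?_⟩
  calc ∫⁻ ζ in W, f ζ ≤ ∫⁻ ζ in W, K * g ζ :=
        setLIntegral_mono' hWo.measurableSet fun ζ hζ => (hWsub hζ).2
    _ = K * ∫⁻ ζ in W, g ζ := lintegral_const_mul' _ _ hK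
    _ ≤ K * ∫⁻ ζ in U, g ζ := by gcongr; exact fun ζ hζ => (hWsub hζ).1
    _ < ∞ := ENNReal.mul_lt_top hK.lt_top hfin

theorem LInt.of_ball {g : Cn n → ℝ≥0∞} {ρ : ℝ} (h : ∫⁻ ζ in ball (0 : Cn n) ρ, g ζ < ∞) {a : Cn n}
    (ha : a ∈ ball (0 : Cn n) ρ) : LInt g a :=
  ⟨ball 0 ρ, isOpen_ball.mem_nhds ha, h⟩

theorem LInt.add {f g : Cn n → ℝ≥0∞} {a : Cn n} (hf : LInt f a) (hg : LInt g a)
    {W : Set (Cn n)} (hW : W ∈ 𝓝 a) (hm : AEMeasurable f (volume.restrict W)) :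
    LInt (fun ζ => f ζ + g ζ) a := by
  obtain ⟨U, hU, hfin⟩ := hf
  obtain ⟨U', hU', hfin'⟩ := hg
  refine ⟨U ∩ U' ∩ W, inter_mem (inter_mem hU hU') hW, ?_⟩
  have hm' : AEMeasurable f (volume.restrict (U ∩ U' ∩ W)) :=
    hm.mono_measure (Measure.restrict_mono_set _ inter_subset_right)
  rw [lintegral_add_left' hm']
  refine ENNReal.add_lt_top.2 ⟨?_, ?_⟩
  · exact (lintegral_mono_set (inter_subset_left.trans inter_subset_left)).trans_lt hfin
  · exact (lintegral_mono_set (inter_subset_left.trans inter_subset_right)).trans_lt hfin'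

theorem LInt.finset_sum {α : Type*} {T : Finset α} {f : α → Cn n → ℝ≥0∞} {a : Cn n}
    {W : Set (Cn n)} (hW : W ∈ 𝓝 a) (hf : ∀ t ∈ T, LInt (f t) a)
    (hm : ∀ t ∈ T, AEMeasurable (f t) (volume.restrict W)) :
    LInt (fun ζ => ∑ t ∈ T, f t ζ) a := by
  classical
  induction T using Finset.induction_on with
  | empty => exact ⟨univ, univ_mem, by simp⟩
  | insert t T ht ih =>
    simp only [Finset.sum_insert ht]
    exact LInt.add (hf t (Finset.mem_insert_self _ _))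
      (ih (fun s hs => hf s (Finset.mem_insert_of_mem hs))
        (fun s hs => hm s (Finset.mem_insert_of_mem hs))) hW (hm t (Finset.mem_insert_self _ _))

/-! ### Charts -/

section chart

variable {B : Type} [CommRing B] [Algebra ℂ B] {z : Fin n → B} {y : B →ₐ[ℂ] ℂ}

theorem contOn (C : Chart z y) (b : B) : ContinuousOn (fun ζ => C.s ζ b) (ball 0 C.r) :=
  (C.anal b).continuousOn

theorem ball_mem (C : Chart z y) : ball (0 : Cn n) C.r ∈ 𝓝 (0 : Cn n) :=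
  ball_mem_nhds _ C.r_pos

theorem contAt (C : Chart z y) (b : B) : ContinuousAt (fun ζ => C.s ζ b) 0 :=
  (contOn C b).continuousAt (ball_mem C)

theorem wt_contOn (C : Chart z y) (S : Finset B) :
    ContinuousOn (fun ζ => wt S (C.s ζ)) (ball 0 C.r) := by
  unfold wt
  exact continuousOn_finsetSum _ fun b _ => ((contOn C b).norm).pow 2

theorem wt_contAt (C : Chart z y) (S : Finset B) : ContinuousAt (fun ζ => wt S (C.s ζ)) 0 :=
  (wt_contOn C S).continuousAt (ball_mem C)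

theorem wt_nonneg (S : Finset B) (y : B →ₐ[ℂ] ℂ) : 0 ≤ wt S y :=
  Finset.sum_nonneg fun _ _ => by positivity

theorem wB_aem (C : Chart z y) {ι : Type} [Fintype ι] (S : ι → Finset B) (c : ι → ℝ) :
    AEMeasurable (fun ζ => wB S c (C.s ζ)) (volume.restrict (ball (0 : Cn n) C.r)) := by
  unfold wB
  have h : ∀ i ∈ (Finset.univ : Finset ι), AEMeasurable
      (fun ζ => (ENNReal.ofReal (wt (S i) (C.s ζ))) ^ (-(c i)))
      (volume.restrict (ball (0 : Cn n) C.r)) := fun i _ =>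
    (((wt_contOn C (S i)).aemeasurable measurableSet_ball).ennreal_ofReal).pow_const _
  exact Finset.aemeasurable_fun_prod _ h

theorem ns_aem (C : Chart z y) (b : B) :
    AEMeasurable (fun ζ => ENNReal.ofReal (‖C.s ζ b‖ ^ 2))
      (volume.restrict (ball (0 : Cn n) C.r)) :=
  ((((contOn C b).norm).pow 2).aemeasurable measurableSet_ball).ennreal_ofReal

/-- `‖b‖²` is bounded above near `y` -/
theorem ns_bdd (C : Chart z y) (b : B) :
    ∃ K : ℝ, 0 < K ∧ ∀ᶠ ζ in 𝓝 (0 : Cn n), ‖C.s ζ b‖ ^ 2 ≤ K := by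
  refine ⟨‖y b‖ ^ 2 + 1, by positivity, ?_⟩
  have h : Tendsto (fun ζ => ‖C.s ζ b‖ ^ 2) (𝓝 0) (𝓝 (‖C.s 0 b‖ ^ 2)) :=
    ((contAt C b).norm.pow 2)
  rw [C.s_zero] at h
  exact h.eventually_le_const (by linarith)

theorem wt_bdd (C : Chart z y) (S : Finset B) :
    ∃ K : ℝ, 1 ≤ K ∧ ∀ᶠ ζ in 𝓝 (0 : Cn n), wt S (C.s ζ) ≤ K := by
  have h0 := wt_nonneg S y
  refine ⟨wt S y + 1, by linarith, ?_⟩
  have h : Tendsto (fun ζ => wt S (C.s ζ)) (𝓝 0) (𝓝 (wt S (C.s 0))) := wt_contAt C S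
  rw [C.s_zero] at h
  exact h.eventually_le_const (by linarith)

/-- `‖b‖²` is bounded below near `y` if `b(y) ≠ 0` -/
theorem ns_pos (C : Chart z y) (b : B) (hb : y b ≠ 0) :
    ∃ δ : ℝ, 0 < δ ∧ ∀ᶠ ζ in 𝓝 (0 : Cn n), δ ≤ ‖C.s ζ b‖ ^ 2 := by
  have hpos : 0 < ‖y b‖ ^ 2 := by positivity
  refine ⟨‖y b‖ ^ 2 / 2, by positivity, ?_⟩
  have h : Tendsto (fun ζ => ‖C.s ζ b‖ ^ 2) (𝓝 0) (𝓝 (‖C.s 0 b‖ ^ 2)) :=
    ((contAt C b).norm.pow 2)
  rw [C.s_zero] at h
  exact h.eventually_const_le (by linarith)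

theorem wB_sum {ι κ : Type} [Fintype ι] [Fintype κ] (S : ι → Finset B) (T : κ → Finset B)
    (c : ι → ℝ) (d : κ → ℝ) (y : B →ₐ[ℂ] ℂ) :
    wB (Sum.elim S T) (Sum.elim c d) y = wB S c y * wB T d y := by
  simp [wB, Fintype.prod_sum_type]

theorem wB_unit (T : Finset B) (d : ℝ) (y : B →ₐ[ℂ] ℂ) :
    wB (fun _ : Unit => T) (fun _ => d) y = (ENNReal.ofReal (wt T y)) ^ (-d) := by
  simp [wB]

/-- the chart integral is bounded by the integral over `M` -/
theorem lint_chart_le (C : Chart z y) (g : (B →ₐ[ℂ] ℂ) → ℝ≥0∞) :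
    ∫⁻ ζ in ball (0 : Cn n) C.r, g (C.s ζ) ≤ lintM z g := by
  unfold lintM
  set G : Cn n → ℝ≥0∞ := fun ζ => ∑' y : {y : B →ₐ[ℂ] ℂ // ∀ i, y (z i) = ζ i}, g y.1 with hG
  have h1 : ∫⁻ ζ in ball (0 : Cn n) C.r, g (C.s ζ) ≤
      ∫⁻ ζ in ball (0 : Cn n) C.r, G ((fun i => y (z i)) + ζ) := by
    refine setLIntegral_mono' measurableSet_ball fun ζ hζ => ?_
    have h2 : ∀ i, (C.s ζ) (z i) = ((fun i => y (z i)) + ζ) i := fun i => C.s_z ζ hζ i
    exact ENNReal.le_tsum (f := fun y' : {y' : B →ₐ[ℂ] ℂ //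
      ∀ i, y' (z i) = ((fun i => y (z i)) + ζ) i} => g y'.1) ⟨C.s ζ, h2⟩
  calc _ ≤ _ := h1
    _ ≤ ∫⁻ ζ, G ((fun i => y (z i)) + ζ) := setLIntegral_le_lintegral _ _
    _ = ∫⁻ ζ, G ζ := lintegral_add_left_eq_self _ _

end chart

/-! ### The multiplier ideal -/

section ideal

variable (X : FCtx n) {ι : Type} [Fintype ι] (S : ι → Finset X.B) (c : ι → ℝ)

/-- the multiplier ideal of the weight `∏ |Sᵢ|^{-2cᵢ}` -/
def JM : Ideal X.B where
  carrier := {f | ∀ (y : X.B →ₐ[ℂ] ℂ) (C : Chart X.z y),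
    LInt (fun ζ => ENNReal.ofReal (‖C.s ζ f‖ ^ 2) * wB S c (C.s ζ)) 0}
  zero_mem' := by
    intro y C
    simp only [map_zero, norm_zero]
    exact ⟨univ, univ_mem, by simp⟩
  add_mem' := by
    intro f g hf hg y C
    have hm : AEMeasurable (fun ζ => ENNReal.ofReal (‖C.s ζ f‖ ^ 2) * wB S c (C.s ζ))
        (volume.restrict (ball (0 : Cn n) C.r)) := (ns_aem C f).mul (wB_aem C S c)
    refine LInt.mono_near (LInt.add (hf y C) (hg y C) (ball_mem C) hm) (K := 2) (by simp)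
      (Eventually.of_forall fun ζ => ?_)
    rw [← add_mul, ← mul_assoc]
    gcongr
    rw [← ENNReal.ofReal_add (by positivity) (by positivity),
      show (2 : ℝ≥0∞) = ENNReal.ofReal 2 by simp, ← ENNReal.ofReal_mul (by norm_num)]
    apply ENNReal.ofReal_le_ofReal
    rw [map_add]
    have h1 := norm_add_le (C.s ζ f) (C.s ζ g)
    nlinarith [sq_nonneg (‖C.s ζ f‖ - ‖C.s ζ g‖), norm_nonneg (C.s ζ f + C.s ζ g),
      norm_nonneg (C.s ζ f), norm_nonneg (C.s ζ g)]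
  smul_mem' := by
    intro b f hf y C
    obtain ⟨K, hK, hb⟩ := ns_bdd C b
    refine LInt.mono_near (hf y C) (K := ENNReal.ofReal K) ENNReal.ofReal_ne_top
      (hb.mono fun ζ hζ => ?_)
    rw [← mul_assoc]
    gcongr
    rw [← ENNReal.ofReal_mul hK.le]
    apply ENNReal.ofReal_le_ofReal
    rw [smul_eq_mul, map_mul, norm_mul, mul_pow]
    gcongr


variable {X S c}

/-- divide by a function which does not vanish at the point -/
theorem lint_div {y : X.B →ₐ[ℂ] ℂ} (C : Chart X.z y) {g : X.B} (hg : y g ≠ 0)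
    {w : Cn n → ℝ≥0∞} (h : LInt (fun ζ => ENNReal.ofReal (‖C.s ζ g‖ ^ 2) * w ζ) 0) :
    LInt w 0 := by
  obtain ⟨δ, hδ, hb⟩ := ns_pos C g hg
  refine LInt.mono_near h (K := (ENNReal.ofReal δ)⁻¹)
    (ENNReal.inv_ne_top.2 (ENNReal.ofReal_pos.2 hδ).ne') (hb.mono fun ζ hζ => ?_)
  rw [← mul_assoc]
  have h1 : (1 : ℝ≥0∞) ≤ (ENNReal.ofReal δ)⁻¹ * ENNReal.ofReal (‖C.s ζ g‖ ^ 2) := by
    calc (1 : ℝ≥0∞) = (ENNReal.ofReal δ)⁻¹ * ENNReal.ofReal δ :=
          (ENNReal.inv_mul_cancel (ENNReal.ofReal_pos.2 hδ).ne' ENNReal.ofReal_ne_top).symm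
      _ ≤ _ := by gcongr
  calc w ζ = 1 * w ζ := (one_mul _).symm
    _ ≤ _ := by gcongr

/-- first half of `MultIdeal`, easy direction -/
theorem lint_of_mem_JM {f : X.B} (hf : f ∈ JM X S c) {y : X.B →ₐ[ℂ] ℂ} (hy : y f ≠ 0)
    (C : Chart X.z y) : LInt (fun ζ => wB S c (C.s ζ)) 0 :=
  lint_div C hy (hf y C)

/-- second half of `MultIdeal` -/
theorem lint_of_le_JM {y : X.B →ₐ[ℂ] ℂ} (C : Chart X.z y) {g : X.B} (hg : y g ≠ 0)
    (T : Finset X.B) (hT : ∀ t ∈ T, g * t ∈ JM X S c) :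
    LInt (fun ζ => wB (Sum.elim S fun _ : Unit => T) (Sum.elim c fun _ : Unit => -1) (C.s ζ)) 0 := by
  have h1 : ∀ t ∈ T, LInt (fun ζ => ENNReal.ofReal (‖C.s ζ t‖ ^ 2) * wB S c (C.s ζ)) 0 := by
    intro t ht
    refine lint_div C hg ?_
    have h2 := hT t ht y C
    refine LInt.mono_near h2 (K := 1) (by simp) (Eventually.of_forall fun ζ => ?_)
    rw [one_mul, ← mul_assoc, ← ENNReal.ofReal_mul (by positivity), map_mul, norm_mul, mul_pow]
  have h3 := LInt.finset_sum (ball_mem C) h1 fun t _ => (ns_aem C t).mul (wB_aem C S c)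
  refine LInt.mono_near h3 (K := 1) (by simp) (Eventually.of_forall fun ζ => ?_)
  rw [one_mul, wB_sum, wB_unit, neg_neg, ENNReal.rpow_one, ← Finset.sum_mul, mul_comm]
  gcongr
  unfold wt
  rw [ENNReal.ofReal_sum_of_nonneg fun _ _ => by positivity]

end ideal

/-! ### Auxiliary inequalities in `[0,∞]` -/

theorem rpow_neg_anti {a b : ℝ≥0∞} (h : a ≤ b) {t : ℝ} (ht : 0 ≤ t) : b ^ (-t) ≤ a ^ (-t) := by
  rw [ENNReal.rpow_neg, ENNReal.rpow_neg]
  exact ENNReal.inv_le_inv.2 (ENNReal.rpow_le_rpow h ht)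

theorem inv_le_mul_inv {A B k : ℝ≥0∞} (hk : k ≠ 0) (hk' : k ≠ ∞) (h : A ≤ k * B) :
    B⁻¹ ≤ k * A⁻¹ := by
  have h1 : (k * B)⁻¹ ≤ A⁻¹ := ENNReal.inv_le_inv.2 h
  rw [ENNReal.mul_inv (Or.inl hk) (Or.inl hk')] at h1
  calc B⁻¹ = k * (k⁻¹ * B⁻¹) := by rw [← mul_assoc, ENNReal.mul_inv_cancel hk hk', one_mul]
    _ ≤ k * A⁻¹ := by gcongr

/-! ### The test functions `z - z(y₀)` -/

section solve

variable (X : FCtx n) (y₀ : X.B →ₐ[ℂ] ℂ)

open Classical in
/-- the functions `zᵢ - zᵢ(y₀)` -/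
def Tz : Finset X.B := Finset.univ.image fun i => X.z i - algebraMap ℂ X.B (y₀ (X.z i))

variable {X y₀}

theorem chart_Tz (C : Chart X.z y₀) {ζ : Cn n} (hζ : ζ ∈ ball (0 : Cn n) C.r) (i : Fin n) :
    C.s ζ (X.z i - algebraMap ℂ X.B (y₀ (X.z i))) = ζ i := by
  rw [map_sub, AlgHom.commutes, C.s_z ζ hζ i]
  simp

theorem wt_Tz_le (C : Chart X.z y₀) {ζ : Cn n} (hζ : ζ ∈ ball (0 : Cn n) C.r) :
    wt (Tz X y₀) (C.s ζ) ≤ n * ‖ζ‖ ^ 2 := by
  classical
  have h1 : ∀ b ∈ Tz X y₀, ‖C.s ζ b‖ ^ 2 ≤ ‖ζ‖ ^ 2 := by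
    intro b hb
    unfold Tz at hb
    obtain ⟨i, -, rfl⟩ := Finset.mem_image.1 hb
    rw [chart_Tz C hζ i]
    have := norm_le_pi_norm ζ i
    gcongr
  have h2 : (Tz X y₀).card ≤ n := by
    unfold Tz
    exact Finset.card_image_le.trans (by simp)
  calc wt (Tz X y₀) (C.s ζ) ≤ (Tz X y₀).card • ‖ζ‖ ^ 2 := Finset.sum_le_card_nsmul _ _ _ h1
    _ ≤ n * ‖ζ‖ ^ 2 := by
      rw [nsmul_eq_mul]
      gcongr

theorem le_wt_Tz (C : Chart X.z y₀) {ζ : Cn n} (hζ : ζ ∈ ball (0 : Cn n) C.r) :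
    ‖ζ‖ ^ 2 ≤ wt (Tz X y₀) (C.s ζ) := by
  classical
  have h0 := wt_nonneg (Tz X y₀) (C.s ζ)
  have h1 : ∀ i, ‖ζ i‖ ^ 2 ≤ wt (Tz X y₀) (C.s ζ) := by
    intro i
    rw [← chart_Tz C hζ i]
    refine Finset.single_le_sum (f := fun b => ‖C.s ζ b‖ ^ 2) (fun _ _ => by positivity) ?_
    unfold Tz
    exact Finset.mem_image_of_mem _ (Finset.mem_univ i)
  have h2 : ‖ζ‖ ≤ Real.sqrt (wt (Tz X y₀) (C.s ζ)) := by
    rw [pi_norm_le_iff_of_nonneg (Real.sqrt_nonneg _)]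
    intro i
    exact Real.le_sqrt_of_sq_le (h1 i)
  calc ‖ζ‖ ^ 2 ≤ Real.sqrt (wt (Tz X y₀) (C.s ζ)) ^ 2 := by gcongr
    _ = _ := Real.sq_sqrt h0

theorem exists_Tz_ne (hn : 1 ≤ n) (C : Chart X.z y₀) : ∃ b ∈ Tz X y₀, b ≠ 0 := by
  classical
  refine ⟨X.z ⟨0, hn⟩ - algebraMap ℂ X.B (y₀ (X.z ⟨0, hn⟩)), ?_, ?_⟩
  · unfold Tz
    exact Finset.mem_image_of_mem _ (Finset.mem_univ _)
  · intro h0
    have hr := C.r_pos
    have hmem : (fun _ => ((C.r / 2 : ℝ) : ℂ) : Cn n) ∈ ball (0 : Cn n) C.r := by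
      rw [mem_ball_zero_iff, pi_norm_lt_iff hr]
      intro i
      rw [Complex.norm_real, Real.norm_eq_abs, abs_of_pos (by linarith)]
      linarith
    have h1 := chart_Tz C hmem ⟨0, hn⟩
    rw [h0, map_zero] at h1
    have h2 : (C.r / 2 : ℝ) = 0 := by exact_mod_cast h1.symm
    linarith

theorem finrank_Cn : Module.finrank ℝ (Cn n) = 2 * n := by
  rw [Module.finrank_pi_fintype]
  simp [Complex.finrank_real_complex, mul_comm]

/-- the weight with the extra factor `|z - z(y₀)|^{-2n}` is not integrable at `y₀` -/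
theorem not_lint (hn : 1 ≤ n) (C : Chart X.z y₀) {ι : Type} [Fintype ι] (S : ι → Finset X.B)
    (c : ι → ℝ) (hc : ∀ i, 0 ≤ c i) :
    ¬ LInt (fun ζ => wB (Sum.elim S fun _ : Unit => Tz X y₀) (Sum.elim c fun _ : Unit => (n : ℝ))
      (C.s ζ)) 0 := by
  intro hcon
  have h1 := fun i => wt_bdd C (S i)
  choose K hK hKb using h1
  set δ : ℝ≥0∞ := ∏ i, (ENNReal.ofReal (K i)) ^ (-(c i)) with hδ
  have hpos : ∀ i, 0 < K i := fun i => by linarith [hK i]
  have hδ0 : δ ≠ 0 := by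
    rw [hδ]
    refine Finset.prod_ne_zero_iff.2 fun i _ => ?_
    exact (ENNReal.rpow_pos (ENNReal.ofReal_pos.2 (hpos i)) ENNReal.ofReal_ne_top).ne'
  have hδt : δ ≠ ∞ := by
    rw [hδ]
    refine ENNReal.prod_ne_top fun i _ => ?_
    exact ENNReal.rpow_ne_top_of_ne_zero (ENNReal.ofReal_pos.2 (hpos i)).ne' ENNReal.ofReal_ne_top
  have hn0 : (0 : ℝ) < n := by exact_mod_cast hn
  have hnn : (ENNReal.ofReal (n : ℝ)) ^ (n : ℝ) ≠ 0 :=
    (ENNReal.rpow_pos (ENNReal.ofReal_pos.2 hn0) ENNReal.ofReal_ne_top).ne'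
  have hnt : (ENNReal.ofReal (n : ℝ)) ^ (n : ℝ) ≠ ∞ :=
    ENNReal.rpow_ne_top_of_nonneg hn0.le ENNReal.ofReal_ne_top
  have h2 : LInt (fun ζ : Cn n => (ENNReal.ofReal ‖ζ‖) ^ (-(2 * n : ℝ))) 0 := by
    refine LInt.mono_near hcon (K := δ⁻¹ * (ENNReal.ofReal (n : ℝ)) ^ (n : ℝ))
      (ENNReal.mul_ne_top (ENNReal.inv_ne_top.2 hδ0) hnt) ?_
    filter_upwards [eventually_all.2 hKb, ball_mem C] with ζ h3 h4
    rw [wB_sum, wB_unit]
    have h5 : δ ≤ wB S c (C.s ζ) := by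
      rw [hδ]
      unfold wB
      refine Finset.prod_le_prod' fun i _ => ?_
      exact rpow_neg_anti (ENNReal.ofReal_le_ofReal (h3 i)) (hc i)
    have h6 : (ENNReal.ofReal ‖ζ‖) ^ (-(2 * n : ℝ)) ≤
        (ENNReal.ofReal (n : ℝ)) ^ (n : ℝ) * (ENNReal.ofReal (wt (Tz X y₀) (C.s ζ))) ^ (-(n : ℝ)) := by
      rw [ENNReal.rpow_neg, ENNReal.rpow_neg]
      apply inv_le_mul_inv hnn hnt
      calc (ENNReal.ofReal (wt (Tz X y₀) (C.s ζ))) ^ (n : ℝ)
          ≤ (ENNReal.ofReal (n * ‖ζ‖ ^ 2)) ^ (n : ℝ) :=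
            ENNReal.rpow_le_rpow (ENNReal.ofReal_le_ofReal (wt_Tz_le C h4)) hn0.le
        _ = _ := by
            rw [ENNReal.ofReal_mul hn0.le, ENNReal.mul_rpow_of_nonneg _ _ hn0.le,
              ENNReal.ofReal_pow (norm_nonneg _), ← ENNReal.rpow_natCast, ← ENNReal.rpow_mul]
            norm_num
    calc (ENNReal.ofReal ‖ζ‖) ^ (-(2 * n : ℝ))
        ≤ (ENNReal.ofReal (n : ℝ)) ^ (n : ℝ) *
          (ENNReal.ofReal (wt (Tz X y₀) (C.s ζ))) ^ (-(n : ℝ)) := h6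
      _ = (δ⁻¹ * δ) * ((ENNReal.ofReal (n : ℝ)) ^ (n : ℝ) *
          (ENNReal.ofReal (wt (Tz X y₀) (C.s ζ))) ^ (-(n : ℝ))) := by
          rw [ENNReal.inv_mul_cancel hδ0 hδt, one_mul]
      _ ≤ (δ⁻¹ * wB S c (C.s ζ)) * ((ENNReal.ofReal (n : ℝ)) ^ (n : ℝ) *
          (ENNReal.ofReal (wt (Tz X y₀) (C.s ζ))) ^ (-(n : ℝ))) := by gcongr
      _ = _ := by ring
  obtain ⟨U, hU, hfin⟩ := h2
  have h3 : 0 < Module.finrank ℝ (Cn n) := by rw [finrank_Cn]; omega
  have h4 := L934.exponent_lt_of_integrable (volume : Measure (Cn n)) h3 hU hfin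
  rw [finrank_Cn] at h4
  push_cast at h4
  exact lt_irrefl _ h4

/-- the weight with the extra factor is integrable at the points of a shell -/
theorem lint_shell (C : Chart X.z y₀) {ι : Type} [Fintype ι] (S : ι → Finset X.B)
    (c : ι → ℝ) {ρ : ℝ} (hρ : ρ ≤ C.r)
    (h : ∫⁻ ζ in ball (0 : Cn n) ρ, wB S c (C.s ζ) < ∞) {ζ : Cn n} (h0 : 0 < ‖ζ‖) (h1 : ‖ζ‖ < ρ) :
    LInt (fun ζ => wB (Sum.elim S fun _ : Unit => Tz X y₀) (Sum.elim c fun _ : Unit => (n : ℝ))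
      (C.s ζ)) ζ := by
  have hmem : ζ ∈ ball (0 : Cn n) ρ := mem_ball_zero_iff.2 h1
  have hpos : 0 < (‖ζ‖ / 2) ^ 2 := by positivity
  refine LInt.mono_near (LInt.of_ball h hmem) (K := (ENNReal.ofReal ((‖ζ‖ / 2) ^ 2)) ^ (-(n : ℝ)))
    (ENNReal.rpow_ne_top_of_ne_zero (ENNReal.ofReal_pos.2 hpos).ne' ENNReal.ofReal_ne_top) ?_
  have h2 : ∀ᶠ ζ' in 𝓝 ζ, ‖ζ‖ / 2 < ‖ζ'‖ :=
    continuous_norm.continuousAt.eventually_const_lt (by linarith)
  filter_upwards [isOpen_ball.mem_nhds hmem, h2] with ζ' h3 h4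
  rw [wB_sum, wB_unit, mul_comm]
  refine mul_le_mul' (rpow_neg_anti ?_ (Nat.cast_nonneg n)) le_rfl
  apply ENNReal.ofReal_le_ofReal
  refine le_trans ?_ (le_wt_Tz C (ball_subset_ball hρ h3))
  gcongr

end solve

/-! ### Growth of the weight -/

section growth

open Crest.Agent.R271.G4x131

variable (X : FCtx n)

/-- the inverse of `h` -/
def hinv : X.B := ↑(X.h_unit.unit⁻¹)

theorem h_mul_hinv : X.h * hinv X = 1 := X.h_unit.mul_val_inv

theorem norm_h_mul (y : X.B →ₐ[ℂ] ℂ) : ‖y X.h‖ * ‖y (hinv X)‖ = 1 := by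
  rw [← norm_mul, ← map_mul, h_mul_hinv, map_one, norm_one]

/-- `(1 + |z|²)(1 + |1/h|²)` -/
def Q (y : X.B →ₐ[ℂ] ℂ) : ℝ := W X y * (1 + ‖y (hinv X)‖ ^ 2)

theorem W_le_Q (y : X.B →ₐ[ℂ] ℂ) : W X y ≤ Q X y := by
  unfold Q
  have := W_pos X y
  nlinarith [sq_nonneg ‖y (hinv X)‖]

theorem one_le_Q (y : X.B →ₐ[ℂ] ℂ) : 1 ≤ Q X y := (one_le_W X y).trans (W_le_Q X y)

theorem hinv_le_Q (y : X.B →ₐ[ℂ] ℂ) : ‖y (hinv X)‖ ^ 2 ≤ Q X y := by
  unfold Q
  have := one_le_W X y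
  nlinarith [sq_nonneg ‖y (hinv X)‖]

theorem ns_growth (b : X.B) : ∃ (C : ℝ) (K : ℕ), 1 ≤ C ∧
    ∀ y : X.B →ₐ[ℂ] ℂ, ‖y b‖ ^ 2 ≤ C * Q X y ^ K := by
  obtain ⟨C, N, K, hC, h⟩ := growthB X b
  refine ⟨C ^ 2, 2 * K + N, one_le_pow₀ hC, fun y => ?_⟩
  have hW := W_pos X y
  have h1 : ‖y b‖ ≤ C * W X y ^ K * ‖y (hinv X)‖ ^ N := by
    calc ‖y b‖ = ‖y b‖ * (‖y X.h‖ * ‖y (hinv X)‖) ^ N := by rw [norm_h_mul, one_pow, mul_one]
      _ = (‖y b‖ * ‖y X.h‖ ^ N) * ‖y (hinv X)‖ ^ N := by rw [mul_pow]; ring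
      _ ≤ _ := mul_le_mul_of_nonneg_right (h y) (by positivity)
  have hC0 : 0 ≤ C := by linarith
  calc ‖y b‖ ^ 2 ≤ (C * W X y ^ K * ‖y (hinv X)‖ ^ N) ^ 2 := by gcongr
    _ = C ^ 2 * (W X y ^ (2 * K) * (‖y (hinv X)‖ ^ 2) ^ N) := by ring
    _ ≤ C ^ 2 * (Q X y ^ (2 * K) * (Q X y) ^ N) := by
        have h2 := W_le_Q X y
        have h3 := hinv_le_Q X y
        have h4 := one_le_Q X y
        have h5 : 0 ≤ Q X y := by linarith
        have h6 : 0 ≤ Q X y ^ (2 * K) := by positivity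
        gcongr
    _ = _ := by rw [pow_add]

theorem wt_growth (T : Finset X.B) : ∃ (C : ℝ) (K : ℕ), 1 ≤ C ∧
    ∀ y : X.B →ₐ[ℂ] ℂ, wt T y ≤ C * Q X y ^ K := by
  classical
  induction T using Finset.induction_on with
  | empty => exact ⟨1, 0, le_refl _, fun y => by simp [wt]⟩
  | insert b T hb ih =>
    obtain ⟨C, K, hC, h⟩ := ih
    obtain ⟨C', K', hC', h'⟩ := ns_growth X b
    refine ⟨C' + C, K' + K, by linarith, fun y => ?_⟩
    have h1 := one_le_Q X y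
    have e : wt (insert b T) y = ‖y b‖ ^ 2 + wt T y := by
      unfold wt
      rw [Finset.sum_insert hb]
    rw [e, add_mul]
    refine add_le_add ((h' y).trans ?_) ((h y).trans ?_)
    · exact mul_le_mul_of_nonneg_left (pow_le_pow_right₀ h1 (by omega)) (by linarith)
    · exact mul_le_mul_of_nonneg_left (pow_le_pow_right₀ h1 (by omega)) (by linarith)

theorem wB_growth {ι : Type} [Fintype ι] (S : ι → Finset X.B) (c : ι → ℝ) (hc : ∀ i, 0 ≤ c i) :
    ∃ (C : ℝ) (K : ℕ), 0 < C ∧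
      ∀ y : X.B →ₐ[ℂ] ℂ, ENNReal.ofReal (C * (Q X y ^ K)⁻¹) ≤ wB S c y := by
  choose C K hC h using fun i => wt_growth X (S i)
  refine ⟨∏ i, (C i) ^ (-(c i)), ∑ i, K i * ⌈c i⌉₊, ?_, fun y => ?_⟩
  · exact Finset.prod_pos fun i _ => Real.rpow_pos_of_pos (by linarith [hC i]) _
  have hQ := one_le_Q X y
  have hQ0 : 0 < Q X y := by linarith
  rw [← Finset.prod_pow_eq_pow_sum, ← Finset.prod_inv_distrib, ← Finset.prod_mul_distrib,
    ENNReal.ofReal_prod_of_nonneg fun i _ => by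
      have := hC i
      positivity]
  unfold wB
  refine Finset.prod_le_prod' fun i _ => ?_
  have hCi : 0 < C i := by linarith [hC i]
  calc ENNReal.ofReal (C i ^ (-(c i)) * (Q X y ^ (K i * ⌈c i⌉₊))⁻¹)
      ≤ ENNReal.ofReal ((C i * Q X y ^ K i) ^ (-(c i))) := by
        apply ENNReal.ofReal_le_ofReal
        rw [Real.mul_rpow hCi.le (by positivity)]
        refine mul_le_mul_of_nonneg_left ?_ (by positivity)
        rw [Real.rpow_neg (by positivity)]
        apply inv_anti₀ (by positivity)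
        calc (Q X y ^ K i) ^ c i ≤ (Q X y ^ K i) ^ ((⌈c i⌉₊ : ℕ) : ℝ) :=
              Real.rpow_le_rpow_of_exponent_le (one_le_pow₀ hQ) (Nat.le_ceil _)
          _ = Q X y ^ (K i * ⌈c i⌉₊) := by rw [Real.rpow_natCast, ← pow_mul]
    _ = (ENNReal.ofReal (C i * Q X y ^ K i)) ^ (-(c i)) := by
        rw [ENNReal.ofReal_rpow_of_pos (by positivity)]
    _ ≤ _ := rpow_neg_anti (ENNReal.ofReal_le_ofReal (h i y)) (hc i)

/-- the weight of `AlgStmt` is dominated by the weight of the solver -/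
theorem alg_weight {ι : Type} [Fintype ι] (S : ι → Finset X.B) (c : ι → ℝ) (hc : ∀ i, 0 ≤ c i) :
    ∃ (K : ℝ≥0∞) (N M : ℕ), K ≠ ∞ ∧ ∀ y : X.B →ₐ[ℂ] ℂ,
      ENNReal.ofReal (‖y X.h‖ ^ (2 * N) / W X y ^ M) ≤
        K * (wB S c y * (ENNReal.ofReal (W X y)) ^ (-(1 : ℝ))) := by
  obtain ⟨C, P, hC, h⟩ := wB_growth X S c hc
  obtain ⟨D, L, hD, hh⟩ := growth_h X
  refine ⟨ENNReal.ofReal (C⁻¹ * (D ^ 2 + 1) ^ (P + 1)), P + 1, (P + 1) + 2 * L * (P + 1),
    ENNReal.ofReal_ne_top, fun y => ?_⟩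
  have hW := W_pos X y
  have hW1 := one_le_W X y
  have hQ := one_le_Q X y
  have hQ0 : 0 < Q X y := by linarith
  have e1 : (ENNReal.ofReal (W X y)) ^ (-(1 : ℝ)) = ENNReal.ofReal ((W X y)⁻¹) := by
    rw [ENNReal.ofReal_rpow_of_pos hW, Real.rpow_neg_one]
  have h1 : ‖y X.h‖ ^ 2 * Q X y ≤ (D ^ 2 + 1) * W X y ^ (1 + 2 * L) := by
    have h2 : ‖y X.h‖ ^ 2 * ‖y (hinv X)‖ ^ 2 = 1 := by
      rw [← mul_pow, norm_h_mul, one_pow]
    have h3 : ‖y X.h‖ ^ 2 ≤ D ^ 2 * W X y ^ (2 * L) := by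
      calc ‖y X.h‖ ^ 2 ≤ (D * W X y ^ L) ^ 2 := by gcongr; exact hh y
        _ = _ := by ring
    have h4 : 1 ≤ W X y ^ (2 * L) := one_le_pow₀ hW1
    calc ‖y X.h‖ ^ 2 * Q X y = W X y * (‖y X.h‖ ^ 2 + ‖y X.h‖ ^ 2 * ‖y (hinv X)‖ ^ 2) := by
          unfold Q; ring
      _ = W X y * (‖y X.h‖ ^ 2 + 1) := by rw [h2]
      _ ≤ W X y * (D ^ 2 * W X y ^ (2 * L) + W X y ^ (2 * L)) := by gcongr
      _ = _ := by ring
  have h5 : ‖y X.h‖ ^ (2 * (P + 1)) * Q X y ^ (P + 1) ≤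
      (D ^ 2 + 1) ^ (P + 1) * W X y ^ ((P + 1) + 2 * L * (P + 1)) := by
    calc ‖y X.h‖ ^ (2 * (P + 1)) * Q X y ^ (P + 1) = (‖y X.h‖ ^ 2 * Q X y) ^ (P + 1) := by
          rw [mul_pow, ← pow_mul]
      _ ≤ ((D ^ 2 + 1) * W X y ^ (1 + 2 * L)) ^ (P + 1) := by gcongr
      _ = _ := by rw [mul_pow, ← pow_mul]; congr 2; ring
  calc ENNReal.ofReal (‖y X.h‖ ^ (2 * (P + 1)) / W X y ^ ((P + 1) + 2 * L * (P + 1)))
      ≤ ENNReal.ofReal ((C⁻¹ * (D ^ 2 + 1) ^ (P + 1)) * ((C * (Q X y ^ P)⁻¹) * (W X y)⁻¹)) := by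
        apply ENNReal.ofReal_le_ofReal
        rw [div_le_iff₀ (by positivity)]
        have h6 : (Q X y ^ (P + 1))⁻¹ ≤ (Q X y ^ P)⁻¹ * (W X y)⁻¹ := by
          rw [pow_succ, mul_inv]
          have := inv_anti₀ hW (W_le_Q X y)
          gcongr
        calc ‖y X.h‖ ^ (2 * (P + 1))
            = ‖y X.h‖ ^ (2 * (P + 1)) * Q X y ^ (P + 1) * (Q X y ^ (P + 1))⁻¹ := by
              field_simp
          _ ≤ ((D ^ 2 + 1) ^ (P + 1) * W X y ^ ((P + 1) + 2 * L * (P + 1))) *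
              ((Q X y ^ P)⁻¹ * (W X y)⁻¹) := by gcongr
          _ = _ := by field_simp
    _ = ENNReal.ofReal (C⁻¹ * (D ^ 2 + 1) ^ (P + 1)) *
        (ENNReal.ofReal (C * (Q X y ^ P)⁻¹) * ENNReal.ofReal ((W X y)⁻¹)) := by
        rw [ENNReal.ofReal_mul (p := C⁻¹ * (D ^ 2 + 1) ^ (P + 1)) (by positivity),
          ENNReal.ofReal_mul (p := C * (Q X y ^ P)⁻¹) (by positivity)]
    _ ≤ _ := by
        rw [e1]
        gcongr
        exact h y

end growth

/-! ### The main theorem -/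

section main

open Crest.Agent.R271.G4x131

variable (X : FCtx n)

/-- the functions `(1, z₁, …, zₙ)` -/
def Y1 : Fin (n + 1) → X.B := Fin.cons 1 X.z

theorem sum_Y1 (y : X.B →ₐ[ℂ] ℂ) : ∑ j, ‖y (Y1 X j)‖ ^ 2 = W X y := by
  rw [Fin.sum_univ_succ]
  simp [Y1, W]

theorem W_contAt {y : X.B →ₐ[ℂ] ℂ} (C : Chart X.z y) : ContinuousAt (fun ζ => W X (C.s ζ)) 0 := by
  unfold W
  have h : ContinuousOn (fun ζ : Cn n => (1 : ℝ) + ∑ i, ‖C.s ζ (X.z i)‖ ^ 2) (ball 0 C.r) :=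
    continuousOn_const.add (continuousOn_finsetSum _ fun i _ => ((contOn C (X.z i)).norm).pow 2)
  exact h.continuousAt (ball_mem C)

/-- if the weight is integrable at `y₀` then some element of the multiplier ideal does not vanish
at `y₀` -/
theorem exists_JM (hn : 1 ≤ n) (hS : SolverStmt X) (hA : AlgStmt X) {ι : Type} [Fintype ι]
    (S : ι → Finset X.B) (c : ι → ℝ) (hc : ∀ i, 0 ≤ c i) (hS0 : ∀ i, ∃ b ∈ S i, b ≠ 0)
    {y₀ : X.B →ₐ[ℂ] ℂ} (C : Chart X.z y₀) (h : LInt (fun ζ => wB S c (C.s ζ)) 0) :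
    ∃ f ∈ JM X S c, y₀ f ≠ 0 := by
  obtain ⟨U, hU, hfin⟩ := h
  obtain ⟨ρ₀, hρ₀, hsub⟩ := Metric.mem_nhds_iff.1 hU
  set ρ : ℝ := min ρ₀ C.r with hρdef
  have hρ : 0 < ρ := lt_min hρ₀ C.r_pos
  have hρr : ρ ≤ C.r := min_le_right _ _
  have hfin' : ∫⁻ ζ in ball (0 : Cn n) ρ, wB S c (C.s ζ) < ∞ :=
    (lintegral_mono_set ((ball_subset_ball (min_le_left _ _)).trans hsub)).trans_lt hfin
  set S' : ι ⊕ Unit → Finset X.B := Sum.elim S fun _ : Unit => Tz X y₀ with hS'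
  set c' : ι ⊕ Unit → ℝ := Sum.elim c fun _ : Unit => (n : ℝ) with hc'
  have hc'0 : ∀ i, 0 ≤ c' i := by
    rintro (i | i)
    · exact hc i
    · exact Nat.cast_nonneg n
  obtain ⟨F, hF, hF1, hFg⟩ := hS y₀ C (ι ⊕ Unit) S' c' (Y1 X) 1 (ρ / 4) (ρ / 2) hc'0
    (by
      rintro (i | i)
      · exact hS0 i
      · exact exists_Tz_ne hn C)
    (by simp [Y1]) (by intro i; simp [Y1]) one_pos (by linarith) (by linarith) (by linarith)
    (fun ζ h1 h2 => lint_shell C S c hρr hfin' (by linarith) (by linarith))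
  have hFy : F y₀ = 1 := hF1 (not_lint hn C S c hc)
  simp only [sum_Y1] at hFg
  -- algebraicity
  obtain ⟨K, N, M, hK, hKb⟩ := alg_weight X S' c' hc'0
  obtain ⟨b, hb⟩ := hA F N M hF (by
    have h1 := hFg (fun y => ENNReal.ofReal (‖y X.h‖ ^ (2 * N) / W X y ^ M)) K hK hKb (by
      have hcomp : IsCompact (closedBall (0 : Cn n) (ρ / 2)) := isCompact_closedBall _ _
      have hcont : ContinuousOn (fun ζ => ‖C.s ζ X.h‖ ^ (2 * N)) (closedBall (0 : Cn n) (ρ / 2)) :=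
        (((contOn C X.h).norm).pow _).mono
          (closedBall_subset_ball (by linarith))
      obtain ⟨D, hD⟩ := hcomp.bddAbove_image hcont
      calc ∫⁻ ζ in ball (0 : Cn n) (ρ / 2),
            ENNReal.ofReal (‖C.s ζ X.h‖ ^ (2 * N) / W X (C.s ζ) ^ M)
          ≤ ∫⁻ _ in ball (0 : Cn n) (ρ / 2), ENNReal.ofReal D := by
            refine setLIntegral_mono' measurableSet_ball fun ζ hζ => ?_
            apply ENNReal.ofReal_le_ofReal
            have h2 : ‖C.s ζ X.h‖ ^ (2 * N) ≤ D :=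
              hD (mem_image_of_mem _ (ball_subset_closedBall hζ))
            refine le_trans ?_ h2
            exact div_le_self (by positivity) (one_le_pow₀ (one_le_W X _))
        _ < ∞ := by
            rw [setLIntegral_const]
            exact ENNReal.mul_lt_top ENNReal.ofReal_lt_top measure_ball_lt_top)
    convert h1 using 3 with y
    rw [← ENNReal.ofReal_mul (by positivity), mul_div_assoc]
    rfl)
  refine ⟨b, ?_, ?_⟩
  swap
  · rw [← hb y₀, hFy]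
    exact one_ne_zero
  -- `b` belongs to the multiplier ideal
  set g : (X.B →ₐ[ℂ] ℂ) → ℝ≥0∞ := fun y => wB S c y *
    ((ENNReal.ofReal (1 + wt (Tz X y₀) y)) ^ (-(n : ℝ)) * (ENNReal.ofReal (W X y)) ^ (-(1 : ℝ)))
    with hg
  have hg1 : ∀ y, g y ≤ 1 * (wB S' c' y * (ENNReal.ofReal (W X y)) ^ (-(1 : ℝ))) := by
    intro y
    rw [one_mul, hS', hc', wB_sum, wB_unit, mul_assoc]
    refine mul_le_mul' le_rfl (mul_le_mul' (rpow_neg_anti ?_ (Nat.cast_nonneg n)) le_rfl)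
    exact ENNReal.ofReal_le_ofReal (by linarith)
  have hg2 : ∫⁻ ζ in ball (0 : Cn n) (ρ / 2), g (C.s ζ) < ∞ := by
    refine lt_of_le_of_lt ?_ hfin'
    calc ∫⁻ ζ in ball (0 : Cn n) (ρ / 2), g (C.s ζ)
        ≤ ∫⁻ ζ in ball (0 : Cn n) (ρ / 2), wB S c (C.s ζ) := by
          refine lintegral_mono fun ζ => ?_
          have h1 : (ENNReal.ofReal (1 + wt (Tz X y₀) (C.s ζ))) ^ (-(n : ℝ)) ≤ 1 := by
            have := rpow_neg_anti (a := 1) (b := ENNReal.ofReal (1 + wt (Tz X y₀) (C.s ζ)))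
              (by
                rw [← ENNReal.ofReal_one]
                exact ENNReal.ofReal_le_ofReal (by linarith [wt_nonneg (Tz X y₀) (C.s ζ)]))
              (Nat.cast_nonneg (α := ℝ) n)
            rwa [ENNReal.one_rpow] at this
          have h2 : (ENNReal.ofReal (W X (C.s ζ))) ^ (-(1 : ℝ)) ≤ 1 := by
            have := rpow_neg_anti (a := 1) (b := ENNReal.ofReal (W X (C.s ζ)))
              (by
                rw [← ENNReal.ofReal_one]
                exact ENNReal.ofReal_le_ofReal (one_le_W X _))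
              (zero_le_one (α := ℝ))
            rwa [ENNReal.one_rpow] at this
          calc g (C.s ζ) ≤ wB S c (C.s ζ) * (1 * 1) :=
                mul_le_mul' le_rfl (mul_le_mul' h1 h2)
            _ = _ := by rw [one_mul, mul_one]
      _ ≤ _ := lintegral_mono_set (ball_subset_ball (by linarith))
  have hg3 := hFg g 1 ENNReal.one_ne_top hg1 hg2
  intro y C'
  have hg4 : ∫⁻ ζ in ball (0 : Cn n) C'.r, ENNReal.ofReal (‖F (C'.s ζ)‖ ^ 2) * g (C'.s ζ) < ∞ :=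
    (lint_chart_le C' _).trans_lt hg3
  have hg5 : LInt (fun ζ => ENNReal.ofReal (‖F (C'.s ζ)‖ ^ 2) * g (C'.s ζ)) 0 :=
    LInt.of_ball hg4 (mem_ball_self C'.r_pos)
  obtain ⟨K₁, hK₁, hb₁⟩ := wt_bdd C' (Tz X y₀)
  have hK₁0 : 0 < ENNReal.ofReal (1 + K₁) := ENNReal.ofReal_pos.2 (by linarith)
  set K₂ : ℝ := W X y + 1 with hK₂
  have hW := W_pos X y
  have hK₂0 : 0 < ENNReal.ofReal K₂ := ENNReal.ofReal_pos.2 (by linarith)
  have hb₂ : ∀ᶠ ζ in 𝓝 (0 : Cn n), W X (C'.s ζ) ≤ K₂ := by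
    have h1 : Tendsto (fun ζ => W X (C'.s ζ)) (𝓝 0) (𝓝 (W X (C'.s 0))) := W_contAt X C'
    rw [C'.s_zero] at h1
    exact h1.eventually_le_const (by linarith)
  set κ : ℝ≥0∞ := (ENNReal.ofReal (1 + K₁)) ^ (-(n : ℝ)) * (ENNReal.ofReal K₂) ^ (-(1 : ℝ)) with hκ
  have hκ0 : κ ≠ 0 := by
    rw [hκ]
    exact mul_ne_zero (ENNReal.rpow_pos hK₁0 ENNReal.ofReal_ne_top).ne'
      (ENNReal.rpow_pos hK₂0 ENNReal.ofReal_ne_top).ne'
  have hκt : κ ≠ ∞ := by
    rw [hκ]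
    exact ENNReal.mul_ne_top (ENNReal.rpow_ne_top_of_ne_zero hK₁0.ne' ENNReal.ofReal_ne_top)
      (ENNReal.rpow_ne_top_of_ne_zero hK₂0.ne' ENNReal.ofReal_ne_top)
  refine LInt.mono_near hg5 (K := κ⁻¹) (ENNReal.inv_ne_top.2 hκ0) ?_
  filter_upwards [hb₁, hb₂] with ζ h1 h2
  rw [← hb (C'.s ζ)]
  have h3 : κ ≤ (ENNReal.ofReal (1 + wt (Tz X y₀) (C'.s ζ))) ^ (-(n : ℝ)) *
      (ENNReal.ofReal (W X (C'.s ζ))) ^ (-(1 : ℝ)) := by
    rw [hκ]
    refine mul_le_mul' (rpow_neg_anti ?_ (Nat.cast_nonneg n)) (rpow_neg_anti ?_ zero_le_one)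
    · exact ENNReal.ofReal_le_ofReal (by linarith)
    · exact ENNReal.ofReal_le_ofReal h2
  calc ENNReal.ofReal (‖F (C'.s ζ)‖ ^ 2) * wB S c (C'.s ζ)
      = (κ⁻¹ * κ) * (ENNReal.ofReal (‖F (C'.s ζ)‖ ^ 2) * wB S c (C'.s ζ)) := by
        rw [ENNReal.inv_mul_cancel hκ0 hκt, one_mul]
    _ ≤ (κ⁻¹ * ((ENNReal.ofReal (1 + wt (Tz X y₀) (C'.s ζ))) ^ (-(n : ℝ)) *
      (ENNReal.ofReal (W X (C'.s ζ))) ^ (-(1 : ℝ)))) *
        (ENNReal.ofReal (‖F (C'.s ζ)‖ ^ 2) * wB S c (C'.s ζ)) := by gcongr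
    _ = _ := by rw [hg]; ring

/-- **(AF7)** multiplier ideals -/
theorem multIdeal (hn : 1 ≤ n) (hS : SolverStmt X) (hA : AlgStmt X) (hch : ChartEx X)
    (hgen : GensFact X) : MultIdeal X := by
  intro ι _ I c hI hc
  have hNoeth : IsNoetherianRing X.B := by
    have := X.ft
    exact Algebra.FiniteType.isNoetherianRing ℂ X.B
  have hfg : ∀ i, ∃ S : Finset X.B, Ideal.span (S : Set X.B) = I i := fun i =>
    (isNoetherianRing_iff_ideal_fg X.B).1 hNoeth (I i)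
  choose S hSI using hfg
  have hne : ∀ (T : Finset X.B) (J : Ideal X.B), Ideal.span (T : Set X.B) = J → J ≠ ⊥ →
      ∃ b ∈ T, b ≠ 0 := by
    intro T J hT hJ
    by_contra hcon
    push Not at hcon
    apply hJ
    rw [← hT, Ideal.span_eq_bot]
    exact fun x hx => hcon x hx
  refine ⟨JM X S c, fun y => ⟨?_, ?_⟩, ?_⟩
  · rintro ⟨f, hf, hy⟩
    obtain ⟨C⟩ := hch y
    exact ⟨S, hSI, C, lint_of_mem_JM hf hy C⟩
  · intro h
    obtain ⟨C, hC⟩ := (hgen y ι I c S hSI).1 h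
    exact exists_JM X hn hS hA S c hc (fun i => hne (S i) (I i) (hSI i) (hI i)) C hC
  · rintro y Q - ⟨g, hg, hQ⟩
    obtain ⟨T, hT⟩ := (isNoetherianRing_iff_ideal_fg X.B).1 hNoeth Q
    obtain ⟨C⟩ := hch y
    refine ⟨Sum.elim S fun _ => T, ?_, C, lint_of_le_JM C hg T fun t ht => hQ t ?_⟩
    · rintro (i | i)
      · exact hSI i
      · exact hT
    · rw [← hT]
      exact Ideal.subset_span ht

end main

end Crest.Agent.R271.G4_747
end
end

-- ▼ part R271/G5_131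
section

/-!
Row 271, G5: the endgame (10.6), `GlobalMain` from the solver (G3) and algebraicity (G2). helper131.
-/

set_option autoImplicit false

open scoped Topology ENNReal NNReal BigOperators
open Filter Set MeasureTheory

noncomputable section

namespace Crest.Agent.R271.G5x131

open Crest.Agent.R271.Defs710 Crest.Agent.R271.Rd692 Crest.Agent.R271.GSpec792
open Crest.Agent.R271.G4x131

variable {n : ℕ}


section

variable (X : FCtx n)

/-- `T = ∑ |Y_j|^2` -/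
def TT (y : X.B →ₐ[ℂ] ℂ) : ℝ := ∑ j, ‖y (X.Y j)‖ ^ 2

lemma TT_pos (y : X.B →ₐ[ℂ] ℂ) : 0 < TT X y := by
  unfold TT
  have h0 : y (X.Y 0) ≠ 0 := (X.Y_unit.map y).ne_zero
  have h1 : 0 < ‖y (X.Y 0)‖ ^ 2 := by positivity
  exact lt_of_lt_of_le h1
    (Finset.single_le_sum (f := fun j => ‖y (X.Y j)‖ ^ 2) (fun j _ => by positivity)
      (Finset.mem_univ 0))

/-- growth of `(1 + T)^m |h|^{2N}` -/
lemma T_growth (m : ℕ) : ∃ (C : ℝ) (N M : ℕ), 1 ≤ C ∧
    ∀ y : X.B →ₐ[ℂ] ℂ, (1 + TT X y) ^ m * ‖y X.h‖ ^ (2 * N) ≤ C * W X y ^ M := by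
  -- one common exponent for all the `Y j` and `1`
  have h1 : ∀ s : Finset (Fin (n + 1)), ∃ (C : ℝ) (N M : ℕ), 1 ≤ C ∧
      ∀ y : X.B →ₐ[ℂ] ℂ, (1 + ∑ j ∈ s, ‖y (X.Y j)‖ ^ 2) * ‖y X.h‖ ^ (2 * N) ≤ C * W X y ^ M := by
    intro s
    induction s using Finset.induction_on with
    | empty => exact ⟨1, 0, 0, le_refl _, fun y => by simp⟩
    | insert j s hj ih =>
      obtain ⟨C, N, M, hC, h⟩ := ih
      obtain ⟨C', N', K', hC', h'⟩ := growthB X (X.Y j)
      obtain ⟨D, L, hD, hL⟩ := growth_h X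
      refine ⟨C * D ^ (2 * N') + C' ^ 2 * D ^ (2 * N), N + N', M + 2 * K' + (2 * L * (N + N')), ?_,
        fun y => ?_⟩
      · have : 1 ≤ D ^ (2 * N') := one_le_pow₀ hD
        have : 0 ≤ C' ^ 2 * D ^ (2 * N) := by positivity
        nlinarith
      rw [Finset.sum_insert hj]
      have hW := one_le_W X y
      have hW0 := W_pos X y
      have hh := hL y
      have hh1 : ‖y X.h‖ ^ (2 * N') ≤ D ^ (2 * N') * W X y ^ (2 * L * N') := by
        calc ‖y X.h‖ ^ (2 * N') ≤ (D * W X y ^ L) ^ (2 * N') :=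
              pow_le_pow_left₀ (norm_nonneg _) hh _
          _ = _ := by rw [mul_pow, ← pow_mul]; ring_nf
      have hh2 : ‖y X.h‖ ^ (2 * N) ≤ D ^ (2 * N) * W X y ^ (2 * L * N) := by
        calc ‖y X.h‖ ^ (2 * N) ≤ (D * W X y ^ L) ^ (2 * N) :=
              pow_le_pow_left₀ (norm_nonneg _) hh _
          _ = _ := by rw [mul_pow, ← pow_mul]; ring_nf
      have e1 : (1 + (‖y (X.Y j)‖ ^ 2 + ∑ j ∈ s, ‖y (X.Y j)‖ ^ 2)) * ‖y X.h‖ ^ (2 * (N + N')) =
          ((1 + ∑ j ∈ s, ‖y (X.Y j)‖ ^ 2) * ‖y X.h‖ ^ (2 * N)) * ‖y X.h‖ ^ (2 * N') +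
          (‖y (X.Y j)‖ * ‖y X.h‖ ^ N') ^ 2 * ‖y X.h‖ ^ (2 * N) := by ring
      rw [e1]
      have b1 : ((1 + ∑ j ∈ s, ‖y (X.Y j)‖ ^ 2) * ‖y X.h‖ ^ (2 * N)) * ‖y X.h‖ ^ (2 * N') ≤
          (C * W X y ^ M) * (D ^ (2 * N') * W X y ^ (2 * L * N')) :=
        mul_le_mul (h y) hh1 (by positivity) (by positivity)
      have b2 : (‖y (X.Y j)‖ * ‖y X.h‖ ^ N') ^ 2 * ‖y X.h‖ ^ (2 * N) ≤
          (C' * W X y ^ K') ^ 2 * (D ^ (2 * N) * W X y ^ (2 * L * N)) :=
        mul_le_mul (pow_le_pow_left₀ (by positivity) (h' y) 2) hh2 (by positivity) (by positivity)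
      have b3 : (C * W X y ^ M) * (D ^ (2 * N') * W X y ^ (2 * L * N')) ≤
          C * D ^ (2 * N') * W X y ^ (M + 2 * K' + (2 * L * (N + N'))) := by
        have : W X y ^ M * W X y ^ (2 * L * N') ≤ W X y ^ (M + 2 * K' + (2 * L * (N + N'))) := by
          rw [← pow_add]
          apply pow_le_pow_right₀ hW
          nlinarith [Nat.zero_le (L * N)]
        calc (C * W X y ^ M) * (D ^ (2 * N') * W X y ^ (2 * L * N'))
            = C * D ^ (2 * N') * (W X y ^ M * W X y ^ (2 * L * N')) := by ring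
          _ ≤ _ := by gcongr
      have b4 : (C' * W X y ^ K') ^ 2 * (D ^ (2 * N) * W X y ^ (2 * L * N)) ≤
          C' ^ 2 * D ^ (2 * N) * W X y ^ (M + 2 * K' + (2 * L * (N + N'))) := by
        have : (W X y ^ K') ^ 2 * W X y ^ (2 * L * N) ≤
            W X y ^ (M + 2 * K' + (2 * L * (N + N'))) := by
          rw [← pow_mul, ← pow_add]
          apply pow_le_pow_right₀ hW
          nlinarith [Nat.zero_le (L * N')]
        calc (C' * W X y ^ K') ^ 2 * (D ^ (2 * N) * W X y ^ (2 * L * N))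
            = C' ^ 2 * D ^ (2 * N) * ((W X y ^ K') ^ 2 * W X y ^ (2 * L * N)) := by ring
          _ ≤ _ := by gcongr
      calc _ ≤ C * D ^ (2 * N') * W X y ^ (M + 2 * K' + (2 * L * (N + N'))) +
            C' ^ 2 * D ^ (2 * N) * W X y ^ (M + 2 * K' + (2 * L * (N + N'))) :=
            add_le_add (b1.trans b3) (b2.trans b4)
        _ = _ := by ring
  obtain ⟨C, N, M, hC, h⟩ := h1 Finset.univ
  refine ⟨C ^ m, N * m, M * m, one_le_pow₀ hC, fun y => ?_⟩
  have h2 := h y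
  have h3 : 0 ≤ (1 + TT X y) * ‖y X.h‖ ^ (2 * N) := by
    have := (TT_pos X y).le
    positivity
  calc (1 + TT X y) ^ m * ‖y X.h‖ ^ (2 * (N * m)) = ((1 + TT X y) * ‖y X.h‖ ^ (2 * N)) ^ m := by
        rw [mul_pow, ← pow_mul]; ring_nf
    _ ≤ (C * W X y ^ M) ^ m := pow_le_pow_left₀ h3 h2 m
    _ = _ := by rw [mul_pow, ← pow_mul]

/-- bound of `wt S` by the metric -/
lemma wt_bound (S : Finset X.B) (m : ℕ) (hS : ∀ f ∈ S, f ∈ X.V m) :
    ∃ C : ℝ, 0 < C ∧ ∀ y : X.B →ₐ[ℂ] ℂ, wt S y ≤ C * TT X y ^ ((m : ℝ) / X.k) := by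
  have hk : (0 : ℝ) < X.k := by exact_mod_cast X.k_pos
  have h1 : ∀ f ∈ S, ∃ C : ℝ, 0 < C ∧ ∀ y : X.B →ₐ[ℂ] ℂ,
      ‖y f‖ ^ 2 ≤ C * TT X y ^ ((m : ℝ) / X.k) := by
    intro f hf
    obtain ⟨C, hC⟩ := X.FSbd m f (hS f hf)
    refine ⟨(|C| + 1) ^ (1 / (X.k : ℝ)), by positivity, fun y => ?_⟩
    have hT := TT_pos X y
    have h2 : ‖y f‖ ^ (2 * X.k) ≤ (|C| + 1) * TT X y ^ m := by
      refine (hC y).trans ?_
      have : C ≤ |C| + 1 := by have := le_abs_self C; linarith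
      exact mul_le_mul_of_nonneg_right this (by positivity)
    have h3 : ‖y f‖ ^ 2 = ((‖y f‖ ^ (2 * X.k) : ℝ)) ^ (1 / (X.k : ℝ)) := by
      rw [pow_mul, ← Real.rpow_natCast (‖y f‖ ^ 2) X.k, ← Real.rpow_mul (by positivity)]
      rw [mul_one_div_cancel hk.ne', Real.rpow_one]
    rw [h3]
    calc ((‖y f‖ ^ (2 * X.k) : ℝ)) ^ (1 / (X.k : ℝ)) ≤ ((|C| + 1) * TT X y ^ m) ^ (1 / (X.k : ℝ)) :=
          Real.rpow_le_rpow (by positivity) h2 (by positivity)
      _ = (|C| + 1) ^ (1 / (X.k : ℝ)) * (TT X y ^ m) ^ (1 / (X.k : ℝ)) :=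
          Real.mul_rpow (by positivity) (by positivity)
      _ = _ := by
          rw [← Real.rpow_natCast (TT X y) m, ← Real.rpow_mul hT.le]
          congr 2
          ring
  choose! C hC hCb using h1
  refine ⟨1 + ∑ f ∈ S, C f, ?_, fun y => ?_⟩
  · have : 0 ≤ ∑ f ∈ S, C f := Finset.sum_nonneg fun f hf => (hC f hf).le
    linarith
  have hT := TT_pos X y
  unfold wt
  calc ∑ b ∈ S, ‖y b‖ ^ 2 ≤ ∑ b ∈ S, C b * TT X y ^ ((m : ℝ) / X.k) :=
        Finset.sum_le_sum fun b hb => hCb b hb y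
    _ = (∑ b ∈ S, C b) * TT X y ^ ((m : ℝ) / X.k) := by rw [Finset.sum_mul]
    _ ≤ _ := by
        have : 0 ≤ TT X y ^ ((m : ℝ) / X.k) := by positivity
        nlinarith

lemma rpow_sum {ι : Type} (s : Finset ι) {T : ℝ≥0∞} (h0 : T ≠ 0) (ht : T ≠ ∞) (a : ι → ℝ) :
    ∏ i ∈ s, T ^ (a i) = T ^ (∑ i ∈ s, a i) := by
  classical
  induction s using Finset.induction_on with
  | empty => simp
  | insert i s hi ih => rw [Finset.prod_insert hi, Finset.sum_insert hi, ih, ENNReal.rpow_add _ _ h0 ht]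

/-- the weight of MLT dominates the metric -/
lemma weight_bound {r : ℕ} (S : Fin r → Finset X.B) (m : Fin r → ℕ) (c : Fin r → ℝ)
    (hS : ∀ i, ∀ f ∈ S i, f ∈ X.V (m i)) (hc : ∀ i, 0 < c i) (m₀ : ℝ) :
    ∃ K : ℝ≥0∞, K ≠ ∞ ∧ ∀ y : X.B →ₐ[ℂ] ℂ,
      (ENNReal.ofReal (TT X y)) ^ (-(m₀ / X.k)) ≤
        K * (wB S c y * (ENNReal.ofReal (TT X y)) ^ (-((m₀ - ∑ i, c i * (m i : ℝ)) / X.k))) := by
  have hk : (0 : ℝ) < X.k := by exact_mod_cast X.k_pos
  choose C hC hCb using fun i => wt_bound X (S i) (m i) (hS i)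
  refine ⟨∏ i, (ENNReal.ofReal (C i)) ^ (c i), ?_, fun y => ?_⟩
  · apply ne_of_lt
    apply ENNReal.prod_lt_top
    intro i _
    exact ENNReal.rpow_lt_top_of_nonneg (hc i).le ENNReal.ofReal_ne_top
  have hT := TT_pos X y
  set T := ENNReal.ofReal (TT X y) with hTdef
  have hT0 : T ≠ 0 := by simp [hTdef, hT]
  have hTt : T ≠ ∞ := ENNReal.ofReal_ne_top
  have h1 : ∀ i, T ^ (-(c i * (m i : ℝ) / X.k)) ≤
      (ENNReal.ofReal (C i)) ^ (c i) * (ENNReal.ofReal (wt (S i) y)) ^ (-(c i)) := by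
    intro i
    have hCi : ENNReal.ofReal (C i) ≠ 0 := by simp [hC i]
    have h2 : ENNReal.ofReal (wt (S i) y) ≤ ENNReal.ofReal (C i) * T ^ ((m i : ℝ) / X.k) := by
      rw [hTdef, ENNReal.ofReal_rpow_of_pos hT, ← ENNReal.ofReal_mul (hC i).le]
      exact ENNReal.ofReal_le_ofReal (hCb i y)
    have h3 : (ENNReal.ofReal (C i) * T ^ ((m i : ℝ) / X.k)) ^ (-(c i)) ≤
        (ENNReal.ofReal (wt (S i) y)) ^ (-(c i)) := by
      rw [ENNReal.rpow_neg, ENNReal.rpow_neg]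
      exact ENNReal.inv_le_inv.mpr (ENNReal.rpow_le_rpow h2 (hc i).le)
    have h4 : (ENNReal.ofReal (C i) * T ^ ((m i : ℝ) / X.k)) ^ (-(c i)) =
        (ENNReal.ofReal (C i)) ^ (-(c i)) * T ^ (-(c i * (m i : ℝ) / X.k)) := by
      rw [ENNReal.mul_rpow_of_ne_top ENNReal.ofReal_ne_top
        (ENNReal.rpow_ne_top_of_nonneg (by positivity) hTt), ← ENNReal.rpow_mul]
      congr 2
      ring
    rw [h4] at h3
    calc T ^ (-(c i * (m i : ℝ) / X.k))
        = (ENNReal.ofReal (C i)) ^ (c i) * ((ENNReal.ofReal (C i)) ^ (-(c i)) *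
            T ^ (-(c i * (m i : ℝ) / X.k))) := by
          rw [← mul_assoc, ← ENNReal.rpow_add _ _ hCi ENNReal.ofReal_ne_top]
          simp
      _ ≤ _ := by gcongr
  have h5 : T ^ (-(m₀ / X.k)) = (∏ i, T ^ (-(c i * (m i : ℝ) / X.k))) *
      T ^ (-((m₀ - ∑ i, c i * (m i : ℝ)) / X.k)) := by
    have h6 : ∏ i, T ^ (-(c i * (m i : ℝ) / X.k)) = T ^ (∑ i, -(c i * (m i : ℝ) / X.k)) := by
      exact rpow_sum _ hT0 hTt _
    rw [h6, ← ENNReal.rpow_add _ _ hT0 hTt]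
    congr 1
    rw [Finset.sum_neg_distrib, ← Finset.sum_div]
    field_simp
    ring
  rw [h5, ← mul_assoc]
  gcongr
  unfold wB
  rw [← Finset.prod_mul_distrib]
  exact Finset.prod_le_prod' fun i _ => h1 i

/-- (10.6) -/
theorem globalOut_of (hS : SolverStmt X) (hA : AlgStmt X) (hM : MLT X) (m : ℕ) (hm : n + 1 ≤ m) :
    GlobalOut X m := by
  obtain ⟨r, S, mi, c, C, r₁, r₂, hSV, hc, hsum, hr1, hr12, hr2, hnot, hshell⟩ := hM
  have hk : (0 : ℝ) < X.k := by exact_mod_cast X.k_pos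
  have hmR : ((n : ℝ) + 1) ≤ m := by exact_mod_cast hm
  set a : ℝ := ((m : ℝ) - ∑ i, c i * (mi i : ℝ)) / X.k with ha
  have ha0 : 0 < a := by
    apply div_pos _ hk
    linarith
  obtain ⟨F, hF, hFx, hint⟩ := hS X.x C (Fin r) S c X.Y a r₁ r₂ (fun i => (hc i).le)
    (fun i => by
      obtain ⟨b, hb⟩ := (hSV i).1
      exact ⟨b, hb, ((hSV i).2 b hb).2⟩) X.Y_unit X.Y_z ha0 hr1 hr12 hr2 hshell
  have hFx1 : F X.x = 1 := hFx hnot
  obtain ⟨K, hK, hKb⟩ := weight_bound X S mi c (fun i f hf => ((hSV i).2 f hf).1) hc (m : ℝ)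
  set g : (X.B →ₐ[ℂ] ℂ) → ℝ≥0∞ := fun y => (ENNReal.ofReal (∑ j, ‖y (X.Y j)‖ ^ 2)) ^ (-((m : ℝ) / X.k))
    with hg
  have hgK : ∀ y, g y ≤ K * (wB S c y * (ENNReal.ofReal (∑ j, ‖y (X.Y j)‖ ^ 2)) ^ (-a)) := by
    intro y
    exact hKb y
  -- `g` is bounded on the closed ball
  have hgball : ∫⁻ ζ in Metric.ball (0 : Cn n) r₂, g (C.s ζ) < ∞ := by
    have hsub : Metric.closedBall (0 : Cn n) r₂ ⊆ Metric.ball (0 : Cn n) C.r :=
      Metric.closedBall_subset_ball hr2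
    have hcont : ContinuousOn (fun ζ => TT X (C.s ζ)) (Metric.closedBall (0 : Cn n) r₂) := by
      unfold TT
      refine continuousOn_finsetSum _ fun j _ => ?_
      refine ContinuousOn.pow (ContinuousOn.norm ?_) 2
      exact fun ζ hζ => ((C.anal (X.Y j)) ζ (hsub hζ)).continuousAt.continuousWithinAt
    obtain ⟨ζ₀, hζ₀, hmin⟩ := (isCompact_closedBall (0 : Cn n) r₂).exists_isMinOn
      ⟨0, Metric.mem_closedBall_self (by linarith)⟩ hcont
    set δ := TT X (C.s ζ₀) with hδ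
    have hδ0 : 0 < δ := TT_pos X _
    have hb : ∀ ζ ∈ Metric.ball (0 : Cn n) r₂, g (C.s ζ) ≤ (ENNReal.ofReal δ) ^ (-((m : ℝ) / X.k)) := by
      intro ζ hζ
      have h1 : δ ≤ TT X (C.s ζ) := hmin (Metric.ball_subset_closedBall hζ)
      have h2 : ENNReal.ofReal δ ≤ ENNReal.ofReal (TT X (C.s ζ)) := ENNReal.ofReal_le_ofReal h1
      show (ENNReal.ofReal (TT X (C.s ζ))) ^ (-((m : ℝ) / X.k)) ≤ _
      rw [ENNReal.rpow_neg, ENNReal.rpow_neg]
      exact ENNReal.inv_le_inv.mpr (ENNReal.rpow_le_rpow h2 (by positivity))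
    calc ∫⁻ ζ in Metric.ball (0 : Cn n) r₂, g (C.s ζ)
        ≤ ∫⁻ ζ in Metric.ball (0 : Cn n) r₂, (ENNReal.ofReal δ) ^ (-((m : ℝ) / X.k)) :=
          setLIntegral_mono' Metric.isOpen_ball.measurableSet hb
      _ = (ENNReal.ofReal δ) ^ (-((m : ℝ) / X.k)) * volume (Metric.ball (0 : Cn n) r₂) := by
          rw [setLIntegral_const]
      _ < ∞ := by
          apply ENNReal.mul_lt_top
          · rw [ENNReal.rpow_neg]
            apply lt_of_le_of_ne le_top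
            rw [Ne, ENNReal.inv_eq_top]
            have : ENNReal.ofReal δ ≠ 0 := by simp [hδ0]
            simp [ENNReal.rpow_eq_zero_iff, this]
          · exact measure_ball_lt_top
  have hfin := hint g K hK hgK hgball
  -- algebraicity
  obtain ⟨D, N, M, hD, hgr⟩ := T_growth X m
  have hfin2 : lintM X.z (fun y => ENNReal.ofReal
      (‖F y‖ ^ 2 * ‖y X.h‖ ^ (2 * N) / (1 + ∑ i, ‖y (X.z i)‖ ^ 2) ^ M)) < ∞ := by
    have hle : ∀ y : X.B →ₐ[ℂ] ℂ, ENNReal.ofReal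
        (‖F y‖ ^ 2 * ‖y X.h‖ ^ (2 * N) / (1 + ∑ i, ‖y (X.z i)‖ ^ 2) ^ M) ≤
        ENNReal.ofReal D * (ENNReal.ofReal (‖F y‖ ^ 2) * g y) := by
      intro y
      have hT := TT_pos X y
      have hW := W_pos X y
      have h1 := hgr y
      have hg' : g y = ENNReal.ofReal ((TT X y) ^ (-((m : ℝ) / X.k))) := by
        show (ENNReal.ofReal (TT X y)) ^ (-((m : ℝ) / X.k)) = _
        rw [ENNReal.ofReal_rpow_of_pos hT]
      rw [hg', ← ENNReal.ofReal_mul (by positivity), ← ENNReal.ofReal_mul (by positivity)]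
      apply ENNReal.ofReal_le_ofReal
      have h2 : (TT X y) ^ ((m : ℝ) / X.k) ≤ (1 + TT X y) ^ m := by
        have h3 : (TT X y) ^ ((m : ℝ) / X.k) ≤ (1 + TT X y) ^ ((m : ℝ) / X.k) :=
          Real.rpow_le_rpow hT.le (by linarith) (by positivity)
        have h4 : (1 + TT X y) ^ ((m : ℝ) / X.k) ≤ (1 + TT X y) ^ (m : ℝ) := by
          apply Real.rpow_le_rpow_of_exponent_le (by linarith)
          apply div_le_self (by positivity)
          exact_mod_cast X.k_pos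
        rw [Real.rpow_natCast] at h4
        exact h3.trans h4
      have h5 : ‖y X.h‖ ^ (2 * N) / (1 + ∑ i, ‖y (X.z i)‖ ^ 2) ^ M ≤
          D * (TT X y) ^ (-((m : ℝ) / X.k)) := by
        rw [Real.rpow_neg hT.le, ← div_eq_mul_inv,
          div_le_div_iff₀ (by exact pow_pos hW M) (by positivity)]
        calc ‖y X.h‖ ^ (2 * N) * (TT X y) ^ ((m : ℝ) / X.k)
            ≤ ‖y X.h‖ ^ (2 * N) * (1 + TT X y) ^ m := by gcongr
          _ = (1 + TT X y) ^ m * ‖y X.h‖ ^ (2 * N) := by ring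
          _ ≤ D * W X y ^ M := h1
      calc ‖F y‖ ^ 2 * ‖y X.h‖ ^ (2 * N) / (1 + ∑ i, ‖y (X.z i)‖ ^ 2) ^ M
          = ‖F y‖ ^ 2 * (‖y X.h‖ ^ (2 * N) / (1 + ∑ i, ‖y (X.z i)‖ ^ 2) ^ M) := by ring
        _ ≤ ‖F y‖ ^ 2 * (D * (TT X y) ^ (-((m : ℝ) / X.k))) := by gcongr
        _ = _ := by ring
    calc _ ≤ lintM X.z (fun y => ENNReal.ofReal D * (ENNReal.ofReal (‖F y‖ ^ 2) * g y)) := by
          unfold lintM
          refine lintegral_mono fun ζ => ENNReal.tsum_le_tsum fun y => hle y.1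
      _ = ENNReal.ofReal D * lintM X.z (fun y => ENNReal.ofReal (‖F y‖ ^ 2) * g y) := by
          unfold lintM
          rw [← lintegral_const_mul' _ _ ENNReal.ofReal_ne_top]
          congr 1
          funext ζ
          rw [ENNReal.tsum_mul_left]
      _ < ∞ := ENNReal.mul_lt_top ENNReal.ofReal_lt_top hfin
  obtain ⟨b, hb⟩ := hA F N M hF hfin2
  refine ⟨b, ?_, ?_⟩
  · rw [← hb, hFx1]
    exact one_ne_zero
  · have : (fun y : X.B →ₐ[ℂ] ℂ => ENNReal.ofReal (‖y b‖ ^ 2) *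
        (ENNReal.ofReal (∑ j, ‖y (X.Y j)‖ ^ 2)) ^ (-((m : ℝ) / X.k))) =
        fun y => ENNReal.ofReal (‖F y‖ ^ 2) * g y := by
      funext y
      rw [hb y]
    rw [this]
    exact hfin

end

/-- G5 -/
theorem globalMain_of (hS : ∀ (n : ℕ) (X : FCtx n), 1 ≤ n → SolverStmt X)
    (hA : ∀ (n : ℕ) (X : FCtx n), 1 ≤ n → AlgStmt X) : GlobalMain := by
  intro n X hn hM m hm
  exact globalOut_of X (hS n X hn) (hA n X hn) hM m hm

end Crest.Agent.R271.G5x131
end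
end

-- ▼ part R271/GAll_792

/-!
# Row 271, team G: everything of Part 10 from the engine (helper792)
-/

set_option autoImplicit false

noncomputable section

namespace Crest.Agent.R271.GAll792

open Crest.Agent.R271.Defs710 Crest.Agent.R271.GSpec792

/-- (G2) -/
theorem algStmt {n : ℕ} (X : FCtx n) : AlgStmt X := by
  obtain ⟨θ, μ, g, h1, h2, h3, h4, h5⟩ := Alg255.A1 X
  exact AlgD956.algStmt_of X ⟨θ, μ, g, ⟨h1, h2, h3, h4, fun ζ hζ => (h5 ζ hζ).1,
    fun ζ hζ => (h5 ζ hζ).2⟩⟩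

/-- (G5) -/
theorem globalMain_of_engine (hE : Ball399.EngineP) : GlobalMain :=
  G5x131.globalMain_of (fun _ X _ => G792.solverStmt_of_engine hE X) (fun _ X _ => algStmt X)

/-- (G4) -/
theorem multIdeal_of_engine (hE : Ball399.EngineP) {n : ℕ} (X : FCtx n) (hn : 1 ≤ n)
    (hch : ChartEx X) (hgen : GensFact X) : MultIdeal X :=
  G4_747.multIdeal X hn (G792.solverStmt_of_engine hE X) (algStmt X) hch hgen

end Crest.Agent.R271.GAll792
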