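import Mathlib

/-!
# R271 (Fujita freeness), Part 4: abstract Gibbs calculus

`P` is an index type (the pairs `(m,i)`, `i < dim V_m`), `deg : P → ℝ` the degree and
`L : P → ℝ` the jumps of a filtration.  Weights `w = exp (-t (κ deg + L))`, partition function `Z`.
-/

set_option autoImplicit false

open Real Finset

namespace Crest.Agent.R271.Gibbs302

variable {P : Type*}

/-- Growth of the degree function. -/
structure Growth (deg : P → ℝ) (n : ℕ) (c C : ℝ) : Prop where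
  c_pos : 0 < c
  deg_nonneg : ∀ p, 0 ≤ deg p
  summable : ∀ s : ℝ, 0 < s → Summable fun p => exp (-(s * deg p))
  upper : ∀ s : ℝ, 0 < s → s ≤ 1 → ∑' p, exp (-(s * deg p)) ≤ C / s ^ (n + 1)
  lower : ∀ s : ℝ, 0 < s → c / s ^ (n + 1) ≤ ∑' p, exp (-(s * deg p))

/-- Gibbs weight. -/
noncomputable def w (deg : P → ℝ) (κ t : ℝ) (L : P → ℝ) (p : P) : ℝ :=
  exp (-(t * (κ * deg p + L p)))

/-- Partition function. -/
noncomputable def Z (deg : P → ℝ) (κ t : ℝ) (L : P → ℝ) : ℝ := ∑' p, w deg κ t L p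

/-- Gibbs expectation. -/
noncomputable def Ex (deg : P → ℝ) (κ t : ℝ) (L : P → ℝ) (φ : P → ℝ) : ℝ :=
  (∑' p, w deg κ t L p * φ p) / Z deg κ t L

variable {deg : P → ℝ} {n : ℕ} {c C : ℝ} {κ t : ℝ} {L : P → ℝ}

lemma w_pos (p : P) : 0 < w deg κ t L p := exp_pos _

lemma w_le (ht : 0 < t) (hL : ∀ p, 0 ≤ L p) (p : P) :
    w deg κ t L p ≤ exp (-(t * κ * deg p)) := by
  unfold w
  apply exp_le_exp.mpr
  nlinarith [mul_nonneg ht.le (hL p)]

/-- Summability of observables of subexponential growth. -/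
lemma summable_obs (hG : Growth deg n c C) (ht : 0 < t) (hκ : 0 < κ) (hL : ∀ p, 0 ≤ L p)
    {φ : P → ℝ} {K : ℝ} (hφ : ∀ p, |φ p| ≤ K * exp (t * (κ / 2) * deg p)) :
    Summable fun p => w deg κ t L p * φ p := by
  have h1 : Summable fun p => K * exp (-(t * (κ / 2) * deg p)) :=
    (hG.summable (t * (κ / 2)) (by positivity)).mul_left K
  refine Summable.of_norm_bounded h1 ?_
  intro p
  rw [norm_mul, Real.norm_eq_abs, Real.norm_eq_abs, abs_of_pos (w_pos p)]
  calc w deg κ t L p * |φ p| ≤ exp (-(t * κ * deg p)) * (K * exp (t * (κ / 2) * deg p)) := by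
        apply mul_le_mul (w_le ht hL p) (hφ p) (abs_nonneg _) (exp_pos _).le
    _ = K * (exp (-(t * κ * deg p)) * exp (t * (κ / 2) * deg p)) := by ring
    _ = K * exp (-(t * (κ / 2) * deg p)) := by
        rw [← exp_add]; congr 2; ring

lemma summable_w (hG : Growth deg n c C) (ht : 0 < t) (hκ : 0 < κ) (hL : ∀ p, 0 ≤ L p) :
    Summable (w deg κ t L) := by
  have h1 : Summable fun p => w deg κ t L p * (1 : ℝ) := by
    refine summable_obs hG ht hκ hL (K := 1) ?_
    intro p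
    have : 0 ≤ t * (κ / 2) * deg p := by have := hG.deg_nonneg p; positivity
    simpa using this
  simpa using h1

/-- upper bound for sums of observables -/
lemma tsum_obs_le (hG : Growth deg n c C) (ht : 0 < t) (ht1 : t ≤ 1) (hκ : 1 / 2 ≤ κ) (hκ1 : κ ≤ 1)
    (hL : ∀ p, 0 ≤ L p)
    {φ : P → ℝ} {K : ℝ} (hK : 0 ≤ K) (hφ : ∀ p, |φ p| ≤ K * exp (t * (κ / 2) * deg p)) :
    ∑' p, w deg κ t L p * φ p ≤ K * (C * 4 ^ (n + 1)) / t ^ (n + 1) := by
  have hκ0 : 0 < κ := by linarith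
  have h1 : Summable fun p => K * exp (-(t * (κ / 2) * deg p)) :=
    (hG.summable (t * (κ / 2)) (by positivity)).mul_left K
  have h2 : ∀ p, w deg κ t L p * φ p ≤ K * exp (-(t * (κ / 2) * deg p)) := by
    intro p
    calc w deg κ t L p * φ p ≤ w deg κ t L p * |φ p| :=
          mul_le_mul_of_nonneg_left (le_abs_self _) (w_pos p).le
      _ ≤ exp (-(t * κ * deg p)) * (K * exp (t * (κ / 2) * deg p)) := by
        apply mul_le_mul (w_le ht hL p) (hφ p) (abs_nonneg _) (exp_pos _).le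
      _ = K * (exp (-(t * κ * deg p)) * exp (t * (κ / 2) * deg p)) := by ring
      _ = K * exp (-(t * (κ / 2) * deg p)) := by
        rw [← exp_add]; congr 2; ring
  have h3 := (summable_obs hG ht hκ0 hL hφ).tsum_le_tsum h2 h1
  rw [tsum_mul_left] at h3
  have hs : 0 < t * (κ / 2) := by positivity
  have h4 : ∑' p, exp (-(t * (κ / 2) * deg p)) ≤ C / (t * (κ / 2)) ^ (n + 1) :=
    hG.upper _ hs (by nlinarith)
  have hC : 0 ≤ C := by
    by_contra hneg
    have h5 := hG.upper 1 one_pos le_rfl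
    have h6 := hG.lower 1 one_pos
    have := hG.c_pos
    simp at h5 h6
    linarith
  have h5 : C / (t * (κ / 2)) ^ (n + 1) ≤ C / (t / 4) ^ (n + 1) := by
    apply div_le_div_of_nonneg_left hC (by positivity)
    apply pow_le_pow_left₀ (by positivity)
    nlinarith
  calc ∑' p, w deg κ t L p * φ p ≤ K * ∑' p, exp (-(t * (κ / 2) * deg p)) := h3
    _ ≤ K * (C / (t / 4) ^ (n + 1)) := mul_le_mul_of_nonneg_left (h4.trans h5) hK
    _ = K * (C * 4 ^ (n + 1)) / t ^ (n + 1) := by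
        rw [div_pow]
        field_simp

lemma C_nonneg (hG : Growth deg n c C) : 0 ≤ C := by
  by_contra hneg
  have h5 := hG.upper 1 one_pos le_rfl
  have h6 := hG.lower 1 one_pos
  have := hG.c_pos
  simp at h5 h6
  linarith

/-- lower bound of the partition function -/
lemma Z_ge (hG : Growth deg n c C) (ht : 0 < t) (hκ : 0 < κ) (hL : ∀ p, 0 ≤ L p) {a : ℝ}
    (ha : 0 ≤ a) (hLa : ∀ p, L p ≤ a * deg p) :
    c / (t * (κ + a)) ^ (n + 1) ≤ Z deg κ t L := by
  have hs : 0 < t * (κ + a) := by positivity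
  refine (hG.lower _ hs).trans ?_
  unfold Z
  refine (hG.summable _ hs).tsum_le_tsum (fun p => ?_) (summable_w hG ht hκ hL)
  unfold w
  apply exp_le_exp.mpr
  have := hLa p
  nlinarith [mul_le_mul_of_nonneg_left this ht.le]

lemma Z_pos (hG : Growth deg n c C) (ht : 0 < t) (hκ : 0 < κ) (hL : ∀ p, 0 ≤ L p) :
    0 < Z deg κ t L := by
  have hne : Nonempty P := by
    by_contra h
    rw [not_nonempty_iff] at h
    have h6 := hG.lower 1 one_pos
    have := hG.c_pos
    simp at h6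
    linarith
  obtain ⟨p⟩ := hne
  exact (summable_w hG ht hκ hL).tsum_pos (fun p => (w_pos p).le) p (w_pos p)

/-- upper bound of the partition function -/
lemma Z_le (hG : Growth deg n c C) (ht : 0 < t) (ht1 : t ≤ 1) (hκ : 1 / 2 ≤ κ) (hκ1 : κ ≤ 1)
    (hL : ∀ p, 0 ≤ L p) : Z deg κ t L ≤ (C * 4 ^ (n + 1)) / t ^ (n + 1) := by
  have h := tsum_obs_le hG ht ht1 hκ hκ1 hL (φ := fun _ => 1) (K := 1) zero_le_one (by
    intro p
    have : 0 ≤ t * (κ / 2) * deg p := by
      have := hG.deg_nonneg p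
      have : 0 ≤ κ := by linarith
      positivity
    simpa using this)
  simpa [Z] using h

/-! ### first order comparison -/

/-- `log` of the ratio `Z'/Z` from a pointwise bound of the weights. -/
lemma log_Z_le_of_le (hG : Growth deg n c C) (ht : 0 < t) (hκ : 0 < κ) (hL : ∀ p, 0 ≤ L p)
    {κ' t' : ℝ} {L' : P → ℝ} (ht' : 0 < t') (hκ' : 0 < κ') (hL' : ∀ p, 0 ≤ L' p)
    {φ : P → ℝ} (hs : Summable fun p => w deg κ t L p * φ p)
    (h : ∀ p, w deg κ' t' L' p ≤ w deg κ t L p * (1 + φ p)) :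
    log (Z deg κ' t' L') ≤ log (Z deg κ t L) + Ex deg κ t L φ := by
  have hZ := Z_pos hG ht hκ hL
  have hZ' := Z_pos hG ht' hκ' hL'
  have h1 : Z deg κ' t' L' ≤ Z deg κ t L + ∑' p, w deg κ t L p * φ p := by
    unfold Z
    rw [← (summable_w hG ht hκ hL).tsum_add hs]
    refine (summable_w hG ht' hκ' hL').tsum_le_tsum (fun p => ?_)
      ((summable_w hG ht hκ hL).add hs)
    have := h p
    linarith
  have h2 : Z deg κ' t' L' ≤ Z deg κ t L * (1 + Ex deg κ t L φ) := by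
    unfold Ex
    have : Z deg κ t L * (1 + (∑' p, w deg κ t L p * φ p) / Z deg κ t L)
        = Z deg κ t L + ∑' p, w deg κ t L p * φ p := by
      field_simp
    rw [this]; exact h1
  have h3 : 0 < 1 + Ex deg κ t L φ := by
    by_contra hneg
    push Not at hneg
    have : Z deg κ t L * (1 + Ex deg κ t L φ) ≤ 0 :=
      mul_nonpos_of_nonneg_of_nonpos hZ.le hneg
    linarith
  calc log (Z deg κ' t' L') ≤ log (Z deg κ t L * (1 + Ex deg κ t L φ)) :=
        log_le_log hZ' h2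
    _ = log (Z deg κ t L) + log (1 + Ex deg κ t L φ) := log_mul hZ.ne' h3.ne'
    _ ≤ log (Z deg κ t L) + Ex deg κ t L φ := by
        have := log_le_sub_one_of_pos h3
        linarith

/-- linearity of the expectation -/
lemma Ex_add {φ ψ : P → ℝ} (h1 : Summable fun p => w deg κ t L p * φ p)
    (h2 : Summable fun p => w deg κ t L p * ψ p) :
    Ex deg κ t L (fun p => φ p + ψ p) = Ex deg κ t L φ + Ex deg κ t L ψ := by
  unfold Ex
  rw [← add_div, ← h1.tsum_add h2]
  congr 2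
  ext p; ring

lemma Ex_mul_left {φ : P → ℝ} (a : ℝ) :
    Ex deg κ t L (fun p => a * φ p) = a * Ex deg κ t L φ := by
  unfold Ex
  rw [← mul_div_assoc, ← tsum_mul_left]
  congr 2
  ext p; ring




/-- bound of expectations -/
lemma Ex_le (hG : Growth deg n c C) (ht : 0 < t) (ht1 : t ≤ 1) (hκ : 1 / 2 ≤ κ) (hκ1 : κ ≤ 1)
    (hL : ∀ p, 0 ≤ L p) {a : ℝ} (ha : 0 ≤ a) (hLa : ∀ p, L p ≤ a * deg p)
    {φ : P → ℝ} {K : ℝ} (hK : 0 ≤ K) (hφ : ∀ p, |φ p| ≤ K * exp (t * (κ / 2) * deg p)) :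
    Ex deg κ t L φ ≤ K * (C * 4 ^ (n + 1)) * (1 + a) ^ (n + 1) / c := by
  have hκ0 : 0 < κ := by linarith
  have hc := hG.c_pos
  have hC := C_nonneg hG
  have hZ1 := Z_ge hG ht hκ0 hL ha hLa
  have hZ2 : c / (t * (1 + a)) ^ (n + 1) ≤ Z deg κ t L := by
    refine le_trans ?_ hZ1
    apply div_le_div_of_nonneg_left hc.le (by positivity)
    apply pow_le_pow_left₀ (by positivity)
    apply mul_le_mul_of_nonneg_left _ ht.le
    linarith
  have hN := tsum_obs_le hG ht ht1 hκ hκ1 hL hK hφ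
  unfold Ex
  rw [div_le_iff₀ (Z_pos hG ht hκ0 hL)]
  refine hN.trans ?_
  have h3 : K * (C * 4 ^ (n + 1)) * (1 + a) ^ (n + 1) / c * (c / (t * (1 + a)) ^ (n + 1))
      = K * (C * 4 ^ (n + 1)) / t ^ (n + 1) := by
    rw [mul_pow]
    field_simp
  rw [← h3]
  apply mul_le_mul_of_nonneg_left hZ2
  positivity

end Crest.Agent.R271.Gibbs302
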