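import Crest.Agent.R271.Defs_710
import Crest.Agent.R271.Null_821

/-!
# Row 271, team L (helper821): elementary properties of `LInt`, `LIntB`, `Chart`, `wt`
-/

set_option autoImplicit false

open MeasureTheory Set Filter Metric Topology
open scoped ENNReal NNReal Topology

namespace Crest.Agent.R271.Local821

open Crest.Agent.R271.Defs710

/-! ### `LInt` -/

section lint

variable {n : ℕ} {g g' : Cn n → ℝ≥0∞} {a : Cn n}

theorem LInt.exists_ball (h : LInt g a) :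
    ∃ r > 0, ∀ s ≤ r, ∫⁻ ζ in ball a s, g ζ < ∞ := by
  obtain ⟨U, hU, hlt⟩ := h
  obtain ⟨r, hr, hrU⟩ := Metric.mem_nhds_iff.1 hU
  exact ⟨r, hr, fun s hs => (lintegral_mono_set ((ball_subset_ball hs).trans hrU)).trans_lt hlt⟩


/-- domination up to a constant, almost everywhere near the point -/
theorem LInt.mono_ae (h : LInt g a) {K : ℝ≥0∞} (hK : K ≠ ∞) {U : Set (Cn n)} (hU : U ∈ 𝓝 a)
    (hle : ∀ᵐ ζ ∂(volume.restrict U), g' ζ ≤ K * g ζ) : LInt g' a := by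
  obtain ⟨V, hV, hlt⟩ := h
  refine ⟨U ∩ V, inter_mem hU hV, ?_⟩
  have h1 : ∫⁻ ζ in U ∩ V, g' ζ ≤ ∫⁻ ζ in U ∩ V, K * g ζ :=
    lintegral_mono_ae (ae_mono (Measure.restrict_mono inter_subset_left le_rfl) hle)
  have h2 : ∫⁻ ζ in U ∩ V, K * g ζ = K * ∫⁻ ζ in U ∩ V, g ζ := lintegral_const_mul' K _ hK
  rw [h2] at h1
  refine h1.trans_lt (ENNReal.mul_lt_top hK.lt_top ?_)
  exact (lintegral_mono_set inter_subset_right).trans_lt hlt

theorem LInt.mono_const (h : LInt g a) {K : ℝ≥0∞} (hK : K ≠ ∞)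
    (hle : ∀ᶠ ζ in 𝓝 a, g' ζ ≤ K * g ζ) : LInt g' a := by
  obtain ⟨U, hU, ho, hau⟩ := _root_.eventually_nhds_iff.1 hle
  refine LInt.mono_ae h hK (ho.mem_nhds hau) ?_
  rw [ae_restrict_iff' ho.measurableSet]
  exact Eventually.of_forall hU

theorem LInt.mono (h : LInt g a) (hle : ∀ᶠ ζ in 𝓝 a, g' ζ ≤ g ζ) : LInt g' a :=
  LInt.mono_const (K := 1) h ENNReal.one_ne_top (by simpa using hle)

theorem LInt.congr (h : LInt g a) (he : ∀ᶠ ζ in 𝓝 a, g' ζ = g ζ) : LInt g' a :=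
  LInt.mono h (he.mono fun _ h => h.le)


/-- sum of two locally integrable functions, one of them a.e. measurable near the point -/
theorem LInt.add (h : LInt g a) (h' : LInt g' a) {U : Set (Cn n)} (hU : U ∈ 𝓝 a)
    (hm : AEMeasurable g (volume.restrict U)) : LInt (fun ζ => g ζ + g' ζ) a := by
  obtain ⟨V, hV, hlt⟩ := h
  obtain ⟨V', hV', hlt'⟩ := h'
  refine ⟨U ∩ (V ∩ V'), inter_mem hU (inter_mem hV hV'), ?_⟩
  rw [lintegral_add_left' (hm.mono_measure (Measure.restrict_mono inter_subset_left le_rfl))]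
  refine ENNReal.add_lt_top.2 ⟨?_, ?_⟩
  · exact (lintegral_mono_set (inter_subset_right.trans inter_subset_left)).trans_lt hlt
  · exact (lintegral_mono_set (inter_subset_right.trans inter_subset_right)).trans_lt hlt'


end lint

/-! ### Comparison of real powers in `[0,∞]` -/

theorem rpow_neg_le_of_le {x x' : ℝ≥0∞} {c : ℝ} {K : ℝ≥0∞} (hK0 : K ≠ 0) (hK : K ≠ ∞) (hc : 0 ≤ c)
    (h : x ≤ K * x') : x' ^ (-c) ≤ K ^ c * x ^ (-c) := by
  rw [ENNReal.rpow_neg, ENNReal.rpow_neg]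
  have h1 : x ^ c ≤ K ^ c * x' ^ c := by
    rw [← ENNReal.mul_rpow_of_nonneg _ _ hc]
    exact ENNReal.rpow_le_rpow h hc
  have hKc0 : K ^ c ≠ 0 := by
    rw [Ne, ENNReal.rpow_eq_zero_iff]
    rintro (⟨h, _⟩ | ⟨h, _⟩)
    · exact hK0 h
    · exact hK h
  have hKct : K ^ c ≠ ∞ := ENNReal.rpow_ne_top_of_nonneg hc hK
  have h2 : (K ^ c * x' ^ c)⁻¹ ≤ (x ^ c)⁻¹ := ENNReal.inv_le_inv.2 h1
  calc (x' ^ c)⁻¹ = K ^ c * (K ^ c * x' ^ c)⁻¹ := by
        rw [ENNReal.mul_inv (Or.inl hKc0) (Or.inl hKct), ← mul_assoc,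
          ENNReal.mul_inv_cancel hKc0 hKct, one_mul]
    _ ≤ K ^ c * (x ^ c)⁻¹ := by gcongr

/-- comparison for an exponent of arbitrary sign: if `x ≤ K x'` in the case `0 ≤ c` and `x' ≤ K x` in
the case `c ≤ 0` then `x'^{-c} ≤ K^{|c|} x^{-c}` -/
theorem rpow_neg_le {x x' : ℝ≥0∞} {c : ℝ} {K : ℝ≥0∞} (hK0 : K ≠ 0) (hK : K ≠ ∞)
    (h : 0 ≤ c → x ≤ K * x') (h' : c < 0 → x' ≤ K * x) : x' ^ (-c) ≤ K ^ |c| * x ^ (-c) := by
  rcases le_or_gt 0 c with hc | hc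
  · rw [abs_of_nonneg hc]
    exact rpow_neg_le_of_le hK0 hK hc (h hc)
  · rw [abs_of_neg hc, ← ENNReal.mul_rpow_of_nonneg _ _ (by linarith)]
    exact ENNReal.rpow_le_rpow (h' hc) (by linarith)

/-- decreasing the exponent of a bounded quantity -/
theorem rpow_neg_le_of_exponent {x R : ℝ≥0∞} {c c' : ℝ} (hR0 : R ≠ 0) (hR : R ≠ ∞) (hx : x ≤ R)
    (hc : c' ≤ c) : x ^ (-c') ≤ R ^ (c - c') * x ^ (-c) := by
  have hxt : x ≠ ∞ := fun h => hR (top_le_iff.1 (h ▸ hx))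
  rcases eq_or_lt_of_le hc with rfl | hlt
  · simp
  rcases eq_or_ne x 0 with rfl | hx0
  · rcases lt_trichotomy c 0 with h | h | h
    · rw [ENNReal.zero_rpow_of_pos (by linarith), ENNReal.zero_rpow_of_pos (by linarith)]
      simp
    · subst h
      rw [ENNReal.zero_rpow_of_pos (by linarith)]
      simp
    · rw [ENNReal.zero_rpow_of_neg (by linarith : -c < 0)]
      rw [ENNReal.mul_top]
      · exact le_top
      · rw [Ne, ENNReal.rpow_eq_zero_iff]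
        rintro (⟨h, _⟩ | ⟨h, _⟩)
        · exact hR0 h
        · exact hR h
  · have e : -c' = (c - c') + -c := by ring
    rw [e, ENNReal.rpow_add _ _ hx0 hxt]
    gcongr

/-! ### Charts -/

section chart

variable {n : ℕ} {B : Type} [CommRing B] [Algebra ℂ B] {z : Fin n → B} {y : B →ₐ[ℂ] ℂ}

theorem chart_zero_mem (C : Chart z y) : (0 : Cn n) ∈ ball (0 : Cn n) C.r := mem_ball_self C.r_pos

theorem chart_ball_mem (C : Chart z y) : ball (0 : Cn n) C.r ∈ 𝓝 (0 : Cn n) :=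
  ball_mem_nhds _ C.r_pos

theorem chart_analyticAt (C : Chart z y) (b : B) : AnalyticAt ℂ (fun ζ => C.s ζ b) 0 :=
  C.anal b 0 (chart_zero_mem C)

theorem chart_continuousOn (C : Chart z y) (b : B) :
    ContinuousOn (fun ζ => C.s ζ b) (ball (0 : Cn n) C.r) := (C.anal b).continuousOn

theorem chart_continuousAt (C : Chart z y) (b : B) : ContinuousAt (fun ζ => C.s ζ b) 0 :=
  (chart_analyticAt C b).continuousAt

theorem chart_tendsto (C : Chart z y) (b : B) :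
    Tendsto (fun ζ => C.s ζ b) (𝓝 0) (𝓝 (y b)) := by
  have h := chart_continuousAt C b
  have e : C.s 0 b = y b := by rw [C.s_zero]
  rw [ContinuousAt, e] at h
  exact h

/-- finitely many functions are close to their values at `y` near `0` -/
theorem chart_eventually_close (C : Chart z y) (T : Finset B) {ε : ℝ} (hε : 0 < ε) :
    ∀ᶠ ζ in 𝓝 (0 : Cn n), ∀ b ∈ T, ‖C.s ζ b - y b‖ < ε := by
  rw [Filter.eventually_all_finset]
  intro b _
  have h := (chart_tendsto C b)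
  rw [Metric.tendsto_nhds] at h
  have h2 := h ε hε
  filter_upwards [h2] with ζ hζ
  rwa [dist_eq_norm] at hζ

/-- two charts at the same point agree near `0` -/
theorem chart_germ_eq (C C' : Chart z y) : ∀ᶠ ζ in 𝓝 (0 : Cn n), C.s ζ = C'.s ζ := by
  obtain ⟨T, ε, hε, hT⟩ := C'.surj
  filter_upwards [chart_eventually_close C T hε, chart_ball_mem C] with ζ hζ hζr
  have h := hT (C.s ζ) hζ
  rw [h]
  congr 1
  funext i
  have h2 := C.s_z ζ hζr i
  rw [h2]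
  ring

/-- `LIntB` may be tested in any chart at `y` -/
theorem LIntB_iff (C : Chart z y) (g : (B →ₐ[ℂ] ℂ) → ℝ≥0∞) :
    LIntB z y g ↔ LInt (fun ζ => g (C.s ζ)) 0 := by
  refine ⟨?_, fun h => ⟨C, h⟩⟩
  rintro ⟨C', h⟩
  refine LInt.congr h ?_
  filter_upwards [chart_germ_eq C C'] with ζ hζ
  rw [hζ]

/-- points of the chart are close to `y` and conversely; domination of functions on `M` near `y` -/
theorem LIntB.mono_const {g g' : (B →ₐ[ℂ] ℂ) → ℝ≥0∞} (h : LIntB z y g) {K : ℝ≥0∞} (hK : K ≠ ∞)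
    (hle : ∀ C : Chart z y, ∀ᶠ ζ in 𝓝 (0 : Cn n), g' (C.s ζ) ≤ K * g (C.s ζ)) : LIntB z y g' := by
  obtain ⟨C, hC⟩ := h
  exact ⟨C, LInt.mono_const hC hK (hle C)⟩

end chart

/-! ### the functions `wt` -/

section wt

variable {n : ℕ} {B : Type} [CommRing B] [Algebra ℂ B] {z : Fin n → B} {y : B →ₐ[ℂ] ℂ}

theorem wt_nonneg (S : Finset B) (y : B →ₐ[ℂ] ℂ) : 0 ≤ wt S y :=
  Finset.sum_nonneg fun _ _ => by positivity

theorem sq_norm_le_wt {S : Finset B} {b : B} (hb : b ∈ S) (y : B →ₐ[ℂ] ℂ) : ‖y b‖ ^ 2 ≤ wt S y :=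
  Finset.single_le_sum (f := fun b => ‖y b‖ ^ 2) (fun _ _ => by positivity) hb

theorem wt_continuousOn (C : Chart z y) (S : Finset B) :
    ContinuousOn (fun ζ => wt S (C.s ζ)) (ball (0 : Cn n) C.r) :=
  continuousOn_finsetSum _ fun b _ => ((chart_continuousOn C b).norm).pow 2

theorem wt_continuousAt (C : Chart z y) (S : Finset B) :
    ContinuousAt (fun ζ => wt S (C.s ζ)) 0 :=
  (wt_continuousOn C S).continuousAt (chart_ball_mem C)

theorem wt_tendsto (C : Chart z y) (S : Finset B) :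
    Tendsto (fun ζ => wt S (C.s ζ)) (𝓝 0) (𝓝 (wt S y)) := by
  have h := wt_continuousAt C S
  have e : wt S (C.s 0) = wt S y := by rw [C.s_zero]
  rw [ContinuousAt, e] at h
  exact h

theorem wt_bounded (C : Chart z y) (S : Finset B) :
    ∀ᶠ ζ in 𝓝 (0 : Cn n), wt S (C.s ζ) ≤ wt S y + 1 := by
  have h := (wt_tendsto C S).eventually (ge_mem_nhds (lt_add_one (wt S y)))
  exact h

theorem wt_aemeasurable (C : Chart z y) (S : Finset B) (c : ℝ) :
    AEMeasurable (fun ζ => (ENNReal.ofReal (wt S (C.s ζ))) ^ c)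
      (volume.restrict (ball (0 : Cn n) C.r)) := by
  have h : AEMeasurable (fun ζ => wt S (C.s ζ)) (volume.restrict (ball (0 : Cn n) C.r)) :=
    (wt_continuousOn C S).aemeasurable measurableSet_ball
  exact h.ennreal_ofReal.pow_const c

theorem wB_aemeasurable {ι : Type} [Fintype ι] (C : Chart z y) (S : ι → Finset B) (c : ι → ℝ) :
    AEMeasurable (fun ζ => wB S c (C.s ζ)) (volume.restrict (ball (0 : Cn n) C.r)) := by
  unfold wB
  exact Finset.aemeasurable_fun_prod _ fun i _ => wt_aemeasurable C (S i) _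

/-- an element of the ideal spanned by `T` is bounded by `|T|` -/
theorem exists_sq_norm_le {T : Finset B} {b : B} (hb : b ∈ Ideal.span (T : Set B)) :
    ∃ f : B → B, ∀ y' : B →ₐ[ℂ] ℂ, ‖y' b‖ ^ 2 ≤ (∑ t ∈ T, ‖y' (f t)‖ ^ 2) * wt T y' := by
  obtain ⟨f, -, hf⟩ := Submodule.mem_span_finset.1 hb
  refine ⟨f, fun y' => ?_⟩
  have e : y' b = ∑ t ∈ T, y' (f t) * y' t := by
    rw [← hf, map_sum]
    exact Finset.sum_congr rfl fun t _ => by rw [smul_eq_mul, map_mul]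
  have h1 : ‖y' b‖ ≤ ∑ t ∈ T, ‖y' (f t)‖ * ‖y' t‖ := by
    rw [e]
    refine (norm_sum_le _ _).trans (Finset.sum_le_sum fun t _ => ?_)
    rw [norm_mul]
  calc ‖y' b‖ ^ 2 ≤ (∑ t ∈ T, ‖y' (f t)‖ * ‖y' t‖) ^ 2 := by gcongr
    _ ≤ (∑ t ∈ T, ‖y' (f t)‖ ^ 2) * ∑ t ∈ T, ‖y' t‖ ^ 2 := Finset.sum_mul_sq_le_sq_mul_sq _ _ _
    _ = _ := rfl

/-- if `S` is contained in the ideal spanned by `T` then `|S|² ≤ K |T|²` near `y` -/
theorem wt_le_of_subset_span (y : B →ₐ[ℂ] ℂ) {S T : Finset B}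
    (h : (S : Set B) ⊆ Ideal.span (T : Set B)) :
    ∃ K : ℝ, 0 < K ∧ ∀ C : Chart z y, ∀ᶠ ζ in 𝓝 (0 : Cn n), wt S (C.s ζ) ≤ K * wt T (C.s ζ) := by
  have h1 : ∀ b : B, ∃ f : B → B, b ∈ S →
      ∀ y' : B →ₐ[ℂ] ℂ, ‖y' b‖ ^ 2 ≤ (∑ t ∈ T, ‖y' (f t)‖ ^ 2) * wt T y' := by
    intro b
    by_cases hb : b ∈ S
    · obtain ⟨f, hf⟩ := exists_sq_norm_le (h hb)
      exact ⟨f, fun _ => hf⟩
    · exact ⟨fun _ => 0, fun h => absurd h hb⟩
  choose f hf using h1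
  refine ⟨(∑ b ∈ S, ∑ t ∈ T, ‖y (f b t)‖ ^ 2) + 1, ?_, fun C => ?_⟩
  · have : 0 ≤ ∑ b ∈ S, ∑ t ∈ T, ‖y (f b t)‖ ^ 2 :=
      Finset.sum_nonneg fun _ _ => Finset.sum_nonneg fun _ _ => by positivity
    linarith
  · have h2 : Tendsto (fun ζ => ∑ b ∈ S, ∑ t ∈ T, ‖C.s ζ (f b t)‖ ^ 2) (𝓝 0)
        (𝓝 (∑ b ∈ S, ∑ t ∈ T, ‖y (f b t)‖ ^ 2)) :=
      tendsto_finsetSum _ fun b _ => tendsto_finsetSum _ fun t _ =>
        ((chart_tendsto C (f b t)).norm).pow 2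
    have h3 := h2.eventually (ge_mem_nhds (lt_add_one _))
    filter_upwards [h3] with ζ hζ
    calc wt S (C.s ζ) ≤ ∑ b ∈ S, (∑ t ∈ T, ‖C.s ζ (f b t)‖ ^ 2) * wt T (C.s ζ) :=
          Finset.sum_le_sum fun b hb => hf b hb (C.s ζ)
      _ = (∑ b ∈ S, ∑ t ∈ T, ‖C.s ζ (f b t)‖ ^ 2) * wt T (C.s ζ) := by rw [Finset.sum_mul]
      _ ≤ _ := by
          gcongr
          · exact wt_nonneg _ _

/-- the same in `[0,∞]` -/
theorem ofReal_wt_le_of_subset_span (y : B →ₐ[ℂ] ℂ) {S T : Finset B}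
    (h : (S : Set B) ⊆ Ideal.span (T : Set B)) :
    ∃ K : ℝ≥0∞, K ≠ 0 ∧ K ≠ ∞ ∧ ∀ C : Chart z y, ∀ᶠ ζ in 𝓝 (0 : Cn n),
      ENNReal.ofReal (wt S (C.s ζ)) ≤ K * ENNReal.ofReal (wt T (C.s ζ)) := by
  obtain ⟨K, hK, h2⟩ := wt_le_of_subset_span (z := z) y h
  refine ⟨ENNReal.ofReal K, by simpa using hK, ENNReal.ofReal_ne_top, fun C => ?_⟩
  filter_upwards [h2 C] with ζ hζ
  rw [← ENNReal.ofReal_mul hK.le]
  exact ENNReal.ofReal_le_ofReal hζ

/-- **comparison of the weights** of two families of generators: in each factor either the spans agree, or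
the exponent is nonnegative and `⟨S i⟩ ≤ ⟨T i⟩`; the exponents may decrease -/
theorem wB_le {ι : Type} [Fintype ι] (y : B →ₐ[ℂ] ℂ) (S T : ι → Finset B) (c c' : ι → ℝ)
    (hc : ∀ i, c' i ≤ c i)
    (h : ∀ i, Ideal.span (S i : Set B) = Ideal.span (T i : Set B) ∨
      (0 ≤ c i ∧ Ideal.span (S i : Set B) ≤ Ideal.span (T i : Set B))) :
    ∃ K : ℝ≥0∞, K ≠ ∞ ∧ ∀ C : Chart z y, ∀ᶠ ζ in 𝓝 (0 : Cn n),
      wB T c' (C.s ζ) ≤ K * wB S c (C.s ζ) := by
  have hle : ∀ i, Ideal.span (S i : Set B) ≤ Ideal.span (T i : Set B) := by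
    intro i
    rcases h i with h | h
    · exact h.le
    · exact h.2
  -- factorwise
  have key : ∀ i, ∃ K : ℝ≥0∞, K ≠ ∞ ∧ ∀ C : Chart z y, ∀ᶠ ζ in 𝓝 (0 : Cn n),
      (ENNReal.ofReal (wt (T i) (C.s ζ))) ^ (-(c' i)) ≤
        K * (ENNReal.ofReal (wt (S i) (C.s ζ))) ^ (-(c i)) := by
    intro i
    obtain ⟨K₁, hK₁, hK₁', h₁⟩ := ofReal_wt_le_of_subset_span (z := z) y
      (S := S i) (T := T i) (Ideal.span_le.1 (hle i))
    have h₂ : ∃ K : ℝ≥0∞, K ≠ 0 ∧ K ≠ ∞ ∧ (c i < 0 → ∀ C : Chart z y, ∀ᶠ ζ in 𝓝 (0 : Cn n),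
        ENNReal.ofReal (wt (T i) (C.s ζ)) ≤ K * ENNReal.ofReal (wt (S i) (C.s ζ))) := by
      by_cases hci : c i < 0
      · have heq : Ideal.span (S i : Set B) = Ideal.span (T i : Set B) := by
          rcases h i with h | h
          · exact h
          · exact absurd h.1 (not_le.2 hci)
        obtain ⟨K, h1, h2, h3⟩ := ofReal_wt_le_of_subset_span (z := z) y
          (S := T i) (T := S i) (Ideal.span_le.1 heq.ge)
        exact ⟨K, h1, h2, fun _ => h3⟩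
      · exact ⟨1, one_ne_zero, ENNReal.one_ne_top, fun h => absurd h hci⟩
    obtain ⟨K₂, hK₂, hK₂', h₂⟩ := h₂
    set R : ℝ≥0∞ := ENNReal.ofReal (wt (T i) y + 1) with hR
    have hRpos : 0 < wt (T i) y + 1 := by have := wt_nonneg (T i) y; linarith
    have hR0 : R ≠ 0 := by rw [hR]; simpa using hRpos
    have hRt : R ≠ ∞ := ENNReal.ofReal_ne_top
    set K : ℝ≥0∞ := K₁ ⊔ K₂ with hKdef
    have hK0 : K ≠ 0 := by
      intro h0
      have : K₁ ≤ 0 := by rw [← h0]; exact le_sup_left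
      exact hK₁ (le_antisymm this bot_le)
    have hKt : K ≠ ∞ := (max_lt hK₁'.lt_top hK₂'.lt_top).ne
    refine ⟨R ^ (c i - c' i) * K ^ |c i|, ?_, fun C => ?_⟩
    · exact ENNReal.mul_ne_top (ENNReal.rpow_ne_top_of_nonneg (by linarith [hc i]) hRt)
        (ENNReal.rpow_ne_top_of_nonneg (abs_nonneg _) hKt)
    · have hev : ∀ᶠ ζ in 𝓝 (0 : Cn n), c i < 0 →
          ENNReal.ofReal (wt (T i) (C.s ζ)) ≤ K₂ * ENNReal.ofReal (wt (S i) (C.s ζ)) := by
        by_cases hci : c i < 0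
        · exact (h₂ hci C).mono fun ζ h _ => h
        · exact Eventually.of_forall fun ζ h => absurd h hci
      filter_upwards [h₁ C, hev, wt_bounded C (T i)] with ζ a1 a2 a3
      have b1 := rpow_neg_le_of_exponent hR0 hRt (ENNReal.ofReal_le_ofReal a3) (hc i)
      have b2 : (ENNReal.ofReal (wt (T i) (C.s ζ))) ^ (-(c i)) ≤
          K ^ |c i| * (ENNReal.ofReal (wt (S i) (C.s ζ))) ^ (-(c i)) := by
        refine rpow_neg_le hK0 hKt (fun _ => a1.trans ?_) (fun hci => (a2 hci).trans ?_)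
        · gcongr
          exact le_sup_left
        · gcongr
          exact le_sup_right
      calc _ ≤ R ^ (c i - c' i) * (ENNReal.ofReal (wt (T i) (C.s ζ))) ^ (-(c i)) := b1
        _ ≤ R ^ (c i - c' i) * (K ^ |c i| * (ENNReal.ofReal (wt (S i) (C.s ζ))) ^ (-(c i))) := by
            gcongr
        _ = _ := by rw [mul_assoc]
  choose K hK hKle using key
  refine ⟨∏ i, K i, ENNReal.prod_ne_top fun i _ => hK i, fun C => ?_⟩
  have hall : ∀ᶠ ζ in 𝓝 (0 : Cn n), ∀ i, (ENNReal.ofReal (wt (T i) (C.s ζ))) ^ (-(c' i)) ≤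
        K i * (ENNReal.ofReal (wt (S i) (C.s ζ))) ^ (-(c i)) :=
    Filter.eventually_all.2 fun i => hKle i C
  filter_upwards [hall] with ζ hζ
  unfold wB
  rw [← Finset.prod_mul_distrib]
  exact Finset.prod_le_prod' fun i _ => hζ i

end wt

end Crest.Agent.R271.Local821
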