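import Crest.Agent.R271.Fr_960
import Crest.Agent.R271.Br6_958
import Crest.Agent.R271.KrullTrdeg_661
import Crest.Agent.R271.UfdH_243
import Crest.Agent.R271.Ctx0_728

-- ▼ part R271/PCtx1_961
section

/-!
Row 271, bridge: finite type, smoothness and closed points of affine open sets (helper961).
-/

set_option autoImplicit false
set_option linter.unusedSectionVars false

open AlgebraicGeometry Crest.AlgGeometry.Divisors Order CategoryTheory TopologicalSpace

noncomputable section

namespace Crest.Agent.R271.PCtx961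

open Crest.Agent.R271.Bs960

set_option warn.classDefReducibility false in
attribute [local instance] fnFieldAlgebra

variable {X : Scheme.{0}} [Algebra ℂ Γ(X, ⊤)]

/-- `X` proper over `ℂ` is quasi-compact -/
theorem compactSpace (hX : IsProper (structureMorphism ℂ X)) : CompactSpace X := by
  have h1 : QuasiCompact (structureMorphism ℂ X) := inferInstance
  exact QuasiCompact.compactSpace_of_compactSpace (structureMorphism ℂ X)

/-- sections over affine open sets are finitely generated -/
theorem finiteType_sec (hX : IsProper (structureMorphism ℂ X)) {U : X.Opens}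
    (hU : IsAffineOpen U) : letI := secAlg X U; Algebra.FiniteType ℂ Γ(X, U) := by
  letI := secAlg X U
  have hft : LocallyOfFiniteType (structureMorphism ℂ X) := hX.toLocallyOfFiniteType
  have e : U ≤ (structureMorphism ℂ X) ⁻¹ᵁ ⊤ := le_top
  have h := Scheme.Hom.finiteType_appLE (structureMorphism ℂ X)
    (isAffineOpen_top (Spec (CommRingCat.of ℂ))) hU e
  have h3 := congrArg CommRingCat.Hom.hom (structure_appLE X U e)
  rw [CommRingCat.hom_comp, CommRingCat.hom_comp] at h3
  have h4 : (algebraMap ℂ Γ(X, U)) =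
    ((structureMorphism ℂ X).appLE ⊤ U e).hom.comp
      (Scheme.ΓSpecIso (CommRingCat.of ℂ)).inv.hom := h3.symm
  have h5 : (algebraMap ℂ Γ(X, U)).FiniteType := by
    rw [h4]
    refine RingHom.FiniteType.comp h (RingHom.FiniteType.of_surjective _ ?_)
    exact ((Scheme.ΓSpecIso (CommRingCat.of ℂ)).symm.commRingCatIsoToRingEquiv).surjective
  rwa [RingHom.finiteType_algebraMap] at h5

/-- standard smooth charts -/
theorem exists_stdSmooth_chart {n : ℕ} (hX : IsSmoothProperVariety ℂ X n) (x : X) :
    ∃ V : X.Opens, IsAffineOpen V ∧ x ∈ V ∧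
      letI := secAlg X V
      (algebraMap ℂ Γ(X, V)).IsStandardSmoothOfRelativeDimension n := by
  have hs := hX.2.2
  obtain ⟨U, hU, V, hV, hxV, e, h⟩ := hs.exists_isStandardSmoothOfRelativeDimension x
  have hUt : U = ⊤ := by
    have hsub : ∀ a b : Spec (CommRingCat.of ℂ), a = b := fun a b =>
      (inferInstance : Subsingleton (PrimeSpectrum ℂ)).elim a b
    ext a
    simp only [TopologicalSpace.Opens.coe_top, Set.mem_univ, iff_true]
    rw [hsub a ((structureMorphism ℂ X) x)]
    exact e hxV
  subst hUt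
  refine ⟨V, hV, hxV, ?_⟩
  letI := secAlg X V
  have h3 := congrArg CommRingCat.Hom.hom (structure_appLE X V e)
  rw [CommRingCat.hom_comp, CommRingCat.hom_comp] at h3
  have h4 : (algebraMap ℂ Γ(X, V)) =
    ((structureMorphism ℂ X).appLE ⊤ V e).hom.comp
      (Scheme.ΓSpecIso (CommRingCat.of ℂ)).inv.hom := h3.symm
  rw [h4]
  exact RingHom.isStandardSmoothOfRelativeDimension_respectsIso.right _
    ((Scheme.ΓSpecIso (CommRingCat.of ℂ)).symm.commRingCatIsoToRingEquiv) h

/-- restriction of sections is a map of `ℂ`-algebras -/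
lemma sec_comp {U V : X.Opens} (h : U ≤ V) :
    (X.presheaf.map (homOfLE h).op).hom.comp (letI := secAlg X V; algebraMap ℂ Γ(X, V)) =
      (letI := secAlg X U; algebraMap ℂ Γ(X, U)) := by
  change (X.presheaf.map (homOfLE h).op).hom.comp
    ((X.presheaf.map (homOfLE (le_top : V ≤ ⊤)).op).hom.comp (algebraMap ℂ Γ(X, ⊤))) =
    (X.presheaf.map (homOfLE (le_top : U ≤ ⊤)).op).hom.comp (algebraMap ℂ Γ(X, ⊤))
  rw [← RingHom.comp_assoc, ← CommRingCat.hom_comp, ← X.presheaf.map_comp]
  rfl

/-- smoothness of `Γ(X, U)` at a point of the affine open `U` -/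
theorem smooth_at {n : ℕ} (hX : IsSmoothProperVariety ℂ X n) {U : X.Opens}
    (hU : IsAffineOpen U) (x : X) (hx : x ∈ U) :
    letI := secAlg X U
    ∃ t : Γ(X, U), x ∈ X.basicOpen t ∧
      Algebra.IsStandardSmoothOfRelativeDimension n ℂ (Localization.Away t) := by
  letI := secAlg X U
  obtain ⟨V, hV, hxV, hsm⟩ := exists_stdSmooth_chart hX x
  obtain ⟨f, g, hfg, hxf⟩ := exists_basicOpen_le_affine_inter hU hV x ⟨hx, hxV⟩
  refine ⟨f, hxf, ?_⟩
  have hWU : X.basicOpen g ≤ U := by rw [← hfg]; exact X.basicOpen_le f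
  have hWV : X.basicOpen g ≤ V := X.basicOpen_le g
  -- `Γ(X, D(g))` is standard smooth
  have h1 : (letI := secAlg X (X.basicOpen g); algebraMap ℂ Γ(X, X.basicOpen g)
      ).IsStandardSmoothOfRelativeDimension n := by
    have hloc : @IsLocalization.Away _ _ g Γ(X, X.basicOpen g) _
        (X.presheaf.map (homOfLE hWV).op).hom.toAlgebra :=
      hV.isLocalization_of_eq_basicOpen g (homOfLE hWV) rfl
    letI : Algebra Γ(X, V) Γ(X, X.basicOpen g) :=
      (X.presheaf.map (homOfLE hWV).op).hom.toAlgebra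
    have h2 : (algebraMap Γ(X, V) Γ(X, X.basicOpen g)).IsStandardSmoothOfRelativeDimension 0 :=
      RingHom.IsStandardSmoothOfRelativeDimension.algebraMap_isLocalizationAway g
    have h3 := h2.comp hsm
    rw [zero_add] at h3
    have h4 : (algebraMap Γ(X, V) Γ(X, X.basicOpen g)) =
      (X.presheaf.map (homOfLE hWV).op).hom := rfl
    rw [h4, sec_comp hWV] at h3
    exact h3
  -- compare with `Localization.Away f`
  have hloc' : @IsLocalization.Away _ _ f Γ(X, X.basicOpen g) _
      (X.presheaf.map (homOfLE hWU).op).hom.toAlgebra :=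
    hU.isLocalization_of_eq_basicOpen f (homOfLE hWU) hfg.symm
  letI : Algebra Γ(X, U) Γ(X, X.basicOpen g) :=
      (X.presheaf.map (homOfLE hWU).op).hom.toAlgebra
  letI : Algebra ℂ Γ(X, X.basicOpen g) := secAlg X (X.basicOpen g)
  have htow : IsScalarTower ℂ Γ(X, U) Γ(X, X.basicOpen g) :=
    IsScalarTower.of_algebraMap_eq' (sec_comp hWU).symm
  let e : Γ(X, X.basicOpen g) ≃ₐ[Γ(X, U)] Localization.Away f :=
    (IsLocalization.algEquiv (Submonoid.powers f) (Localization.Away f)
      Γ(X, X.basicOpen g)).symm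
  have h5 : Algebra.IsStandardSmoothOfRelativeDimension n ℂ Γ(X, X.basicOpen g) := h1
  exact Algebra.IsStandardSmoothOfRelativeDimension.of_algEquiv n (e.restrictScalars ℂ)

/-- membership in a basic open set in terms of the prime ideal of the point -/
lemma mem_basicOpen_iff {U : X.Opens} (hU : IsAffineOpen U) (x : X) (hx : x ∈ U)
    (t : Γ(X, U)) : x ∈ X.basicOpen t ↔ t ∉ (hU.primeIdealOf ⟨x, hx⟩).asIdeal := by
  have h := hU.fromSpec_preimage_basicOpen t
  have h2 : hU.primeIdealOf ⟨x, hx⟩ ∈ hU.fromSpec ⁻¹ᵁ X.basicOpen t ↔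
      x ∈ X.basicOpen t := by
    change hU.fromSpec (hU.primeIdealOf ⟨x, hx⟩) ∈ X.basicOpen t ↔ _
    rw [hU.fromSpec_primeIdealOf ⟨x, hx⟩]
  rw [← h2, h]
  rfl

/-- closed points have maximal ideals -/
lemma isMaximal_of_isClosed {U : X.Opens} (hU : IsAffineOpen U) (x : X) (hx : x ∈ U)
    (hcl : IsClosed ({x} : Set X)) : (hU.primeIdealOf ⟨x, hx⟩).asIdeal.IsMaximal := by
  rw [← PrimeSpectrum.isClosed_singleton_iff_isMaximal]
  have h1 : ({hU.primeIdealOf ⟨x, hx⟩} : Set (Spec Γ(X, U))) = hU.fromSpec ⁻¹' {x} := by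
    ext q
    simp only [Set.mem_singleton_iff, Set.mem_preimage]
    constructor
    · rintro rfl
      exact hU.fromSpec_primeIdealOf ⟨x, hx⟩
    · intro hq
      apply hU.fromSpec.isOpenEmbedding.injective
      rw [hq]
      exact (hU.fromSpec_primeIdealOf ⟨x, hx⟩).symm
  have h2 : IsClosed ({hU.primeIdealOf ⟨x, hx⟩} : Set (Spec Γ(X, U))) := by
    rw [h1]
    exact hcl.preimage hU.fromSpec.continuous
  exact h2

end Crest.Agent.R271.PCtx961
end
end

-- ▼ part R271/PCtx2_961

/-!
Row 271, bridge: the ring `Γ(X, U) ⊆ K`, its `ℂ`-points and smoothness (helper961).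
-/

set_option autoImplicit false
set_option linter.unusedSectionVars false
set_option linter.style.haveILetI false

open AlgebraicGeometry Crest.AlgGeometry.Divisors Order CategoryTheory TopologicalSpace

noncomputable section

namespace Crest.Agent.R271.PCtx961

open Crest.Agent.R271.Bs960 Crest.Agent.R271.Br958

set_option warn.classDefReducibility false in
attribute [local instance] fnFieldAlgebra

variable {X : Scheme.{0}} [Algebra ℂ Γ(X, ⊤)] [IsIntegral X]

/-- smooth varieties are normal -/
theorem normalSch [IsLocallyNoetherian X] {n : ℕ} (hX : IsSmoothProperVariety ℂ X n) :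
    NormalSch X :=
  ⟨fun x => by
    have := UFD243.stalk_ufd X hX x
    infer_instance⟩

/-- `Γ(X, U) → K` -/
def secHom (U : X.Opens) [Nonempty U] : letI := secAlg X U; Γ(X, U) →ₐ[ℂ] X.functionField :=
  letI := secAlg X U
  letI := tower_sec_fn X U
  IsScalarTower.toAlgHom ℂ Γ(X, U) X.functionField


lemma secHom_injective (U : X.Opens) [Nonempty U] :
    Function.Injective (letI := secAlg X U; (secHom U : Γ(X, U) → X.functionField)) :=
  Scheme.germToFunctionField_injective X U

/-- the ring `Γ(X, U)` as a subring of the function field -/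
def secSub (U : X.Opens) [Nonempty U] : Subalgebra ℂ X.functionField :=
  letI := secAlg X U
  (secHom U).range


/-- `Γ(X, U) ≃ secSub U` -/
def secEquiv (U : X.Opens) [Nonempty U] : letI := secAlg X U; Γ(X, U) ≃ₐ[ℂ] secSub U :=
  letI := secAlg X U
  AlgEquiv.ofInjective (secHom U) (secHom_injective U)


theorem secSub_finiteType (hX : IsProper (structureMorphism ℂ X)) {U : X.Opens} [Nonempty U]
    (hU : IsAffineOpen U) : Algebra.FiniteType ℂ (secSub U) := by
  letI := secAlg X U
  have := finiteType_sec hX hU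
  exact Algebra.FiniteType.equiv this (secEquiv U)

theorem secSub_frac {U : X.Opens} [Nonempty U] (hU : IsAffineOpen U) (u : X.functionField) :
    ∃ a b : secSub U, (b : X.functionField) ≠ 0 ∧ u * b = a := by
  have := functionField_isFractionRing_of_isAffineOpen X U hU
  obtain ⟨a, b, hb, h⟩ := IsFractionRing.div_surjective (A := Γ(X, U)) u
  have hb' : algebraMap Γ(X, U) X.functionField b ≠ 0 := by
    have := nonZeroDivisors.ne_zero hb
    simpa using this
  refine ⟨⟨_, a, rfl⟩, ⟨_, b, rfl⟩, hb', ?_⟩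
  change u * algebraMap Γ(X, U) X.functionField b = algebraMap Γ(X, U) X.functionField a
  rw [← h]
  field_simp

/-- evaluation at a closed point of an affine open set -/
theorem exists_eval (hX : IsProper (structureMorphism ℂ X)) {U : X.Opens} [Nonempty U]
    (hU : IsAffineOpen U) (x : X) (hx : x ∈ U) (hcl : IsClosed ({x} : Set X)) :
    ∃ y : secSub U →ₐ[ℂ] ℂ, ∀ a : Γ(X, U),
      y ⟨algebraMap Γ(X, U) X.functionField a, a, rfl⟩ = 0 ↔ x ∉ X.basicOpen a := by
  letI := secAlg X U
  have := finiteType_sec hX hU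
  have hm := isMaximal_of_isClosed hU x hx hcl
  obtain ⟨ev, hev⟩ := KT661.exists_point_of_isMaximal (hU.primeIdealOf ⟨x, hx⟩).asIdeal
  refine ⟨ev.comp (secEquiv U).symm.toAlgHom, fun a => ?_⟩
  have h1 : (secEquiv U).symm ⟨algebraMap Γ(X, U) X.functionField a, a, rfl⟩ = a := by
    rw [AlgEquiv.symm_apply_eq]
    rfl
  have h2 : (ev.comp (secEquiv U).symm.toAlgHom) ⟨algebraMap Γ(X, U) X.functionField a, a, rfl⟩
      = ev a := by
    rw [AlgHom.comp_apply]
    exact congrArg ev h1
  rw [h2, mem_basicOpen_iff hU x hx a, not_not]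
  have h3 : a ∈ RingHom.ker (ev : Γ(X, U) →+* ℂ) ↔ a ∈ (hU.primeIdealOf ⟨x, hx⟩).asIdeal := by
    rw [hev]
  rw [← h3, RingHom.mem_ker]
  rfl


/-- smoothness at a closed point, in terms of `secSub` -/
theorem secSub_smooth {n : ℕ} (hX : IsSmoothProperVariety ℂ X n) {U : X.Opens} [Nonempty U]
    (hU : IsAffineOpen U) (x : X) (hx : x ∈ U) (y : secSub U →ₐ[ℂ] ℂ)
    (hy : ∀ a : Γ(X, U), y ⟨algebraMap Γ(X, U) X.functionField a, a, rfl⟩ = 0 ↔
      x ∉ X.basicOpen a) :
    ∃ t : secSub U, y t ≠ 0 ∧
      Algebra.IsStandardSmoothOfRelativeDimension n ℂ (Localization.Away t) := by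
  letI := secAlg X U
  obtain ⟨t, hxt, hsm⟩ := smooth_at hX hU x hx
  refine ⟨secEquiv U t, fun h0 => ?_, ?_⟩
  · exact ((hy t).mp h0) hxt
  · let E : Γ(X, U) ≃ₐ[ℂ] secSub U := secEquiv U
    let e1 : Localization.Away t ≃+* Localization.Away (E t) :=
      IsLocalization.ringEquivOfRingEquiv (M := Submonoid.powers t)
        (T := Submonoid.powers (E t)) _ _ (E : Γ(X, U) ≃+* secSub U) (by
          rw [Submonoid.map_powers]; rfl)
    let e : Localization.Away t ≃ₐ[ℂ] Localization.Away (E t) :=
      AlgEquiv.ofRingEquiv (f := e1) (by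
        intro c
        rw [IsScalarTower.algebraMap_apply ℂ Γ(X, U) (Localization.Away t)]
        change e1 _ = _
        rw [IsLocalization.ringEquivOfRingEquiv_eq]
        rw [IsScalarTower.algebraMap_apply ℂ (secSub U) (Localization.Away (E t))]
        congr 1
        exact E.commutes c)
    exact Algebra.IsStandardSmoothOfRelativeDimension.of_algEquiv n e


end Crest.Agent.R271.PCtx961
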