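import Crest.Agent.R271.Sum7_186
import Crest.Agent.R271.Defs_710
import Crest.Agent.R271.BallSolver_399
import Crest.Agent.R271.G3_934
import Mathlib
import Crest.Agent.R271.IInt_821
import Crest.Agent.R271.Rd4_692
import Crest.Agent.R271.LInt_821

-- ▼ part R271/Sum8_186
section

/-!
Row 271 (S0413), local theory: `SumThm` of `Defs_710` from the `L²` solver on balls.
-/

open MeasureTheory Set Filter Topology Metric
open scoped ContDiff ENNReal Real

noncomputable section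

namespace Crest.Agent.R271.Sum186

open Crest.Agent.R271.Defs710

lemma inv_ofReal_rpow {x p : ℝ} (hx : 0 ≤ x) (hp : 0 ≤ p) :
    (ENNReal.ofReal (x ^ p))⁻¹ = ENNReal.ofReal x ^ (-p) := by
  rw [ENNReal.rpow_neg, ENNReal.ofReal_rpow_of_nonneg hx hp]

lemma inv_ofReal_mul {x y : ℝ} (hx : 0 ≤ x) :
    (ENNReal.ofReal (x * y))⁻¹ = (ENNReal.ofReal x)⁻¹ * (ENNReal.ofReal y)⁻¹ := by
  rw [ENNReal.ofReal_mul hx, ENNReal.mul_inv (Or.inr ENNReal.ofReal_ne_top)
    (Or.inl ENNReal.ofReal_ne_top)]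

lemma inv_ofReal_prod {ι : Type*} (S : Finset ι) {x p : ι → ℝ} (hx : ∀ i ∈ S, 0 ≤ x i)
    (hp : ∀ i ∈ S, 0 ≤ p i) :
    (ENNReal.ofReal (∏ i ∈ S, x i ^ p i))⁻¹ = ∏ i ∈ S, ENNReal.ofReal (x i) ^ (-(p i)) := by
  classical
  induction S using Finset.induction_on with
  | empty => simp
  | insert a S ha ih =>
    rw [Finset.prod_insert ha, Finset.prod_insert ha,
      inv_ofReal_mul (Real.rpow_nonneg (hx a (Finset.mem_insert_self a S)) _),
      inv_ofReal_rpow (hx a (Finset.mem_insert_self a S)) (hp a (Finset.mem_insert_self a S)),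
      ih (fun i hi => hx i (Finset.mem_insert_of_mem hi))
        (fun i hi => hp i (Finset.mem_insert_of_mem hi))]

lemma sq_nonneg' {n : ℕ} {κ : Type} [Fintype κ] (h : κ → Cn n → ℂ) (ζ : Cn n) : 0 ≤ sq h ζ :=
  Finset.sum_nonneg fun j _ => by positivity

lemma wInt_eq {n : ℕ} {ι : Type} [Fintype ι] {κ : ι → Type} [∀ i, Fintype (κ i)]
    (h : ∀ i, κ i → Cn n → ℂ) (c : ι → ℝ) (hc : ∀ i, 0 ≤ c i) (ζ : Cn n) :
    wInt h c ζ = (ENNReal.ofReal (∏ i, sq (h i) ζ ^ c i))⁻¹ := by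
  rw [inv_ofReal_prod _ (fun i _ => sq_nonneg' (h i) ζ) (fun i _ => hc i)]
  rfl

/-- (AF4), from the solver -/
theorem sumThm (hsol : ∀ (N : ℕ) (r : ℝ), 0 < r → Solver N (ball 0 r)) : SumThm := by
  classical
  intro N ι ι' _ _ _ κ _ κ' _ h g c θ hh hg hc hθ hint ε hε hε1
  obtain ⟨U, hU, hfin⟩ := hint
  have hev1 : ∀ᶠ z in 𝓝 (0 : CN N), ∀ i j, AnalyticAt ℂ (h i j) z :=
    eventually_all.2 fun i => eventually_all.2 fun j => (hh i j).eventually_analyticAt
  have hev2 : ∀ᶠ z in 𝓝 (0 : CN N), ∀ i j, AnalyticAt ℂ (g i j) z :=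
    eventually_all.2 fun i => eventually_all.2 fun j => (hg i j).eventually_analyticAt
  obtain ⟨r0, hr0, hball⟩ := Metric.eventually_nhds_iff_ball.1
    ((hev1.and hev2).and (Filter.eventually_of_mem hU fun _ h => h))
  set R : CN N → ℝ := fun z => ∏ i, sq (h i) z ^ c i with hR
  set A : ι' → CN N → ℝ := fun i z => sq (g i) z ^ θ i with hA
  have hRL : LogPsh (ball 0 r0) R := LogPsh.prod isOpen_ball _ fun i _ =>
    (LogPsh.sumsq fun j z hz => (hball z hz).1.1 i j).rpow isOpen_ball (hc i)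
  have hAL : ∀ i ∈ (Finset.univ : Finset ι'), LogPsh (ball 0 r0) (A i) := fun i _ =>
    (LogPsh.sumsq fun j z hz => (hball z hz).1.2 i j).rpow isOpen_ball (hθ i)
  have hR0 : ∀ z, 0 ≤ R z := fun z => Finset.prod_nonneg fun i _ =>
    Real.rpow_nonneg (sq_nonneg' (h i) z) _
  have hA0 : ∀ i z, 0 ≤ A i z := fun i z => Real.rpow_nonneg (sq_nonneg' (g i) z) _
  have hint' : ∫⁻ z in ball 0 r0, (ENNReal.ofReal (R z * ∑ i, A i z))⁻¹ < ⊤ := by
    refine lt_of_le_of_lt ?_ hfin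
    refine le_trans (lintegral_mono fun z => ?_)
      (lintegral_mono_set (fun z hz => (hball z hz).2 : ball (0 : CN N) r0 ⊆ U))
    obtain ⟨j, hj⟩ := exists_eq_ciInf_of_finite
      (f := fun i : ι' => (ENNReal.ofReal (sq (g i) z)) ^ (-(θ i)))
    simp only
    rw [← hj, wInt_eq h c hc z, ← inv_ofReal_rpow (sq_nonneg' (g j) z) (hθ j),
      ← inv_ofReal_mul (hR0 z)]
    apply ENNReal.inv_le_inv.2
    apply ENNReal.ofReal_le_ofReal
    refine mul_le_mul_of_nonneg_left ?_ (hR0 z)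
    exact Finset.single_le_sum (f := fun i => A i z) (fun i _ => hA0 i z) (Finset.mem_univ j)
  obtain ⟨t, ht0, ht1, r', hr'0, _, h3⟩ := sum_fin (hsol N) Finset.univ Finset.univ_nonempty
    hr0 hRL hAL hint' hε hε1
  refine ⟨t, ht0, ht1, ball 0 r', ball_mem_nhds _ hr'0, ?_⟩
  refine lt_of_le_of_lt (le_of_eq ?_) h3
  refine lintegral_congr fun z => ?_
  have hc' : ∀ i, 0 ≤ (1 - ε) * c i := fun i => mul_nonneg (by linarith) (hc i)
  have hθ' : ∀ i, 0 ≤ (1 - ε) * (t i * θ i) := fun i =>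
    mul_nonneg (by linarith) (mul_nonneg (ht0 i) (hθ i))
  rw [wInt_eq h _ hc', wInt_eq g _ hθ', ← inv_ofReal_mul (Finset.prod_nonneg fun i _ =>
    Real.rpow_nonneg (sq_nonneg' (h i) z) _)]
  congr 2
  have hP : 0 ≤ ∏ i, A i z ^ t i := Finset.prod_nonneg fun i _ => Real.rpow_nonneg (hA0 i z) _
  rw [Real.mul_rpow (hR0 z) hP, hR, hA]
  simp only
  rw [← Real.finsetProd_rpow _ _ fun i _ => Real.rpow_nonneg (sq_nonneg' (h i) z) _,
    ← Real.finsetProd_rpow _ _ fun i _ =>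
      Real.rpow_nonneg (Real.rpow_nonneg (sq_nonneg' (g i) z) _) _]
  congr 1
  · refine Finset.prod_congr rfl fun i _ => ?_
    rw [← Real.rpow_mul (sq_nonneg' (h i) z), mul_comm]
  · refine Finset.prod_congr rfl fun i _ => ?_
    rw [← Real.rpow_mul (sq_nonneg' (g i) z), ← Real.rpow_mul (sq_nonneg' (g i) z)]
    congr 1
    ring

end Crest.Agent.R271.Sum186
end
end

-- ▼ part R271/Sum9_186
section

/-!
Row 271 (S0413), local theory: `Solver` on balls from the engine, hence `SumThm` from `EngineP`.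
-/

open MeasureTheory Set Filter Topology Metric
open scoped ContDiff ENNReal Real

noncomputable section

namespace Crest.Agent.R271.Sum186

open Crest.Agent.R271.Defs710 Crest.Agent.R271.Ball399

variable {N : ℕ}

lemma lev0_eq {φ : CN N → ℝ} {z : CN N} (h : ContDiffAt ℝ 2 φ z) (w : CN N) :
    lev0 φ z w = levi φ z w := by
  unfold lev0 levi
  rw [fd2_apply h w w, fd2_apply h (Complex.I • w) (Complex.I • w)]
  ring

lemma real_decomp (L : CN N →L[ℝ] ℂ) (w : CN N) :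
    L w = ∑ j, (((w j).re : ℂ) * L (Pi.single j 1) + ((w j).im : ℂ) * L (Pi.single j Complex.I)) := by
  have hw : w = ∑ j, ((w j).re • (Pi.single j (1 : ℂ) : CN N) +
      (w j).im • (Pi.single j Complex.I : CN N)) := by
    funext i
    rw [Finset.sum_apply]
    rw [Finset.sum_eq_single i]
    · simp only [Pi.add_apply, Pi.smul_apply, Pi.single_eq_same, Complex.real_smul, mul_one]
      exact (Complex.re_add_im (w i)).symm
    · intro j _ hj
      simp [Pi.single_eq_of_ne hj.symm]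
    · intro h; exact absurd (Finset.mem_univ i) h
  conv_lhs => rw [hw]
  rw [map_sum]
  refine Finset.sum_congr rfl fun j _ => ?_
  rw [map_add, map_smul, map_smul, Complex.real_smul, Complex.real_smul]

lemma dbar0_sum (G : CN N → ℂ) (z w : CN N) :
    ∑ j, dbar0 j G z * (starRingEnd ℂ) (w j) = dbar G z w := by
  unfold dbar dbar0
  rw [real_decomp (fderiv ℝ G z) w, real_decomp (fderiv ℝ G z) (Complex.I • w), Finset.mul_sum,
    ← Finset.sum_add_distrib, Finset.sum_div]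
  refine Finset.sum_congr rfl fun j _ => ?_
  have h1 : (Complex.I • w) j = Complex.I * w j := rfl
  rw [h1]
  have hre : ((Complex.I * w j).re : ℂ) = -((w j).im : ℂ) := by simp
  have him : ((Complex.I * w j).im : ℂ) = ((w j).re : ℂ) := by simp
  rw [hre, him]
  have hc : (starRingEnd ℂ) (w j) = ((w j).re : ℂ) - ((w j).im : ℂ) * Complex.I := by
    apply Complex.ext <;> simp
  rw [hc]
  linear_combination (((w j).im : ℂ) * (fderiv ℝ G z (Pi.single j Complex.I)) / 2) *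
    Complex.I_mul_I * (-1)

theorem solver_of_engine (hE : EngineP) (N : ℕ) (r : ℝ) (hr : 0 < r) : Solver N (ball 0 r) := by
  intro Φ G h hΦ hpos hG hhc hh0 hdb _
  have hat : ∀ z ∈ ball (0 : CN N) r, ContDiffAt ℝ 2 Φ z := fun z hz =>
    (hΦ.contDiffAt (isOpen_ball.mem_nhds hz)).of_le two_le_inf
  have hlev : ∀ z ∈ ball (0 : CN N) r, ∀ w, 0 ≤ lev0 Φ z w := by
    intro z hz w
    rw [lev0_eq (hat z hz)]
    by_cases hw : w = 0
    · subst hw
      simp [levi]
    · exact (hpos z hz w hw).le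
  obtain ⟨f, hf, hf2⟩ := solver hE hr hΦ hlev hG (kap := h) (fun z hz w => by
    rw [dbar0_sum, lev0_eq (hat z hz)]
    exact hdb z hz w)
  refine ⟨f, hf, ?_⟩
  refine le_trans (le_of_eq ?_) hf2
  refine lintegral_congr fun z => ?_
  rw [norm_sub_rev]

/-- **AF4**, `SumThm` of `Defs_710`, from the engine. -/
theorem sumThm_of_engine (hE : EngineP) : SumThm := sumThm fun N r hr => solver_of_engine hE N r hr

end Crest.Agent.R271.Sum186
end
end

-- ▼ part R271/G4_934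
section

/-!
# Row 271, sub-team L: (AF8) for germs (helper934)
-/

set_option autoImplicit false
open MeasureTheory Filter Topology Set Metric
open scoped ENNReal NNReal

namespace Crest.Agent.R271.L934

open Crest.Agent.R271.Defs710

/-- (AF8) for germs in adapted coordinates, the form used by helper103 -/
def AF8Germ (n : ℕ) : Prop := ∀ (d : ℕ), d < n → ∀ (m : ℕ) (h : Fin m → Cn n → ℂ) (a b g : ℝ),
  (∀ j, AnalyticAt ℂ (h j) 0) → 0 ≤ a → 0 ≤ b → (d : ℝ) < g →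
  LInt (fun ζ => (ENNReal.ofReal (∑ j, ‖h j ζ‖ ^ 2)) ^ (-a) *
    (ENNReal.ofReal (∑ i : {i : Fin n // d ≤ i.1}, ‖ζ i‖ ^ 2)) ^ (-b) *
    (ENNReal.ofReal (∑ i, ‖ζ i‖ ^ 2)) ^ (-g)) 0 →
  ∀ ε : ℝ, 0 < ε → ε < 1 → LInt (fun ζ => (ENNReal.ofReal (∑ j, ‖h j ζ‖ ^ 2)) ^ (-((1 - ε) * a)) *
    (ENNReal.ofReal (∑ i : {i : Fin n // d ≤ i.1}, ‖ζ i‖ ^ 2)) ^
      (-((1 - ε) * b + (g - d) - ε))) 0

section

variable {n d : ℕ}

/-- `Q = ∑_{i ≥ d} |wᵢ|²` -/
noncomputable def QQ (d : ℕ) (w : Cn n) : ℝ := ∑ i : {i : Fin n // d ≤ i.1}, ‖w i‖ ^ 2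

/-- `S = ∑ |wᵢ|²` -/
noncomputable def SS (w : Cn n) : ℝ := ∑ i, ‖w i‖ ^ 2


theorem SS_nonneg (w : Cn n) : 0 ≤ SS w := Finset.sum_nonneg fun _ _ => by positivity

theorem QQ_le_SS (w : Cn n) : QQ d w ≤ SS w := by
  unfold QQ SS
  have h := Finset.sum_map (Finset.univ : Finset {i : Fin n // d ≤ i.1})
    (Function.Embedding.subtype _) (fun i : Fin n => ‖w i‖ ^ 2)
  have h2 : ∑ i : {i : Fin n // d ≤ i.1}, ‖w i‖ ^ 2 =
      ∑ i ∈ Finset.map (Function.Embedding.subtype _) (Finset.univ : Finset {i : Fin n // d ≤ i.1}),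
        ‖w i‖ ^ 2 := h.symm
  rw [h2]
  exact Finset.sum_le_sum_of_subset_of_nonneg (Finset.subset_univ _) fun _ _ _ => by positivity

theorem QQ_cont : Continuous (QQ (n := n) d) := by unfold QQ; fun_prop

theorem SS_cont : Continuous (SS (n := n)) := by unfold SS; fun_prop

theorem le_QQ (w : Cn n) (i : Fin n) (hi : d ≤ i.1) : ‖w i‖ ^ 2 ≤ QQ d w :=
  Finset.single_le_sum (f := fun i : {i : Fin n // d ≤ i.1} => ‖w i‖ ^ 2)
    (fun _ _ => by positivity) (Finset.mem_univ (⟨i, hi⟩ : {i : Fin n // d ≤ i.1}))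

theorem ae_QQ_pos (hd : d < n) : ∀ᵐ w : Cn n, 0 < QQ d w := by
  have h : ∀ᵐ w : Cn n, w ⟨d, hd⟩ ≠ 0 := Measure.ae_eval_ne (μ := fun _ : Fin n => (volume : Measure ℂ)) _ _
  filter_upwards [h] with w hw
  have h1 := le_QQ w ⟨d, hd⟩ le_rfl
  have h2 : 0 < ‖w ⟨d, hd⟩‖ ^ 2 := by positivity
  linarith

/-- the coordinates `wᵢ - τᵢ` (`i < d`), `wᵢ` (`i ≥ d`) -/
noncomputable def g1 (d : ℕ) (i : Fin n) (p : Cn n × Cn d) : ℂ :=
  p.1 i - (if hi : i.1 < d then p.2 ⟨i.1, hi⟩ else 0)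

theorem g1_analyticAt (i : Fin n) (q : Cn n × Cn d) : AnalyticAt ℂ (g1 (n := n) d i) q := by
  have h1 : AnalyticAt ℂ (fun p : Cn n × Cn d => p.1 i) q := by
    have h : (fun p : Cn n × Cn d => p.1 i) = fun p : Cn n × Cn d =>
      ((ContinuousLinearMap.proj (R := ℂ) (φ := fun _ : Fin n => ℂ) i).comp
        (ContinuousLinearMap.fst ℂ (Cn n) (Cn d))) p := rfl
    rw [h]
    exact ContinuousLinearMap.analyticAt _ _
  by_cases hi : i.1 < d
  · have : g1 (n := n) d i = fun p => p.1 i - tau (n := n) ⟨i.1, hi⟩ p := by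
      funext p; simp [g1, hi, tau]
    rw [this]
    exact h1.sub (tau_analyticAt _ _)
  · have : g1 (n := n) d i = fun p => p.1 i := by
      funext p; simp [g1, hi]
    rw [this]
    exact h1

/-- the exact comparison of step 5: the inner integral -/
theorem inner_bound (hd : d < n) (hd1 : 1 ≤ d) {s₁ s₂ : ℝ} (hs₁ : 0 ≤ s₁) (hs₂ : 0 ≤ s₂)
    {W' : Set (Cn d)} (hW' : W' ∈ 𝓝 (0 : Cn d)) :
    ∀ᶠ w in 𝓝 (0 : Cn n), 0 < QQ d w →
      (ENNReal.ofReal (QQ d w)) ^ (-(s₁ - d)) ≤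
        ((n : ℝ≥0∞) ^ s₁ * (volume (ball (0 : Cn d) 1))⁻¹) *
        ∫⁻ τ in W', (ENNReal.ofReal (sqV (g1 (n := n) d) (w, τ))) ^ (-s₁) *
          (ENNReal.ofReal (∑ i, ‖τ i‖ ^ 2)) ^ (-s₂) := by
  have hd' : (1:ℝ) ≤ d := by exact_mod_cast hd1
  obtain ⟨r, hr, hrW⟩ := Metric.mem_nhds_iff.1 hW'
  set r' : ℝ := min r (1 / d) with hr'
  have hr'0 : 0 < r' := lt_min hr (by positivity)
  have hev : ∀ᶠ w in 𝓝 (0 : Cn n), ‖w‖ + Real.sqrt (QQ d w) < r' := by
    have h1 : Continuous fun w : Cn n => ‖w‖ + Real.sqrt (QQ d w) :=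
      continuous_norm.add (QQ_cont.sqrt)
    have h2 : (fun w : Cn n => ‖w‖ + Real.sqrt (QQ d w)) 0 < r' := by
      simp [QQ, hr'0]
    exact h1.continuousAt.eventually_lt_const h2
  filter_upwards [hev] with w hw hQ
  set Q := QQ d w with hQdef
  set wp : Cn d := fun i => w ⟨i.1, i.2.trans hd⟩ with hwp
  have hwp_norm : ‖wp‖ ≤ ‖w‖ := by
    rw [pi_norm_le_iff_of_nonneg (norm_nonneg _)]
    intro i; exact norm_le_pi_norm w _
  -- on the ball
  have hball : ∀ τ ∈ ball wp (Real.sqrt Q), τ ∈ W' ∧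
      sqV (g1 (n := n) d) (w, τ) ≤ n * Q ∧ ∑ i, ‖τ i‖ ^ 2 ≤ 1 := by
    intro τ hτ
    rw [mem_ball, dist_eq_norm] at hτ
    have hτn : ‖τ‖ < r' := by
      calc ‖τ‖ = ‖(τ - wp) + wp‖ := by congr 1; abel
        _ ≤ ‖τ - wp‖ + ‖wp‖ := norm_add_le _ _
        _ < Real.sqrt Q + ‖w‖ := by linarith
        _ < r' := by linarith
    refine ⟨hrW (mem_ball_zero_iff.2 (hτn.trans_le (min_le_left _ _))), ?_, ?_⟩
    · calc sqV (g1 (n := n) d) (w, τ) ≤ ∑ _i : Fin n, Q := by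
            unfold sqV
            apply Finset.sum_le_sum
            intro i _
            by_cases hi : i.1 < d
            · have h1 : g1 (n := n) d i (w, τ) = -(τ - wp) ⟨i.1, hi⟩ := by
                simp [g1, hi, hwp]
              rw [h1, norm_neg]
              have h2 : ‖(τ - wp) ⟨i.1, hi⟩‖ ≤ Real.sqrt Q := (norm_le_pi_norm _ _).trans hτ.le
              calc ‖(τ - wp) ⟨i.1, hi⟩‖ ^ 2 ≤ (Real.sqrt Q) ^ 2 := by gcongr
                _ = Q := Real.sq_sqrt hQ.le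
            · have h1 : g1 (n := n) d i (w, τ) = w i := by simp [g1, hi]
              rw [h1]
              exact le_QQ w i (not_lt.1 hi)
        _ = n * Q := by simp
    · calc ∑ i, ‖τ i‖ ^ 2 ≤ d * ‖τ‖ ^ 2 := sum_le_norm_sq τ
        _ ≤ d * (1 / d) ^ 2 := by
            have : ‖τ‖ ≤ 1 / d := (hτn.trans_le (min_le_right _ _)).le
            gcongr
        _ = 1 / d := by field_simp
        _ ≤ 1 := by rw [div_le_one (by linarith)]; exact hd'
  have hn0 : (n:ℝ≥0∞) ≠ 0 := by simp; omega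
  have hnt : (n:ℝ≥0∞) ≠ ∞ := ENNReal.natCast_ne_top n
  -- the volume of the ball
  have : Nonempty (Fin d) := ⟨⟨0, hd1⟩⟩
  have hvol : volume (ball wp (Real.sqrt Q)) =
      (ENNReal.ofReal Q) ^ (d : ℝ) * volume (ball (0 : Cn d) 1) := by
    rw [Measure.addHaar_ball _ _ (Real.sqrt_nonneg _), finrank_Cn, pow_mul, Real.sq_sqrt hQ.le,
      ENNReal.ofReal_pow hQ.le, ENNReal.rpow_natCast]
  have hV0 : volume (ball (0 : Cn d) 1) ≠ 0 := (measure_ball_pos _ _ one_pos).ne'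
  have hVt : volume (ball (0 : Cn d) 1) ≠ ∞ := measure_ball_lt_top.ne
  have hQ0 : ENNReal.ofReal Q ≠ 0 := by simpa using hQ
  have hQt : ENNReal.ofReal Q ≠ ∞ := ENNReal.ofReal_ne_top
  have hlow : ((n : ℝ≥0∞) * ENNReal.ofReal Q) ^ (-s₁) * volume (ball wp (Real.sqrt Q)) ≤
      ∫⁻ τ in W', (ENNReal.ofReal (sqV (g1 (n := n) d) (w, τ))) ^ (-s₁) *
          (ENNReal.ofReal (∑ i, ‖τ i‖ ^ 2)) ^ (-s₂) := by
    calc _ = ∫⁻ _ in ball wp (Real.sqrt Q), ((n : ℝ≥0∞) * ENNReal.ofReal Q) ^ (-s₁) := by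
          rw [setLIntegral_const]
      _ ≤ ∫⁻ τ in ball wp (Real.sqrt Q), (ENNReal.ofReal (sqV (g1 (n := n) d) (w, τ))) ^ (-s₁) *
          (ENNReal.ofReal (∑ i, ‖τ i‖ ^ 2)) ^ (-s₂) := by
          refine setLIntegral_mono' measurableSet_ball ?_
          intro τ hτ
          obtain ⟨-, h1, h2⟩ := hball τ hτ
          have h3 : ENNReal.ofReal (sqV (g1 (n := n) d) (w, τ)) ≤ (n : ℝ≥0∞) * ENNReal.ofReal Q := by
            rw [← ENNReal.ofReal_natCast, ← ENNReal.ofReal_mul (by positivity)]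
            exact ENNReal.ofReal_le_ofReal h1
          have h4 : (1:ℝ≥0∞) ≤ (ENNReal.ofReal (∑ i, ‖τ i‖ ^ 2)) ^ (-s₂) := by
            calc (1:ℝ≥0∞) = 1 ^ (-s₂) := by simp
              _ ≤ _ := rpow_neg_anti (by
                rw [← ENNReal.ofReal_one]; exact ENNReal.ofReal_le_ofReal h2) hs₂
          calc ((n : ℝ≥0∞) * ENNReal.ofReal Q) ^ (-s₁)
              = ((n : ℝ≥0∞) * ENNReal.ofReal Q) ^ (-s₁) * 1 := by rw [mul_one]
            _ ≤ _ := mul_le_mul' (rpow_neg_anti h3 hs₁) h4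
      _ ≤ _ := lintegral_mono_set fun τ hτ => (hball τ hτ).1
  calc (ENNReal.ofReal Q) ^ (-(s₁ - d))
      = ((n : ℝ≥0∞) ^ s₁ * (volume (ball (0 : Cn d) 1))⁻¹) *
        (((n : ℝ≥0∞) * ENNReal.ofReal Q) ^ (-s₁) * volume (ball wp (Real.sqrt Q))) := by
        rw [hvol, ENNReal.mul_rpow_of_ne_top hnt hQt, neg_sub, sub_eq_add_neg,
          ENNReal.rpow_add _ _ hQ0 hQt]
        have e1 : (n : ℝ≥0∞) ^ s₁ * (n : ℝ≥0∞) ^ (-s₁) = 1 := by
          rw [← ENNReal.rpow_add _ _ hn0 hnt]; simp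
        have e2 : (volume (ball (0 : Cn d) 1))⁻¹ * volume (ball (0 : Cn d) 1) = 1 :=
          ENNReal.inv_mul_cancel hV0 hVt
        calc (ENNReal.ofReal Q) ^ (d:ℝ) * (ENNReal.ofReal Q) ^ (-s₁)
            = 1 * 1 * ((ENNReal.ofReal Q) ^ (d:ℝ) * (ENNReal.ofReal Q) ^ (-s₁)) := by simp
          _ = ((n : ℝ≥0∞) ^ s₁ * (n : ℝ≥0∞) ^ (-s₁)) *
              ((volume (ball (0 : Cn d) 1))⁻¹ * volume (ball (0 : Cn d) 1)) *
              ((ENNReal.ofReal Q) ^ (d:ℝ) * (ENNReal.ofReal Q) ^ (-s₁)) := by rw [e1, e2]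
          _ = _ := by ring
    _ ≤ _ := by gcongr

end

end Crest.Agent.R271.L934
end

-- ▼ part R271/G5_934
section

/-!
# Row 271, sub-team L: (AF8) for germs, main proof (helper934)
-/

set_option autoImplicit false
open MeasureTheory Filter Topology Set Metric
open scoped ENNReal NNReal

namespace Crest.Agent.R271.L934

open Crest.Agent.R271.Defs710

theorem rpow_ne_zero' {x : ℝ≥0∞} (hx0 : x ≠ 0) (hx : x ≠ ∞) (p : ℝ) : x ^ p ≠ 0 := by
  intro h0
  rcases ENNReal.rpow_eq_zero_iff.1 h0 with ⟨h1, -⟩ | ⟨h1, -⟩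
  · exact hx0 h1
  · exact hx h1

theorem exists_continuousOn {V : Type*} [NormedAddCommGroup V] [NormedSpace ℂ V] {κ : Type}
    [Fintype κ] {h : κ → V → ℂ} {a : V} (hh : ∀ j, AnalyticAt ℂ (h j) a) :
    ∃ T : Set V, IsOpen T ∧ a ∈ T ∧ ContinuousOn (sqV h) T := by
  have h1 : ∀ᶠ z in 𝓝 a, ∀ j, ContinuousAt (h j) z := by
    rw [Filter.eventually_all]
    intro j
    exact (hh j).eventually_continuousAt
  obtain ⟨T, hT, hTo, haT⟩ := _root_.eventually_nhds_iff.1 h1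
  refine ⟨T, hTo, haT, ?_⟩
  intro z hz
  apply ContinuousAt.continuousWithinAt
  unfold sqV
  exact tendsto_finsetSum _ fun j _ => (((hT z hz) j).norm.pow 2)

theorem af8 (hS : SumThm) {n d : ℕ} (hd : d < n) (hd1 : 1 ≤ d) {m : ℕ} (h : Fin m → Cn n → ℂ)
    {a b g : ℝ} (hh : ∀ j, AnalyticAt ℂ (h j) 0) (ha : 0 ≤ a) (hb : 0 ≤ b) (hg : (d : ℝ) < g)
    (H : LInt (fun ζ => (ENNReal.ofReal (sqV h ζ)) ^ (-a) *
      (ENNReal.ofReal (QQ d ζ)) ^ (-b) * (ENNReal.ofReal (SS ζ)) ^ (-g)) 0)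
    {ε : ℝ} (hε : 0 < ε) (hε1 : ε < 1) :
    LInt (fun ζ => (ENNReal.ofReal (sqV h ζ)) ^ (-((1 - ε) * a)) *
      (ENNReal.ofReal (QQ d ζ)) ^ (-((1 - ε) * b + (g - d) - ε))) 0 := by
  have hd' : (1:ℝ) ≤ d := by exact_mod_cast hd1
  have hn : (0:ℝ) < n := by exact_mod_cast (Nat.zero_le _).trans_lt hd
  -- constants
  have hgd : 0 < g + d := by linarith
  set e : ℝ := ε / (2 * (g + d)) with he
  have he0 : 0 < e := by positivity
  have hegd : e * (g + d) = ε / 2 := by rw [he]; field_simp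
  have heε : e ≤ ε := by
    rw [he, div_le_iff₀ (by positivity)]
    nlinarith
  have he1 : e < 1 := by linarith
  set c' : ℝ := (g + d) * (1 - e) with hc'
  have hc'eq : c' = g + d - ε / 2 := by rw [hc', ← hegd]; ring
  have hc'd : (d:ℝ) < c' := by rw [hc'eq]; linarith
  have hc'0 : 0 < c' := by linarith
  -- eventual bounds
  set M : ℝ := sqV h 0 + 1 with hM
  have hM0 : 0 < M := by have := sqV_nonneg h 0; linarith
  have hhM : ∀ᶠ w in 𝓝 (0 : Cn n), sqV h w < M :=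
    (sqV_continuousAt hh).eventually_lt_const (by linarith)
  have hS1 : ∀ᶠ w in 𝓝 (0 : Cn n), SS w < 1 :=
    (SS_cont.continuousAt (x := (0 : Cn n))).eventually_lt_const (by simp [SS])
  have hQ1 : ∀ᶠ w in 𝓝 (0 : Cn n), QQ d w < 1 := by
    filter_upwards [hS1] with w hw
    exact lt_of_le_of_lt (QQ_le_SS w) hw
  have hfst : Tendsto (fun p : Cn n × Cn d => p.1) (𝓝 0) (𝓝 (0 : Cn n)) := by
    have : Continuous (fun p : Cn n × Cn d => p.1) := continuous_fst
    exact this.tendsto' _ _ rfl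
  -- step 1
  obtain ⟨C, hC, hCle⟩ := lintegral_add_sq_le' (volume : Measure (Cn d)) (c := c') (by
    rw [finrank_Cn]; push_cast; linarith)
  have step1 : LIntM volume (fun p : Cn n × Cn d =>
      ((ENNReal.ofReal (sqV h p.1)) ^ (-a) * (ENNReal.ofReal (QQ d p.1)) ^ (-b)) *
      (ENNReal.ofReal (SS p.1 + ‖p.2‖ ^ 2)) ^ (-c')) (0 : Cn n × Cn d) := by
    rw [Measure.volume_eq_prod]
    refine LIntM.of_inner (μ := (volume : Measure (Cn n))) (ν := (volume : Measure (Cn d)))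
      (a := 0) (b := 0) H (K := C) hC (W' := univ) univ_mem ?_
    filter_upwards [hS1] with w hw
    rw [Measure.restrict_univ]
    have hmeas : Measurable (fun τ : Cn d => (ENNReal.ofReal (SS w + ‖τ‖ ^ 2)) ^ (-c')) :=
      (ENNReal.measurable_ofReal.comp (measurable_const.add (measurable_norm.pow_const 2))).pow_const _
    rw [lintegral_const_mul _ hmeas]
    have h1 := hCle (SS w) (SS_nonneg _)
    rw [finrank_Cn] at h1
    have e1 : c' - ((2 * d : ℕ) : ℝ) / 2 = c' - d := by push_cast; ring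
    rw [e1] at h1
    have h2 : (ENNReal.ofReal (SS w)) ^ (-(c' - d)) ≤ (ENNReal.ofReal (SS w)) ^ (-g) := by
      have h3 := rpow_neg_le (x := ENNReal.ofReal (SS w)) (m := 1) (by
        rw [← ENNReal.ofReal_one]; exact ENNReal.ofReal_le_ofReal hw.le) (by simp) (by simp)
        (p := c' - d) (q := g) (by linarith) (by rw [hc'eq]; linarith)
      simpa using h3
    calc _ ≤ ((ENNReal.ofReal (sqV h w)) ^ (-a) * (ENNReal.ofReal (QQ d w)) ^ (-b)) *
          (C * (ENNReal.ofReal (SS w)) ^ (-g)) := by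
          gcongr
          exact h1.trans (by gcongr)
      _ = _ := by ring
  -- step 2
  let κ' : Bool → Type := fun b => match b with
    | true => Fin m
    | false => {i : Fin n // d ≤ i.1}
  let : ∀ i, Fintype (κ' i) := fun b => match b with
    | true => (inferInstance : Fintype (Fin m))
    | false => (inferInstance : Fintype {i : Fin n // d ≤ i.1})
  let H' : ∀ i, κ' i → Cn n × Cn d → ℂ := fun b => match b with
    | true => fun (j : Fin m) p => h j p.1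
    | false => fun (j : {i : Fin n // d ≤ i.1}) p => p.1 j.1
  let cc : Bool → ℝ := fun b' => match b' with
    | true => a
    | false => b
  have hfsta : AnalyticAt ℂ (fun p : Cn n × Cn d => p.1) 0 :=
    (ContinuousLinearMap.fst ℂ (Cn n) (Cn d)).analyticAt 0
  have hH' : ∀ i j, AnalyticAt ℂ (H' i j) 0 := by
    intro i
    cases i
    · intro j
      have : (H' false j) = fun p : Cn n × Cn d =>
        ((ContinuousLinearMap.proj (R := ℂ) (φ := fun _ : Fin n => ℂ) j.1).comp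
          (ContinuousLinearMap.fst ℂ (Cn n) (Cn d))) p := rfl
      rw [this]
      exact ContinuousLinearMap.analyticAt _ _
    · intro j
      have h1 : AnalyticAt ℂ (h j) ((fun p : Cn n × Cn d => p.1) 0) := hh j
      exact AnalyticAt.fun_comp h1 hfsta
  have hcc : ∀ i, 0 ≤ cc i := by
    intro i; cases i
    · exact hb
    · exact ha
  have wV_eq : ∀ (x : ℝ) (p : Cn n × Cn d), wV H' (fun i => x * cc i) p =
      (ENNReal.ofReal (sqV h p.1)) ^ (-(x * a)) * (ENNReal.ofReal (QQ d p.1)) ^ (-(x * b)) := by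
    intro x p
    simp only [wV, Fintype.prod_bool]
    rfl
  have wV_eq1 : ∀ (p : Cn n × Cn d), wV H' cc p =
      (ENNReal.ofReal (sqV h p.1)) ^ (-a) * (ENNReal.ofReal (QQ d p.1)) ^ (-b) := by
    intro p
    simp only [wV, Fintype.prod_bool]
    rfl
  have step2 : LIntM volume (fun p : Cn n × Cn d => wV H' cc p *
      (ENNReal.ofReal (sqV (g1 (n := n) d) p + sqV (fun i : Fin d => tau (n := n) i) p)) ^ (-c')) 0 := by
    refine step1.mono_const (K := (ENNReal.ofReal 3) ^ c')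
      (ENNReal.rpow_ne_top_of_nonneg hc'0.le ENNReal.ofReal_ne_top) ?_
    refine Filter.Eventually.of_forall fun p => ?_
    rw [wV_eq1]
    have key : (ENNReal.ofReal (sqV (g1 (n := n) d) p + sqV (fun i : Fin d => tau (n := n) i) p)) ^ (-c')
        ≤ (ENNReal.ofReal 3) ^ c' * (ENNReal.ofReal (SS p.1 + ‖p.2‖ ^ 2)) ^ (-c') := by
      refine rpow_neg_le_mul (by simp) ENNReal.ofReal_ne_top ?_ hc'0.le
      rw [← ENNReal.ofReal_mul (by norm_num)]
      apply ENNReal.ofReal_le_ofReal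
      have h1 : ‖p.2‖ ^ 2 ≤ sqV (fun i : Fin d => tau (n := n) i) p := norm_sq_le_sum p.2
      have h2 : 0 ≤ sqV (g1 (n := n) d) p := sqV_nonneg _ _
      have h3 : SS p.1 ≤ 2 * sqV (g1 (n := n) d) p + 2 * sqV (fun i : Fin d => tau (n := n) i) p := by
        have h4 : ∀ i : Fin n, ‖p.1 i‖ ^ 2 ≤ 2 * ‖g1 (n := n) d i p‖ ^ 2 +
            2 * (if hi : i.1 < d then ‖p.2 ⟨i.1, hi⟩‖ ^ 2 else 0) := by
          intro i
          by_cases hi : i.1 < d
          · have e1 : p.1 i = g1 (n := n) d i p + p.2 ⟨i.1, hi⟩ := by simp [g1, hi]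
            simp only [hi, dite_true]
            calc ‖p.1 i‖ ^ 2 = ‖g1 (n := n) d i p + p.2 ⟨i.1, hi⟩‖ ^ 2 := by rw [← e1]
              _ ≤ (‖g1 (n := n) d i p‖ + ‖p.2 ⟨i.1, hi⟩‖) ^ 2 := by
                  gcongr; exact norm_add_le _ _
              _ ≤ _ := by nlinarith [sq_nonneg (‖g1 (n := n) d i p‖ - ‖p.2 ⟨i.1, hi⟩‖)]
          · have e1 : p.1 i = g1 (n := n) d i p := by simp [g1, hi]
            simp only [hi, dite_false, mul_zero, add_zero]
            rw [← e1]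
            nlinarith [sq_nonneg ‖p.1 i‖]
        have h5 : ∑ i : Fin n, (if hi : i.1 < d then ‖p.2 ⟨i.1, hi⟩‖ ^ 2 else 0) ≤
            sqV (fun i : Fin d => tau (n := n) i) p := by
          have e2 : ∑ i : Fin n, (if hi : i.1 < d then ‖p.2 ⟨i.1, hi⟩‖ ^ 2 else 0) =
              ∑ i : Fin d, ‖p.2 i‖ ^ 2 := by
            have e3 := Finset.sum_map (Finset.univ : Finset (Fin d)) (Fin.castLEEmb hd.le)
              (fun i : Fin n => (if hi : i.1 < d then ‖p.2 ⟨i.1, hi⟩‖ ^ 2 else 0))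
            have e4 : ∑ i : Fin d, ‖p.2 i‖ ^ 2 = ∑ i : Fin d,
                (fun i : Fin n => (if hi : i.1 < d then ‖p.2 ⟨i.1, hi⟩‖ ^ 2 else 0))
                  ((Fin.castLEEmb hd.le) i) := by
              apply Finset.sum_congr rfl
              intro i _
              simp
            rw [e4, ← e3]
            symm
            apply Finset.sum_subset (Finset.subset_univ _)
            intro i _ hi
            have : ¬ i.1 < d := by
              intro hlt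
              apply hi
              rw [Finset.mem_map]
              exact ⟨⟨i.1, hlt⟩, Finset.mem_univ _, by ext; simp⟩
            simp [this]
          rw [e2]
          rfl
        calc SS p.1 = ∑ i, ‖p.1 i‖ ^ 2 := rfl
          _ ≤ ∑ i, (2 * ‖g1 (n := n) d i p‖ ^ 2 +
            2 * (if hi : i.1 < d then ‖p.2 ⟨i.1, hi⟩‖ ^ 2 else 0)) :=
              Finset.sum_le_sum fun i _ => h4 i
          _ = 2 * sqV (g1 (n := n) d) p +
              2 * ∑ i : Fin n, (if hi : i.1 < d then ‖p.2 ⟨i.1, hi⟩‖ ^ 2 else 0) := by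
              rw [Finset.sum_add_distrib, ← Finset.mul_sum, ← Finset.mul_sum]
              rfl
          _ ≤ _ := by linarith
      linarith
    calc _ ≤ ((ENNReal.ofReal (sqV h p.1)) ^ (-a) * (ENNReal.ofReal (QQ d p.1)) ^ (-b)) *
          ((ENNReal.ofReal 3) ^ c' * (ENNReal.ofReal (SS p.1 + ‖p.2‖ ^ 2)) ^ (-c')) := by gcongr
      _ = _ := by ring
  -- step 3
  obtain ⟨s₁, s₂, hs₁, hs₂, hsum, hI⟩ := sum_thm_two hS Bool κ' (Fin n) (Fin d) H'
    (g1 (n := n) d) (fun i : Fin d => tau (n := n) i) cc c' hH' (fun i => g1_analyticAt i 0)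
    (fun i => tau_analyticAt i 0) hcc hc'0.le step2 he0 he1
  set ρ : Cn n → ℝ≥0∞ := fun w => (ENNReal.ofReal (sqV h w)) ^ (-((1 - e) * a)) *
    (ENNReal.ofReal (QQ d w)) ^ (-((1 - e) * b)) with hρ
  have h1e : 0 ≤ 1 - e := by linarith
  have hI' : LIntM volume (fun p : Cn n × Cn d => ρ p.1 *
      ((ENNReal.ofReal (sqV (g1 (n := n) d) p)) ^ (-s₁) *
      (ENNReal.ofReal (∑ i, ‖p.2 i‖ ^ 2)) ^ (-s₂))) 0 := by
    refine hI.congr (Filter.Eventually.of_forall fun p => ?_)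
    rw [wV_eq]
    rfl
  -- lower bound of `ρ`
  have hρlow : ∀ᶠ w in 𝓝 (0 : Cn n), (ENNReal.ofReal M) ^ (-((1 - e) * a)) ≤ ρ w := by
    filter_upwards [hhM, hQ1] with w hw hw1
    have h2 : (1:ℝ≥0∞) ≤ (ENNReal.ofReal (QQ d w)) ^ (-((1 - e) * b)) := by
      calc (1:ℝ≥0∞) = 1 ^ (-((1 - e) * b)) := by simp
        _ ≤ _ := rpow_neg_anti (by
          rw [← ENNReal.ofReal_one]; exact ENNReal.ofReal_le_ofReal hw1.le) (mul_nonneg h1e hb)
    calc (ENNReal.ofReal M) ^ (-((1 - e) * a)) = (ENNReal.ofReal M) ^ (-((1 - e) * a)) * 1 := by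
          rw [mul_one]
      _ ≤ ρ w := mul_le_mul' (rpow_neg_anti (ENNReal.ofReal_le_ofReal hw.le) (mul_nonneg h1e ha)) h2
  have hM0' : ENNReal.ofReal M ≠ 0 := by simpa using hM0
  -- step 4
  have hs₂d : s₂ < d := by
    have hG0 : ContinuousAt (sqV (g1 (n := n) d)) (0 : Cn n × Cn d) :=
      sqV_continuousAt fun j => g1_analyticAt j 0
    have hG1 : ∀ᶠ p in 𝓝 (0 : Cn n × Cn d), sqV (g1 (n := n) d) p < sqV (g1 (n := n) d) (0 : Cn n × Cn d) + 1 :=
      hG0.eventually_lt_const (by linarith)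
    set M₁ : ℝ := sqV (g1 (n := n) d) (0 : Cn n × Cn d) + 1 with hM₁
    have hM₁0 : 0 < M₁ := by
      have := sqV_nonneg (g1 (n := n) d) (0 : Cn n × Cn d); linarith
    have hI2 : LIntM volume (fun p : Cn n × Cn d => (ρ p.1 *
      (ENNReal.ofReal (sqV (g1 (n := n) d) p)) ^ (-s₁)) *
      (ENNReal.ofReal (∑ i, ‖p.2 i‖ ^ 2)) ^ (-s₂)) 0 := by
      refine hI'.congr (Filter.Eventually.of_forall fun p => ?_)
      rw [mul_assoc]
    refine exponent_lt hd1 hs₂
      (κ := (ENNReal.ofReal M) ^ (-((1 - e) * a)) * (ENNReal.ofReal M₁) ^ (-s₁)) ?_ ?_ hI2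
    · exact mul_ne_zero (rpow_ne_zero' hM0' ENNReal.ofReal_ne_top _)
        (rpow_ne_zero' (by simpa using hM₁0) ENNReal.ofReal_ne_top _)
    · filter_upwards [hfst.eventually hρlow, hG1] with p hp1 hp2
      exact mul_le_mul' hp1 (rpow_neg_anti (ENNReal.ofReal_le_ofReal hp2.le) hs₁)
  -- step 5
  obtain ⟨T, hTo, h0T, hTc⟩ := exists_continuousOn hh
  have step5 : LIntM volume (fun w : Cn n => ρ w * (ENNReal.ofReal (QQ d w)) ^ (-(s₁ - d))) 0 := by
    rw [Measure.volume_eq_prod] at hI'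
    refine LIntM.inner (μ := (volume : Measure (Cn n))) (ν := (volume : Measure (Cn d)))
      (a := 0) (b := 0) hI' (S := T ×ˢ univ) (prod_mem_nhds (hTo.mem_nhds h0T) univ_mem) ?_
      (K := (n : ℝ≥0∞) ^ s₁ * (volume (ball (0 : Cn d) 1))⁻¹) ?_ ?_
    · -- measurability
      have hTm : MeasurableSet (T ×ˢ (univ : Set (Cn d))) := hTo.measurableSet.prod MeasurableSet.univ
      have hc1 : ContinuousOn (fun p : Cn n × Cn d => sqV h p.1) (T ×ˢ univ) :=
        hTc.comp continuousOn_fst fun p hp => hp.1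
      have hm1 : AEMeasurable (fun p : Cn n × Cn d => sqV h p.1)
          (((volume : Measure (Cn n)).prod (volume : Measure (Cn d))).restrict (T ×ˢ univ)) :=
        hc1.aemeasurable hTm
      have hm2 : Measurable (fun p : Cn n × Cn d => QQ d p.1) :=
        QQ_cont.measurable.comp measurable_fst
      have hm3 : Measurable (fun p : Cn n × Cn d => sqV (g1 (n := n) d) p) := by
        have : Continuous (fun p : Cn n × Cn d => sqV (g1 (n := n) d) p) := by
          rw [continuous_iff_continuousAt]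
          intro q
          exact sqV_continuousAt fun j => g1_analyticAt j q
        exact this.measurable
      have hm4 : Measurable (fun p : Cn n × Cn d => ∑ i, ‖p.2 i‖ ^ 2) := by
        have : Continuous (fun p : Cn n × Cn d => ∑ i, ‖p.2 i‖ ^ 2) := by fun_prop
        exact this.measurable
      have hρm : AEMeasurable (fun p : Cn n × Cn d => ρ p.1)
          (((volume : Measure (Cn n)).prod (volume : Measure (Cn d))).restrict (T ×ˢ univ)) :=
        (hm1.ennreal_ofReal.pow_const _).mul (hm2.ennreal_ofReal.pow_const _).aemeasurable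
      exact hρm.mul (((hm3.ennreal_ofReal.pow_const _).mul
        (hm4.ennreal_ofReal.pow_const _)).aemeasurable)
    · refine ENNReal.mul_ne_top (ENNReal.rpow_ne_top_of_nonneg hs₁ (ENNReal.natCast_ne_top n)) ?_
      exact ENNReal.inv_ne_top.2 (measure_ball_pos _ _ one_pos).ne'
    · intro W' hW'
      obtain ⟨U, hU, hUo, h0U⟩ := _root_.eventually_nhds_iff.1
        (inner_bound (n := n) hd hd1 hs₁ hs₂ hW')
      refine ⟨U, hUo.mem_nhds h0U, ?_⟩
      filter_upwards [ae_QQ_pos hd] with w hw hwU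
      have h1 := hU w hwU hw
      have hm3 : Measurable (fun τ : Cn d => (ENNReal.ofReal (sqV (g1 (n := n) d) (w, τ))) ^ (-s₁) *
          (ENNReal.ofReal (∑ i, ‖τ i‖ ^ 2)) ^ (-s₂)) := by
        have c1 : Continuous (fun p : Cn n × Cn d => sqV (g1 (n := n) d) p) := by
          rw [continuous_iff_continuousAt]
          intro q
          exact sqV_continuousAt fun j => g1_analyticAt j q
        have c2 : Continuous (fun τ : Cn d => sqV (g1 (n := n) d) (w, τ)) :=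
          c1.comp (by fun_prop)
        have c3 : Continuous (fun τ : Cn d => ∑ i, ‖τ i‖ ^ 2) := by fun_prop
        exact (c2.measurable.ennreal_ofReal.pow_const _).mul
          (c3.measurable.ennreal_ofReal.pow_const _)
      calc ρ w * (ENNReal.ofReal (QQ d w)) ^ (-(s₁ - d))
          ≤ ρ w * (((n : ℝ≥0∞) ^ s₁ * (volume (ball (0 : Cn d) 1))⁻¹) *
            ∫⁻ τ in W', (ENNReal.ofReal (sqV (g1 (n := n) d) (w, τ))) ^ (-s₁) *
              (ENNReal.ofReal (∑ i, ‖τ i‖ ^ 2)) ^ (-s₂)) := by gcongr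
        _ = ((n : ℝ≥0∞) ^ s₁ * (volume (ball (0 : Cn d) 1))⁻¹) *
            ∫⁻ τ in W', ρ w * ((ENNReal.ofReal (sqV (g1 (n := n) d) (w, τ))) ^ (-s₁) *
              (ENNReal.ofReal (∑ i, ‖τ i‖ ^ 2)) ^ (-s₂)) := by
            rw [lintegral_const_mul _ hm3]; ring
  -- step 6
  have hs₁g : g - ε ≤ s₁ := by
    have h1 : s₁ = (1 - e) * c' - s₂ := by linarith
    have h2 : (1 - e) * c' = (g + d) - 2 * (e * (g + d)) + e * (e * (g + d)) := by rw [hc']; ring
    rw [hegd] at h2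
    have h3 : 0 ≤ e * (ε / 2) := by positivity
    linarith
  obtain ⟨U1, hU1, hU1o, h0U1⟩ := _root_.eventually_nhds_iff.1 (hhM.and hQ1)
  refine LIntM.mono_const_ae step5 (K := (ENNReal.ofReal M) ^ ((1 - e) * a - (1 - ε) * a))
    (ENNReal.rpow_ne_top_of_nonneg ?_ ENNReal.ofReal_ne_top) (hU1o.mem_nhds h0U1) ?_
  · have : (1 - e) * a - (1 - ε) * a = (ε - e) * a := by ring
    rw [this]
    exact mul_nonneg (by linarith) ha
  · filter_upwards [ae_QQ_pos hd] with w hw hwU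
    obtain ⟨h1, h2⟩ := hU1 w hwU
    have hQ0 : ENNReal.ofReal (QQ d w) ≠ 0 := by simpa using hw
    have e1 : (ENNReal.ofReal (sqV h w)) ^ (-((1 - ε) * a)) ≤
        (ENNReal.ofReal M) ^ ((1 - e) * a - (1 - ε) * a) *
          (ENNReal.ofReal (sqV h w)) ^ (-((1 - e) * a)) := by
      refine rpow_neg_le (ENNReal.ofReal_le_ofReal h1.le) ENNReal.ofReal_ne_top hM0'
        (mul_nonneg (by linarith) ha) ?_
      exact mul_le_mul_of_nonneg_right (by linarith) ha
    have e2 : (ENNReal.ofReal (QQ d w)) ^ (-((1 - ε) * b + (g - d) - ε)) ≤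
        (ENNReal.ofReal (QQ d w)) ^ (-((1 - e) * b)) * (ENNReal.ofReal (QQ d w)) ^ (-(s₁ - d)) := by
      rw [← ENNReal.rpow_add _ _ hQ0 ENNReal.ofReal_ne_top]
      refine ENNReal.rpow_le_rpow_of_exponent_ge (by
        rw [← ENNReal.ofReal_one]; exact ENNReal.ofReal_le_ofReal h2.le) ?_
      have h3 : (1 - ε) * b ≤ (1 - e) * b := mul_le_mul_of_nonneg_right (by linarith) hb
      linarith
    calc _ ≤ ((ENNReal.ofReal M) ^ ((1 - e) * a - (1 - ε) * a) *
          (ENNReal.ofReal (sqV h w)) ^ (-((1 - e) * a))) *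
          ((ENNReal.ofReal (QQ d w)) ^ (-((1 - e) * b)) *
            (ENNReal.ofReal (QQ d w)) ^ (-(s₁ - d))) := mul_le_mul' e1 e2
      _ = _ := by rw [hρ]; ring

end Crest.Agent.R271.L934
end

-- ▼ part R271/G6_934
section

/-!
# Row 271, sub-team L: (AF8) for germs, final form (helper934)
-/

set_option autoImplicit false
open MeasureTheory Filter Topology Set Metric
open scoped ENNReal NNReal

namespace Crest.Agent.R271.L934

open Crest.Agent.R271.Defs710

theorem QQ_zero {n : ℕ} (w : Cn n) : QQ 0 w = SS w := by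
  unfold QQ SS
  exact Fintype.sum_equiv (Equiv.subtypeUnivEquiv (fun i => Nat.zero_le _)) _ _ (fun i => rfl)

theorem af8_zero {n : ℕ} {m : ℕ} (h : Fin m → Cn n → ℂ)
    {a b g : ℝ} (hh : ∀ j, AnalyticAt ℂ (h j) 0) (ha : 0 ≤ a) (hb : 0 ≤ b) (hg : 0 < g)
    (H : LInt (fun ζ => (ENNReal.ofReal (sqV h ζ)) ^ (-a) *
      (ENNReal.ofReal (QQ 0 ζ)) ^ (-b) * (ENNReal.ofReal (SS ζ)) ^ (-g)) 0)
    {ε : ℝ} (hε : 0 < ε) (hε1 : ε < 1) :
    LInt (fun ζ => (ENNReal.ofReal (sqV h ζ)) ^ (-((1 - ε) * a)) *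
      (ENNReal.ofReal (QQ 0 ζ)) ^ (-((1 - ε) * b + (g - ((0 : ℕ) : ℝ)) - ε))) 0 := by
  set M : ℝ := sqV h 0 + 1 with hM
  have hM0 : 0 < M := by have := sqV_nonneg h 0; linarith
  have hhM : ∀ᶠ w in 𝓝 (0 : Cn n), sqV h w < M :=
    (sqV_continuousAt hh).eventually_lt_const (by linarith)
  have hS1 : ∀ᶠ w in 𝓝 (0 : Cn n), SS w < 1 :=
    (SS_cont.continuousAt (x := (0 : Cn n))).eventually_lt_const (by simp [SS])
  have hM0' : ENNReal.ofReal M ≠ 0 := by simpa using hM0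
  have hle1 : (1 - ε) * a ≤ a := by nlinarith
  have hle2 : (1 - ε) * b ≤ b := by nlinarith
  refine LIntM.mono_const (μ := (volume : Measure (Cn n))) H (K := (ENNReal.ofReal M) ^ (a - (1 - ε) * a))
    (ENNReal.rpow_ne_top_of_nonneg (by linarith) ENNReal.ofReal_ne_top) ?_
  filter_upwards [hhM, hS1] with w hw hw1
  have e1 : (ENNReal.ofReal (sqV h w)) ^ (-((1 - ε) * a)) ≤
      (ENNReal.ofReal M) ^ (a - (1 - ε) * a) * (ENNReal.ofReal (sqV h w)) ^ (-a) :=
    rpow_neg_le (ENNReal.ofReal_le_ofReal hw.le) ENNReal.ofReal_ne_top hM0'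
      (mul_nonneg (by linarith) ha) hle1
  have e2 : (ENNReal.ofReal (QQ 0 w)) ^ (-((1 - ε) * b + (g - ((0 : ℕ) : ℝ)) - ε)) ≤
      (ENNReal.ofReal (QQ 0 w)) ^ (-b) * (ENNReal.ofReal (SS w)) ^ (-g) := by
    rw [QQ_zero]
    set x := ENNReal.ofReal (SS w) with hx
    have hx1 : x ≤ 1 := by
      rw [← ENNReal.ofReal_one]; exact ENNReal.ofReal_le_ofReal hw1.le
    rcases eq_or_ne x 0 with hx0 | hx0
    · rw [hx0]
      have h1 : (0 : ℝ≥0∞) ^ (-g) = ∞ := ENNReal.zero_rpow_of_neg (by linarith)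
      rw [h1, ENNReal.mul_top]
      · exact le_top
      · rcases hb.eq_or_lt with hb0 | hb0
        · rw [← hb0]; simp
        · rw [ENNReal.zero_rpow_of_neg (by linarith)]; simp
    · have hxt : x ≠ ∞ := ne_top_of_le_ne_top (by simp) hx1
      rw [← ENNReal.rpow_add _ _ hx0 hxt]
      refine ENNReal.rpow_le_rpow_of_exponent_ge hx1 ?_
      push_cast
      linarith
  calc _ ≤ ((ENNReal.ofReal M) ^ (a - (1 - ε) * a) * (ENNReal.ofReal (sqV h w)) ^ (-a)) *
        ((ENNReal.ofReal (QQ 0 w)) ^ (-b) * (ENNReal.ofReal (SS w)) ^ (-g)) := mul_le_mul' e1 e2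
    _ = _ := by ring

/-- (AF8) for germs -/
theorem af8Germ (hS : SumThm) (n : ℕ) : AF8Germ n := by
  intro d hd m h a b g hh ha hb hg H ε hε hε1
  rcases Nat.eq_zero_or_pos d with rfl | hd1
  · exact af8_zero h hh ha hb (by simpa using hg) H hε hε1
  · exact af8 hS hd hd1 h hh ha hb hg H hε hε1

end Crest.Agent.R271.L934
end

-- ▼ part R271/Coord_821
section

/-!
Row 271, team L (helper821): L5, invariance of local integrability under local diffeomorphisms.
-/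

set_option autoImplicit false
set_option linter.unusedVariables false
set_option linter.unusedSectionVars false

open scoped ENNReal NNReal Topology BigOperators
open MeasureTheory Filter Set Metric

noncomputable section

namespace Crest.Agent.R271.Local821

open Crest.Agent.R271.Defs710

section real

variable {E : Type*} [NormedAddCommGroup E] [NormedSpace ℝ E] [FiniteDimensional ℝ E]
  [MeasurableSpace E] [BorelSpace E]
  {F : Type*} [NormedAddCommGroup F] [NormedSpace ℝ F] [FiniteDimensional ℝ F]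
  [MeasurableSpace F] [BorelSpace F]

/-- local integrability with respect to a measure -/
def LI (μ : Measure E) (g : E → ℝ≥0∞) (a : E) : Prop := ∃ U ∈ 𝓝 a, ∫⁻ x in U, g x ∂μ < ∞


variable (μ : Measure E) [μ.IsAddHaarMeasure] (ν : Measure F) [ν.IsAddHaarMeasure]

theorem LI_comp_linear (L : E ≃L[ℝ] F) (g : F → ℝ≥0∞) (a : E) :
    LI ν g (L a) ↔ LI μ (fun x => g (L x)) a := by
  have hν : (μ.map L).IsAddHaarMeasure := inferInstance
  obtain ⟨c, hc⟩ : ∃ c : ℝ≥0, μ.map L = c • ν := ⟨_, Measure.isAddLeftInvariant_eq_smul _ _⟩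
  have hc0 : (c : ℝ≥0∞) ≠ 0 := by
    intro h0
    have h1 : μ.map L = 0 := by
      rw [hc]
      have : c = 0 := by exact_mod_cast h0
      rw [this, zero_smul]
    have h2 := (Measure.measure_univ_eq_zero (μ := μ.map L)).2 h1
    exact (isOpen_univ.measure_pos (μ.map L) univ_nonempty).ne' h2
  have key : ∀ s : Set F, ∫⁻ x in L ⁻¹' s, g (L x) ∂μ = c * ∫⁻ x in s, g x ∂ν := by
    intro s
    have h := L.toHomeomorph.measurableEmbedding.lintegral_map (μ := μ.restrict (L ⁻¹' s)) g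
    have h' := L.toHomeomorph.measurableEmbedding.restrict_map (μ := μ) s
    have e : (⇑L.toHomeomorph) = ⇑L := rfl
    rw [e] at h h'
    rw [← h, ← h', hc, Measure.restrict_smul, lintegral_smul_measure]
    rfl
  constructor
  · rintro ⟨U, hU, h⟩
    refine ⟨L ⁻¹' U, L.continuous.continuousAt.preimage_mem_nhds hU, ?_⟩
    rw [key]
    exact ENNReal.mul_lt_top ENNReal.coe_lt_top h
  · rintro ⟨U, hU, h⟩
    refine ⟨L.symm ⁻¹' U, L.symm.continuous.continuousAt.preimage_mem_nhds (by simpa using hU), ?_⟩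
    have h2 := key (L.symm ⁻¹' U)
    have e : L ⁻¹' (L.symm ⁻¹' U) = U := by ext x; simp
    rw [e] at h2
    rw [h2] at h
    rcases ENNReal.mul_lt_top_iff.1 h with h3 | h3 | h3
    · exact h3.2
    · exact absurd h3 hc0
    · rw [h3]; exact ENNReal.zero_lt_top

theorem LI_comp_self {φ : E → E} {a : E} (hφ : ContDiffAt ℝ 1 φ a) (L : E ≃L[ℝ] E)
    (hL : HasFDerivAt φ (L : E →L[ℝ] E) a) (g : E → ℝ≥0∞) :
    LI μ g (φ a) ↔ LI μ (fun x => g (φ x)) a := by
  set e := hφ.toOpenPartialHomeomorph φ hL one_ne_zero with he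
  have hes : a ∈ e.source := ContDiffAt.mem_toOpenPartialHomeomorph_source hφ hL one_ne_zero
  have hecoe : (e : E → E) = φ := ContDiffAt.toOpenPartialHomeomorph_coe hφ hL one_ne_zero
  -- the derivative near `a`
  have hdiff : ∀ᶠ x in 𝓝 a, HasFDerivAt φ (fderiv ℝ φ x) x := by
    have h1 : ∀ᶠ x in 𝓝 a, ContDiffAt ℝ 1 φ x := hφ.eventually (by simp)
    filter_upwards [h1] with x hx
    exact (hx.differentiableAt one_ne_zero).hasFDerivAt
  have hcont : ContinuousAt (fun x => |(fderiv ℝ φ x).det|) a := by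
    have h1 : ContinuousAt (fderiv ℝ φ) a := by
      have h2 : ContDiffAt ℝ 0 (fderiv ℝ φ) a := hφ.fderiv_right (m := 0) (by norm_num)
      exact h2.continuousAt
    exact (ContinuousLinearMap.continuous_det.continuousAt.comp h1).abs
  have hdet : 0 < |(fderiv ℝ φ a).det| := by
    rw [hL.fderiv]
    have h1 : (L : E →L[ℝ] E).det ≠ 0 := by
      have h3 := (L : E ≃ₗ[ℝ] E).isUnit_det'
      exact h3.ne_zero
    exact abs_pos.2 h1
  set δ := |(fderiv ℝ φ a).det| / 2 with hδ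
  set M := |(fderiv ℝ φ a).det| + 1 with hM
  have hδ0 : 0 < δ := by positivity
  have h3 : ∀ᶠ x in 𝓝 a, δ ≤ |(fderiv ℝ φ x).det| ∧ |(fderiv ℝ φ x).det| ≤ M := by
    have h4 : ∀ᶠ x in 𝓝 a, δ < |(fderiv ℝ φ x).det| := hcont.eventually (lt_mem_nhds (by
      rw [hδ]; linarith))
    have h5 : ∀ᶠ x in 𝓝 a, |(fderiv ℝ φ x).det| < M := hcont.eventually (gt_mem_nhds (by
      rw [hM]; linarith))
    filter_upwards [h4, h5] with x h4 h5
    exact ⟨h4.le, h5.le⟩
  obtain ⟨U, hUs, hUo, haU⟩ := _root_.eventually_nhds_iff.1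
    (hdiff.and (h3.and (e.open_source.mem_nhds hes)))
  have key : ∀ W ⊆ U, IsOpen W → ∫⁻ x in φ '' W, g x ∂μ =
      ∫⁻ x in W, ENNReal.ofReal |(fderiv ℝ φ x).det| * g (φ x) ∂μ := by
    intro W hW hWo
    refine lintegral_image_eq_lintegral_abs_det_fderiv_mul μ hWo.measurableSet
      (fun x hx => (hUs x (hW hx)).1.hasFDerivWithinAt) ?_ g
    rw [← hecoe]
    exact e.injOn.mono fun x hx => (hUs x (hW hx)).2.2
  constructor
  · rintro ⟨V, hV, h⟩
    obtain ⟨V', hV', hV'o, haV'⟩ := _root_.mem_nhds_iff.1 (hφ.continuousAt.preimage_mem_nhds hV)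
    refine ⟨U ∩ V', inter_mem (hUo.mem_nhds haU) (hV'o.mem_nhds haV'), ?_⟩
    have k := key (U ∩ V') inter_subset_left (hUo.inter hV'o)
    have h6 : ∫⁻ x in φ '' (U ∩ V'), g x ∂μ ≤ ∫⁻ x in V, g x ∂μ := by
      apply lintegral_mono_set
      rintro _ ⟨x, hx, rfl⟩
      exact hV' hx.2
    have h7 : ∫⁻ x in U ∩ V', g (φ x) ∂μ ≤ ∫⁻ x in U ∩ V',
        ENNReal.ofReal δ⁻¹ * (ENNReal.ofReal |(fderiv ℝ φ x).det| * g (φ x)) ∂μ := by
      refine setLIntegral_mono' (hUo.inter hV'o).measurableSet fun x hx => ?_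
      rw [← mul_assoc, ← ENNReal.ofReal_mul (by positivity)]
      have h8 : (1 : ℝ≥0∞) ≤ ENNReal.ofReal (δ⁻¹ * |(fderiv ℝ φ x).det|) := by
        rw [ENNReal.one_le_ofReal, inv_mul_eq_div, le_div_iff₀ hδ0, one_mul]
        exact (hUs x hx.1).2.1.1
      calc g (φ x) = 1 * g (φ x) := (one_mul _).symm
        _ ≤ _ := mul_le_mul_left h8 _
    rw [lintegral_const_mul' _ _ ENNReal.ofReal_ne_top, ← k] at h7
    exact h7.trans_lt (ENNReal.mul_lt_top ENNReal.ofReal_lt_top (h6.trans_lt h))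
  · rintro ⟨V, hV, h⟩
    obtain ⟨V', hV', hV'o, haV'⟩ := _root_.mem_nhds_iff.1 hV
    refine ⟨φ '' (U ∩ V'), ?_, ?_⟩
    · rw [← hecoe]
      have h6 := e.image_mem_nhds hes (inter_mem (hUo.mem_nhds haU) (hV'o.mem_nhds haV'))
      exact h6
    · rw [key (U ∩ V') inter_subset_left (hUo.inter hV'o)]
      have h7 : ∫⁻ x in U ∩ V', ENNReal.ofReal |(fderiv ℝ φ x).det| * g (φ x) ∂μ ≤
          ∫⁻ x in U ∩ V', ENNReal.ofReal M * g (φ x) ∂μ := by
        refine setLIntegral_mono' (hUo.inter hV'o).measurableSet fun x hx => ?_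
        exact mul_le_mul_left (ENNReal.ofReal_le_ofReal (hUs x hx.1).2.1.2) _
      rw [lintegral_const_mul' _ _ ENNReal.ofReal_ne_top] at h7
      refine h7.trans_lt (ENNReal.mul_lt_top ENNReal.ofReal_lt_top ?_)
      exact (lintegral_mono_set (inter_subset_right.trans hV')).trans_lt h

/-- (L5) local integrability is invariant under local `C¹` diffeomorphisms -/
theorem LI_comp_iff {φ : E → F} {a : E} (hφ : ContDiffAt ℝ 1 φ a) (L : E ≃L[ℝ] F)
    (hL : HasFDerivAt φ (L : E →L[ℝ] F) a) (g : F → ℝ≥0∞) :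
    LI ν g (φ a) ↔ LI μ (fun x => g (φ x)) a := by
  have h1 : ContDiffAt ℝ 1 (fun x => L.symm (φ x)) a :=
    L.symm.contDiff.contDiffAt.comp a hφ
  have h2 : HasFDerivAt (fun x => L.symm (φ x)) ((ContinuousLinearEquiv.refl ℝ E : E ≃L[ℝ] E) :
      E →L[ℝ] E) a := by
    have h3 := (L.symm.hasFDerivAt (x := φ a)).comp a hL
    have h4 : (L.symm : F →L[ℝ] E) ∘SL (L : E →L[ℝ] F) =
        ((ContinuousLinearEquiv.refl ℝ E : E ≃L[ℝ] E) : E →L[ℝ] E) := by
      ext x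
      simp
    rw [h4] at h3
    exact h3
  have h4 := LI_comp_self μ h1 _ h2 (fun x => g (L x))
  have h5 := LI_comp_linear μ ν L g (L.symm (φ a))
  rw [ContinuousLinearEquiv.apply_symm_apply] at h5
  rw [h5, h4]
  simp

end real

section complex

variable {E : Type*} [NormedAddCommGroup E] [NormedSpace ℂ E] [FiniteDimensional ℂ E]
  {F : Type*} [NormedAddCommGroup F] [NormedSpace ℂ F] [FiniteDimensional ℂ F]

/-- analytic inverse function theorem -/
theorem exists_analytic_inverse {φ : E → F} {a : E} (hφ : AnalyticAt ℂ φ a) (L : E ≃L[ℂ] F)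
    (hL : HasFDerivAt φ (L : E →L[ℂ] F) a) :
    ∃ ψ : F → E, AnalyticAt ℂ ψ (φ a) ∧ ψ (φ a) = a ∧ (∀ᶠ x in 𝓝 a, ψ (φ x) = x) ∧
      (∀ᶠ u in 𝓝 (φ a), φ (ψ u) = u) ∧ HasFDerivAt ψ (L.symm : F →L[ℂ] E) (φ a) := by
  have : CompleteSpace E := FiniteDimensional.complete ℂ E
  have : CompleteSpace F := FiniteDimensional.complete ℂ F
  have h1 : ContDiffAt ℂ (⊤ : WithTop ℕ∞) φ a := hφ.contDiffAt
  have hn : (⊤ : WithTop ℕ∞) ≠ 0 := WithTop.top_ne_zero
  refine ⟨h1.localInverse hL hn, ?_, h1.localInverse_apply_image hL hn, ?_, ?_, ?_⟩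
  · exact (h1.to_localInverse hL hn).analyticAt
  · exact (h1.hasStrictFDerivAt' hL hn).eventually_left_inverse
  · exact (h1.hasStrictFDerivAt' hL hn).eventually_right_inverse
  · exact (h1.hasStrictFDerivAt' hL hn).to_localInverse.hasFDerivAt

/-- local integrability is invariant under local biholomorphisms -/
theorem LI_comp_iff_analytic [MeasurableSpace E] [BorelSpace E] [MeasurableSpace F] [BorelSpace F]
    (μ : Measure E) [μ.IsAddHaarMeasure] (ν : Measure F) [ν.IsAddHaarMeasure]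
    {φ : E → F} {a : E} (hφ : AnalyticAt ℂ φ a) (L : E ≃L[ℂ] F)
    (hL : HasFDerivAt φ (L : E →L[ℂ] F) a) (g : F → ℝ≥0∞) :
    LI ν g (φ a) ↔ LI μ (fun x => g (φ x)) a := by
  have : CompleteSpace F := FiniteDimensional.complete ℂ F
  have i1 : FiniteDimensional ℝ E := FiniteDimensional.complexToReal E
  have i2 : FiniteDimensional ℝ F := FiniteDimensional.complexToReal F
  set L' : E ≃L[ℝ] F :=
    { L.toLinearEquiv.restrictScalars ℝ with
      continuous_toFun := L.continuous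
      continuous_invFun := L.symm.continuous } with hLdef
  have hL' : HasFDerivAt φ (L' : E →L[ℝ] F) a := hL.restrictScalars ℝ
  refine LI_comp_iff μ ν ?_ L' hL' g
  exact (hφ.contDiffAt (n := 1)).restrict_scalars ℝ

/-- local integrability is invariant under local biholomorphisms -/
theorem LInt_comp_iff {n : ℕ} {φ : Cn n → Cn n} {a : Cn n} (hφ : AnalyticAt ℂ φ a)
    (L : Cn n ≃L[ℂ] Cn n) (hL : HasFDerivAt φ (L : Cn n →L[ℂ] Cn n) a) (g : Cn n → ℝ≥0∞) :
    LInt g (φ a) ↔ LInt (fun x => g (φ x)) a :=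
  LI_comp_iff_analytic volume volume hφ L hL g

end complex

section chart

variable {n : ℕ} {B : Type} [CommRing B] [Algebra ℂ B] {z : Fin n → B} {y : B →ₐ[ℂ] ℂ}

theorem chart_analyticAt_pi (C : Chart z y) {κ : Type} [Fintype κ] (w : κ → B) :
    AnalyticAt ℂ (fun ζ => fun i => C.s ζ (w i)) 0 :=
  analyticAt_pi_iff.2 fun i => chart_analyticAt C (w i)

theorem chart_s_z (C : Chart z y) (j : Fin n) :
    ∀ᶠ ζ in 𝓝 (0 : Cn n), C.s ζ (z j) = y (z j) + ζ j := by
  filter_upwards [chart_ball_mem C] with ζ hζ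
  exact C.s_z ζ hζ j

/-- coordinates at `y` have invertible derivative in the chart -/
theorem exists_deriv_equiv (C : Chart z y) (w : Fin n → B) (hw : ∀ i, y (w i) = 0) (g : B)
    (hg : y g ≠ 0) (h : ∀ f : B, y f = 0 → g * f ∈ Ideal.span (Set.range w)) :
    ∃ L : Cn n ≃L[ℂ] Cn n, HasFDerivAt (fun ζ => fun i => C.s ζ (w i)) (L : Cn n →L[ℂ] Cn n) 0 := by
  have hd : ∀ b : B, HasFDerivAt (fun ζ => C.s ζ b) (fderiv ℂ (fun ζ => C.s ζ b) 0) 0 := fun b =>
    (chart_analyticAt C b).differentiableAt.hasFDerivAt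
  have hs0 : ∀ b : B, C.s 0 b = y b := fun b => by rw [C.s_zero]
  set D : Cn n →L[ℂ] Cn n := ContinuousLinearMap.pi fun i => fderiv ℂ (fun ζ => C.s ζ (w i)) 0
    with hD
  have hDd : HasFDerivAt (fun ζ => fun i => C.s ζ (w i)) D 0 := by
    rw [hasFDerivAt_pi']
    intro i
    rw [hD, ContinuousLinearMap.proj_pi]
    exact hd (w i)
  have hinj : Function.Injective D := by
    rw [injective_iff_map_eq_zero]
    intro v hv
    have hv' : ∀ i, fderiv ℂ (fun ζ => C.s ζ (w i)) 0 v = 0 := fun i => congrFun hv i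
    funext j
    obtain ⟨c, hc⟩ := Ideal.mem_span_range_iff_exists_fun.1
      (h (z j - algebraMap ℂ B (y (z j))) (by rw [map_sub, AlgHom.commutes]; simp))
    have e1 : (fun ζ => ∑ i, C.s ζ (c i) * C.s ζ (w i)) =ᶠ[𝓝 (0 : Cn n)]
        (fun ζ => C.s ζ g * ζ j) := by
      filter_upwards [chart_s_z C j] with ζ hζ
      have e2 := congrArg (C.s ζ) hc
      rw [map_sum, map_mul, map_sub, AlgHom.commutes, hζ] at e2
      simpa using e2
    have d1 : HasFDerivAt (fun ζ => ∑ i, C.s ζ (c i) * C.s ζ (w i))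
        (∑ i, (C.s 0 (c i) • fderiv ℂ (fun ζ => C.s ζ (w i)) 0 +
          C.s 0 (w i) • fderiv ℂ (fun ζ => C.s ζ (c i)) 0)) 0 :=
      HasFDerivAt.fun_sum fun i _ => (hd (c i)).mul (hd (w i))
    have d2 : HasFDerivAt (fun ζ : Cn n => C.s ζ g * ζ j)
        (C.s 0 g • (ContinuousLinearMap.proj j : Cn n →L[ℂ] ℂ) +
          (0 : Cn n) j • fderiv ℂ (fun ζ => C.s ζ g) 0) 0 :=
      (hd g).mul (ContinuousLinearMap.proj (R := ℂ) (φ := fun _ : Fin n => ℂ) j).hasFDerivAt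
    have d3 := (d2.congr_of_eventuallyEq e1).unique d1
    have d4 := congrArg (fun T : Cn n →L[ℂ] ℂ => T v) d3
    simp only [hs0, hw, hv', _root_.add_apply, _root_.smul_apply, _root_.sum_apply,
      Pi.zero_apply, ContinuousLinearMap.proj_apply, smul_eq_mul, mul_zero, zero_mul, add_zero,
      Finset.sum_const_zero] at d4
    exact (mul_eq_zero.1 d4).resolve_left hg
  refine ⟨(LinearEquiv.ofInjectiveEndo (D : Cn n →ₗ[ℂ] Cn n) hinj).toContinuousLinearEquiv, ?_⟩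
  have e3 : (((LinearEquiv.ofInjectiveEndo (D : Cn n →ₗ[ℂ] Cn n) hinj).toContinuousLinearEquiv :
      Cn n ≃L[ℂ] Cn n) : Cn n →L[ℂ] Cn n) = D := by
    ext x
    rfl
  rw [e3]
  exact hDd

/-- (L5) coordinates `w` at the point `y`: they are a local biholomorphism, with inverse `ψ`, and
local integrability can be tested in the coordinates `w`. -/
theorem exists_coord (C : Chart z y) (w : Fin n → B) (hw : ∀ i, y (w i) = 0) (g : B)
    (hg : y g ≠ 0) (h : ∀ f : B, y f = 0 → g * f ∈ Ideal.span (Set.range w)) :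
    ∃ ψ : Cn n → Cn n, AnalyticAt ℂ ψ 0 ∧ ψ 0 = 0 ∧
      (∀ᶠ ζ in 𝓝 (0 : Cn n), ψ (fun i => C.s ζ (w i)) = ζ) ∧
      (∀ᶠ u in 𝓝 (0 : Cn n), ∀ i, C.s (ψ u) (w i) = u i) ∧
      (∀ b : B, AnalyticAt ℂ (fun u => C.s (ψ u) b) 0) ∧
      (∀ᶠ u in 𝓝 (0 : Cn n), ψ u ∈ ball (0 : Cn n) C.r) ∧
      ∀ G : (B →ₐ[ℂ] ℂ) → ℝ≥0∞, (LIntB z y G ↔ LInt (fun u => G (C.s (ψ u))) 0) := by
  obtain ⟨L, hL⟩ := exists_deriv_equiv C w hw g hg h
  obtain ⟨ψ, h1, h2, h3, h4, h5⟩ := exists_analytic_inverse (chart_analyticAt_pi C w) L hL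
  have e0 : (fun i => C.s 0 (w i)) = (0 : Cn n) := by
    funext i
    rw [C.s_zero, hw]; rfl
  simp only [e0] at h1 h2 h4 h5
  refine ⟨ψ, h1, h2, h3, ?_, ?_, ?_, ?_⟩
  · filter_upwards [h4] with u hu i
    exact congrFun hu i
  · intro b
    have hb : AnalyticAt ℂ (fun ζ => C.s ζ b) (ψ 0) := by rw [h2]; exact chart_analyticAt C b
    exact hb.comp h1
  · have h6 := h1.continuousAt
    rw [ContinuousAt, h2] at h6
    exact h6 (chart_ball_mem C)
  · intro G
    rw [LIntB_iff C G]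
    have h7 := LInt_comp_iff h1 L.symm h5 (fun ζ => G (C.s ζ))
    rw [h2] at h7
    exact h7

end chart

end Crest.Agent.R271.Local821
end
end

-- ▼ part R271/Fub_103
section

/-!
Row 271, team L (helper103): AF8 (`FubiniFact`) from the Fubini theorem for germs.
-/

set_option autoImplicit false
set_option linter.unusedVariables false
set_option linter.unusedSectionVars false

open scoped ENNReal NNReal Topology BigOperators
open MeasureTheory Filter Set Metric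

noncomputable section

namespace Crest.Agent.R271.Fub103

open Crest.Agent.R271.Defs710 Crest.Agent.R271.Local821

/-- (AF8) for germs at `0 ∈ ℂⁿ` -/
def AF8Germ (n : ℕ) : Prop :=
  ∀ (d : ℕ), d < n → ∀ (m : ℕ) (h : Fin m → Cn n → ℂ) (a b g : ℝ),
    (∀ j, AnalyticAt ℂ (h j) 0) → 0 ≤ a → 0 ≤ b → (d : ℝ) < g →
    LInt (fun ζ => (ENNReal.ofReal (∑ j, ‖h j ζ‖ ^ 2)) ^ (-a) *
      (ENNReal.ofReal (∑ i : {i : Fin n // d ≤ i.1}, ‖ζ i‖ ^ 2)) ^ (-b) *
      (ENNReal.ofReal (∑ i, ‖ζ i‖ ^ 2)) ^ (-g)) 0 →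
    ∀ ε : ℝ, 0 < ε → ε < 1 →
      LInt (fun ζ => (ENNReal.ofReal (∑ j, ‖h j ζ‖ ^ 2)) ^ (-((1 - ε) * a)) *
        (ENNReal.ofReal (∑ i : {i : Fin n // d ≤ i.1}, ‖ζ i‖ ^ 2)) ^
          (-((1 - ε) * b + (g - d) - ε))) 0

section dom

variable {n : ℕ} {B : Type} [CommRing B] [Algebra ℂ B] {z : Fin n → B} {y : B →ₐ[ℂ] ℂ}

/-- `∑ᵢ |vᵢ|²` -/
def fam {κ : Type} [Fintype κ] (v : κ → B) (y' : B →ₐ[ℂ] ℂ) : ℝ := ∑ i, ‖y' (v i)‖ ^ 2

theorem fam_nonneg {κ : Type} [Fintype κ] (v : κ → B) (y' : B →ₐ[ℂ] ℂ) : 0 ≤ fam v y' :=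
  Finset.sum_nonneg fun _ _ => by positivity

/-- Cauchy-Schwarz -/
theorem sq_norm_sum_le {κ : Type} [Fintype κ] (p q : κ → ℂ) :
    ‖∑ i, p i * q i‖ ^ 2 ≤ (∑ i, ‖p i‖ ^ 2) * ∑ i, ‖q i‖ ^ 2 := by
  have h1 : ‖∑ i, p i * q i‖ ≤ ∑ i, ‖p i‖ * ‖q i‖ := by
    refine (norm_sum_le _ _).trans (Finset.sum_le_sum fun i _ => ?_)
    rw [norm_mul]
  calc ‖∑ i, p i * q i‖ ^ 2 ≤ (∑ i, ‖p i‖ * ‖q i‖) ^ 2 := by gcongr
    _ ≤ _ := Finset.sum_mul_sq_le_sq_mul_sq _ _ _

theorem dom_fam_of_mem {κ : Type} [Fintype κ] (v : κ → B) (S : Finset B)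
    (h : ∀ i, v i ∈ Ideal.span (S : Set B)) : Dom z y (fam v) (wt S) := by
  classical
  have h1 : Dom z y (fam v) (wt (Finset.univ.image v)) := by
    refine Dom.of_le (K := (Fintype.card κ : ℝ) + 1) (by positivity) fun y' => ?_
    have h2 : fam v y' ≤ ∑ _i : κ, wt (Finset.univ.image v) y' := by
      refine Finset.sum_le_sum fun i _ => ?_
      exact sq_norm_le_wt (Finset.mem_image_of_mem v (Finset.mem_univ i)) y'
    rw [Finset.sum_const, Finset.card_univ, nsmul_eq_mul] at h2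
    nlinarith [wt_nonneg (Finset.univ.image v) y']
  refine h1.trans (wt_le_of_subset_span y ?_)
  intro b hb
  simp only [Finset.coe_image, Finset.coe_univ, image_univ, mem_range] at hb
  obtain ⟨i, rfl⟩ := hb
  exact h i

theorem dom_wt_fam {κ : Type} [Fintype κ] (v : κ → B) (S : Finset B) (g : B) (hg : y g ≠ 0)
    (h : ∀ f ∈ S, g * f ∈ Ideal.span (range v)) : Dom z y (wt S) (fam v) := by
  have h1 : ∀ f : B, ∃ c : κ → B, f ∈ S → ∑ i, c i * v i = g * f := by
    intro f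
    by_cases hf : f ∈ S
    · obtain ⟨c, hc⟩ := Ideal.mem_span_range_iff_exists_fun.1 (h f hf)
      exact ⟨c, fun _ => hc⟩
    · exact ⟨0, fun h' => absurd h' hf⟩
  choose c hc using h1
  set δ : ℝ := ‖y g‖ ^ 2 / 2 with hδ
  have hδ0 : 0 < δ := by
    have := norm_pos_iff.2 hg
    positivity
  set M : B → ℝ := fun f => fam (c f) y + 1 with hM
  have hM0 : ∀ f, 0 ≤ M f := fun f => by
    have := fam_nonneg (c f) y
    simp only [hM]; linarith
  refine ⟨(∑ f ∈ S, M f) / δ + 1, ?_, fun C => ?_⟩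
  · have : 0 ≤ ∑ f ∈ S, M f := Finset.sum_nonneg fun f _ => hM0 f
    positivity
  have e1 : ∀ᶠ ζ in 𝓝 (0 : Cn n), δ < ‖C.s ζ g‖ ^ 2 := by
    have h2 := ((chart_tendsto C g).norm.pow 2)
    refine h2.eventually (lt_mem_nhds ?_)
    have := norm_pos_iff.2 hg
    rw [hδ]
    have : 0 < ‖y g‖ ^ 2 := by positivity
    linarith
  have e2 : ∀ᶠ ζ in 𝓝 (0 : Cn n), ∀ f ∈ S, fam (c f) (C.s ζ) < M f := by
    rw [Filter.eventually_all_finset]
    intro f _
    have h2 : Tendsto (fun ζ => fam (c f) (C.s ζ)) (𝓝 0) (𝓝 (fam (c f) y)) :=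
      tendsto_finsetSum _ fun i _ => (chart_tendsto C (c f i)).norm.pow 2
    exact h2.eventually (gt_mem_nhds (lt_add_one _))
  filter_upwards [e1, e2] with ζ h2 h3
  have h4 : ∀ f ∈ S, ‖C.s ζ f‖ ^ 2 ≤ M f / δ * fam v (C.s ζ) := by
    intro f hf
    have h5 : C.s ζ g * C.s ζ f = ∑ i, C.s ζ (c f i) * C.s ζ (v i) := by
      have := congrArg (C.s ζ) (hc f hf)
      rw [map_sum, map_mul] at this
      rw [← this]
      simp only [map_mul]
    have h6 : ‖C.s ζ g‖ ^ 2 * ‖C.s ζ f‖ ^ 2 ≤ M f * fam v (C.s ζ) := by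
      rw [← mul_pow, ← norm_mul, h5]
      refine (sq_norm_sum_le _ _).trans ?_
      exact mul_le_mul_of_nonneg_right (h3 f hf).le (fam_nonneg v _)
    have h7 : δ * ‖C.s ζ f‖ ^ 2 ≤ M f * fam v (C.s ζ) :=
      (mul_le_mul_of_nonneg_right h2.le (by positivity)).trans h6
    rw [div_mul_eq_mul_div, le_div_iff₀ hδ0]
    linarith
  have h8 : wt S (C.s ζ) ≤ ∑ f ∈ S, M f / δ * fam v (C.s ζ) := Finset.sum_le_sum h4
  rw [← Finset.sum_mul, ← Finset.sum_div] at h8
  have := fam_nonneg v (C.s ζ)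
  linarith

end dom

/-- (AF8) -/
theorem fubiniFact_of (h : ∀ n, AF8Germ n) {n : ℕ} (X : FCtx n) : FubiniFact X := by
  intro y d P I a b g hP hI hd hAd ha hb hg hint ε hε hε1
  obtain ⟨w, hw0, hwP, g0, hg0, hPg, hmg⟩ := hAd
  -- `d < n`
  have hdn : d < n := by
    rcases hd.lt_or_eq with h1 | h1
    · exact h1
    exfalso
    apply hP
    rw [eq_bot_iff]
    intro f hf
    have h2 := hPg f hf
    have h3 : {i : Fin n | d ≤ i.1} = ∅ := by
      ext i
      simp only [Set.mem_ofPred_eq, mem_empty_iff_false, iff_false, not_le]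
      rw [h1]; exact i.2
    rw [h3, image_empty, Ideal.span_empty, Ideal.mem_bot] at h2
    rcases mul_eq_zero.1 h2 with h4 | h4
    · exact absurd (by rw [h4, map_zero]) hg0
    · exact h4
  obtain ⟨C⟩ := Rd692.chartEx X y
  obtain ⟨ψ, hψ, hψ0, hψ1, hψ2, hψ3, hψ4, hψ5⟩ := exists_coord C w hw0 g0 hg0 hmg
  have := noeth X
  obtain ⟨S, hS⟩ := exists_gens ![I, P, mI y]
  have hS0 : Ideal.span (S 0 : Set X.B) = I := hS 0
  have hS1 : Ideal.span (S 1 : Set X.B) = P := hS 1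
  have hS2 : Ideal.span (S 2 : Set X.B) = mI y := hS 2
  have hint1 := (IInt_iff _ _ S hS).1 hint
  -- the families
  set vP : {i : Fin n // d ≤ i.1} → X.B := fun i => w i with hvP
  have dP1 : Dom X.z y (wt (S 1)) (fam vP) := by
    refine dom_wt_fam vP (S 1) g0 hg0 fun f hf => ?_
    have h1 := hPg f (by rw [← hS1]; exact Ideal.subset_span hf)
    rw [image_eq_range] at h1
    exact h1
  have dP2 : Dom X.z y (fam vP) (wt (S 1)) := by
    refine dom_fam_of_mem vP (S 1) fun i => ?_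
    rw [hS1]
    exact hwP i.1 i.2
  have dm1 : Dom X.z y (wt (S 2)) (fam w) := by
    refine dom_wt_fam w (S 2) g0 hg0 fun f hf => ?_
    have h1 : f ∈ mI y := by rw [← hS2]; exact Ideal.subset_span hf
    exact hmg f h1
  have dm2 : Dom X.z y (fam w) (wt (S 2)) := by
    refine dom_fam_of_mem w (S 2) fun i => ?_
    rw [hS2]
    exact hw0 i
  obtain ⟨K1, hK1, hle1⟩ := Dom.rpow dP1 dP2 b
  obtain ⟨K2, hK2, hle2⟩ := Dom.rpow dm1 dm2 g
  have hint2 : LIntB X.z y (fun y' => (ENNReal.ofReal (wt (S 0) y')) ^ (-a) *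
      (ENNReal.ofReal (fam vP y')) ^ (-b) * (ENNReal.ofReal (fam w y')) ^ (-g)) := by
    refine LIntB.mono_const hint1 (ENNReal.mul_ne_top hK1 hK2) fun C' => ?_
    filter_upwards [hle1 C', hle2 C'] with ζ h1 h2
    unfold wB
    rw [Fin.prod_univ_three]
    simp only [Matrix.cons_val_zero, Matrix.cons_val_one, Matrix.cons_val]
    calc (ENNReal.ofReal (wt (S 0) (C'.s ζ))) ^ (-a) *
          (ENNReal.ofReal (fam vP (C'.s ζ))) ^ (-b) * (ENNReal.ofReal (fam w (C'.s ζ))) ^ (-g)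
        ≤ (ENNReal.ofReal (wt (S 0) (C'.s ζ))) ^ (-a) *
          (K1 * (ENNReal.ofReal (wt (S 1) (C'.s ζ))) ^ (-b)) *
          (K2 * (ENNReal.ofReal (wt (S 2) (C'.s ζ))) ^ (-g)) := by gcongr
      _ = _ := by ring
  have hint3 := (hψ5 _).1 hint2
  -- the germs
  set e := (S 0).equivFin with he
  set F : Fin (S 0).card → Cn n → ℂ := fun j u => C.s (ψ u) (e.symm j) with hF
  have hFan : ∀ j, AnalyticAt ℂ (F j) 0 := fun j => hψ3 _
  have hsum : ∀ u, ∑ j, ‖F j u‖ ^ 2 = wt (S 0) (C.s (ψ u)) := by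
    intro u
    unfold wt
    rw [← Finset.sum_coe_sort (S 0)]
    exact Equiv.sum_comp e.symm (fun b : S 0 => ‖C.s (ψ u) b‖ ^ 2)
  have hint4 : LInt (fun ζ => (ENNReal.ofReal (∑ j, ‖F j ζ‖ ^ 2)) ^ (-a) *
      (ENNReal.ofReal (∑ i : {i : Fin n // d ≤ i.1}, ‖ζ i‖ ^ 2)) ^ (-b) *
      (ENNReal.ofReal (∑ i, ‖ζ i‖ ^ 2)) ^ (-g)) 0 := by
    refine LInt.congr hint3 ?_
    filter_upwards [hψ2] with u hu
    simp only [hsum, fam, hvP, hu]
  have hint5 := h n d hdn _ F a b g hFan ha hb hg hint4 ε hε hε1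
  have hint6 : LIntB X.z y (fun y' => (ENNReal.ofReal (wt (S 0) y')) ^ (-((1 - ε) * a)) *
      (ENNReal.ofReal (fam vP y')) ^ (-((1 - ε) * b + (g - d) - ε))) := by
    refine (hψ5 _).2 (LInt.congr hint5 ?_)
    filter_upwards [hψ2] with u hu
    simp only [hsum, fam, hvP, hu]
  obtain ⟨K3, hK3, hle3⟩ := Dom.rpow dP2 dP1 ((1 - ε) * b + (g - d) - ε)
  refine ⟨![S 0, S 1], ?_, ?_⟩
  · intro i
    fin_cases i
    · exact hS0
    · exact hS1
  · refine LIntB.mono_const hint6 hK3 fun C' => ?_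
    filter_upwards [hle3 C'] with ζ h1
    unfold wB
    rw [Fin.prod_univ_two]
    simp only [Matrix.cons_val_zero, Matrix.cons_val_one]
    calc _ ≤ (ENNReal.ofReal (wt (S 0) (C'.s ζ))) ^ (-((1 - ε) * a)) *
          (K3 * (ENNReal.ofReal (fam vP (C'.s ζ))) ^ (-((1 - ε) * b + (g - d) - ε))) := by gcongr
      _ = _ := by ring

end Crest.Agent.R271.Fub103
end
end

-- ▼ part R271/Spec_103
section

/-!
Row 271, team L (helper103): AF9 (`SpecFact`) from the specialisation theorem for germs.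
-/

set_option autoImplicit false
set_option linter.unusedVariables false
set_option linter.unusedSectionVars false

open scoped ENNReal NNReal Topology BigOperators
open MeasureTheory Filter Set Metric

noncomputable section

namespace Crest.Agent.R271.Spec103

open Crest.Agent.R271.Defs710 Crest.Agent.R271.Local821

/-- (AF9) for germs at `0 ∈ ℂⁿ × ℂᵏ` -/
def AF9Germ (n k : ℕ) : Prop :=
  ∀ (m : ℕ) (f : Fin m → Cn n × Cn k → ℂ) (c : ℝ), (∀ j, AnalyticAt ℂ (f j) 0) → 0 ≤ c →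
    LInt (fun ζ => (ENNReal.ofReal (∑ j, ‖f j (ζ, 0)‖ ^ 2)) ^ (-c)) 0 →
    ∀ ε : ℝ, 0 < ε → ε < 1 →
      ∃ U ∈ 𝓝 (0 : Cn n × Cn k),
        ∫⁻ p in U, (ENNReal.ofReal (∑ j, ‖f j p‖ ^ 2)) ^ (-((1 - ε) * c)) < ∞

/-- Tonelli: a locally integrable germ on `ℂⁿ × ℂ` has integrable restrictions to a.e. slice -/
theorem exists_slices {n m : ℕ} (f : Fin m → Cn n × Cn 1 → ℂ) (e : ℝ)
    (hf : ∀ j, AnalyticAt ℂ (f j) 0)
    (h : ∃ U ∈ 𝓝 (0 : Cn n × Cn 1), ∫⁻ p in U, (ENNReal.ofReal (∑ j, ‖f j p‖ ^ 2)) ^ e < ∞) :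
    ∃ r > 0, ∃ᶠ t in 𝓝[≠] (0 : ℂ),
      ∫⁻ ζ in ball (0 : Cn n) r, (ENNReal.ofReal (∑ j, ‖f j (ζ, fun _ => t)‖ ^ 2)) ^ e < ∞ := by
  obtain ⟨U, hU, hlt⟩ := h
  have hcont : ∀ᶠ p in 𝓝 (0 : Cn n × Cn 1), ∀ j, ContinuousAt (f j) p := by
    rw [Filter.eventually_all]
    intro j
    filter_upwards [(hf j).eventually_analyticAt] with p hp
    exact hp.continuousAt
  obtain ⟨r, hr, hrU⟩ := Metric.mem_nhds_iff.1 (Filter.inter_mem hU hcont)
  have hball : ball (0 : Cn n) r ×ˢ ball (0 : Cn 1) r = ball (0 : Cn n × Cn 1) r :=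
    ball_prod_same _ _ _
  rw [← hball] at hrU
  refine ⟨r, hr, ?_⟩
  set G : Cn n × Cn 1 → ℝ≥0∞ := fun p => (ENNReal.ofReal (∑ j, ‖f j p‖ ^ 2)) ^ e with hG
  have hms : MeasurableSet (ball (0 : Cn n) r ×ˢ ball (0 : Cn 1) r) :=
    measurableSet_ball.prod measurableSet_ball
  have hc : ContinuousOn (fun p => ∑ j, ‖f j p‖ ^ 2) (ball (0 : Cn n) r ×ˢ ball (0 : Cn 1) r) :=
    continuousOn_finsetSum _ fun j _ => fun p hp =>
      (((hrU hp).2 j).norm.pow 2).continuousWithinAt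
  have hGm : AEMeasurable G ((volume.restrict (ball (0 : Cn n) r)).prod
      (volume.restrict (ball (0 : Cn 1) r))) := by
    rw [Measure.prod_restrict]
    exact ((hc.aemeasurable hms).ennreal_ofReal).pow_const e
  have hfin : ∫⁻ p, G p ∂((volume.restrict (ball (0 : Cn n) r)).prod
      (volume.restrict (ball (0 : Cn 1) r))) < ∞ := by
    rw [Measure.prod_restrict]
    exact (lintegral_mono_set (fun p hp => (hrU hp).1)).trans_lt hlt
  rw [lintegral_prod_symm _ hGm] at hfin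
  have hm2 : AEMeasurable (fun τ : Cn 1 => ∫⁻ ζ in ball (0 : Cn n) r, G (ζ, τ))
      (volume.restrict (ball (0 : Cn 1) r)) := hGm.prod_swap.lintegral_prod_right'
  have hae := ae_lt_top' hm2 hfin.ne
  by_contra hcon
  rw [Filter.not_frequently, eventually_nhdsWithin_iff, Metric.eventually_nhds_iff] at hcon
  obtain ⟨δ, hδ, hcon⟩ := hcon
  set A : Set (Cn 1) := {τ | τ 0 ≠ 0} ∩ ball (0 : Cn 1) (min δ r) with hA
  have hAo : IsOpen A :=
    (isOpen_compl_singleton.preimage (continuous_apply (0 : Fin 1))).inter isOpen_ball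
  have hAne : A.Nonempty := by
    refine ⟨fun _ => ((min δ r / 2 : ℝ) : ℂ), ?_, ?_⟩
    · have : (0 : ℝ) < min δ r / 2 := by positivity
      simpa using this.ne'
    · have h0 : (0 : ℝ) < min δ r := lt_min hδ hr
      rw [mem_ball_zero_iff, pi_norm_lt_iff h0]
      intro i
      rw [Complex.norm_real, Real.norm_of_nonneg (by positivity)]
      linarith
  have hpos := hAo.measure_pos (volume : Measure (Cn 1)) hAne
  have hzero : (volume : Measure (Cn 1)) A = 0 := by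
    rw [ae_restrict_iff' measurableSet_ball, ae_iff] at hae
    refine measure_mono_null ?_ hae
    rintro τ ⟨hτ0, hτ⟩
    simp only [Set.mem_ofPred_eq, not_forall]
    refine ⟨ball_subset_ball (min_le_right _ _) hτ, ?_⟩
    have h1 : dist (τ 0) 0 < δ := by
      rw [dist_zero_right]
      have h2 := norm_le_pi_norm τ 0
      rw [mem_ball_zero_iff] at hτ
      exact lt_of_le_of_lt h2 (lt_of_lt_of_le hτ (min_le_left _ _))
    have h3 := hcon h1 hτ0
    have h4 : (fun _ : Fin 1 => τ 0) = τ := by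
      funext i
      rw [Subsingleton.elim i 0]
    rw [h4] at h3
    exact h3
  exact hpos.ne' hzero

/-- (AF9) -/
theorem specFact_of (h : ∀ n, AF9Germ n 1) {n : ℕ} (X : FCtx n) : SpecFact X := by
  intro y nF nb b co c γ hγ0 hγ hco hc hint ε hε hε1
  obtain ⟨C⟩ := Rd692.chartEx X y
  have hC := (LIntB_iff C _).1 hint
  set f : Fin nF → Cn n × Cn 1 → ℂ := fun i p => ∑ j, co i j (p.2 0) * C.s p.1 (b j) with hf
  have hfan : ∀ i, AnalyticAt ℂ (f i) 0 := by
    intro i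
    refine Finset.analyticAt_fun_sum _ fun j _ => AnalyticAt.mul ?_ ?_
    · have h1 : AnalyticAt ℂ (fun p : Cn n × Cn 1 => p.2 0) 0 :=
        ((ContinuousLinearMap.proj (R := ℂ) (φ := fun _ : Fin 1 => ℂ) 0).comp
          (ContinuousLinearMap.snd ℂ (Cn n) (Cn 1))).analyticAt 0
      exact AnalyticAt.comp_of_eq (g := co i j) (hco i j) h1 rfl
    · exact AnalyticAt.comp_of_eq (g := fun ζ => C.s ζ (b j)) (chart_analyticAt C (b j))
        analyticAt_fst rfl
  obtain ⟨r, hr, hfr⟩ := exists_slices f (-((1 - ε) * c)) hfan (h n nF f c hfan hc hC ε hε hε1)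
  -- the disc stays in the chart
  have hlim : ∀ g : X.B, Tendsto (fun t => γ t g) (𝓝 0) (𝓝 (y g)) := by
    intro g
    have h1 := (hγ g).continuousAt
    rw [ContinuousAt, hγ0] at h1
    exact h1
  obtain ⟨T, δ, hδ, hT⟩ := C.surj
  have hev1 : ∀ᶠ t in 𝓝 (0 : ℂ), ∀ g ∈ T, ‖γ t g - y g‖ < δ := by
    rw [Filter.eventually_all_finset]
    intro g _
    have h1 := hlim g
    rw [Metric.tendsto_nhds] at h1
    filter_upwards [h1 δ hδ] with t ht
    rwa [dist_eq_norm] at ht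
  have hρ : 0 < min r C.r := lt_min hr C.r_pos
  have hev2 : ∀ᶠ t in 𝓝 (0 : ℂ), ∀ i, ‖γ t (X.z i) - y (X.z i)‖ < min r C.r := by
    rw [Filter.eventually_all]
    intro i
    have h1 := hlim (X.z i)
    rw [Metric.tendsto_nhds] at h1
    filter_upwards [h1 _ hρ] with t ht
    rwa [dist_eq_norm] at ht
  refine (hfr.and_eventually (nhdsWithin_le_nhds (hev1.and hev2))).mono ?_
  rintro t ⟨hlt, ht1, ht2⟩
  have hs := hT (γ t) ht1
  set ζ : Cn n := fun i => γ t (X.z i) - y (X.z i) with hζ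
  have hζn : ‖ζ‖ < min r C.r := (pi_norm_lt_iff hρ).2 ht2
  have hζr : ζ ∈ ball (0 : Cn n) r := mem_ball_zero_iff.2 (hζn.trans_le (min_le_left _ _))
  have hζC : ζ ∈ ball (0 : Cn n) C.r := mem_ball_zero_iff.2 (hζn.trans_le (min_le_right _ _))
  rw [hs]
  rw [Rd692.chartChange X y C ζ hζC]
  exact ⟨ball (0 : Cn n) r, isOpen_ball.mem_nhds hζr, hlt⟩

end Crest.Agent.R271.Spec103
end
end

-- ▼ part R271/Spec2_103

/-!
Row 271, team L (helper103): AF9 (`SpecFact`) from the sum theorem.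
-/

set_option autoImplicit false

namespace Crest.Agent.R271.Spec103

open Crest.Agent.R271.Defs710

/-- (AF9) from (AF4) -/
theorem specFact (hS : SumThm) {n : ℕ} (X : FCtx n) : SpecFact X :=
  specFact_of (fun n => L934.af9Germ hS n 1 le_rfl) X

end Crest.Agent.R271.Spec103
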