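import Mathlib
import Crest.Agent.R271.Defs_710
import Crest.Agent.R271.Der_171
import Crest.Agent.R271.Ctx1_728
import Crest.Agent.R271.CoordMain_769_Mg
import Crest.Agent.R271.C5_756
import Crest.Agent.R271.Ctx2_728
import Crest.Agent.R271.Bridge0_713
import Crest.Agent.R271.Br6_958
import Crest.Agent.R271.PCtx2_961
import Crest.Agent.R271.GAll_792_Mg
import Crest.Agent.R271.Engine_51
import Crest.Agent.R271.Spec2_103_Mg
import Crest.Agent.R271.Bs4_960_Mg
import Crest.Agent.R271.ExiFinal_376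

-- ▼ part R271/Deg_171
section

/-!
Row 271, task B9 part 2: degrees of the coefficients of monic factors.
-/

set_option autoImplicit false

open scoped BigOperators
open MvPolynomial

namespace Crest.Agent.R271.Deg171

variable {n : ℕ}

/-- the weighted homogenisation `T ↦ X₀^m` -/
noncomputable def Fh (m : ℕ) (G : Polynomial (MvPolynomial (Fin n) ℂ)) :
    MvPolynomial (Fin (n + 1)) ℂ :=
  (finSuccEquiv ℂ n).symm (Polynomial.expand _ m G)

theorem Fh_mul (m : ℕ) (G H : Polynomial (MvPolynomial (Fin n) ℂ)) :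
    Fh m (G * H) = Fh m G * Fh m H := by
  unfold Fh; rw [map_mul, map_mul]

theorem finSucc_Fh (m : ℕ) (G : Polynomial (MvPolynomial (Fin n) ℂ)) :
    finSuccEquiv ℂ n (Fh m G) = Polynomial.expand _ m G := by
  unfold Fh; rw [AlgEquiv.apply_symm_apply]

theorem Fh_ne_zero (m : ℕ) (hm : 0 < m) (G : Polynomial (MvPolynomial (Fin n) ℂ)) (hG : G ≠ 0) :
    Fh m G ≠ 0 := by
  intro h
  have h1 : finSuccEquiv ℂ n (Fh m G) = 0 := by rw [h, map_zero]
  rw [finSucc_Fh, Polynomial.expand_eq_zero hm] at h1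
  exact hG h1

theorem le_Fh (m : ℕ) (hm : 0 < m) (G : Polynomial (MvPolynomial (Fin n) ℂ)) (i : ℕ)
    (hi : G.coeff i ≠ 0) : (G.coeff i).totalDegree + m * i ≤ (Fh m G).totalDegree := by
  have h1 : (finSuccEquiv ℂ n (Fh m G)).coeff (m * i) = G.coeff i := by
    rw [finSucc_Fh, Polynomial.coeff_expand_mul' hm]
  have h2 := totalDegree_coeff_finSuccEquiv_add_le (Fh m G) (m * i) (by rw [h1]; exact hi)
  rwa [h1] at h2

theorem Fh_le (m : ℕ) (hm : 0 < m) (G : Polynomial (MvPolynomial (Fin n) ℂ)) (d : ℕ)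
    (hd : ∀ i, G.coeff i ≠ 0 → (G.coeff i).totalDegree + m * i ≤ d) :
    (Fh m G).totalDegree ≤ d := by
  rw [totalDegree, Finset.sup_le_iff]
  intro σ hσ
  have hσ' : σ = (Finsupp.tail σ).cons (σ 0) := (Finsupp.cons_tail σ).symm
  rw [hσ', ← mem_support_coeff_finSuccEquiv, finSucc_Fh, Polynomial.coeff_expand hm] at hσ
  by_cases hdvd : m ∣ σ 0
  · rw [if_pos hdvd] at hσ
    have h0 : G.coeff (σ 0 / m) ≠ 0 := by
      intro h
      rw [h] at hσ
      simp at hσ
    have h1 := hd _ h0
    have h2 := le_totalDegree hσ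
    have h3 : m * (σ 0 / m) = σ 0 := Nat.mul_div_cancel' hdvd
    have h4 : (σ.sum fun _ e => e) = σ 0 + ((Finsupp.tail σ).sum fun _ e => e) := by
      conv_lhs => rw [hσ']
      rw [Finsupp.sum_cons]
    rw [h4]
    omega
  · rw [if_neg hdvd] at hσ
    simp at hσ

/-- Degrees of the constant coefficient of a monic factor. -/
theorem coeff_zero_degree (m : ℕ) (hm : 0 < m) (G M M' : Polynomial (MvPolynomial (Fin n) ℂ))
    (hG : G = M * M') (hM : M.Monic) (hM' : M'.Monic)
    (hdeg : ∀ i, G.coeff i ≠ 0 → (G.coeff i).totalDegree + m * i ≤ m * G.natDegree)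
    (h0 : M.coeff 0 ≠ 0) :
    (M.coeff 0).totalDegree ≤ m * M.natDegree := by
  have h1 := Fh_le m hm G _ hdeg
  have h2 : (Fh m G).totalDegree = (Fh m M).totalDegree + (Fh m M').totalDegree := by
    rw [hG, Fh_mul]
    exact totalDegree_mul_of_isDomain (Fh_ne_zero m hm M hM.ne_zero) (Fh_ne_zero m hm M' hM'.ne_zero)
  have h3 := le_Fh m hm M 0 h0
  have h4 := le_Fh m hm M' M'.natDegree (by
    rw [Polynomial.coeff_natDegree, hM'.leadingCoeff]; exact one_ne_zero)
  have h5 : G.natDegree = M.natDegree + M'.natDegree := by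
    rw [hG]; exact hM.natDegree_mul hM'
  rw [h5, mul_add] at h1
  omega

/-- dehomogenisation `Y₀ = 1`, `Y_{i+1} = zᵢ` -/
noncomputable def deh (a : MvPolynomial (Fin (n + 1)) ℂ) : MvPolynomial (Fin n) ℂ :=
  aeval (Fin.cons 1 (fun i => X i) : Fin (n + 1) → MvPolynomial (Fin n) ℂ) a

theorem deh_degree (a : MvPolynomial (Fin (n + 1)) ℂ) : (deh a).totalDegree ≤ a.totalDegree := by
  unfold deh
  rw [aeval_def, eval₂_eq]
  refine totalDegree_finsetSum_le ?_
  intro σ hσ
  refine (totalDegree_mul _ _).trans ?_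
  have h1 : (algebraMap ℂ (MvPolynomial (Fin n) ℂ) (coeff σ a)).totalDegree = 0 := totalDegree_C _
  rw [h1, zero_add]
  refine (totalDegree_finsetProd _ _).trans ?_
  refine le_trans (Finset.sum_le_sum (g := fun i => σ i) ?_) (le_totalDegree hσ)
  intro i _
  refine (totalDegree_pow _ _).trans ?_
  have h2 : ((Fin.cons 1 (fun i => X i) : Fin (n + 1) → MvPolynomial (Fin n) ℂ) i).totalDegree ≤ 1 := by
    refine Fin.cases ?_ (fun j => ?_) i
    · simp
    · simp [totalDegree_X]
  calc σ i * _ ≤ σ i * 1 := Nat.mul_le_mul_left _ h2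
    _ = σ i := mul_one _

variable {B : Type} [CommRing B] [Algebra ℂ B]

/-- `a(Y) u^d = (deh a)(z)` if `Y₀ u = 1`, `Y_{i+1} u = zᵢ` -/
theorem aeval_deh (Y : Fin (n + 1) → B) (z : Fin n → B) (u : B) (hu : Y 0 * u = 1)
    (hz : ∀ i, Y (Fin.succ i) * u = z i) (a : MvPolynomial (Fin (n + 1)) ℂ) (d : ℕ)
    (ha : a.IsHomogeneous d) : aeval Y a * u ^ d = aeval z (deh a) := by
  have h1 : aeval z (deh a) = aeval (fun j => Y j * u) a := by
    unfold deh
    rw [← AlgHom.comp_apply, comp_aeval]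
    congr 2
    funext j
    refine Fin.cases ?_ (fun i => ?_) j
    · simp [hu]
    · simp [hz]
  rw [h1, aeval_def, aeval_def, eval₂_eq, eval₂_eq, Finset.sum_mul]
  refine Finset.sum_congr rfl fun σ hσ => ?_
  have h2 : d = ∑ i ∈ σ.support, σ i := by
    have := ha (mem_support_iff.1 hσ)
    rw [← this, Finsupp.weight_apply]
    simp [Finsupp.sum]
  rw [mul_assoc]
  congr 1
  simp_rw [mul_pow]
  rw [Finset.prod_mul_distrib, Finset.prod_pow_eq_pow_sum, ← h2]

end Crest.Agent.R271.Deg171
end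

-- ▼ part R271/Ord_171
section

/-!
Row 271, task B9: from graded integrality over `ℂ[Y₀,…,Yₙ]` to `V 0 = ℂ`, `V_fin`, `ordbd` (C4) and
`FSbd`.
-/

set_option autoImplicit false

open scoped BigOperators TensorProduct
open MvPolynomial

namespace Crest.Agent.R271.Ord171

open Crest.Agent.R271.Defs710 Crest.Agent.R271.Jets171 Crest.Agent.R271.Deg171

variable {B : Type} [CommRing B] [Algebra ℂ B] {n : ℕ}

/-- graded integrality of `f^k`, `f ∈ V m`, over `ℂ[Y₀,…,Yₙ]`, `Yⱼ ∈ V k` -/
def IntY (V : ℕ → Submodule ℂ B) (k : ℕ) (Y : Fin (n + 1) → B) : Prop :=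
  ∀ m, ∀ f ∈ V m, ∃ (r : ℕ) (a : ℕ → MvPolynomial (Fin (n + 1)) ℂ), 1 ≤ r ∧
    (∀ i, (a i).IsHomogeneous (m * i)) ∧
    (f ^ k) ^ r = ∑ i ∈ Finset.range r, aeval Y (a (r - i)) * (f ^ k) ^ i

/-! ### `FSbd` -/

theorem norm_aeval_le (Y : Fin (n + 1) → B) (a : MvPolynomial (Fin (n + 1)) ℂ) (d : ℕ)
    (ha : a.IsHomogeneous d) (y : B →ₐ[ℂ] ℂ) (s : ℝ) (hs : ∀ j, ‖y (Y j)‖ ≤ s) :
    ‖y (aeval Y a)‖ ≤ (∑ σ ∈ a.support, ‖coeff σ a‖) * s ^ d := by
  have h0 : 0 ≤ s := (norm_nonneg _).trans (hs 0)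
  rw [aeval_def, eval₂_eq, map_sum, Finset.sum_mul]
  refine (norm_sum_le _ _).trans (Finset.sum_le_sum fun σ hσ => ?_)
  rw [map_mul, norm_mul, map_prod, norm_prod]
  have h1 : y ((algebraMap ℂ B) (coeff σ a)) = coeff σ a := by simp
  rw [h1]
  refine mul_le_mul_of_nonneg_left ?_ (norm_nonneg _)
  have h2 : d = ∑ i ∈ σ.support, σ i := by
    have := ha (mem_support_iff.1 hσ)
    rw [← this, Finsupp.weight_apply]
    simp [Finsupp.sum]
  rw [h2, ← Finset.prod_pow_eq_pow_sum]
  refine Finset.prod_le_prod (fun i _ => norm_nonneg _) fun i _ => ?_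
  rw [map_pow, norm_pow]
  exact pow_le_pow_left₀ (norm_nonneg _) (hs i) _

theorem root_bound (t σ : ℝ) (hσ : 0 ≤ σ) (r : ℕ) (A : ℕ → ℝ)
    (hA : ∀ i, 0 ≤ A i)
    (h : t ^ r ≤ ∑ i ∈ Finset.range r, A (r - i) * σ ^ (r - i) * t ^ i) :
    t ≤ (1 + ∑ i ∈ Finset.range r, A (r - i)) * σ := by
  set S : ℝ := ∑ i ∈ Finset.range r, A (r - i) with hS
  have hS0 : 0 ≤ S := Finset.sum_nonneg fun i _ => hA _
  by_contra hcon
  push Not at hcon
  have htpos : 0 < t := lt_of_le_of_lt (by positivity) hcon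
  have hσt : σ ≤ t / (1 + S) := by
    rw [le_div_iff₀ (by positivity)]
    nlinarith
  have h1 : ∀ i ∈ Finset.range r, A (r - i) * σ ^ (r - i) * t ^ i ≤ A (r - i) * (t ^ r / (1 + S)) := by
    intro i hi
    rw [mul_assoc]
    refine mul_le_mul_of_nonneg_left ?_ (hA _)
    have hi' : i < r := Finset.mem_range.1 hi
    have h2 : σ ^ (r - i) ≤ t ^ (r - i) / (1 + S) := by
      calc σ ^ (r - i) ≤ (t / (1 + S)) ^ (r - i) := pow_le_pow_left₀ hσ hσt _
        _ = t ^ (r - i) / (1 + S) ^ (r - i) := div_pow _ _ _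
        _ ≤ t ^ (r - i) / (1 + S) := by
          refine div_le_div_of_nonneg_left (by positivity) (by positivity) ?_
          calc (1 + S) = (1 + S) ^ 1 := (pow_one _).symm
            _ ≤ (1 + S) ^ (r - i) := pow_le_pow_right₀ (by linarith) (by omega)
    calc σ ^ (r - i) * t ^ i ≤ t ^ (r - i) / (1 + S) * t ^ i :=
          mul_le_mul_of_nonneg_right h2 (by positivity)
      _ = t ^ r / (1 + S) := by
          rw [div_mul_eq_mul_div, ← pow_add]
          congr 2
          omega
  have h2 : t ^ r ≤ S * (t ^ r / (1 + S)) := by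
    refine h.trans ((Finset.sum_le_sum h1).trans ?_)
    rw [← Finset.sum_mul]
  have h3 : 0 < t ^ r := pow_pos htpos r
  have h4 : S * (t ^ r / (1 + S)) < t ^ r := by
    rw [mul_div_assoc', div_lt_iff₀ (by positivity)]
    nlinarith
  linarith

/-- (B9, FSbd) -/
theorem FSbd_of_int (V : ℕ → Submodule ℂ B) (k : ℕ) (Y : Fin (n + 1) → B) (hint : IntY V k Y) :
    ∀ m, ∀ f ∈ V m, ∃ C : ℝ, ∀ y : B →ₐ[ℂ] ℂ, ‖y f‖ ^ (2 * k) ≤ C * (∑ j, ‖y (Y j)‖ ^ 2) ^ m := by
  intro m f hf
  obtain ⟨r, a, hr, ha, hfr⟩ := hint m f hf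
  set A : ℕ → ℝ := fun i => ∑ σ ∈ (a i).support, ‖coeff σ (a i)‖ with hA
  set S : ℝ := 1 + ∑ i ∈ Finset.range r, A (r - i) with hS
  refine ⟨S ^ 2, fun y => ?_⟩
  set s : ℝ := Real.sqrt (∑ j, ‖y (Y j)‖ ^ 2) with hs
  have hρ0 : 0 ≤ ∑ j, ‖y (Y j)‖ ^ 2 := Finset.sum_nonneg fun j _ => by positivity
  have hs0 : 0 ≤ s := Real.sqrt_nonneg _
  have hsq : s ^ 2 = ∑ j, ‖y (Y j)‖ ^ 2 := Real.sq_sqrt hρ0
  have hYs : ∀ j, ‖y (Y j)‖ ≤ s := by
    intro j
    rw [hs]
    refine Real.le_sqrt_of_sq_le ?_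
    exact Finset.single_le_sum (f := fun j => ‖y (Y j)‖ ^ 2) (fun i _ => by positivity)
      (Finset.mem_univ j)
  have h1 : (‖y f‖ ^ k) ^ r ≤
      ∑ i ∈ Finset.range r, A (r - i) * (s ^ m) ^ (r - i) * (‖y f‖ ^ k) ^ i := by
    have h2 : (‖y f‖ ^ k) ^ r = ‖y ((f ^ k) ^ r)‖ := by
      rw [map_pow, map_pow, norm_pow, norm_pow]
    rw [h2, hfr, map_sum]
    refine (norm_sum_le _ _).trans (Finset.sum_le_sum fun i _ => ?_)
    rw [map_mul, norm_mul, map_pow, map_pow, norm_pow, norm_pow]
    refine mul_le_mul_of_nonneg_right ?_ (by positivity)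
    have h3 := norm_aeval_le Y (a (r - i)) _ (ha (r - i)) y s hYs
    rwa [pow_mul] at h3
  have h4 := root_bound (‖y f‖ ^ k) (s ^ m) (by positivity) r A
    (fun i => Finset.sum_nonneg fun _ _ => norm_nonneg _) h1
  calc ‖y f‖ ^ (2 * k) = (‖y f‖ ^ k) ^ 2 := by rw [← pow_mul, mul_comm]
    _ ≤ (S * s ^ m) ^ 2 := pow_le_pow_left₀ (by positivity) h4 2
    _ = S ^ 2 * (∑ j, ‖y (Y j)‖ ^ 2) ^ m := by rw [mul_pow, ← hsq]; ring

/-! ### the integral equation as a polynomial -/

/-- `T^r - ∑ p_{r-i} T^i` -/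
noncomputable def GP {R : Type} [CommRing R] (r : ℕ) (p : ℕ → R) : Polynomial R :=
  Polynomial.X ^ r - ∑ i ∈ Finset.range r, Polynomial.C (p (r - i)) * Polynomial.X ^ i

section GP

variable {R : Type} [CommRing R] (r : ℕ) (p : ℕ → R)

theorem GP_degree_aux :
    (∑ i ∈ Finset.range r, Polynomial.C (p (r - i)) * Polynomial.X ^ i).degree <
      (r : WithBot ℕ) := by
  rw [Finset.sum_range (fun i => Polynomial.C (p (r - i)) * Polynomial.X ^ i)]
  exact Polynomial.degree_sum_fin_lt (fun i : Fin r => p (r - i))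

theorem GP_monic : (GP r p).Monic := Polynomial.monic_X_pow_sub (GP_degree_aux r p)

theorem GP_natDegree [Nontrivial R] : (GP r p).natDegree = r := by
  have h : (GP r p).degree = (r : WithBot ℕ) := by
    unfold GP
    rw [Polynomial.degree_sub_eq_left_of_degree_lt]
    · rw [Polynomial.degree_X_pow]
    · rw [Polynomial.degree_X_pow]; exact GP_degree_aux r p
  exact Polynomial.natDegree_eq_of_degree_eq_some h

theorem GP_coeff (i : ℕ) :
    (GP r p).coeff i = (if i = r then 1 else 0) - (if i < r then p (r - i) else 0) := by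
  unfold GP
  rw [Polynomial.coeff_sub, Polynomial.coeff_X_pow, Polynomial.finsetSum_coeff]
  congr 1
  simp only [Polynomial.coeff_C_mul, Polynomial.coeff_X_pow, mul_ite, mul_one, mul_zero]
  by_cases h : i < r
  · rw [if_pos h, Finset.sum_eq_single i]
    · simp
    · intro j _ hj
      rw [if_neg (Ne.symm hj)]
    · intro h'
      exact absurd (Finset.mem_range.2 h) h'
  · rw [if_neg h]
    refine Finset.sum_eq_zero fun j hj => ?_
    rw [if_neg]
    rintro rfl
    exact h (Finset.mem_range.1 hj)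

theorem GP_aeval {S : Type} [CommRing S] [Algebra R S] (x : S) :
    Polynomial.aeval x (GP r p) =
      x ^ r - ∑ i ∈ Finset.range r, algebraMap R S (p (r - i)) * x ^ i := by
  unfold GP
  simp [map_sub, map_sum]

end GP

/-! ### `V 0 = ℂ` -/

theorem const_of_int [IsDomain B] (V : ℕ → Submodule ℂ B) (k : ℕ) (hk : 1 ≤ k)
    (Y : Fin (n + 1) → B) (hint : IntY V k Y) : V 0 ≤ 1 := by
  intro f hf
  obtain ⟨r, a, hr, ha, hfr⟩ := hint 0 f hf
  have hc : ∀ i, ∃ c : ℂ, a i = C c := by
    intro i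
    have h1 : (a i).totalDegree = 0 := by
      have := (ha i).totalDegree_le
      omega
    exact ⟨_, totalDegree_eq_zero_iff_eq_C.1 h1⟩
  choose c hc using hc
  have hint' : IsIntegral ℂ f := by
    refine IsIntegral.of_pow (n := k) (by omega) ⟨GP r c, GP_monic r c, ?_⟩
    rw [← Polynomial.aeval_def, GP_aeval, hfr, sub_eq_zero]
    refine Finset.sum_congr rfl fun i _ => ?_
    rw [hc (r - i), aeval_C]
  have h1 := IsAlgClosed.degree_eq_one_of_irreducible ℂ (minpoly.irreducible hint')
  obtain ⟨w, hw⟩ := minpoly.mem_range_of_degree_eq_one ℂ f h1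
  rw [← hw]
  exact Submodule.algebraMap_mem w

/-! ### integrality over `ℂ[z]` -/

/-- the polynomial equation over `ℂ[z]` of `φ = f^k u^m` -/
theorem eq_of_int (V : ℕ → Submodule ℂ B) (k : ℕ)
    (Y : Fin (n + 1) → B) (hint : IntY V k Y) (z : Fin n → B) (u : B) (hu : Y 0 * u = 1)
    (hz : ∀ i, Y (Fin.succ i) * u = z i) (m : ℕ) (f : B) (hf : f ∈ V m) :
    ∃ (r : ℕ) (p : ℕ → MvPolynomial (Fin n) ℂ), (∀ i, (p i).totalDegree ≤ m * i) ∧
      (f ^ k * u ^ m) ^ r = ∑ i ∈ Finset.range r, aeval z (p (r - i)) * (f ^ k * u ^ m) ^ i := by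
  obtain ⟨r, a, hr, ha, hfr⟩ := hint m f hf
  refine ⟨r, fun i => deh (a i), fun i => (deh_degree _).trans (ha i).totalDegree_le, ?_⟩
  rw [mul_pow, hfr, Finset.sum_mul]
  refine Finset.sum_congr rfl fun i hi => ?_
  have hi' : i < r := Finset.mem_range.1 hi
  rw [← aeval_deh Y z u hu hz (a (r - i)) _ (ha (r - i)), mul_pow]
  have h1 : (u ^ m) ^ r = u ^ (m * (r - i)) * (u ^ m) ^ i := by
    rw [← pow_mul, ← pow_mul, ← pow_add, ← mul_add]
    congr 2
    omega
  rw [h1]; ring


/-! ### `ordbd` -/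

section ordbd

variable [IsDomain B]

/-- the uniform bound for the degree of the minimal polynomials -/
theorem exists_degree_bound (z : Fin n → B)
    (het : RingHom.Etale ((MvPolynomial.aeval z : MvPolynomial (Fin n) ℂ →ₐ[ℂ] B) :
      MvPolynomial (Fin n) ℂ →+* B))
    (hinj : Function.Injective (MvPolynomial.aeval z : MvPolynomial (Fin n) ℂ →ₐ[ℂ] B)) :
    ∃ D : ℕ, ∀ (φ : B) (r : ℕ) (p : ℕ → MvPolynomial (Fin n) ℂ) (m : ℕ), 0 < m → φ ≠ 0 →
      (∀ i, (p i).totalDegree ≤ m * i) →
      φ ^ r = ∑ i ∈ Finset.range r, aeval z (p (r - i)) * φ ^ i →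
      ∃ c : MvPolynomial (Fin n) ℂ, c ≠ 0 ∧ c.totalDegree ≤ m * D ∧ φ ∣ aeval z c := by
  classical
  let _ : Algebra (MvPolynomial (Fin n) ℂ) B :=
    ((MvPolynomial.aeval z : MvPolynomial (Fin n) ℂ →ₐ[ℂ] B) :
      MvPolynomial (Fin n) ℂ →+* B).toAlgebra
  have : IsScalarTower ℂ (MvPolynomial (Fin n) ℂ) B :=
    IsScalarTower.of_algebraMap_eq (fun c => ((MvPolynomial.aeval z).commutes c).symm)
  have : Algebra.Etale (MvPolynomial (Fin n) ℂ) B := het
  have halg : ∀ p : MvPolynomial (Fin n) ℂ,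
      algebraMap (MvPolynomial (Fin n) ℂ) B p = aeval z p := fun p => rfl
  have : FaithfulSMul (MvPolynomial (Fin n) ℂ) B :=
    (faithfulSMul_iff_algebraMap_injective _ _).2 hinj
  let K := FractionRing (MvPolynomial (Fin n) ℂ)
  let L := FractionRing B
  let _ : Algebra K L := FractionRing.liftAlgebra (MvPolynomial (Fin n) ℂ) L
  have : Algebra.EssFiniteType (MvPolynomial (Fin n) ℂ) L :=
    Algebra.EssFiniteType.comp (MvPolynomial (Fin n) ℂ) B L
  have : Algebra.FormallyUnramified B L :=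
    Algebra.FormallyUnramified.of_isLocalization (nonZeroDivisors B)
  have : Algebra.FormallyUnramified (MvPolynomial (Fin n) ℂ) L :=
    Algebra.FormallyUnramified.comp (MvPolynomial (Fin n) ℂ) B L
  have : IsScalarTower (MvPolynomial (Fin n) ℂ) K L := inferInstance
  have : Algebra.EssFiniteType K L := Algebra.EssFiniteType.of_comp (MvPolynomial (Fin n) ℂ) K L
  have : Algebra.FormallyUnramified K L :=
    Algebra.FormallyUnramified.of_restrictScalars (MvPolynomial (Fin n) ℂ) K L
  have : Module.Finite K L := Algebra.FormallyUnramified.finite_of_free K L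
  refine ⟨Module.finrank K L, ?_⟩
  intro φ r p m hm hφ hp hφr
  have haev : Polynomial.aeval φ (GP r p) = 0 := by
    rw [GP_aeval, hφr, sub_eq_zero]
    rfl
  have hφint : IsIntegral (MvPolynomial (Fin n) ℂ) φ := ⟨GP r p, GP_monic _ _, haev⟩
  obtain ⟨M', hM'⟩ := minpoly.isIntegrallyClosed_dvd hφint haev
  have hMm : (minpoly (MvPolynomial (Fin n) ℂ) φ).Monic := minpoly.monic hφint
  have hM'm : M'.Monic := hMm.of_mul_monic_left (by rw [← hM']; exact GP_monic _ _)
  have hc0 : (minpoly (MvPolynomial (Fin n) ℂ) φ).coeff 0 ≠ 0 := by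
    intro h
    have hφL : algebraMap B L φ ≠ 0 := by
      intro h'
      exact hφ (IsFractionRing.injective B L (by rw [h', map_zero]))
    have hφK : IsIntegral K (algebraMap B L φ) := Algebra.IsIntegral.isIntegral _
    refine minpoly.coeff_zero_ne_zero hφK hφL ?_
    rw [minpoly.isIntegrallyClosed_eq_field_fractions K L hφint, Polynomial.coeff_map, h, map_zero]
  refine ⟨(minpoly (MvPolynomial (Fin n) ℂ) φ).coeff 0, hc0, ?_, ?_⟩
  · have h1 := coeff_zero_degree m hm (GP r p) _ M' hM' hMm hM'm (by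
      intro i hi
      rw [GP_natDegree]
      rw [GP_coeff] at hi ⊢
      by_cases h : i = r
      · subst h
        simp
      · by_cases h' : i < r
        · rw [if_neg h, if_pos h', zero_sub, totalDegree_neg]
          calc (p (r - i)).totalDegree + m * i ≤ m * (r - i) + m * i :=
                Nat.add_le_add_right (hp _) _
            _ = m * r := by rw [← mul_add]; congr 1; omega
        · rw [if_neg h, if_neg h'] at hi
          simp at hi) hc0
    refine h1.trans (Nat.mul_le_mul_left _ ?_)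
    have h2 := minpoly.isIntegrallyClosed_eq_field_fractions K L hφint
    have h3 := minpoly.natDegree_le (A := K) (algebraMap B L φ)
    rw [h2, hMm.natDegree_map] at h3
    exact h3
  · rw [← halg]
    have h1 := minpoly.aeval (MvPolynomial (Fin n) ℂ) φ
    rw [← Polynomial.divX_mul_X_add (minpoly (MvPolynomial (Fin n) ℂ) φ)] at h1
    simp only [map_add, map_mul, Polynomial.aeval_X, Polynomial.aeval_C] at h1
    refine ⟨-(Polynomial.aeval φ (minpoly (MvPolynomial (Fin n) ℂ) φ).divX), ?_⟩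
    linear_combination h1

/-- (B9, C4): vanishing orders are linearly bounded. -/
theorem ordbd_of_int (V : ℕ → Submodule ℂ B) (k : ℕ) (hk : 1 ≤ k)
    (Y : Fin (n + 1) → B) (hint : IntY V k Y) (z : Fin n → B)
    (het : RingHom.Etale ((MvPolynomial.aeval z : MvPolynomial (Fin n) ℂ →ₐ[ℂ] B) :
      MvPolynomial (Fin n) ℂ →+* B))
    (hY : IsUnit (Y 0)) (hYz : ∀ i : Fin n, z i * Y 0 = Y i.succ) :
    ∃ C₁ : ℕ, ∀ m, ∀ f ∈ V m, f ≠ 0 → ∀ (y : B →ₐ[ℂ] ℂ) (e : ℕ), f ∈ mI y ^ e → e ≤ C₁ * m := by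
  obtain ⟨u, hu⟩ := hY.exists_right_inv
  have hz : ∀ i, Y (Fin.succ i) * u = z i := by
    intro i
    rw [← hYz i, mul_assoc, hu, mul_one]
  by_cases hne : Nonempty (B →ₐ[ℂ] ℂ)
  swap
  · exact ⟨0, fun m f _ _ y => (hne ⟨y⟩).elim⟩
  obtain ⟨y₀⟩ := hne
  have hinj : Function.Injective (MvPolynomial.aeval z : MvPolynomial (Fin n) ℂ →ₐ[ℂ] B) := by
    rw [injective_iff_map_eq_zero]
    intro p hp
    by_contra hne
    have h1 := order_le_totalDegree z het y₀ p hne (p.totalDegree + 1) (by
      have : (aeval z : MvPolynomial (Fin n) ℂ →ₐ[ℂ] B) p = 0 := hp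
      rw [this]
      exact Ideal.zero_mem _)
    omega
  obtain ⟨D, hD⟩ := exists_degree_bound z het hinj
  refine ⟨D, ?_⟩
  intro m f hf hf0 y e he
  rcases Nat.eq_zero_or_pos m with rfl | hm
  · obtain ⟨c, hc⟩ := Submodule.mem_one.1 (const_of_int V k hk Y hint hf)
    by_contra hcon
    have h1 : f ∈ mI y := Ideal.pow_le_self (by omega) he
    rw [mem_mI, ← hc] at h1
    apply hf0
    rw [← hc]
    have : c = 0 := by simpa using h1
    rw [this, map_zero]
  · obtain ⟨r, p, hp, hfr⟩ := eq_of_int V k Y hint z u hu hz m f hf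
    have hu0 : u ≠ 0 := by
      rintro rfl
      rw [mul_zero] at hu
      exact zero_ne_one hu
    have hφ : f ^ k * u ^ m ≠ 0 := mul_ne_zero (pow_ne_zero _ hf0) (pow_ne_zero _ hu0)
    obtain ⟨c, hc0, hcd, w, hw⟩ := hD (f ^ k * u ^ m) r p m hm hφ hp hfr
    have h1 : aeval z c ∈ mI y ^ e := by
      rw [hw]
      refine Ideal.mul_mem_right _ _ (Ideal.mul_mem_right _ _ ?_)
      obtain ⟨k', rfl⟩ : ∃ k', k = k' + 1 := ⟨k - 1, by omega⟩
      rw [pow_succ]
      exact Ideal.mul_mem_left _ _ he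
    have h2 := order_le_totalDegree z het y c hc0 e h1
    rw [mul_comm]
    exact h2.trans hcd



end ordbd

end Crest.Agent.R271.Ord171
end

-- ▼ part R271/JetsOrd_171
section

/-!
Row 271: `JetsProp` and `OrdFSProp` of `Ctx1_728`.
-/

set_option autoImplicit false

open scoped BigOperators

namespace Crest.Agent.R271.JetsOrd171

open Crest.Agent.R271.Defs710 Crest.Agent.R271.Ctx728 Crest.Agent.R271.Jets171
  Crest.Agent.R271.Ord171

theorem jetsProp : JetsProp := by
  intro B _ _ _ V k₀ hG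
  refine jets V ?_ hG.mul k₀ ?_ hG.gen
  · rw [hG.zero]
    exact Submodule.one_le.1 le_rfl
  · intro m hm y
    obtain ⟨f, hf, hf'⟩ := hG.bpf m hm (mI y) (RingHom.ker_isPrime _)
    exact ⟨f, hf, fun h => hf' ((mem_mI y f).2 h)⟩

theorem pow_mem_V {B : Type} [CommRing B] [Algebra ℂ B] (V : ℕ → Submodule ℂ B) (h0 : V 0 = 1)
    (hmul : ∀ m l a b, a ∈ V m → b ∈ V l → a * b ∈ V (m + l)) (m k : ℕ) (f : B) (hf : f ∈ V m) :
    f ^ k ∈ V (m * k) := by
  induction k with
  | zero =>
    rw [pow_zero, mul_zero, h0]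
    exact Submodule.one_le.1 le_rfl
  | succ k ih =>
    rw [pow_succ, mul_add, mul_one]
    exact hmul _ _ _ _ ih hf

theorem ordFSProp : OrdFSProp := by
  intro n B _ _ _ V z k Y hn hft het h0 hmul hfin hk hYV hY hYz hG
  have hint : IntY V k Y := by
    intro m f hf
    obtain ⟨r, hr, p, hp, he⟩ := hG m (f ^ k) (pow_mem_V V h0 hmul m k f hf)
    exact ⟨r, p, hr, hp, he⟩
  exact ⟨ordbd_of_int V k hk Y hint z het hY hYz, FSbd_of_int V k Y hint⟩

end Crest.Agent.R271.JetsOrd171
end

-- ▼ part R271/Model_728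
section

/-!
Row 271, team B (helper728): `ModelProp` from `GrowthProp`.
-/

set_option autoImplicit false

open Crest.Agent.R271.Defs710

namespace Crest.Agent.R271.Ctx728

theorem model_of_growth (hG : GrowthProp) (n : ℕ) (P : PCtx n) (hn : 1 ≤ n) :
    Nonempty (Model P) :=
  exists_model Crest.Agent.R271.CoordMain769.coordProp Crest.Agent.R271.JetsOrd171.jetsProp hG
    Crest.Agent.R271.JetsOrd171.ordFSProp P hn

end Crest.Agent.R271.Ctx728
end

-- ▼ part R271/Growth_756
section

/-!
Row 271: `growthProp : Ctx728.GrowthProp` (C5), from `C5_756.GSec.growth`.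
-/

set_option autoImplicit false

open scoped BigOperators
open Polynomial

noncomputable section

namespace Crest.Agent.R271.Growth756

open Crest.Agent.R271.Ctx728

theorem monomial_mem {B : Type} [CommRing B] [Algebra ℂ B] (W : Submodule ℂ B) (N : ℕ) (u : B)
    (hu : u ∈ W ^ N) :
    (monomial N u : B[X]) ∈ Algebra.adjoin ℂ ((fun w => (monomial 1 w : B[X])) '' (W : Set B)) := by
  induction N generalizing u with
  | zero =>
    rw [pow_zero, Submodule.mem_one] at hu
    obtain ⟨c, rfl⟩ := hu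
    rw [monomial_zero_left, ← Polynomial.algebraMap_apply]
    exact Subalgebra.algebraMap_mem _ _
  | succ N ih =>
    rw [pow_succ] at hu
    refine Submodule.mul_induction_on hu ?_ ?_
    · intro a ha w hw
      have h1 := ih a ha
      have h2 : (monomial 1 w : B[X]) ∈
        Algebra.adjoin ℂ ((fun w => (monomial 1 w : B[X])) '' (W : Set B)) :=
        Algebra.subset_adjoin ⟨w, hw, rfl⟩
      have := Subalgebra.mul_mem _ h1 h2
      rwa [monomial_mul_monomial] at this
    · intro a b ha hb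
      rw [map_add]
      exact Subalgebra.add_mem _ ha hb

theorem isIntegral_of_GInt {B : Type} [CommRing B] [Algebra ℂ B] {W : Submodule ℂ B} {m : ℕ}
    {f : B} (h : GInt W m f) :
    IsIntegral (Algebra.adjoin ℂ ((fun w => (monomial 1 w : B[X])) '' (W : Set B)))
      (monomial m f : B[X]) := by
  obtain ⟨r, hr, a, ha, hf⟩ := h
  refine isIntegral_of_rel r hr
    (fun j => ⟨monomial (m * j) (a j), monomial_mem W _ _ (ha j)⟩) _ ?_
  rw [monomial_pow, hf, map_sum]
  refine Finset.sum_congr rfl fun i hi => ?_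
  have hi' := Finset.mem_range.1 hi
  show _ = (monomial (m * (r - i)) (a (r - i)) : B[X]) * (monomial m f) ^ i
  have e1 : m * r = m * (r - i) + m * i := by
    rw [← Nat.mul_add, Nat.sub_add_cancel hi'.le]
  rw [monomial_pow, monomial_mul_monomial, e1]

theorem gsec {B : Type} [CommRing B] [IsDomain B] [Algebra ℂ B] {V : ℕ → Submodule ℂ B} {k₀ : ℕ}
    (h : Ctx728.GSec B V k₀) : C5_756.GSec V k₀ where
  one := by rw [h.zero]; exact Submodule.mem_one.2 ⟨1, map_one _⟩
  mul := h.mul
  fin := fun m => Module.Finite.iff_fg.1 (h.fin m)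
  bpf := h.bpf
  gen := by
    obtain ⟨Q, S, hS, hS2⟩ := h.gen
    have hone : (1 : B) ∈ V 0 := by rw [h.zero]; exact Submodule.mem_one.2 ⟨1, map_one _⟩
    intro b
    have hb : b ∈ Algebra.adjoin ℂ (S : Set B) := by rw [hS]; trivial
    induction hb using Algebra.adjoin_induction with
    | mem b hb =>
      obtain ⟨g, hg, hu, hbg⟩ := hS2 b hb
      exact ⟨Q, g, hg, hu, hbg⟩
    | algebraMap r =>
      refine ⟨0, 1, hone, isUnit_one, ?_⟩
      rw [← Algebra.smul_def]
      exact Submodule.smul_mem _ _ hone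
    | add a b _ _ h1 h2 =>
      obtain ⟨p, g, hg, hu, ha⟩ := h1
      obtain ⟨p', g', hg', hu', hb⟩ := h2
      refine ⟨p + p', g * g', h.mul _ _ _ _ hg hg', hu.mul hu', ?_⟩
      have e1 : (a + b) * (g * g') = (a * g) * g' + g * (b * g') := by ring
      rw [e1]
      exact Submodule.add_mem _ (h.mul _ _ _ _ ha hg') (h.mul _ _ _ _ hg hb)
    | mul a b _ _ h1 h2 =>
      obtain ⟨p, g, hg, hu, ha⟩ := h1
      obtain ⟨p', g', hg', hu', hb⟩ := h2
      refine ⟨p + p', g * g', h.mul _ _ _ _ hg hg', hu.mul hu', ?_⟩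
      have e1 : (a * b) * (g * g') = (a * g) * (b * g') := by ring
      rw [e1]
      exact h.mul _ _ _ _ ha hb
  int := fun m hm q f hf => isIntegral_of_GInt (h.int m hm q f hf)

theorem growthProp : Ctx728.GrowthProp := by
  intro B _ _ _ V k₀ h d ε hε
  obtain ⟨Q, S, hS, -⟩ := h.gen
  have hft : Algebra.FiniteType ℂ B := ⟨⟨S, hS⟩⟩
  exact (gsec h).growth d ε hε

end Crest.Agent.R271.Growth756
end
end

-- ▼ part R271/ModelFin_728
section

/-!
Row 271, team B (helper728): `modelProp : ModelProp`, unconditional.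
-/

set_option autoImplicit false

open Crest.Agent.R271.Defs710

namespace Crest.Agent.R271.Ctx728

theorem modelProp : Crest.Agent.R271.Bridge713.ModelProp := fun n P hn =>
  model_of_growth Crest.Agent.R271.Growth756.growthProp n P hn

end Crest.Agent.R271.Ctx728
end

-- ▼ part R271/Br7_958
section

set_option autoImplicit false
set_option linter.unusedSectionVars false

open AlgebraicGeometry Order CategoryTheory Crest.AlgGeometry.Divisors TopologicalSpace

namespace Crest.Agent.R271.Br958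

set_option warn.classDefReducibility false in
attribute [local instance] fnFieldAlgebra

variable {X : Scheme.{0}} [Algebra ℂ Γ(X, ⊤)] [IsIntegral X] [IsLocallyNoetherian X]

section secAlg

/-- the ring of functions regular on `U`, as a subalgebra of the function field -/
noncomputable def secAlg (U : X.Opens) [Nonempty U] : Subalgebra ℂ X.functionField :=
  { (algebraMap Γ(X, U) X.functionField).range with
    algebraMap_mem' := by
      intro c
      refine ⟨X.presheaf.map (homOfLE le_top).op (algebraMap ℂ Γ(X, ⊤) c), ?_⟩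
      rw [algebraMap_eq_germ]
      exact TopCat.Presheaf.germ_res_apply X.presheaf _ _ _ _ }


/-- every rational function is a quotient of functions regular on the affine open `U` -/
lemma secAlg_frac {U : X.Opens} (hU : IsAffineOpen U) [Nonempty U] (u : X.functionField) :
    ∃ a b : secAlg U, (b : X.functionField) ≠ 0 ∧ u * b = a := by
  have := functionField_isFractionRing_of_isAffineOpen X U hU
  obtain ⟨a, b, hb, rfl⟩ := IsFractionRing.div_surjective (A := Γ(X, U)) u
  refine ⟨⟨_, a, rfl⟩, ⟨_, b, rfl⟩, ?_, ?_⟩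
  · simpa using nonZeroDivisors.ne_zero hb
  · have : algebraMap Γ(X, U) X.functionField b ≠ 0 := by
      simpa using nonZeroDivisors.ne_zero hb
    change _ / _ * algebraMap Γ(X, U) X.functionField b = _
    field_simp

/-- functions regular on the nonvanishing locus of `s` -/
theorem mem_secAlg_iff [CompactSpace X] [NormalSch X] {D : WeilDiv X} {s : X.functionField}
    (hs : IsSection D s) {U : X.Opens} (hUa : IsAffineOpen U) [Nonempty U]
    (hU : (U : Set X) = {y | NonvanishingAt D s y}) (f : X.functionField) :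
    f ∈ secAlg U ↔ ∃ j : ℕ, f * s ^ j ∈ H0 (j • D) := by
  constructor
  · rintro ⟨a, rfl⟩
    obtain ⟨j, hj⟩ := mul_pow_mem_H0 hs hU (algebraMap Γ(X, U) X.functionField a)
      (fun z hz hzU => ord_section_nonneg a hz hzU)
    exact ⟨j, hj j le_rfl⟩
  · rintro ⟨j, hj⟩
    by_cases hf0 : f = 0
    · rw [hf0]; exact zero_mem _
    have hne : f * s ^ j ≠ 0 := mul_ne_zero hf0 (pow_ne_zero _ hs.1)
    have hsec := isSection_of_mem hj hne
    have hfe : f = (f * s ^ j) / s ^ j := by
      have := pow_ne_zero j hs.1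
      field_simp
    refine mem_section_of_ord_nonneg hUa f hf0 ?_
    intro z hz hzU
    have hnv : NonvanishingAt D s z := by
      have : z ∈ (U : Set X) := hzU
      rw [hU] at this; exact this
    rw [hfe]
    exact ord_div_pow_nonneg hs.1 hsec ⟨z, hz⟩ (hnv ⟨z, hz⟩ (specializes_refl z)) (by simp)

end secAlg

section support

/-- the divisor of a nonzero rational function has finite support -/
theorem finite_support_ord [CompactSpace X] (f : X.functionField) (hf : f ≠ 0) :
    {z : X | coheight z = 1 ∧ Scheme.ord f z ≠ 0}.Finite := by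
  obtain ⟨U, hU, hxU, -⟩ := exists_isAffineOpen_mem_and_subset (X := X) (x := genericPoint X)
    (U := ⊤) trivial
  have hne : Nonempty U := ⟨⟨_, hxU⟩⟩
  have := functionField_isFractionRing_of_isAffineOpen X U hU
  obtain ⟨a, b, hb, rfl⟩ := IsFractionRing.div_surjective (A := Γ(X, U)) f
  have hb0 : b ≠ 0 := nonZeroDivisors.ne_zero hb
  have ha0 : a ≠ 0 := by
    rintro rfl
    apply hf; simp
  -- the open set where a b is invertible
  have hVne : ((X.basicOpen (a * b) : X.Opens) : Set X).Nonempty := by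
    rw [Set.nonempty_iff_ne_empty]
    intro h
    have h' : X.basicOpen (a * b) = ⊥ := by ext1; simpa using h
    rw [basicOpen_eq_bot_iff] at h'
    exact mul_ne_zero ha0 hb0 h'
  refine (finite_primeDivisor_compl (X.basicOpen (a * b)) hVne).subset ?_
  rintro z ⟨hz1, hz2⟩
  refine ⟨hz1, fun hzV => hz2 ?_⟩
  have hle : X.basicOpen (a * b) ≤ U := X.basicOpen_le _
  have hzU : z ∈ U := hle hzV
  have hVn : Nonempty (X.basicOpen (a * b)) := ⟨⟨z, hzV⟩⟩
  have hunit : IsUnit (X.presheaf.map (homOfLE hle).op (a * b)) := RingedSpace.isUnit_res_basicOpen _ _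
  rw [map_mul] at hunit
  have hua := isUnit_of_mul_isUnit_left hunit
  have hub := isUnit_of_mul_isUnit_right hunit
  have key : ∀ c : Γ(X, U), algebraMap Γ(X, U) X.functionField c =
      X.germToFunctionField (X.basicOpen (a * b)) (X.presheaf.map (homOfLE hle).op c) := by
    intro c
    exact (TopCat.Presheaf.germ_res_apply X.presheaf _ _ _ _).symm
  have h0 : ∀ c : Γ(X, U), c ≠ 0 → algebraMap Γ(X, U) X.functionField c ≠ 0 := by
    intro c hc; simpa using hc
  rw [ord_div (h0 a ha0) (h0 b hb0), key, key, Scheme.ord_of_isUnit hua hzV,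
    Scheme.ord_of_isUnit hub hzV, sub_zero]

end support

end Crest.Agent.R271.Br958
end

-- ▼ part R271/Br8_958
section

set_option autoImplicit false
set_option linter.unusedSectionVars false

open AlgebraicGeometry Order CategoryTheory Crest.AlgGeometry.Divisors TopologicalSpace

namespace Crest.Agent.R271.Br958

set_option warn.classDefReducibility false in
attribute [local instance] fnFieldAlgebra

variable {X : Scheme.{0}} [Algebra ℂ Γ(X, ⊤)] [IsIntegral X] [IsLocallyNoetherian X]

lemma algebraMap_section_ne_zero {U : X.Opens} [Nonempty U] {a : Γ(X, U)} (ha : a ≠ 0) :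
    algebraMap Γ(X, U) X.functionField a ≠ 0 := by
  intro h
  exact ha (Scheme.germToFunctionField_injective X U (h.trans (map_zero _).symm))

lemma algebraMap_stalkSpecializes {x z : X} (h : z ⤳ x) (a : X.presheaf.stalk x) :
    algebraMap (X.presheaf.stalk z) X.functionField ((X.presheaf.stalkSpecializes h).hom a) =
      algebraMap (X.presheaf.stalk x) X.functionField a := by
  have h1 : X.presheaf.stalkSpecializes h ≫
      X.presheaf.stalkSpecializes ((genericPoint_spec X).specializes trivial : genericPoint X ⤳ z) =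
      X.presheaf.stalkSpecializes ((genericPoint_spec X).specializes trivial : genericPoint X ⤳ x) :=
    TopCat.Presheaf.stalkSpecializes_comp _ _ _
  exact congrArg (fun φ => φ.hom a) h1

lemma ord_nonneg_of_specializes {x z : X} (hz : coheight z = 1) (h : z ⤳ x)
    (a : X.presheaf.stalk x) :
    0 ≤ Scheme.ord (algebraMap (X.presheaf.stalk x) X.functionField a) z := by
  rw [← algebraMap_stalkSpecializes h a]
  exact ord_nonneg_of_mem_stalk hz _

lemma ord_eq_zero_of_isUnit {x z : X} (hz : coheight z = 1) (h : z ⤳ x)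
    {a : X.presheaf.stalk x} (ha : IsUnit a) :
    Scheme.ord (algebraMap (X.presheaf.stalk x) X.functionField a) z = 0 := by
  obtain ⟨u, rfl⟩ := ha
  have h1 := ord_nonneg_of_specializes hz h (u : X.presheaf.stalk x)
  have h2 := ord_nonneg_of_specializes hz h (↑u⁻¹ : X.presheaf.stalk x)
  have h3 : algebraMap (X.presheaf.stalk x) X.functionField (↑u⁻¹ : X.presheaf.stalk x) =
      (algebraMap (X.presheaf.stalk x) X.functionField (u : X.presheaf.stalk x))⁻¹ := by
    apply eq_inv_of_mul_eq_one_left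
    rw [← map_mul]; simp
  have h0 : algebraMap (X.presheaf.stalk x) X.functionField (u : X.presheaf.stalk x) ≠ 0 := by
    simp
  rw [h3, ord_inv h0] at h2
  omega

lemma isUnit_of_ord_eq_zero [NormalSch X] {z : X} (hz : coheight z = 1) {a : X.presheaf.stalk z}
    (ha0 : a ≠ 0) (ha : Scheme.ord (algebraMap _ X.functionField a) z = 0) : IsUnit a := by
  have := dvr_of_normal (X := X) z hz
  rw [Ring.isUnit_iff_ordFrac_one_of_isDiscreteValuationRing (K := X.functionField)]
  have h1 := (Scheme.ord_eq_iff hz (by simpa using ha0)).mp ha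
  simpa [Scheme.ordHom] using h1

lemma mem_primeIdealOf_iff {U : X.Opens} (hU : IsAffineOpen U) {x : X} (hx : x ∈ U) (a : Γ(X, U)) :
    a ∈ (hU.primeIdealOf ⟨x, hx⟩).asIdeal ↔ ¬ IsUnit (X.presheaf.germ U x hx a) := by
  let _ : Algebra Γ(X, U) (X.presheaf.stalk x) :=
    TopCat.Presheaf.algebra_section_stalk X.presheaf (⟨x, hx⟩ : U)
  have hloc : IsLocalization.AtPrime (X.presheaf.stalk x) (hU.primeIdealOf ⟨x, hx⟩).asIdeal :=
    hU.isLocalization_stalk ⟨x, hx⟩
  have := IsLocalization.AtPrime.to_map_mem_maximal_iff (X.presheaf.stalk x)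
    (hU.primeIdealOf ⟨x, hx⟩).asIdeal a
  rw [← this, IsLocalRing.mem_maximalIdeal, mem_nonunits_iff]
  rfl

lemma ord_eq_zero_of_notMem {U : X.Opens} (hU : IsAffineOpen U) {x : X} (hx : x ∈ U) (a : Γ(X, U))
    (ha : a ∉ (hU.primeIdealOf ⟨x, hx⟩).asIdeal) {z : X} (hz : coheight z = 1) (hzx : z ⤳ x) :
    haveI : Nonempty U := ⟨⟨x, hx⟩⟩
    Scheme.ord (algebraMap Γ(X, U) X.functionField a) z = 0 := by
  have hne : Nonempty U := ⟨⟨x, hx⟩⟩
  rw [mem_primeIdealOf_iff, not_not] at ha
  have := ord_eq_zero_of_isUnit hz hzx ha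
  rwa [Scheme.algebraMap_germ_eq_germToFunctionField X hx] at this

lemma one_le_ord_of_mem [NormalSch X] {U : X.Opens} (hU : IsAffineOpen U) {z : X} (hzU : z ∈ U)
    (hz : coheight z = 1) (a : Γ(X, U)) (ha0 : a ≠ 0)
    (ha : a ∈ (hU.primeIdealOf ⟨z, hzU⟩).asIdeal) :
    haveI : Nonempty U := ⟨⟨z, hzU⟩⟩
    1 ≤ Scheme.ord (algebraMap Γ(X, U) X.functionField a) z := by
  have hne : Nonempty U := ⟨⟨z, hzU⟩⟩
  rw [mem_primeIdealOf_iff] at ha
  have h1 := ord_section_nonneg a hz hzU
  have h2 : Scheme.ord (algebraMap Γ(X, U) X.functionField a) z ≠ 0 := by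
    intro h
    apply ha
    have h' : Scheme.ord (algebraMap (X.presheaf.stalk z) X.functionField
        (X.presheaf.germ U z hzU a)) z = 0 := by
      rw [Scheme.algebraMap_germ_eq_germToFunctionField X hzU]; exact h
    refine isUnit_of_ord_eq_zero hz ?_ h'
    intro h0
    apply ha0
    exact germ_injective_of_isIntegral X z hzU (by rw [h0, map_zero])
  omega

lemma exists_notMem_of_not_specializes {U : X.Opens} (hU : IsAffineOpen U) {x z : X} (hx : x ∈ U)
    (hzU : z ∈ U) (h : ¬ z ⤳ x) :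
    ∃ a : Γ(X, U), a ∈ (hU.primeIdealOf ⟨z, hzU⟩).asIdeal ∧ a ∉ (hU.primeIdealOf ⟨x, hx⟩).asIdeal := by
  by_contra hcon
  push Not at hcon
  apply h
  have := fromSpec_specializes hU (hU.primeIdealOf ⟨z, hzU⟩) ⟨x, hx⟩ hcon
  rwa [hU.fromSpec_primeIdealOf] at this

/-- finiteness of the set of prime divisors where `div f + D` is nonzero -/
lemma finite_ord_add_ne [CompactSpace X] (D : WeilDiv X) (f : X.functionField) (hf : f ≠ 0) :
    {z : PrimeDivisor X | Scheme.ord f z.1 + D z ≠ 0}.Finite := by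
  have h1 : {z : PrimeDivisor X | Scheme.ord f z.1 ≠ 0}.Finite := by
    have := finite_support_ord f hf
    refine Set.Finite.of_finite_image (f := fun z : PrimeDivisor X => z.1) (this.subset ?_)
      (Subtype.val_injective.injOn)
    rintro _ ⟨z, hz, rfl⟩
    exact ⟨z.2, hz⟩
  have h2 : (D.support : Set (PrimeDivisor X)).Finite := D.support.finite_toSet
  refine (h1.union h2).subset ?_
  intro z hz
  by_cases h : Scheme.ord f z.1 = 0
  · right
    simp only [Set.mem_ofPred_eq, h, zero_add] at hz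
    simpa using hz
  · left; exact h

lemma isOpen_nonvanishing [CompactSpace X] (D : WeilDiv X) (f : X.functionField) (hf : f ≠ 0) :
    IsOpen {y : X | NonvanishingAt D f y} := by
  have h : {y : X | NonvanishingAt D f y} =
      (⋃ z ∈ {z : PrimeDivisor X | Scheme.ord f z.1 + D z ≠ 0}, closure {z.1})ᶜ := by
    ext y
    simp only [Set.mem_ofPred_eq, Set.mem_compl_iff, Set.mem_iUnion, not_exists, NonvanishingAt]
    constructor
    · intro h z hz hy
      exact hz (h z (specializes_iff_mem_closure.mpr hy))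
    · intro h z hzy
      by_contra hne
      exact h z hne (specializes_iff_mem_closure.mp hzy)
  rw [h]
  exact ((finite_ord_add_ne D f hf).isClosed_biUnion (fun _ _ => isClosed_closure)).isOpen_compl

/-- local principality of divisors (to be supplied from unique factorization of the stalks) -/
def LP (X : Scheme.{0}) [IsIntegral X] [IsLocallyNoetherian X] : Prop :=
  ∀ (x : X) (D : WeilDiv X), ∃ g : X.functionField, g ≠ 0 ∧
    ∀ z : PrimeDivisor X, z.1 ⤳ x → Scheme.ord g z.1 = D z

/-- `𝒪(D)` is generated at `x` by a section over a given affine neighbourhood -/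
theorem exists_local_section [CompactSpace X] [NormalSch X] (hLP : LP X) {U : X.Opens}
    (hU : IsAffineOpen U) {x : X} (hx : x ∈ U) (D : WeilDiv X) :
    ∃ f : X.functionField, f ≠ 0 ∧ (∀ z : PrimeDivisor X, z.1 ∈ U → 0 ≤ Scheme.ord f z.1 + D z) ∧
      NonvanishingAt D f x := by
  classical
  have hne : Nonempty U := ⟨⟨x, hx⟩⟩
  obtain ⟨g, hg0, hg⟩ := hLP x (-D)
  have hfin := finite_ord_add_ne D g hg0
  let T : Finset (PrimeDivisor X) := hfin.toFinset.filter (fun z => z.1 ∈ U ∧ Scheme.ord g z.1 + D z < 0)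
  have hT : ∀ z ∈ T, ∃ a : Γ(X, U), (∀ h : z.1 ∈ U, a ∈ (hU.primeIdealOf ⟨z.1, h⟩).asIdeal) ∧
      a ∉ (hU.primeIdealOf ⟨x, hx⟩).asIdeal := by
    intro z hz
    have hz' := (Finset.mem_filter.mp hz).2
    have hns : ¬ z.1 ⤳ x := by
      intro hs
      have h1 := hg z hs
      have h2 : (-D) z = - D z := by simp
      rw [h2] at h1
      omega
    obtain ⟨a, ha1, ha2⟩ := exists_notMem_of_not_specializes hU hx hz'.1 hns
    exact ⟨a, fun _ => ha1, ha2⟩
  choose! a ha1 ha2 using hT
  let A : Γ(X, U) := ∏ z ∈ T, a z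
  have hAx : A ∉ (hU.primeIdealOf ⟨x, hx⟩).asIdeal := by
    intro h
    obtain ⟨z, hz, hz'⟩ := (Ideal.IsPrime.prod_mem_iff (p := (hU.primeIdealOf ⟨x, hx⟩).asIdeal)).mp h
    exact ha2 z hz hz'
  have hA0 : A ≠ 0 := by rintro h; apply hAx; rw [h]; exact zero_mem _
  have hAK : algebraMap Γ(X, U) X.functionField A ≠ 0 := algebraMap_section_ne_zero hA0
  obtain ⟨N, hN⟩ : ∃ N : ℕ, ∀ z ∈ T, - (Scheme.ord g z.1 + D z) ≤ N := by
    refine ⟨(T.sup (fun z => (-(Scheme.ord g z.1 + D z)).toNat)), fun z hz => ?_⟩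
    have := Finset.le_sup (f := fun z : PrimeDivisor X => (-(Scheme.ord g z.1 + D z)).toNat) hz
    have h2 := Int.self_le_toNat (-(Scheme.ord g z.1 + D z))
    omega
  refine ⟨g * (algebraMap Γ(X, U) X.functionField A) ^ N, mul_ne_zero hg0 (pow_ne_zero _ hAK), ?_, ?_⟩
  · intro z hzU
    rw [Scheme.ord_mul hg0 (pow_ne_zero _ hAK), ord_pow hAK]
    have hA1 := ord_section_nonneg A z.2 hzU
    by_cases hz : z ∈ T
    · have h1 : 1 ≤ Scheme.ord (algebraMap Γ(X, U) X.functionField A) z.1 := by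
        refine one_le_ord_of_mem hU hzU z.2 A hA0 ?_
        exact Ideal.mem_of_dvd _ (Finset.dvd_prod_of_mem a hz) (ha1 z hz hzU)
      have h2 := hN z hz
      nlinarith
    · have h3 : 0 ≤ Scheme.ord g z.1 + D z := by
        by_contra hlt
        push Not at hlt
        apply hz
        refine Finset.mem_filter.mpr ⟨?_, hzU, hlt⟩
        rw [Set.Finite.mem_toFinset]
        simp only [Set.mem_ofPred_eq]
        omega
      have h4 : (0 : ℤ) ≤ N * Scheme.ord (algebraMap Γ(X, U) X.functionField A) z.1 := by positivity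
      linarith
  · intro z hzx
    rw [Scheme.ord_mul hg0 (pow_ne_zero _ hAK), ord_pow hAK,
      ord_eq_zero_of_notMem hU hx A hAx z.2 hzx, hg z hzx]
    simp

end Crest.Agent.R271.Br958
end

-- ▼ part R271/Br9_958
section

set_option autoImplicit false
set_option linter.unusedSectionVars false

open AlgebraicGeometry Order CategoryTheory Crest.AlgGeometry.Divisors TopologicalSpace

namespace Crest.Agent.R271.Br958

set_option warn.classDefReducibility false in
attribute [local instance] fnFieldAlgebra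

variable {X : Scheme.{0}} [Algebra ℂ Γ(X, ⊤)] [IsIntegral X] [IsLocallyNoetherian X]

lemma nonvanishingAt_pow {D : WeilDiv X} {f : X.functionField} (hf : f ≠ 0) {k : ℕ} (hk : 1 ≤ k)
    (y : X) : NonvanishingAt (k • D) (f ^ k) y ↔ NonvanishingAt D f y := by
  unfold NonvanishingAt
  constructor
  · intro h z hz
    have h1 := h z hz
    rw [ord_pow hf, Finsupp.smul_apply, nsmul_eq_mul] at h1
    have h2 : (k : ℤ) * (Scheme.ord f z.1 + D z) = 0 := by linarith
    rcases mul_eq_zero.mp h2 with h3 | h3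
    · omega
    · exact h3
  · intro h z hz
    rw [ord_pow hf, Finsupp.smul_apply, nsmul_eq_mul, ← mul_add, h z hz, mul_zero]

lemma nonvanishingAt_mul {D E : WeilDiv X} {f g : X.functionField} (hf : f ≠ 0) (hg : g ≠ 0)
    {y : X} (h1 : NonvanishingAt D f y) (h2 : NonvanishingAt E g y) :
    NonvanishingAt (D + E) (f * g) y := by
  intro z hz
  rw [Scheme.ord_mul hf hg, Finsupp.add_apply]
  have := h1 z hz
  have := h2 z hz
  omega

lemma isSection_pow {D : WeilDiv X} {f : X.functionField} (hf : IsSection D f) (k : ℕ) :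
    IsSection (k • D) (f ^ k) := by
  refine ⟨pow_ne_zero _ hf.1, fun z => ?_⟩
  rw [ord_pow hf.1, Finsupp.smul_apply, nsmul_eq_mul, ← mul_add]
  exact mul_nonneg (by positivity) (hf.2 z)

/-- ampleness gives finitely many sections of one multiple `qL` with affine nonvanishing loci
covering `X`. -/
theorem exists_cover [CompactSpace X] {L : WeilDiv X} (hL : IsAmple L) :
    ∃ q : ℕ, 1 ≤ q ∧ ∃ (ι : Type) (_ : Fintype ι) (s : ι → X.functionField) (U : ι → X.Opens),
      (∀ i, IsSection (q • L) (s i)) ∧ (∀ i, IsAffineOpen (U i)) ∧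
      (∀ i, (U i : Set X) = {y | NonvanishingAt (q • L) (s i) y}) ∧ ∀ x, ∃ i, x ∈ U i := by
  classical
  choose m hm f hf U hU hxU hUeq using hL
  obtain ⟨t, ht⟩ := isCompact_univ.elim_finite_subcover (fun x : X => (U x : Set X))
    (fun x => (U x).isOpen) (fun x _ => Set.mem_iUnion.mpr ⟨x, hxU x⟩)
  let q := ∏ x ∈ t, m x
  have hq : 1 ≤ q := Nat.one_le_iff_ne_zero.mpr (Finset.prod_ne_zero_iff.mpr
    (fun x _ => (hm x).ne'))
  have hdiv : ∀ x : {x // x ∈ t}, q / m x.1 * m x.1 = q := fun x =>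
    Nat.div_mul_cancel (Finset.dvd_prod_of_mem m x.2)
  have hdiv1 : ∀ x : {x // x ∈ t}, 1 ≤ q / m x.1 := fun x =>
    Nat.div_pos (Nat.le_of_dvd hq (Finset.dvd_prod_of_mem m x.2)) (hm x.1)
  have hsm : ∀ x : {x // x ∈ t}, q • L = (q / m x.1) • (m x.1 • L) := by
    intro x
    rw [smul_smul, hdiv x]
  refine ⟨q, hq, {x // x ∈ t}, inferInstance, fun x => f x.1 ^ (q / m x.1), fun x => U x.1,
    ?_, fun x => hU x.1, ?_, ?_⟩
  · intro x
    rw [hsm x]
    exact isSection_pow (hf x.1) _
  · intro x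
    rw [hUeq x.1]
    ext y
    change NonvanishingAt _ _ _ ↔ NonvanishingAt _ _ _
    rw [hsm x]
    exact (nonvanishingAt_pow (hf x.1).1 (hdiv1 x) y).symm
  · intro x
    obtain ⟨y, hy, hxy⟩ := Set.mem_iUnion₂.mp (ht (Set.mem_univ x))
    exact ⟨⟨y, hy⟩, hxy⟩

/-- twisted version of `mul_pow_mem_H0` -/
theorem mul_pow_mem_H0' [CompactSpace X] [StalkDVR X] {D E : WeilDiv X} {s : X.functionField}
    (hs : IsSection E s) {U : X.Opens} (hU : (U : Set X) = {y | NonvanishingAt E s y})
    (f : X.functionField) (hf0 : f ≠ 0)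
    (hf : ∀ z : PrimeDivisor X, z.1 ∈ U → 0 ≤ Scheme.ord f z.1 + D z) :
    ∃ j : ℕ, ∀ i, j ≤ i → IsSection (D + i • E) (f * s ^ i) := by
  have hne : (U : Set X).Nonempty := by
    rw [hU]; exact ⟨_, nonvanishingAt_genericPoint E s⟩
  have hfin : {z : PrimeDivisor X | z.1 ∉ U}.Finite := by
    refine Set.Finite.of_finite_image (f := fun z : PrimeDivisor X => z.1)
      ((finite_primeDivisor_compl U hne).subset ?_) (Subtype.val_injective.injOn)
    rintro _ ⟨z, hz, rfl⟩
    exact ⟨z.2, hz⟩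
  obtain ⟨j, hj⟩ : ∃ j : ℕ, ∀ z : PrimeDivisor X, z.1 ∉ U → - (Scheme.ord f z.1 + D z) ≤ j := by
    obtain ⟨b, hb⟩ := (hfin.image (fun z => - (Scheme.ord f z.1 + D z))).bddAbove
    refine ⟨b.toNat, fun z hz => le_trans (hb ⟨z, hz, rfl⟩) (Int.self_le_toNat b)⟩
  refine ⟨j, fun i hi => ⟨mul_ne_zero hf0 (pow_ne_zero _ hs.1), fun z => ?_⟩⟩
  rw [Scheme.ord_mul hf0 (pow_ne_zero _ hs.1), ord_pow hs.1]
  have hDz : (D + i • E) z = D z + i * E z := by simp
  rw [hDz]
  have h0 := hs.2 z
  by_cases hzU : z.1 ∈ U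
  · have h1 := hf z hzU
    nlinarith
  · have h1 := hj z hzU
    have h2 : ¬ NonvanishingAt E s z.1 := by
      intro h
      apply hzU
      have : z.1 ∈ (U : Set X) := by rw [hU]; exact h
      exact this
    have h3 := one_le_of_vanishing hs z h2
    have h4 : (i : ℤ) ≥ j := by exact_mod_cast hi
    nlinarith

/-- all large multiples of an ample divisor have no base points -/
theorem bpf_all [CompactSpace X] [NormalSch X] (hLP : LP X) {L : WeilDiv X} (hL : IsAmple L) :
    ∃ k₀ : ℕ, ∀ m, k₀ ≤ m → ∀ x : X, ∃ f : X.functionField,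
      IsSection (m • L) f ∧ NonvanishingAt (m • L) f x := by
  classical
  obtain ⟨q, hq, ι, _, s, U, hs, hUa, hU, hcov⟩ := exists_cover hL
  choose c hc using hcov
  have hloc : ∀ (x : X) (r : ℕ), ∃ f : X.functionField, f ≠ 0 ∧
      (∀ z : PrimeDivisor X, z.1 ∈ U (c x) → 0 ≤ Scheme.ord f z.1 + (r • L) z) ∧
      NonvanishingAt (r • L) f x := fun x r =>
    exists_local_section hLP (hUa (c x)) (hc x) (r • L)
  choose f hf0 hf hfx using hloc
  have hj : ∀ (x : X) (r : ℕ), ∃ j : ℕ, ∀ i, j ≤ i →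
      IsSection (r • L + i • (q • L)) (f x r * s (c x) ^ i) := fun x r =>
    mul_pow_mem_H0' (hs (c x)) (hU (c x)) (f x r) (hf0 x r) (hf x r)
  choose j hj using hj
  -- neighbourhoods
  let W : X → Set X := fun x => (U (c x) : Set X) ∩
    ⋂ r ∈ Finset.range q, {y | NonvanishingAt (r • L) (f x r) y}
  have hWo : ∀ x, IsOpen (W x) := fun x => (U (c x)).isOpen.inter
    (isOpen_biInter_finset (fun r _ => isOpen_nonvanishing _ _ (hf0 x r)))
  have hWx : ∀ x, x ∈ W x := fun x => ⟨hc x, Set.mem_iInter₂.mpr fun r _ => hfx x r⟩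
  obtain ⟨t, ht⟩ := isCompact_univ.elim_finite_subcover W hWo
    (fun x _ => Set.mem_iUnion.mpr ⟨x, hWx x⟩)
  let J := t.sup (fun x => (Finset.range q).sup (j x))
  refine ⟨q * J, fun m hm y => ?_⟩
  obtain ⟨x, hx, hyx⟩ := Set.mem_iUnion₂.mp (ht (Set.mem_univ y))
  have hr : m % q < q := Nat.mod_lt _ hq
  have hiJ : J ≤ m / q := (Nat.le_div_iff_mul_le hq).mpr (by rw [mul_comm]; exact hm)
  have hji : j x (m % q) ≤ m / q := by
    refine le_trans ?_ hiJ
    refine le_trans ?_ (Finset.le_sup (f := fun x => (Finset.range q).sup (j x)) hx)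
    exact Finset.le_sup (f := j x) (Finset.mem_range.mpr hr)
  have hmL : m • L = (m % q) • L + (m / q) • (q • L) := by
    rw [smul_smul, ← add_smul]
    congr 1
    rw [mul_comm]
    exact (Nat.mod_add_div m q).symm
  refine ⟨f x (m % q) * s (c x) ^ (m / q), ?_, ?_⟩
  · rw [hmL]; exact hj x (m % q) (m / q) hji
  · rw [hmL]
    refine nonvanishingAt_mul (hf0 x _) (pow_ne_zero _ (hs (c x)).1)
      (Set.mem_iInter₂.mp hyx.2 (m % q) (Finset.mem_range.mpr hr)) ?_
    have hsy : NonvanishingAt (q • L) (s (c x)) y := by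
      have : y ∈ (U (c x) : Set X) := hyx.1
      rw [hU] at this; exact this
    intro z hz
    rw [ord_pow (hs (c x)).1, Finsupp.smul_apply (m / q), nsmul_eq_mul, ← mul_add, hsy z hz, mul_zero]


/-- prime ideal form of base point freeness on the affine chart `X_s` (the field `bpf` of
`Ctx728.PCtx`). -/
theorem bpf_prime [CompactSpace X] [NormalSch X] (hLP : LP X) {L : WeilDiv X} (hL : IsAmple L)
    {q : ℕ} (hq : 1 ≤ q) {s : X.functionField} (hs : IsSection (q • L) s) {U : X.Opens}
    (hUa : IsAffineOpen U) [Nonempty U] (hU : (U : Set X) = {y | NonvanishingAt (q • L) s y}) :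
    ∃ k₀ : ℕ, ∀ m, k₀ ≤ m → ∀ P : Ideal (secAlg U), P.IsPrime →
      ∃ (j : ℕ) (a b : X.functionField) (c : secAlg U), m ≤ q * j ∧ a ∈ H0 (m • L) ∧
        b ∈ H0 ((q * j - m) • L) ∧ (c : X.functionField) * s ^ j = a * b ∧ c ∉ P := by
  obtain ⟨k₀, hk₀⟩ := bpf_all hLP hL
  refine ⟨k₀, fun m hm P hP => ?_⟩
  -- the point of `U` given by `P`
  let φ : Γ(X, U) →+* secAlg U := (algebraMap Γ(X, U) X.functionField).codRestrict
    (secAlg U).toSubring (fun a => ⟨a, rfl⟩)
  have hPp : (P.comap φ).IsPrime := Ideal.comap_isPrime φ P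
  let p : PrimeSpectrum Γ(X, U) := ⟨P.comap φ, hPp⟩
  let y : X := hUa.fromSpec p
  have hy : y ∈ U := fromSpec_mem hUa p
  have hyp : hUa.primeIdealOf ⟨y, hy⟩ = p := by
    apply hUa.fromSpec.isOpenEmbedding.injective
    exact hUa.fromSpec_primeIdealOf ⟨y, hy⟩
  obtain ⟨a, ha, hay⟩ := hk₀ m hm y
  -- choose j with q j ≥ m + k₀
  let j := m + k₀
  have hj : m + k₀ ≤ q * j := Nat.le_mul_of_pos_left _ hq
  obtain ⟨b, hb, hby⟩ := hk₀ (q * j - m) (by omega) y
  have hab0 : a * b ≠ 0 := mul_ne_zero ha.1 hb.1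
  have hadd : m • L + (q * j - m) • L = j • (q • L) := by
    rw [← add_smul, smul_smul, mul_comm j q]
    congr 1
    omega
  have habm : a * b ∈ H0 (j • (q • L)) := by
    rw [← hadd]; exact mul_mem_H0 (Or.inr ha) (Or.inr hb)
  have hc : a * b / s ^ j ∈ secAlg U := by
    rw [mem_secAlg_iff hs hUa hU]
    refine ⟨j, ?_⟩
    rwa [div_mul_cancel₀ _ (pow_ne_zero _ hs.1)]
  have hnv : NonvanishingAt (j • (q • L)) (a * b) y := by
    rw [← hadd]; exact nonvanishingAt_mul ha.1 hb.1 hay hby
  refine ⟨j, a, b, ⟨_, hc⟩, by omega, Or.inr ha, Or.inr hb, ?_, ?_⟩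
  · exact div_mul_cancel₀ _ (pow_ne_zero _ hs.1)
  · intro hcP
    obtain ⟨d, hd⟩ := id hc
    have hdP : d ∈ p.asIdeal := by
      change φ d ∈ P
      have : φ d = ⟨_, hc⟩ := Subtype.ext hd
      rw [this]; exact hcP
    rw [← hyp] at hdP
    rw [mem_primeIdealOf_iff] at hdP
    apply hdP
    -- the inverse is regular at y
    have hne : a * b / s ^ j ≠ 0 := div_ne_zero hab0 (pow_ne_zero _ hs.1)
    have hsy : NonvanishingAt (q • L) s y := by
      have : y ∈ (U : Set X) := hy
      rw [hU] at this; exact this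
    obtain ⟨e, he⟩ := mem_stalk_of_ord_nonneg_all y (a * b / s ^ j)⁻¹ (inv_ne_zero hne) (by
      intro z hz hzy
      have h1 := hnv ⟨z, hz⟩ hzy
      have h2 := hsy ⟨z, hz⟩ hzy
      rw [ord_inv hne, ord_div hab0 (pow_ne_zero _ hs.1), ord_pow hs.1]
      have h3 : (j • (q • L)) ⟨z, hz⟩ = j * (q • L) ⟨z, hz⟩ := by
        rw [Finsupp.smul_apply j, nsmul_eq_mul]
      rw [h3] at h1
      have h4 : Scheme.ord s z = - (q • L) ⟨z, hz⟩ := by linarith
      rw [h4]
      linarith)
    refine IsUnit.of_mul_eq_one e ?_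
    apply FaithfulSMul.algebraMap_injective (X.presheaf.stalk y) X.functionField
    rw [map_mul, map_one, he, Scheme.algebraMap_germ_eq_germToFunctionField X hy]
    have hd' : X.germToFunctionField U d = a * b / s ^ j := hd
    rw [hd']
    exact mul_inv_cancel₀ hne

end Crest.Agent.R271.Br958
end

-- ▼ part R271/PCtx3_961
section

/-!
Row 271, bridge: the projective context `PCtx` of a closed point of a smooth projective variety
(helper961).
-/

set_option autoImplicit false
set_option linter.unusedSectionVars false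
set_option linter.style.haveILetI false

open AlgebraicGeometry Crest.AlgGeometry.Divisors Order CategoryTheory TopologicalSpace
open Crest.Agent.R271.Ctx728

noncomputable section

namespace Crest.Agent.R271.PCtx961

open Crest.Agent.R271.Br958

set_option warn.classDefReducibility false in
attribute [local instance] fnFieldAlgebra

lemma secSub_eq {X : Scheme.{0}} [Algebra ℂ Γ(X, ⊤)] [IsIntegral X] [IsLocallyNoetherian X]
    (U : X.Opens) [Nonempty U] : secSub U = Br958.secAlg U := by
  ext u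
  exact Iff.rfl

/-- finite dimensionality of the spaces of sections (helper985) -/
def FinStmt : Prop :=
  ∀ (X : Scheme.{0}) [Algebra ℂ Γ(X, ⊤)] [IsIntegral X] [IsLocallyNoetherian X] [CompactSpace X]
    [NormalSch X] (_hX : IsProper (structureMorphism ℂ X)) (L : WeilDiv X) (_hL : IsAmple L)
    (m : ℕ), FiniteDimensional ℂ (H0 (m • L))

/-- The bridge `X ↦ PCtx`, from finite dimensionality. -/
theorem pctxProp_of (hfin : FinStmt) : Bridge713.PctxProp := by
  intro X _ _ _ n hn hX L hL x hcl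
  have hpr := hX.2.1
  have hcomp : CompactSpace X := compactSpace hpr
  have hnor : NormalSch X := normalSch hX
  have hLP : LP X := fun x D => UFD243.weil_locally_principal X hX D x
  obtain ⟨q, hq, s, hs, U, hU, hxU, hUeq⟩ := hL x
  have hne : Nonempty U := ⟨⟨x, hxU⟩⟩
  obtain ⟨y, hy⟩ := exists_eval hpr hU x hxU hcl
  have hsmooth := secSub_smooth hX hU x hxU y hy
  have hft := secSub_finiteType hpr hU
  rw [secSub_eq] at hft
  obtain ⟨k₁, hk₁⟩ := bpf_prime hLP hL hq hs hU hUeq
  obtain ⟨k₂, hk₂⟩ := bpf_all hLP hL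
  have key : ∀ (A : Subalgebra ℂ X.functionField) (hA : secSub U = A),
      ∃ y' : A →ₐ[ℂ] ℂ, (∀ a : Γ(X, U),
        y' ⟨algebraMap Γ(X, U) X.functionField a, hA ▸ ⟨a, rfl⟩⟩ = 0 ↔ x ∉ X.basicOpen a) ∧
      ∃ t : A, y' t ≠ 0 ∧
        Algebra.IsStandardSmoothOfRelativeDimension n ℂ (Localization.Away t) := by
    rintro A rfl
    exact ⟨y, hy, hsmooth⟩
  obtain ⟨y', hy', hsm'⟩ := key _ (secSub_eq U)
  let P : PCtx n :=
    { K := X.functionField
      fld := inferInstance
      alg := fnFieldAlgebra ℂ X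
      R := fun m => H0 (m • L)
      R_zero := by
        rw [zero_smul]
        exact H0_zero hpr
      R_mul := by
        intro m l a b ha hb
        rw [add_smul]
        exact mul_mem_H0 ha hb
      R_fin := fun m => hfin X hpr L hL m
      q := q
      q_pos := hq
      s := s
      s_mem := Or.inr hs
      s_ne := hs.1
      A := Br958.secAlg U
      mem_A := by
        intro a
        rw [mem_secAlg_iff hs hU hUeq]
        constructor
        · rintro ⟨j, hj⟩
          refine ⟨j, ?_⟩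
          rwa [smul_smul, mul_comm] at hj
        · rintro ⟨j, hj⟩
          refine ⟨j, ?_⟩
          rwa [smul_smul, mul_comm]
      A_ft := hft
      frac := secAlg_frac hU
      x := y'
      smooth := hsm'
      k₀ := max k₁ k₂
      bpf := fun m hm P hP => hk₁ m (le_trans (le_max_left _ _) hm) P hP
      int := by
        intro k hk m f hf
        rw [mul_smul] at hf
        refine graded_integral hpr (k • L) (H0 (k • L)) ?_ m f hf
        intro z
        obtain ⟨g, hg, hgz⟩ := hk₂ k (le_trans (le_max_right _ _) hk) z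
        exact ⟨g, Or.inr hg, hg.1, hgz⟩ }
  refine ⟨P, ⟨{ φ := AlgEquiv.refl
                mem_R := ?_
                U := U
                hU := hU
                hx := hxU
                mem_A := ?_
                s_nv := ?_
                x_iff := ?_ }⟩⟩
  · intro m f hf hf0
    exact isSection_of_mem hf hf0
  · intro f
    constructor
    · rintro ⟨a, ha⟩
      exact ⟨a, ha.symm⟩
    · rintro ⟨a, ha⟩
      exact ⟨a, ha.symm⟩
  · have : x ∈ (U : Set X) := hxU
    rw [hUeq] at this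
    exact this
  · intro a b hab ha
    by_contra hcon
    apply ha
    have h1 : x ∉ X.basicOpen b := by
      rw [Scheme.mem_basicOpen X b x hxU]
      exact hcon
    have h2 := (hy' b).mpr h1
    have h3 : a = ⟨algebraMap Γ(X, U) X.functionField b, b, rfl⟩ := Subtype.ext hab
    rw [h3]
    exact h2

end Crest.Agent.R271.PCtx961
end
end

-- ▼ part R271/RFinCore_985
section

/-!
Row 271, bridge (R_fin), pure algebra: finite dimensionality of graded pieces of graded-integral
closures (helper985).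
-/

set_option autoImplicit false

open Polynomial

namespace Crest.Agent.R271.RFin985

/-- graded integrality -/
def GI {K : Type*} [CommRing K] [Algebra ℂ K] (W : Submodule ℂ K) (m : ℕ) (f : K) : Prop :=
  ∃ r : ℕ, 1 ≤ r ∧ ∃ a : ℕ → K, (∀ i, a i ∈ W ^ (m * i)) ∧
    f ^ r = ∑ i ∈ Finset.range r, a (r - i) * f ^ i

section LemmaB

/-- finiteness of the integral closure of `P` in `K[X]` -/
theorem finite_integralClosure {K : Type*} [Field K] [Algebra ℂ K] {P : Type*} [CommRing P]
    [IsDomain P] [IsIntegrallyClosed P] [IsNoetherianRing P] [Algebra ℂ P] [Algebra P K[X]]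
    [IsScalarTower ℂ P K[X]] [FaithfulSMul P K[X]] (s : K) (hs0 : s ≠ 0) (k : ℕ) (hk : 1 ≤ k)
    (hs : IsIntegral P (C s * X ^ k : K[X])) (A : Subalgebra ℂ K) (hA : A.FG)
    (hfrac : ∀ u : K, ∃ a ∈ A, ∃ b ∈ A, b ≠ 0 ∧ u * b = a)
    (hint : ∀ a ∈ A, ∃ j : ℕ, IsIntegral P (C a * (C s * X ^ k) ^ j : K[X])) :
    IsNoetherian P (integralClosure P K[X]) := by
  classical
  let L := FractionRing K[X]
  let F := FractionRing P
  have hinj : Function.Injective (algebraMap P L) := by
    rw [IsScalarTower.algebraMap_eq P K[X] L]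
    exact (IsFractionRing.injective K[X] L).comp (FaithfulSMul.algebraMap_injective P K[X])
  have : FaithfulSMul P L := (faithfulSMul_iff_algebraMap_injective P L).mpr hinj
  let _ : Algebra F L := FractionRing.liftAlgebra P L
  have : IsScalarTower P F L := FractionRing.isScalarTower_liftAlgebra P L
  have : CharZero P := charZero_of_injective_algebraMap (algebraMap ℂ P).injective
  have : CharZero F := IsFractionRing.charZero_of_isFractionRing P
  -- algebraic elements
  let ι : K[X] →+* L := algebraMap K[X] L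
  have hι : Function.Injective ι := IsFractionRing.injective K[X] L
  have key : ∀ p : K[X], IsIntegral P p → IsAlgebraic F (ι p) := by
    intro p hp
    have h1 : IsIntegral P (ι p) := hp.algebraMap
    exact (h1.tower_top (A := F)).isAlgebraic
  have hσ0 : (C s * X ^ k : K[X]) ≠ 0 := mul_ne_zero (by simpa using hs0) (pow_ne_zero _ X_ne_zero)
  have hσ : IsAlgebraic F (ι (C s * X ^ k)) := key _ hs
  have hCA : ∀ a ∈ A, IsAlgebraic F (ι (C a)) := by
    intro a ha
    obtain ⟨j, hj⟩ := hint a ha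
    have h1 := key _ hj
    have h2 : ι (C a) = ι (C a * (C s * X ^ k) ^ j) * (ι (C s * X ^ k) ^ j)⁻¹ := by
      rw [eq_mul_inv_iff_mul_eq₀ (pow_ne_zero _ ((map_ne_zero_iff ι hι).mpr hσ0))]
      rw [map_mul ι (C a), map_pow ι]
    rw [h2]
    exact h1.mul (hσ.pow j).inv
  have hC : ∀ u : K, IsAlgebraic F (ι (C u)) := by
    intro u
    obtain ⟨a, ha, b, hb, hb0, hab⟩ := hfrac u
    have h2 : ι (C u) = ι (C a) * (ι (C b))⁻¹ := by
      rw [eq_mul_inv_iff_mul_eq₀ ((map_ne_zero_iff ι hι).mpr (by simpa using hb0)), ← map_mul,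
        ← C_mul, hab]
    rw [h2]
    exact (hCA a ha).mul (hCA b hb).inv
  have hX : IsAlgebraic F (ι X) := by
    have h2 : (ι X) ^ k = ι (C s * X ^ k) * (ι (C s))⁻¹ := by
      rw [eq_mul_inv_iff_mul_eq₀ ((map_ne_zero_iff ι hι).mpr (by simpa using hs0)), ← map_pow,
        ← map_mul, mul_comm]
    have h3 : IsAlgebraic F ((ι X) ^ k) := by
      rw [h2]; exact hσ.mul (hC s).inv
    exact IsAlgebraic.of_pow (by omega) h3
  -- finite generation
  obtain ⟨t, ht⟩ := hA
  let G : Set L := (fun a : K => ι (C a)) '' (t : Set K) ∪ {ι X}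
  have hGfin : Finite G := ((t.finite_toSet.image _).union (Set.finite_singleton _)).to_subtype
  have hGint : ∀ x ∈ G, IsIntegral F x := by
    rintro x (⟨a, -, rfl⟩ | rfl)
    · exact (hC a).isIntegral
    · exact hX.isIntegral
  have hfdG : FiniteDimensional F (IntermediateField.adjoin F G) :=
    IntermediateField.finiteDimensional_adjoin hGint
  have hAE : ∀ a ∈ A, ι (C a) ∈ IntermediateField.adjoin F G := by
    intro a ha
    rw [← ht] at ha
    induction ha using Algebra.adjoin_induction with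
    | mem x hx => exact IntermediateField.subset_adjoin F G (Or.inl ⟨x, hx, rfl⟩)
    | algebraMap c =>
      have h1 : ι (C (algebraMap ℂ K c)) = algebraMap F L (algebraMap P F (algebraMap ℂ P c)) := by
        rw [← IsScalarTower.algebraMap_apply P F L, IsScalarTower.algebraMap_apply P K[X] L,
          ← IsScalarTower.algebraMap_apply ℂ P K[X]]
        rfl
      rw [h1]
      exact (IntermediateField.adjoin F G).algebraMap_mem _
    | add x y _ _ hx hy => rw [C_add, map_add]; exact add_mem hx hy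
    | mul x y _ _ hx hy => rw [C_mul, map_mul]; exact mul_mem hx hy
  have hKE : ∀ u : K, ι (C u) ∈ IntermediateField.adjoin F G := by
    intro u
    obtain ⟨a, ha, b, hb, hb0, hab⟩ := hfrac u
    have h2 : ι (C u) = ι (C a) * (ι (C b))⁻¹ := by
      rw [eq_mul_inv_iff_mul_eq₀ ((map_ne_zero_iff ι hι).mpr (by simpa using hb0)), ← map_mul,
        ← C_mul, hab]
    rw [h2]
    exact mul_mem (hAE a ha) (inv_mem (hAE b hb))
  have hPE : ∀ p : K[X], ι p ∈ IntermediateField.adjoin F G := by
    intro p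
    induction p using Polynomial.induction_on' with
    | add p q hp hq => rw [map_add]; exact add_mem hp hq
    | monomial n a =>
      rw [← C_mul_X_pow_eq_monomial, map_mul, map_pow]
      exact mul_mem (hKE a) (pow_mem (IntermediateField.subset_adjoin F G (Or.inr rfl)) n)
  have htop : IntermediateField.adjoin F G = ⊤ := by
    rw [eq_top_iff]
    intro x _
    obtain ⟨p, q, -, rfl⟩ := IsFractionRing.div_surjective (A := K[X]) x
    exact div_mem (hPE p) (hPE q)
  have hfdL : FiniteDimensional F L := by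
    rw [htop] at hfdG
    exact FiniteDimensional.of_surjective (IntermediateField.topEquiv (F := F) (E := L)).toLinearMap
      (IntermediateField.topEquiv (F := F) (E := L)).surjective
  have hnoeth : IsNoetherian P (integralClosure P L) :=
    IsIntegralClosure.isNoetherian P F L (integralClosure P L)
  let ψ : integralClosure P K[X] →ₗ[P] integralClosure P L :=
    { toFun := fun x => ⟨ι x.1, IsIntegral.algebraMap x.2⟩
      map_add' := fun x y => Subtype.ext (by simp)
      map_smul' := fun c x => Subtype.ext (by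
        simp only [RingHom.id_apply, SetLike.val_smul]
        rw [Algebra.smul_def, map_mul, Algebra.smul_def, IsScalarTower.algebraMap_apply P K[X] L]) }
  refine isNoetherian_of_injective ψ ?_
  intro x y hxy
  exact Subtype.ext (hι (congrArg Subtype.val hxy))

end LemmaB

section Rees

variable {K : Type*} [Field K] [Algebra ℂ K]

/-- `w ↦ w T^k` -/
noncomputable def mono (k : ℕ) : K →ₗ[ℂ] K[X] where
  toFun w := C w * X ^ k
  map_add' x y := by rw [C_add, add_mul]
  map_smul' c x := by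
    rw [RingHom.id_apply, Algebra.smul_def c (C x * X ^ k), ← mul_assoc, Algebra.smul_def c x, C_mul]
    rfl

lemma mono_apply (k : ℕ) (w : K) : mono k w = C w * X ^ k := rfl

/-- the algebra generated by `W T^k` -/
noncomputable def Sal (W : Submodule ℂ K) (k : ℕ) : Subalgebra ℂ K[X] :=
  Algebra.adjoin ℂ ((W.map (mono k) : Submodule ℂ K[X]) : Set K[X])

lemma Sal_fg (W : Submodule ℂ K) (hW : W.FG) (k : ℕ) : (Sal W k).FG := by
  obtain ⟨t, ht⟩ := hW.map (mono k)
  refine ⟨t, ?_⟩
  rw [Sal, ← ht, Algebra.adjoin_span]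

lemma mem_Sal {W : Submodule ℂ K} {k : ℕ} (l : ℕ) : ∀ a ∈ W ^ l, C a * X ^ (k * l) ∈ Sal W k := by
  induction l with
  | zero =>
    intro a ha
    rw [pow_zero] at ha
    obtain ⟨c, rfl⟩ := Submodule.mem_one.mp ha
    rw [Nat.mul_zero, pow_zero, mul_one]
    exact (Sal W k).algebraMap_mem c
  | succ l ih =>
    intro a ha
    rw [pow_succ] at ha
    induction ha using Submodule.mul_induction_on' with
    | mem_mul_mem m hm n hn =>
      have h1 : C (m * n) * X ^ (k * (l + 1)) = (C m * X ^ (k * l)) * (C n * X ^ k) := by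
        rw [C_mul, Nat.mul_succ, pow_add]; ring
      rw [h1]
      exact mul_mem (ih m hm) (Algebra.subset_adjoin ⟨n, hn, rfl⟩)
    | add x _ y _ hx hy => rw [C_add, add_mul]; exact add_mem hx hy

lemma isIntegral_of_GI {W : Submodule ℂ K} {k j : ℕ} {f : K} (hf : GI W j f) :
    IsIntegral (Sal W k) (C f * X ^ (k * j) : K[X]) := by
  classical
  obtain ⟨r, hr, a, ha, hrel⟩ := hf
  let c : ℕ → Sal W k := fun i => ⟨C (a i) * X ^ (k * (j * i)), mem_Sal (j * i) _ (ha i)⟩
  refine ⟨X ^ r - ∑ i ∈ Finset.range r, C (c (r - i)) * X ^ i, ?_, ?_⟩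
  · apply monic_X_pow_sub
    refine (degree_sum_le _ _).trans_lt ?_
    rw [Finset.sup_lt_iff (by exact_mod_cast WithBot.bot_lt_coe r)]
    intro i hi
    refine (degree_C_mul_X_pow_le _ _).trans_lt ?_
    exact_mod_cast Finset.mem_range.mp hi
  · rw [eval₂_sub, eval₂_X_pow, eval₂_finsetSum, sub_eq_zero, mul_pow, ← C_pow, hrel, map_sum,
      Finset.sum_mul]
    apply Finset.sum_congr rfl
    intro i hi
    have hi' := Finset.mem_range.mp hi
    rw [eval₂_mul, eval₂_C, eval₂_X_pow]
    change _ = (C (a (r - i)) * X ^ (k * (j * (r - i)))) * _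
    rw [C_mul, mul_pow, ← pow_mul, C_pow, ← pow_mul]
    have h2 : k * j * r = k * (j * (r - i)) + k * j * i := by
      obtain ⟨d, rfl⟩ := Nat.exists_eq_add_of_lt hi'
      have : i + d + 1 - i = d + 1 := by omega
      rw [this]; ring
    rw [h2, pow_add]
    ring

/-- coefficients of elements of `Sal` -/
lemma coeff_mem {W : Submodule ℂ K} {k : ℕ} (hk : 1 ≤ k) {p : K[X]} (hp : p ∈ Sal W k) :
    ∀ i, p.coeff i ∈ (1 ⊔ W : Submodule ℂ K) ^ i := by
  have h1 : ∀ i : ℕ, (1 : Submodule ℂ K) ≤ (1 ⊔ W : Submodule ℂ K) ^ i := by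
    intro i
    calc (1 : Submodule ℂ K) = 1 ^ i := (one_pow i).symm
      _ ≤ _ := pow_le_pow_left' le_sup_left i
  induction hp using Algebra.adjoin_induction with
  | mem x hx =>
    obtain ⟨w, hw, rfl⟩ := hx
    intro i
    rw [mono_apply, coeff_C_mul, coeff_X_pow]
    split_ifs with h
    · subst h
      rw [mul_one]
      obtain ⟨i, rfl⟩ := Nat.exists_eq_add_of_le hk
      rw [pow_add, pow_one]
      have := Submodule.mul_mem_mul (Submodule.mem_sup_right (S := 1) hw)
        (h1 i (Submodule.one_le.mp le_rfl))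
      simpa using this
    · rw [mul_zero]; exact zero_mem _
  | algebraMap c =>
    intro i
    rw [Polynomial.algebraMap_apply, coeff_C]
    split_ifs with h
    · exact h1 i (Submodule.mem_one.mpr ⟨c, rfl⟩)
    · exact zero_mem _
  | add x y _ _ hx hy => intro i; rw [coeff_add]; exact add_mem (hx i) (hy i)
  | mul x y _ _ hx hy =>
    intro i
    rw [coeff_mul]
    refine sum_mem fun ab hab => ?_
    rw [Finset.HasAntidiagonal.mem_antidiagonal] at hab
    rw [← hab, pow_add]
    exact Submodule.mul_mem_mul (hx _) (hy _)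

/-- **Core**: a space of elements which are graded integral of a fixed degree is finite
dimensional. -/
theorem core (W : Submodule ℂ K) (hW : W.FG) (k : ℕ) (hk : 1 ≤ k)
    (s : K) (hs : s ∈ W) (hs0 : s ≠ 0) (A : Subalgebra ℂ K) (hA : A.FG)
    (hfrac : ∀ u : K, ∃ a ∈ A, ∃ b ∈ A, b ≠ 0 ∧ u * b = a)
    (hint : ∀ a ∈ A, ∃ j, GI W j (a * s ^ j))
    (m : ℕ) (V : Submodule ℂ K)
    (hV : ∀ f ∈ V, ∃ e j : ℕ, 1 ≤ e ∧ k * j = m * e ∧ GI W j (f ^ e)) :
    FiniteDimensional ℂ V := by
  classical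
  have hSft : Algebra.FiniteType ℂ (Sal W k) := (Subalgebra.fg_iff_finiteType _).mp (Sal_fg W hW k)
  obtain ⟨r, g, hginj, hgfin⟩ := exists_finite_inj_algHom_of_fg ℂ (Sal W k)
  let P := MvPolynomial (Fin r) ℂ
  let h : P →ₐ[ℂ] K[X] := (Sal W k).val.comp g
  have hh : Function.Injective h := Subtype.val_injective.comp hginj
  let _ : Algebra P K[X] := h.toRingHom.toAlgebra
  let _ : Algebra P (Sal W k) := g.toRingHom.toAlgebra
  have : IsScalarTower ℂ P K[X] := IsScalarTower.of_algebraMap_eq fun c => (h.commutes c).symm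
  have : IsScalarTower P (Sal W k) K[X] := IsScalarTower.of_algebraMap_eq fun c => rfl
  have : FaithfulSMul P K[X] := (faithfulSMul_iff_algebraMap_injective P K[X]).mpr hh
  have hfin : Module.Finite P (Sal W k) := hgfin
  have hIS : Algebra.IsIntegral P (Sal W k) := inferInstance
  have hSP : ∀ x : K[X], IsIntegral (Sal W k) x → IsIntegral P x := fun x hx => isIntegral_trans x hx
  have hN : IsNoetherian P (integralClosure P K[X]) := by
    apply finite_integralClosure s hs0 k hk _ A hA hfrac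
    · intro a ha
      obtain ⟨j, hj⟩ := hint a ha
      refine ⟨j, hSP _ ?_⟩
      have := isIntegral_of_GI (k := k) hj
      rwa [C_mul, C_pow, mul_assoc, pow_mul, ← mul_pow] at this
    · apply hSP
      exact isIntegral_algebraMap (R := Sal W k) (A := K[X])
        (x := ⟨C s * X ^ k, Algebra.subset_adjoin ⟨s, hs, rfl⟩⟩)
  have hfg : (Subalgebra.toSubmodule (integralClosure P K[X])).FG :=
    (Module.Finite.iff_fg (N := Subalgebra.toSubmodule (integralClosure P K[X]))).mp
      (Module.IsNoetherian.finite P (integralClosure P K[X]))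
  obtain ⟨E, hE⟩ := hfg
  let W' : Submodule ℂ K := 1 ⊔ W
  have hW' : W'.FG := by
    refine Submodule.FG.sup ?_ hW
    rw [Submodule.one_eq_span]
    exact Submodule.fg_span_singleton _
  let Z₀ : Submodule ℂ K := Submodule.span ℂ
    ((fun ei : K[X] × ℕ => ei.1.coeff ei.2) '' ((E ×ˢ Finset.range (m + 1) : Finset (K[X] × ℕ)) :
      Set (K[X] × ℕ)))
  have hZ₀ : Z₀.FG := Submodule.fg_span ((Finset.finite_toSet _).image _)
  have hZ : (W' ^ m * Z₀).FG := (hW'.pow m).mul hZ₀
  have hfdZ : FiniteDimensional ℂ (W' ^ m * Z₀ : Submodule ℂ K) := Module.Finite.iff_fg.mpr hZ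
  refine Submodule.finiteDimensional_of_le (S₂ := W' ^ m * Z₀) ?_
  intro f hf
  obtain ⟨e, j, he, hkj, hGI⟩ := hV f hf
  have h1 : IsIntegral P (C f * X ^ m : K[X]) := by
    apply hSP
    have h2 := isIntegral_of_GI (k := k) hGI
    rw [hkj, pow_mul, C_pow, ← mul_pow] at h2
    exact IsIntegral.of_pow he h2
  have h2 : (C f * X ^ m : K[X]) ∈ Submodule.span P (E : Set K[X]) := by
    rw [hE]; exact h1
  obtain ⟨c, -, hc⟩ := Submodule.mem_span_finset.mp h2
  have h3 : f = (∑ x ∈ E, c x • x).coeff m := by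
    rw [hc, coeff_C_mul, coeff_X_pow, if_pos rfl, mul_one]
  rw [h3, finsetSum_coeff]
  refine sum_mem fun x hx => ?_
  rw [Algebra.smul_def, coeff_mul]
  refine sum_mem fun ab hab => ?_
  rw [Finset.HasAntidiagonal.mem_antidiagonal] at hab
  refine Submodule.mul_mem_mul ?_ ?_
  · have h4 : (algebraMap P K[X] (c x)) ∈ Sal W k := (g (c x)).2
    have h5 := coeff_mem hk h4 ab.1
    exact pow_le_pow_right' (a := W') le_sup_left (by omega : ab.1 ≤ m) h5
  · refine Submodule.subset_span ⟨(x, ab.2), ?_, rfl⟩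
    simp only [Finset.coe_product, Set.mem_prod, Finset.mem_coe, Finset.mem_range]
    exact ⟨hx, by omega⟩

end Rees

end Crest.Agent.R271.RFin985
end

-- ▼ part R271/RFin_985
section

/-!
Row 271, bridge: the spaces of sections of multiples of an ample divisor on a proper normal variety
are finite dimensional (helper985).
-/

set_option autoImplicit false
set_option linter.unusedSectionVars false

open AlgebraicGeometry Crest.AlgGeometry.Divisors Order CategoryTheory TopologicalSpace

namespace Crest.Agent.R271.RFin985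

open Crest.Agent.R271.Br958 Crest.Agent.R271.PCtx961

set_option warn.classDefReducibility false in
attribute [local instance] fnFieldAlgebra

/-- **Finite dimensionality of `H⁰(X, mL)`**, `L` ample on the proper normal variety `X`. -/
theorem H0_finite (X : Scheme.{0}) [Algebra ℂ Γ(X, ⊤)] [IsIntegral X] [IsLocallyNoetherian X]
    [CompactSpace X] [NormalSch X] (hX : IsProper (structureMorphism ℂ X)) (L : WeilDiv X)
    (hL : IsAmple L) (m : ℕ) : FiniteDimensional ℂ (H0 (m • L)) := by
  obtain ⟨q, hq, ι, _, s, U, hs, hUa, hU, hcov⟩ := exists_cover hL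
  obtain ⟨i₀, hi₀⟩ := hcov (genericPoint X)
  have hne : Nonempty (U i₀) := ⟨⟨_, hi₀⟩⟩
  let W : Submodule ℂ X.functionField := Submodule.span ℂ (Set.range s)
  have hWfg : W.FG := Submodule.fg_span (Set.finite_range s)
  have hbpf : Bpf W (q • L) := by
    intro x
    obtain ⟨i, hi⟩ := hcov x
    refine ⟨s i, Submodule.subset_span ⟨i, rfl⟩, (hs i).1, ?_⟩
    have : x ∈ (U i : Set X) := hi
    rw [hU] at this
    exact this
  have hA : (secSub (U i₀)).FG :=
    (Subalgebra.fg_iff_finiteType _).mpr (secSub_finiteType hX (hUa i₀))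
  refine core W hWfg q hq (s i₀) (Submodule.subset_span ⟨i₀, rfl⟩) (hs i₀).1 (secSub (U i₀)) hA
    ?_ ?_ m (H0 (m • L)) ?_
  · intro u
    obtain ⟨a, b, hb, h⟩ := secSub_frac (hUa i₀) u
    exact ⟨a, a.2, b, b.2, hb, h⟩
  · intro a ha
    obtain ⟨j, hj⟩ := (mem_secAlg_iff (hs i₀) (hUa i₀) (hU i₀) a).mp ha
    exact ⟨j, graded_integral hX (q • L) W hbpf j _ hj⟩
  · intro f hf
    refine ⟨q, m, hq, by ring, ?_⟩
    apply graded_integral hX (q • L) W hbpf m
    have h1 := pow_mem_H0 hf q
    rwa [smul_smul, mul_comm, ← smul_smul] at h1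

end Crest.Agent.R271.RFin985
end

-- ▼ part R271/PCtx_961
section

/-!
Row 271, bridge: `PctxProp`, unconditional (helper961).
-/

set_option autoImplicit false

open AlgebraicGeometry Crest.AlgGeometry.Divisors Order CategoryTheory TopologicalSpace

namespace Crest.Agent.R271.PCtx961

/-- The bridge `X ↦ PCtx`, unconditionally. -/
theorem pctxProp : Bridge713.PctxProp :=
  pctxProp_of (fun X _ _ _ _ _ hX L hL m => RFin985.H0_finite X hX L hL m)

end Crest.Agent.R271.PCtx961
end

-- ▼ part R271/Main_710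

/-!
Row 271: the four main statements, unconditionally.
-/

set_option autoImplicit false

noncomputable section

namespace Crest.Agent.R271.Main710

open Crest.Agent.R271.Defs710

theorem sumThm : SumThm := Sum186.sumThm_of_engine Ho51.engineP

theorem analysisMain : AnalysisMain := fun _ X hn =>
  Fin710.aFacts sumThm X
    (GAll792.multIdeal_of_engine Ho51.engineP X hn (Rd692.chartEx X) (Local821.gensFact X))
    (L934.fubiniFact_of_sumThm sumThm X) (Spec103.specFact sumThm X)

theorem abstractMain : AbstractMain :=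
  Assembly710.abstractMain CaseA112.caseAMain CaseBF376.exiMain NMain647.nonIsoMain Iso399.isoMain

theorem globalMain : GlobalMain := GAll792.globalMain_of_engine Ho51.engineP

theorem bridgeMain : BridgeMain :=
  Bridge713.bridgeMain_of PCtx961.pctxProp Ctx728.modelProp Bs960.ordersProp

end Crest.Agent.R271.Main710
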