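import Crest.Agent.R271.Sum1_186

-- ▼ part R271/Sum2_186
section

/-!
Row 271 (S0413), local theory: the class `LogPsh` of functions `e^φ`, `φ` a decreasing limit of
smooth psh functions, and its closure properties.
-/

open MeasureTheory Set Filter Topology
open scoped ContDiff

noncomputable section

namespace Crest.Agent.R271.Sum186

variable {N : ℕ}

/-! ### holomorphic functions -/

lemma fderivR_eq {h : CN N → ℂ} {z : CN N} (hh : DifferentiableAt ℂ h z) (v : CN N) :
    fderiv ℝ h z v = fderiv ℂ h z v := by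
  rw [hh.fderiv_restrictScalars ℝ]; rfl

lemma fderivR_I {h : CN N → ℂ} {z : CN N} (hh : DifferentiableAt ℂ h z) (v : CN N) :
    fderiv ℝ h z (Complex.I • v) = Complex.I * fderiv ℝ h z v := by
  rw [fderivR_eq hh, fderivR_eq hh, map_smul, smul_eq_mul]

/-- `grad2` of `∑|h_j|²` -/
lemma fderiv_normsq {h : CN N → ℂ} {z : CN N} (hh : DifferentiableAt ℝ h z) (v : CN N) :
    fderiv ℝ (fun y => ‖h y‖ ^ 2) z v = 2 * inner ℝ (h z) (fderiv ℝ h z v) := by
  have := hh.hasFDerivAt.norm_sq.fderiv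
  rw [this]
  simp
  ring

lemma analyticAt_fderiv_apply {h : CN N → ℂ} {z : CN N} (hh : AnalyticAt ℂ h z) (u : CN N) :
    AnalyticAt ℂ (fun y => fderiv ℂ h y u) z :=
  ((ContinuousLinearMap.apply ℂ ℂ u).analyticAt _).comp hh.fderiv

lemma fd2_apply {S : CN N → ℝ} {z : CN N} (hS : ContDiffAt ℝ 2 S z) (v w : CN N) :
    fderiv ℝ (fderiv ℝ S) z w v = fderiv ℝ (fun y => fderiv ℝ S y v) z w := by
  rw [fderiv_clm_apply (fd_diff hS) (differentiableAt_const v)]
  simp

lemma contDiffAt_real {h : CN N → ℂ} {z : CN N} (hh : AnalyticAt ℂ h z) {m : WithTop ℕ∞} :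
    ContDiffAt ℝ m h z :=
  (hh.contDiffAt (n := m)).restrict_scalars ℝ

lemma contDiffAt_normsq {h : CN N → ℂ} {z : CN N} (hh : AnalyticAt ℂ h z) {m : WithTop ℕ∞} :
    ContDiffAt ℝ m (fun y => ‖h y‖ ^ 2) z :=
  (contDiffAt_real hh).norm_sq ℝ

lemma levi_normsq {h : CN N → ℂ} {z : CN N} (hh : AnalyticAt ℂ h z) (w : CN N) :
    levi (fun y => ‖h y‖ ^ 2) z w = ‖fderiv ℝ h z w‖ ^ 2 := by
  have hev : ∀ᶠ y in 𝓝 z, AnalyticAt ℂ h y := hh.eventually_analyticAt
  have hd : DifferentiableAt ℂ h z := hh.differentiableAt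
  -- the complex derivative in the direction `w`
  have hg : AnalyticAt ℂ (fun y => fderiv ℂ h y w) z := analyticAt_fderiv_apply hh w
  have hgd : DifferentiableAt ℂ (fun y => fderiv ℂ h y w) z := hg.differentiableAt
  have key : ∀ u : CN N, u = w ∨ u = Complex.I • w →
      fderiv ℝ (fderiv ℝ (fun y => ‖h y‖ ^ 2)) z u u =
        2 * (‖fderiv ℝ h z u‖ ^ 2 +
          inner ℝ (h z) (fderiv ℝ (fun y => fderiv ℝ h y u) z u)) := by
    intro u _
    have hgu : AnalyticAt ℂ (fun y => fderiv ℂ h y u) z := analyticAt_fderiv_apply hh u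
    rw [fd2_apply (contDiffAt_normsq hh) u u]
    have h1 : (fun y => fderiv ℝ (fun y => ‖h y‖ ^ 2) y u) =ᶠ[𝓝 z]
        fun y => 2 * inner ℝ (h y) (fderiv ℝ h y u) := by
      filter_upwards [hev] with y hy
      exact fderiv_normsq (hy.differentiableAt.restrictScalars ℝ) u
    have hgr : DifferentiableAt ℝ (fun y => fderiv ℝ h y u) z := by
      have h2 : (fun y => fderiv ℝ h y u) =ᶠ[𝓝 z] fun y => fderiv ℂ h y u := by
        filter_upwards [hev] with y hy
        exact fderivR_eq hy.differentiableAt u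
      exact (hgu.differentiableAt.restrictScalars ℝ).congr_of_eventuallyEq h2
    rw [h1.fderiv_eq]
    have h3 := ((hd.restrictScalars ℝ).hasFDerivAt.inner ℝ hgr.hasFDerivAt).const_mul 2
    rw [h3.fderiv]
    simp only [smul_apply, ContinuousLinearMap.comp_apply,
      ContinuousLinearMap.prod_apply, fderivInnerCLM_apply, smul_eq_mul]
    rw [real_inner_self_eq_norm_sq, add_comm]
  have hI1 : fderiv ℝ h z (Complex.I • w) = Complex.I * fderiv ℝ h z w := fderivR_I hd w
  have hI2 : fderiv ℝ (fun y => fderiv ℝ h y (Complex.I • w)) z (Complex.I • w) =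
      - fderiv ℝ (fun y => fderiv ℝ h y w) z w := by
    have h2 : (fun y => fderiv ℝ h y w) =ᶠ[𝓝 z] fun y => fderiv ℂ h y w := by
      filter_upwards [hev] with y hy
      exact fderivR_eq hy.differentiableAt w
    have h3 : (fun y => fderiv ℝ h y (Complex.I • w)) =ᶠ[𝓝 z]
        fun y => Complex.I * fderiv ℂ h y w := by
      filter_upwards [hev] with y hy
      rw [fderivR_I hy.differentiableAt w, fderivR_eq hy.differentiableAt w]
    rw [h2.fderiv_eq, h3.fderiv_eq]
    have h4 : DifferentiableAt ℂ (fun y => Complex.I * fderiv ℂ h y w) z := hgd.const_mul _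
    rw [fderivR_I h4, fderivR_eq h4, fderiv_const_mul hgd, fderivR_eq hgd]
    simp only [smul_apply, smul_eq_mul]
    rw [← mul_assoc, Complex.I_mul_I]; ring
  unfold levi
  rw [key w (Or.inl rfl), key (Complex.I • w) (Or.inr rfl), hI1, hI2]
  rw [norm_mul, Complex.norm_I, inner_neg_right]
  ring

lemma levi_fsum {κ : Type*} (s : Finset κ) {φ : κ → CN N → ℝ} {z : CN N}
    (hφ : ∀ i ∈ s, ContDiffAt ℝ 2 (φ i) z) (w : CN N) :
    levi (fun y => ∑ i ∈ s, φ i y) z w = ∑ i ∈ s, levi (φ i) z w := by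
  classical
  induction s using Finset.induction_on with
  | empty => simp only [Finset.sum_empty]; exact levi_const 0 z w
  | insert a s ha ih =>
    simp only [Finset.sum_insert ha]
    rw [levi_add (hφ a (Finset.mem_insert_self a s))
      (ContDiffAt.sum fun i hi => hφ i (Finset.mem_insert_of_mem hi)),
      ih fun i hi => hφ i (Finset.mem_insert_of_mem hi)]

/-- `log (∑|h_j|² + δ)` is psh -/
lemma levi_logsq {κ : Type*} [Fintype κ] {h : κ → CN N → ℂ} {z : CN N}
    (hh : ∀ j, AnalyticAt ℂ (h j) z) {δ : ℝ} (hδ : 0 < δ) (w : CN N) :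
    0 ≤ levi (fun y => Real.log (∑ j, ‖h j y‖ ^ 2 + δ)) z w := by
  have hS : ContDiffAt ℝ 2 (fun y => ∑ j, ‖h j y‖ ^ 2) z :=
    ContDiffAt.sum fun j _ => contDiffAt_normsq (hh j)
  have hS' : ContDiffAt ℝ 2 (fun y => ∑ j, ‖h j y‖ ^ 2 + δ) z := hS.add contDiffAt_const
  have hnn : 0 ≤ ∑ j, ‖h j z‖ ^ 2 := Finset.sum_nonneg fun j _ => by positivity
  have hpos : 0 < ∑ j, ‖h j z‖ ^ 2 + δ := by positivity
  rw [levi_log hS' hpos w]
  have h1 : levi (fun y => ∑ j, ‖h j y‖ ^ 2 + δ) z w = ∑ j, ‖fderiv ℝ (h j) z w‖ ^ 2 := by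
    rw [levi_add hS contDiffAt_const, levi_const, add_zero,
      levi_fsum _ fun j _ => contDiffAt_normsq (hh j)]
    exact Finset.sum_congr rfl fun j _ => levi_normsq (hh j) w
  have hder : ∀ v : CN N, fderiv ℝ (fun y => ∑ j, ‖h j y‖ ^ 2 + δ) z v =
      2 * ∑ j, inner ℝ (h j z) (fderiv ℝ (h j) z v) := by
    intro v
    rw [fderiv_add_const, fderiv_fun_sum fun j _ =>
      (contDiffAt_normsq (m := 1) (hh j)).differentiableAt (by norm_num)]
    rw [sum_apply, Finset.mul_sum]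
    exact Finset.sum_congr rfl fun j _ =>
      fderiv_normsq ((hh j).differentiableAt.restrictScalars ℝ) v
  have h2 : grad2 (fun y => ∑ j, ‖h j y‖ ^ 2 + δ) z w =
      ‖∑ j, (starRingEnd ℂ) (h j z) * fderiv ℝ (h j) z w‖ ^ 2 := by
    unfold grad2
    rw [hder w, hder (Complex.I • w)]
    set T : ℂ := ∑ j, (starRingEnd ℂ) (h j z) * fderiv ℝ (h j) z w with hT
    have e1 : ∑ j, inner ℝ (h j z) (fderiv ℝ (h j) z w) = T.re := by
      rw [hT, Complex.re_sum]
      refine Finset.sum_congr rfl fun j _ => ?_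
      rw [Complex.inner, mul_comm]
    have e2 : ∑ j, inner ℝ (h j z) (fderiv ℝ (h j) z (Complex.I • w)) = - T.im := by
      rw [hT, Complex.im_sum, ← Finset.sum_neg_distrib]
      refine Finset.sum_congr rfl fun j _ => ?_
      rw [fderivR_I (hh j).differentiableAt, Complex.inner]
      simp only [Complex.mul_re, Complex.mul_im, Complex.I_re, Complex.I_im, Complex.conj_re,
        Complex.conj_im]
      ring
    rw [e1, e2, ← Complex.normSq_eq_norm_sq, Complex.normSq_apply]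
    ring
  have h3 : ‖∑ j, (starRingEnd ℂ) (h j z) * fderiv ℝ (h j) z w‖ ^ 2 ≤
      (∑ j, ‖h j z‖ ^ 2) * ∑ j, ‖fderiv ℝ (h j) z w‖ ^ 2 := by
    have hc : ‖∑ j, (starRingEnd ℂ) (h j z) * fderiv ℝ (h j) z w‖ ≤
        ∑ j, ‖h j z‖ * ‖fderiv ℝ (h j) z w‖ := by
      refine (norm_sum_le _ _).trans_eq (Finset.sum_congr rfl fun j _ => ?_)
      rw [norm_mul, RCLike.norm_conj]
    calc _ ≤ (∑ j, ‖h j z‖ * ‖fderiv ℝ (h j) z w‖) ^ 2 :=
          pow_le_pow_left₀ (norm_nonneg _) hc 2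
      _ ≤ _ := Finset.sum_mul_sq_le_sq_mul_sq _ _ _
  rw [h1, h2]
  have hT0 : 0 ≤ ∑ j, ‖fderiv ℝ (h j) z w‖ ^ 2 := Finset.sum_nonneg fun j _ => by positivity
  rw [sub_nonneg, div_le_div_iff₀ (by positivity) hpos]
  have : ‖∑ j, (starRingEnd ℂ) (h j z) * fderiv ℝ (h j) z w‖ ^ 2 ≤
      (∑ j, ‖h j z‖ ^ 2 + δ) * ∑ j, ‖fderiv ℝ (h j) z w‖ ^ 2 := by
    nlinarith [mul_nonneg hδ.le hT0]
  nlinarith [mul_le_mul_of_nonneg_right this hpos.le]

/-! ### the class -/

/-- smooth psh functions on `D` -/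
structure Psm (D : Set (CN N)) (φ : CN N → ℝ) : Prop where
  smooth : ContDiffOn ℝ ∞ φ D
  levi_nonneg : ∀ z ∈ D, ∀ w, 0 ≤ levi φ z w

/-- `A = e^φ` with `φ` a decreasing limit of smooth psh functions -/
def LogPsh (D : Set (CN N)) (A : CN N → ℝ) : Prop :=
  ∃ φ : ℕ → CN N → ℝ, (∀ k, Psm D (φ k)) ∧ (∀ z ∈ D, Antitone fun k => φ k z) ∧
    ∀ z ∈ D, Tendsto (fun k => Real.exp (φ k z)) atTop (𝓝 (A z))

lemma two_le_inf : (2 : WithTop ℕ∞) ≤ ∞ := by
  have : ((2 : ℕ∞) : WithTop ℕ∞) ≤ ((⊤ : ℕ∞) : WithTop ℕ∞) := WithTop.coe_le_coe.mpr le_top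
  simpa using this

lemma Psm.at {D : Set (CN N)} {φ : CN N → ℝ} (h : Psm D φ) (hD : IsOpen D) {z : CN N}
    (hz : z ∈ D) : ContDiffAt ℝ 2 φ z :=
  (h.smooth.contDiffAt (hD.mem_nhds hz)).of_le two_le_inf

lemma Psm.mono {D D' : Set (CN N)} {φ : CN N → ℝ} (h : Psm D φ) (hD : D' ⊆ D) : Psm D' φ :=
  ⟨h.smooth.mono hD, fun z hz w => h.levi_nonneg z (hD hz) w⟩

lemma Psm.add {D : Set (CN N)} (hD : IsOpen D) {φ ψ : CN N → ℝ} (h : Psm D φ) (h' : Psm D ψ) :
    Psm D (fun z => φ z + ψ z) :=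
  ⟨h.smooth.add h'.smooth, fun z hz w => by
    rw [levi_add (h.at hD hz) (h'.at hD hz)]
    exact add_nonneg (h.levi_nonneg z hz w) (h'.levi_nonneg z hz w)⟩

lemma Psm.const_mul {D : Set (CN N)} (hD : IsOpen D) {φ : CN N → ℝ} (h : Psm D φ) {c : ℝ}
    (hc : 0 ≤ c) : Psm D (fun z => c * φ z) :=
  ⟨contDiffOn_const.mul h.smooth, fun z hz w => by
    rw [levi_const_mul c (h.at hD hz)]
    exact mul_nonneg hc (h.levi_nonneg z hz w)⟩

lemma Psm.const (D : Set (CN N)) (c : ℝ) : Psm D (fun _ => c) :=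
  ⟨contDiffOn_const, fun z _ w => (levi_const c z w).ge⟩

lemma Psm.logaddexp {D : Set (CN N)} (hD : IsOpen D) {φ ψ : CN N → ℝ} (h : Psm D φ)
    (h' : Psm D ψ) : Psm D (fun z => Real.log (Real.exp (φ z) + Real.exp (ψ z))) :=
  ⟨(h.smooth.exp.add h'.smooth.exp).log fun z _ => by positivity, fun z hz w => by
    rw [levi_logaddexp (h.at hD hz) (h'.at hD hz)]
    have := h.levi_nonneg z hz w
    have := h'.levi_nonneg z hz w
    have := grad2_nonneg (fun y => φ y - ψ y) z w
    positivity⟩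

lemma LogPsh.mono {D D' : Set (CN N)} {A : CN N → ℝ} (h : LogPsh D A) (hD : D' ⊆ D) :
    LogPsh D' A := by
  obtain ⟨φ, h1, h2, h3⟩ := h
  exact ⟨φ, fun k => (h1 k).mono hD, fun z hz => h2 z (hD hz), fun z hz => h3 z (hD hz)⟩

lemma LogPsh.nonneg {D : Set (CN N)} {A : CN N → ℝ} (h : LogPsh D A) {z : CN N} (hz : z ∈ D) :
    0 ≤ A z := by
  obtain ⟨φ, _, _, h3⟩ := h
  exact ge_of_tendsto' (h3 z hz) fun k => (Real.exp_pos _).le

lemma LogPsh.congr {D : Set (CN N)} {A B : CN N → ℝ} (h : LogPsh D A) (hAB : ∀ z ∈ D, A z = B z) :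
    LogPsh D B := by
  obtain ⟨φ, h1, h2, h3⟩ := h
  exact ⟨φ, h1, h2, fun z hz => hAB z hz ▸ h3 z hz⟩

lemma LogPsh.mul {D : Set (CN N)} (hD : IsOpen D) {A B : CN N → ℝ} (hA : LogPsh D A)
    (hB : LogPsh D B) : LogPsh D (fun z => A z * B z) := by
  obtain ⟨φ, h1, h2, h3⟩ := hA
  obtain ⟨ψ, h4, h5, h6⟩ := hB
  refine ⟨fun k z => φ k z + ψ k z, fun k => (h1 k).add hD (h4 k), fun z hz k l hkl =>
    add_le_add (h2 z hz hkl) (h5 z hz hkl), fun z hz => ?_⟩
  simp only [Real.exp_add]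
  exact (h3 z hz).mul (h6 z hz)

lemma LogPsh.rpow {D : Set (CN N)} (hD : IsOpen D) {A : CN N → ℝ} (hA : LogPsh D A) {c : ℝ}
    (hc : 0 ≤ c) : LogPsh D (fun z => A z ^ c) := by
  obtain ⟨φ, h1, h2, h3⟩ := hA
  refine ⟨fun k z => c * φ k z, fun k => (h1 k).const_mul hD hc, fun z hz k l hkl =>
    mul_le_mul_of_nonneg_left (h2 z hz hkl) hc, fun z hz => ?_⟩
  have : ∀ k, Real.exp (c * φ k z) = Real.exp (φ k z) ^ c := fun k => by
    rw [← Real.exp_mul, mul_comm]
  simp only [this]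
  exact (h3 z hz).rpow_const (Or.inr hc)

lemma LogPsh.const (D : Set (CN N)) {c : ℝ} (hc : 0 < c) : LogPsh D (fun _ => c) :=
  ⟨fun _ _ => Real.log c, fun _ => Psm.const D _, fun _ _ => antitone_const, fun _ _ => by
    simp only [Real.exp_log hc]; exact tendsto_const_nhds⟩

lemma LogPsh.add {D : Set (CN N)} (hD : IsOpen D) {A B : CN N → ℝ} (hA : LogPsh D A)
    (hB : LogPsh D B) : LogPsh D (fun z => A z + B z) := by
  obtain ⟨φ, h1, h2, h3⟩ := hA
  obtain ⟨ψ, h4, h5, h6⟩ := hB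
  refine ⟨fun k z => Real.log (Real.exp (φ k z) + Real.exp (ψ k z)),
    fun k => (h1 k).logaddexp hD (h4 k), fun z hz k l hkl => ?_, fun z hz => ?_⟩
  · exact Real.log_le_log (by positivity)
      (add_le_add (Real.exp_le_exp.2 (h2 z hz hkl)) (Real.exp_le_exp.2 (h5 z hz hkl)))
  · have : ∀ k, Real.exp (Real.log (Real.exp (φ k z) + Real.exp (ψ k z))) =
        Real.exp (φ k z) + Real.exp (ψ k z) := fun k => Real.exp_log (by positivity)
    simp only [this]
    exact (h3 z hz).add (h6 z hz)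

lemma LogPsh.prod {D : Set (CN N)} (hD : IsOpen D) {κ : Type*} (s : Finset κ)
    {A : κ → CN N → ℝ} (hA : ∀ i ∈ s, LogPsh D (A i)) : LogPsh D (fun z => ∏ i ∈ s, A i z) := by
  classical
  induction s using Finset.induction_on with
  | empty => simpa using LogPsh.const D one_pos
  | insert a s ha ih =>
    simp only [Finset.prod_insert ha]
    exact (hA a (Finset.mem_insert_self a s)).mul hD
      (ih fun i hi => hA i (Finset.mem_insert_of_mem hi))

lemma LogPsh.sum {D : Set (CN N)} (hD : IsOpen D) {κ : Type*} (s : Finset κ) (hs : s.Nonempty)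
    {A : κ → CN N → ℝ} (hA : ∀ i ∈ s, LogPsh D (A i)) : LogPsh D (fun z => ∑ i ∈ s, A i z) := by
  classical
  induction hs using Finset.Nonempty.cons_induction with
  | singleton a => simpa using hA a (by simp)
  | cons a s ha hs ih =>
    simp only [Finset.sum_cons]
    exact (hA a (by simp)).add hD (ih fun i hi => hA i (by simp [hi]))

/-- the basic example -/
lemma LogPsh.sumsq {D : Set (CN N)} {κ : Type*} [Fintype κ] {h : κ → CN N → ℂ}
    (hh : ∀ j, ∀ z ∈ D, AnalyticAt ℂ (h j) z) : LogPsh D (fun z => ∑ j, ‖h j z‖ ^ 2) := by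
  have hd : ∀ k : ℕ, (0 : ℝ) < 1 / ((k : ℝ) + 1) := fun k => by positivity
  have hnn : ∀ z, 0 ≤ ∑ j, ‖h j z‖ ^ 2 := fun z => Finset.sum_nonneg fun j _ => by positivity
  have hp : ∀ (k : ℕ) z, 0 < ∑ j, ‖h j z‖ ^ 2 + 1 / ((k : ℝ) + 1) := fun k z =>
    add_pos_of_nonneg_of_pos (hnn z) (hd k)
  refine ⟨fun k z => Real.log (∑ j, ‖h j z‖ ^ 2 + 1 / ((k : ℝ) + 1)), fun k => ⟨?_, ?_⟩, ?_, ?_⟩
  · intro z hz
    refine ContDiffAt.contDiffWithinAt ?_
    refine ContDiffAt.log ((ContDiffAt.sum fun j _ => contDiffAt_normsq (hh j z hz)).add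
      contDiffAt_const) (hp k z).ne'
  · intro z hz w
    exact levi_logsq (fun j => hh j z hz) (hd k) w
  · intro z hz k l hkl
    refine Real.log_le_log (hp l z) (add_le_add le_rfl ?_)
    exact one_div_le_one_div_of_le (by positivity) (by exact_mod_cast Nat.add_le_add_right hkl 1)
  · intro z hz
    have : ∀ k : ℕ, Real.exp (Real.log (∑ j, ‖h j z‖ ^ 2 + 1 / ((k : ℝ) + 1))) =
        ∑ j, ‖h j z‖ ^ 2 + 1 / ((k : ℝ) + 1) := fun k => Real.exp_log (hp k z)
    simp only [this]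
    simpa using (tendsto_const_nhds (x := ∑ j, ‖h j z‖ ^ 2)).add
      tendsto_one_div_add_atTop_nhds_zero_nat

end Crest.Agent.R271.Sum186
end
end

-- ▼ part R271/Sum3_186
section

/-!
Row 271 (S0413), local theory: mean value inequality for holomorphic functions on polydiscs and the
resulting equicontinuity at the centre.
-/

open MeasureTheory Set Filter Topology Metric
open scoped ContDiff ENNReal Real

noncomputable section

namespace Crest.Agent.R271.Sum186

variable {N : ℕ}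

/-- multiplication by a complex number of modulus one preserves Lebesgue measure of `ℂ^N` -/
lemma mp_rot (a : Circle) :
    MeasurePreserving (fun w : CN N => (a : ℂ) • w) volume volume := by
  have h1 : MeasurePreserving (fun z : ℂ => (a : ℂ) * z) volume volume :=
    (rotation a).measurePreserving
  exact measurePreserving_pi (fun _ : Fin N => (volume : Measure ℂ)) (fun _ => volume)
    (fun _ => h1)

lemma one_var_mean {g : ℂ → ℂ} (hg : DifferentiableOn ℂ g (closedBall 0 1)) :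
    ENNReal.ofReal (‖g 0‖ ^ 2) * ENNReal.ofReal (2 * π) ≤
      ∫⁻ θ in Ioc 0 (2 * π), ENNReal.ofReal (‖g (circleMap 0 1 θ)‖ ^ 2) := by
  have h0 : DiffContOnCl ℂ (fun z => g z ^ 2) (ball 0 |(1 : ℝ)|) := by
    have : DifferentiableOn ℂ (fun z => g z ^ 2) (closure (ball (0 : ℂ) |(1 : ℝ)|)) := by
      rw [abs_one, closure_ball _ one_ne_zero]
      exact hg.pow 2
    exact this.diffContOnCl
  have h1 := h0.circleAverage
  rw [Real.circleAverage_def] at h1
  have h2 : ‖g 0‖ ^ 2 * (2 * π) ≤ ∫ θ in (0 : ℝ)..2 * π, ‖g (circleMap 0 1 θ)‖ ^ 2 := by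
    have h3 : ‖g 0‖ ^ 2 = (2 * π)⁻¹ * ‖∫ θ in (0 : ℝ)..2 * π, g (circleMap 0 1 θ) ^ 2‖ := by
      rw [← norm_pow, ← h1, norm_smul, Real.norm_of_nonneg (by positivity)]
    rw [h3]
    have h4 : ‖∫ θ in (0 : ℝ)..2 * π, g (circleMap 0 1 θ) ^ 2‖ ≤
        ∫ θ in (0 : ℝ)..2 * π, ‖g (circleMap 0 1 θ) ^ 2‖ :=
      intervalIntegral.norm_integral_le_integral_norm (by positivity)
    simp only [norm_pow] at h4
    have hp : (0 : ℝ) < 2 * π := by positivity
    calc (2 * π)⁻¹ * ‖∫ θ in (0 : ℝ)..2 * π, g (circleMap 0 1 θ) ^ 2‖ * (2 * π)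
        = ‖∫ θ in (0 : ℝ)..2 * π, g (circleMap 0 1 θ) ^ 2‖ := by field_simp
      _ ≤ _ := h4
  have hcont : Continuous fun θ : ℝ => ‖g (circleMap 0 1 θ)‖ ^ 2 := by
    have : Continuous fun θ : ℝ => g (circleMap 0 1 θ) :=
      hg.continuousOn.comp_continuous (continuous_circleMap 0 1) fun θ => by
        simp [mem_closedBall]
    exact this.norm.pow 2
  rw [intervalIntegral.integral_of_le (by positivity)] at h2
  rw [← ofReal_integral_eq_lintegral_ofReal
    (hcont.integrableOn_Icc.mono_set Ioc_subset_Icc_self)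
    (Eventually.of_forall fun θ => by positivity), ← ENNReal.ofReal_mul (by positivity)]
  exact ENNReal.ofReal_le_ofReal h2

/-- mean value inequality -/
lemma mean_ball {r ρ : ℝ} {f : CN N → ℂ} (hf : DifferentiableOn ℂ f (ball 0 r)) {a : CN N}
    (haρ : ball a ρ ⊆ ball 0 r) :
    ENNReal.ofReal (‖f a‖ ^ 2) * volume (ball (0 : CN N) ρ) ≤
      ∫⁻ z in ball 0 r, ENNReal.ofReal (‖f z‖ ^ 2) := by
  classical
  set g : CN N → ℝ≥0∞ := (ball (0 : CN N) r).piecewise (fun z => ENNReal.ofReal (‖f z‖ ^ 2)) 0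
    with hg
  have hgm : Measurable g := by
    refine ContinuousOn.measurable_piecewise ?_ continuousOn_const measurableSet_ball
    have : ContinuousOn (fun z => ‖f z‖ ^ 2) (ball (0 : CN N) r) := hf.continuousOn.norm.pow 2
    exact ENNReal.continuous_ofReal.comp_continuousOn this
  have hgin : ∀ z ∈ ball (0 : CN N) r, g z = ENNReal.ofReal (‖f z‖ ^ 2) := fun z hz => by
    simp only [hg, Set.piecewise, hz, if_true]
  have hp : (0 : ℝ) < 2 * π := by positivity
  -- pointwise one variable inequality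
  have h1 : ∀ w ∈ ball (0 : CN N) ρ, ENNReal.ofReal (‖f a‖ ^ 2) * ENNReal.ofReal (2 * π) ≤
      ∫⁻ θ in Ioc 0 (2 * π), g (a + circleMap 0 1 θ • w) := by
    intro w hw
    have hmem : ∀ ζ : ℂ, ‖ζ‖ ≤ 1 → a + ζ • w ∈ ball (0 : CN N) r := fun ζ hζ => by
      apply haρ
      rw [mem_ball, dist_eq_norm, add_sub_cancel_left, norm_smul]
      rw [mem_ball, dist_zero_right] at hw
      calc ‖ζ‖ * ‖w‖ ≤ 1 * ‖w‖ := by gcongr
        _ < ρ := by linarith
    have hline : DifferentiableOn ℂ (fun ζ : ℂ => f (a + ζ • w)) (closedBall 0 1) := by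
      refine hf.comp (f := fun ζ : ℂ => a + ζ • w) ?_ fun ζ hζ => ?_
      · fun_prop
      · exact hmem ζ (by simpa using hζ)
    have := one_var_mean hline
    simp only [zero_smul, add_zero] at this
    refine this.trans_eq ?_
    refine setLIntegral_congr_fun measurableSet_Ioc fun θ _ => ?_
    rw [hgin _ (hmem _ (by simp))]
  -- integrate over `w`
  have h2 : ∫⁻ w in ball (0 : CN N) ρ, ENNReal.ofReal (‖f a‖ ^ 2) * ENNReal.ofReal (2 * π) ≤
      ∫⁻ w in ball (0 : CN N) ρ, ∫⁻ θ in Ioc 0 (2 * π), g (a + circleMap 0 1 θ • w) :=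
    setLIntegral_mono' measurableSet_ball h1
  rw [setLIntegral_const] at h2
  have hmeas : Measurable (fun p : CN N × ℝ => g (a + circleMap 0 1 p.2 • p.1)) := by
    refine hgm.comp ?_
    have : Continuous fun p : CN N × ℝ => a + circleMap 0 1 p.2 • p.1 := by
      have := continuous_circleMap 0 1
      fun_prop
    exact this.measurable
  rw [lintegral_lintegral_swap hmeas.aemeasurable] at h2
  have h3 : ∀ θ : ℝ, ∫⁻ w in ball (0 : CN N) ρ, g (a + circleMap 0 1 θ • w) ≤
      ∫⁻ z in ball 0 r, ENNReal.ofReal (‖f z‖ ^ 2) := by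
    intro θ
    have hm := mp_rot (N := N) (Circle.exp θ)
    have hcm : ∀ w : CN N, circleMap 0 1 θ • w = ((Circle.exp θ : Circle) : ℂ) • w := fun w => by
      simp [circleMap]
    have hme : MeasurableEmbedding (fun w : CN N => ((Circle.exp θ : Circle) : ℂ) • w) :=
      (Homeomorph.smulOfNeZero ((Circle.exp θ : Circle) : ℂ)
        (Circle.coe_ne_zero _)).measurableEmbedding
    have hpre : (fun w : CN N => ((Circle.exp θ : Circle) : ℂ) • w) ⁻¹' ball 0 ρ = ball 0 ρ := by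
      ext w
      simp [norm_smul]
    have e1 : ∫⁻ w in ball (0 : CN N) ρ, g (a + circleMap 0 1 θ • w) =
        ∫⁻ w in ball (0 : CN N) ρ, g (a + w) := by
      simp only [hcm]
      rw [← hm.setLIntegral_comp_preimage_emb hme (fun w => g (a + w)) (ball 0 ρ), hpre]
    have e2 : ∫⁻ w in ball (0 : CN N) ρ, g (a + w) = ∫⁻ z in ball a ρ, g z := by
      have hm2 := measurePreserving_add_left (volume : Measure (CN N)) a
      have hpre2 : (fun w : CN N => a + w) ⁻¹' ball a ρ = ball 0 ρ := by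
        ext w
        simp
      rw [← hm2.setLIntegral_comp_preimage_emb (measurableEmbedding_addLeft a) g (ball a ρ), hpre2]
    rw [e1, e2]
    refine (lintegral_mono_set haρ).trans_eq ?_
    exact setLIntegral_congr_fun measurableSet_ball fun z hz => hgin z hz
  have h4 : ∫⁻ θ in Ioc 0 (2 * π), ∫⁻ w in ball (0 : CN N) ρ, g (a + circleMap 0 1 θ • w) ≤
      (∫⁻ z in ball 0 r, ENNReal.ofReal (‖f z‖ ^ 2)) * ENNReal.ofReal (2 * π) := by
    calc _ ≤ ∫⁻ _θ in Ioc 0 (2 * π), (∫⁻ z in ball 0 r, ENNReal.ofReal (‖f z‖ ^ 2)) :=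
          lintegral_mono fun θ => h3 θ
      _ = _ := by rw [setLIntegral_const, Real.volume_Ioc, sub_zero]
  have h5 := h2.trans h4
  have h6 : ENNReal.ofReal (‖f a‖ ^ 2) * volume (ball (0 : CN N) ρ) * ENNReal.ofReal (2 * π) ≤
      (∫⁻ z in ball 0 r, ENNReal.ofReal (‖f z‖ ^ 2)) * ENNReal.ofReal (2 * π) := by
    calc _ = ENNReal.ofReal (‖f a‖ ^ 2) * ENNReal.ofReal (2 * π) * volume (ball (0 : CN N) ρ) := by
          ring
      _ ≤ _ := h5
  have hne : ENNReal.ofReal (2 * π) ≠ 0 := by simpa using hp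
  exact (ENNReal.mul_le_mul_iff_left hne ENNReal.ofReal_ne_top).1 h6

/-- equicontinuity at the centre of `L²`-bounded holomorphic functions -/
lemma equicont {r C : ℝ} (hr : 0 < r) {η : ℝ} (hη : 0 < η) :
    ∃ r' : ℝ, 0 < r' ∧ r' ≤ r ∧ ∀ f : CN N → ℂ, DifferentiableOn ℂ f (ball 0 r) →
      ∫⁻ z in ball (0 : CN N) r, ENNReal.ofReal (‖f z‖ ^ 2) ≤ ENNReal.ofReal C →
      ∀ z ∈ ball (0 : CN N) r', ‖f z - f 0‖ ≤ η := by
  set v : ℝ := (volume (ball (0 : CN N) (r / 2))).toReal with hv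
  have hvpos : 0 < v := ENNReal.toReal_pos (measure_ball_pos _ _ (by positivity)).ne'
    measure_ball_lt_top.ne
  set M : ℝ := √(|C| / v) with hM
  have hM0 : 0 ≤ M := Real.sqrt_nonneg _
  refine ⟨min (r / 2) (η * (r / 2) / (2 * M + 1)), by positivity,
    (min_le_left _ _).trans (by linarith), fun f hf hfC z hz => ?_⟩
  have hsup : ∀ a ∈ ball (0 : CN N) (r / 2), ‖f a‖ ≤ M := by
    intro a ha
    have h1 : ball a (r / 2) ⊆ ball 0 r := by
      apply ball_subset_ball'
      rw [mem_ball] at ha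
      linarith
    have h2 := (mean_ball hf h1).trans hfC
    rw [← ENNReal.ofReal_toReal (measure_ball_lt_top (x := (0 : CN N)) (r := r / 2)
      (μ := volume)).ne, ← ENNReal.ofReal_mul (by positivity)] at h2
    have h3 : ‖f a‖ ^ 2 * v ≤ |C| := by
      by_contra hcon
      push Not at hcon
      have h4 : ENNReal.ofReal |C| < ENNReal.ofReal (‖f a‖ ^ 2 * v) :=
        (ENNReal.ofReal_lt_ofReal_iff (lt_of_le_of_lt (abs_nonneg C) hcon)).2 hcon
      exact absurd (h2.trans (ENNReal.ofReal_le_ofReal (le_abs_self C))) (not_le.2 h4)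
    rw [hM]
    apply Real.le_sqrt_of_sq_le
    rw [le_div_iff₀ hvpos]
    exact h3
  have hz1 : ‖z‖ < r / 2 := by
    rw [mem_ball, dist_zero_right] at hz
    exact lt_of_lt_of_le hz (min_le_left _ _)
  have hz2 : ‖z‖ < η * (r / 2) / (2 * M + 1) := by
    rw [mem_ball, dist_zero_right] at hz
    exact lt_of_lt_of_le hz (min_le_right _ _)
  rcases eq_or_ne z 0 with rfl | hz0
  · simpa using hη.le
  have hzn : 0 < ‖z‖ := norm_pos_iff.2 hz0
  set R : ℝ := (r / 2) / ‖z‖ with hR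
  have hRpos : 0 < R := by positivity
  have hmem : ∀ ζ ∈ ball (0 : ℂ) R, ζ • z ∈ ball (0 : CN N) (r / 2) := by
    intro ζ hζ
    rw [mem_ball, dist_zero_right] at hζ ⊢
    rw [norm_smul]
    calc ‖ζ‖ * ‖z‖ < R * ‖z‖ := by gcongr
      _ = r / 2 := by rw [hR]; field_simp
  have hd : DifferentiableOn ℂ (fun ζ : ℂ => f (ζ • z)) (ball 0 R) := by
    refine hf.comp (f := fun ζ : ℂ => ζ • z) (by fun_prop) fun ζ hζ => ?_
    exact ball_subset_ball (by linarith) (hmem ζ hζ)
  have h0 : (0 : CN N) ∈ ball (0 : CN N) (r / 2) := mem_ball_self (by positivity)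
  have hmaps : MapsTo (fun ζ : ℂ => f (ζ • z)) (ball 0 R)
      (closedBall ((fun ζ : ℂ => f (ζ • z)) 0) (2 * M + 1)) := by
    intro ζ hζ
    simp only [zero_smul, mem_closedBall, dist_eq_norm]
    calc ‖f (ζ • z) - f 0‖ ≤ ‖f (ζ • z)‖ + ‖f 0‖ := norm_sub_le _ _
      _ ≤ M + M := add_le_add (hsup _ (hmem ζ hζ)) (hsup _ h0)
      _ ≤ 2 * M + 1 := by linarith
  have h1R : (1 : ℂ) ∈ ball (0 : ℂ) R := by
    rw [mem_ball, dist_zero_right, norm_one, hR, lt_div_iff₀ hzn]
    linarith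
  have := Complex.dist_le_div_mul_dist_of_mapsTo_ball hd hmaps h1R
  simp only [one_smul, zero_smul, dist_eq_norm, sub_zero, norm_one, mul_one] at this
  refine this.trans ?_
  rw [hR, div_div_eq_mul_div, div_le_iff₀ (by positivity)]
  have := (lt_div_iff₀ (by positivity : (0 : ℝ) < 2 * M + 1)).1 hz2
  linarith [this]

end Crest.Agent.R271.Sum186
end
end

-- ▼ part R271/Sum4_186
section

/-!
Row 271 (S0413), local theory: the core step of the Sum Theorem (Blueprint_710, 2.3).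
-/

open MeasureTheory Set Filter Topology Metric
open scoped ContDiff ENNReal Real

noncomputable section

namespace Crest.Agent.R271.Sum186

variable {N : ℕ}

/-- The `L²` solver for `∂̄` on an open set `D` (engine, Blueprint_710 2.1): the norm of the
`(0,1)`-form `dbar G` with respect to the Levi form of the weight is `≤ h`. -/
def Solver (N : ℕ) (D : Set (CN N)) : Prop :=
  ∀ (Φ : CN N → ℝ) (G : CN N → ℂ) (h : CN N → ℝ),
    ContDiffOn ℝ ∞ Φ D → (∀ z ∈ D, ∀ w, w ≠ 0 → 0 < levi Φ z w) →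
    ContDiffOn ℝ ∞ G D → ContinuousOn h D → (∀ z ∈ D, 0 ≤ h z) →
    (∀ z ∈ D, ∀ w, ‖dbar G z w‖ ^ 2 ≤ h z * levi Φ z w) →
    ∫⁻ z in D, ENNReal.ofReal (h z * Real.exp (-Φ z)) < ⊤ →
    ∃ f : CN N → ℂ, DifferentiableOn ℂ f D ∧
      ∫⁻ z in D, ENNReal.ofReal (‖G z - f z‖ ^ 2 * Real.exp (-Φ z)) ≤
        2 * ∫⁻ z in D, ENNReal.ofReal (h z * Real.exp (-Φ z))

/-- the cut-off function -/
def chi (u : ℝ) : ℝ := Real.smoothTransition ((u + 1) / 2)

lemma chi_smooth : ContDiff ℝ ∞ chi :=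
  Real.smoothTransition.contDiff.comp ((contDiff_id.add contDiff_const).div_const 2)

lemma chi_zero {u : ℝ} (hu : u ≤ -1) : chi u = 0 :=
  Real.smoothTransition.zero_of_nonpos (by linarith)

lemma chi_one {u : ℝ} (hu : 1 ≤ u) : chi u = 1 :=
  Real.smoothTransition.one_of_one_le (by linarith)

lemma chi_nonneg (u : ℝ) : 0 ≤ chi u := Real.smoothTransition.nonneg _

lemma chi_le_one (u : ℝ) : chi u ≤ 1 := Real.smoothTransition.le_one _

lemma chi_diff (u : ℝ) : DifferentiableAt ℝ chi u :=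
  (chi_smooth.contDiffAt (x := u)).differentiableAt (by simp)

lemma chi_deriv_cont : Continuous (deriv chi) :=
  chi_smooth.continuous_deriv (by exact_mod_cast le_top)

lemma chi_deriv_zero {u : ℝ} (hu : 1 < |u|) : deriv chi u = 0 := by
  rcases lt_abs.1 hu with h | h
  · have : chi =ᶠ[𝓝 u] fun _ => 1 := by
      filter_upwards [lt_mem_nhds h] with v hv using chi_one hv.le
    rw [this.deriv_eq]; simp
  · have : chi =ᶠ[𝓝 u] fun _ => 0 := by
      filter_upwards [gt_mem_nhds (show u < -1 by linarith)] with v hv using chi_zero hv.le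
    rw [this.deriv_eq]; simp

lemma chi_deriv_bdd : ∃ M : ℝ, 0 ≤ M ∧ ∀ u, |deriv chi u| ≤ M := by
  obtain ⟨M, hM⟩ := (isCompact_Icc (a := (-1 : ℝ)) (b := 1)).exists_bound_of_continuousOn
    chi_deriv_cont.continuousOn
  refine ⟨max M 0, le_max_right _ _, fun u => ?_⟩
  by_cases hu : 1 < |u|
  · rw [chi_deriv_zero hu]; simp
  · have := hM u (by rw [mem_Icc, ← abs_le]; exact not_lt.1 hu)
    exact this.trans (le_max_left _ _)

lemma levi_q (z w : CN N) : levi (fun y : CN N => ∑ i, ‖y i‖ ^ 2) z w = ∑ i, ‖w i‖ ^ 2 := by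
  have hcoord : ∀ i : Fin N, AnalyticAt ℂ (fun y : CN N => y i) z := fun i =>
    (ContinuousLinearMap.proj (R := ℂ) (φ := fun _ : Fin N => ℂ) i).analyticAt z
  rw [levi_fsum _ fun i _ => contDiffAt_normsq (hcoord i)]
  refine Finset.sum_congr rfl fun i _ => ?_
  rw [levi_normsq (hcoord i), fderivR_eq (hcoord i).differentiableAt]
  have : fderiv ℂ (fun y : CN N => y i) z = ContinuousLinearMap.proj i :=
    (ContinuousLinearMap.proj (R := ℂ) (φ := fun _ : Fin N => ℂ) i).fderiv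
  rw [this]; rfl

lemma psm_q (D : Set (CN N)) : Psm D (fun y : CN N => ∑ i, ‖y i‖ ^ 2) := by
  refine ⟨?_, fun z _ w => ?_⟩
  · intro z _
    refine ContDiffAt.contDiffWithinAt (ContDiffAt.sum fun i _ => contDiffAt_normsq ?_)
    exact (ContinuousLinearMap.proj (R := ℂ) (φ := fun _ : Fin N => ℂ) i).analyticAt z
  · rw [levi_q]; positivity

/-- the core step: one application of the solver -/
theorem core_step {r : ℝ} (hsol : Solver N (ball 0 r)) {ε : ℝ} (hε : 0 < ε)
    (hε1 : ε < 1) :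
    ∃ C : ℝ, 0 ≤ C ∧ ∀ (ρ a b : CN N → ℝ), Psm (ball 0 r) ρ → Psm (ball 0 r) a →
      Psm (ball 0 r) b → (∀ z ∈ ball (0 : CN N) r, ρ z ≤ 0) →
      (∀ z ∈ ball (0 : CN N) r, a z ≤ - Real.log 2) →
      (∀ z ∈ ball (0 : CN N) r, b z ≤ - Real.log 2) →
      ∫⁻ z in ball (0 : CN N) r, ENNReal.ofReal (Real.exp (-(ρ z) - max (a z) (b z))) < ⊤ →
      ∀ s : ℝ, 0 ≤ s → s ≤ 1 →
      ∃ f : CN N → ℂ, DifferentiableOn ℂ f (ball 0 r) ∧
        ∫⁻ z in ball 0 r, ENNReal.ofReal (‖(chi (a z - b z) : ℂ) - f z‖ ^ 2 *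
          Real.exp (-((1 - ε) * (ρ z + (s * a z + (1 - s) * b z))))) ≤
        ENNReal.ofReal C * ∫⁻ z in ball (0 : CN N) r,
          ENNReal.ofReal (Real.exp (-(ρ z) - max (a z) (b z))) := by
  obtain ⟨M, hM0, hM⟩ := chi_deriv_bdd
  set K : ℝ := N * r ^ 2 with hK
  set C1 : ℝ := M ^ 2 * (1 + Real.exp 1) ^ 2 / ε * Real.exp (1 + K) with hC1
  have hC10 : 0 ≤ C1 := by positivity
  refine ⟨2 * C1, by positivity, fun ρ a b hρ ha hb hρ0 ha0 hb0 hint s hs0 hs1 => ?_⟩
  set D : Set (CN N) := ball 0 r with hD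
  have hDo : IsOpen D := isOpen_ball
  set q : CN N → ℝ := fun y => ∑ i, ‖y i‖ ^ 2 with hq
  set ℓ : CN N → ℝ := fun y => Real.log (Real.exp (a y) + Real.exp (b y)) with hℓ
  set u : CN N → ℝ := fun y => a y - b y with hu
  set σ : CN N → ℝ := fun y => Real.exp (a y) / (Real.exp (a y) + Real.exp (b y)) *
    (Real.exp (b y) / (Real.exp (a y) + Real.exp (b y))) with hσ
  set Φ : CN N → ℝ := fun y => (((1 - ε) * (ρ y + (s * a y + (1 - s) * b y)) + ε * ℓ y) + q y) +
    (-K) with hΦ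
  set G : CN N → ℂ := fun y => ((chi (u y) : ℝ) : ℂ) with hG
  set h : CN N → ℝ := fun y => (deriv chi (u y)) ^ 2 / (ε * σ y) with hh
  have hlog2 : 0 < Real.log 2 := Real.log_pos (by norm_num)
  have hσpos : ∀ y, 0 < σ y := fun y => by rw [hσ]; positivity
  -- regularity
  have hsa : Psm D (fun y => s * a y) := ha.const_mul hDo hs0
  have hsb : Psm D (fun y => (1 - s) * b y) := hb.const_mul hDo (by linarith)
  have hP1 : Psm D (fun y => (1 - ε) * (ρ y + (s * a y + (1 - s) * b y))) :=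
    (hρ.add hDo (hsa.add hDo hsb)).const_mul hDo (by linarith)
  have hPℓ : Psm D ℓ := ha.logaddexp hDo hb
  have hP2 : Psm D (fun y => ε * ℓ y) := hPℓ.const_mul hDo hε.le
  have hP3 : Psm D q := psm_q D
  have hP4 : Psm D (fun y => (1 - ε) * (ρ y + (s * a y + (1 - s) * b y)) + ε * ℓ y) :=
    hP1.add hDo hP2
  have hP5 : Psm D (fun y => ((1 - ε) * (ρ y + (s * a y + (1 - s) * b y)) + ε * ℓ y) + q y) :=
    hP4.add hDo hP3
  have hPΦ : Psm D Φ := hP5.add hDo (Psm.const D (-K))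
  have hus : ContDiffOn ℝ ∞ u D := ha.smooth.sub hb.smooth
  -- Levi form of the weight
  have hlev : ∀ z ∈ D, ∀ w, ε * (σ z * grad2 u z w) + ∑ i, ‖w i‖ ^ 2 ≤ levi Φ z w := by
    intro z hz w
    have e1 : levi Φ z w = levi (fun y => (1 - ε) * (ρ y + (s * a y + (1 - s) * b y))) z w +
        ε * levi ℓ z w + ∑ i, ‖w i‖ ^ 2 := by
      rw [hΦ, levi_add (hP5.at hDo hz) contDiffAt_const, levi_const, add_zero,
        levi_add (hP4.at hDo hz) (hP3.at hDo hz), levi_add (hP1.at hDo hz) (hP2.at hDo hz),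
        levi_const_mul ε (hPℓ.at hDo hz), levi_q]
    have e2 : σ z * grad2 u z w ≤ levi ℓ z w := by
      rw [hℓ, levi_logaddexp (ha.at hDo hz) (hb.at hDo hz)]
      have h1 := ha.levi_nonneg z hz w
      have h2 := hb.levi_nonneg z hz w
      have h3 : 0 ≤ Real.exp (a z) / (Real.exp (a z) + Real.exp (b z)) * levi a z w := by
        positivity
      have h4 : 0 ≤ Real.exp (b z) / (Real.exp (a z) + Real.exp (b z)) * levi b z w := by
        positivity
      simp only [hσ, hu]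
      linarith
    rw [e1]
    have := hP1.levi_nonneg z hz w
    have := mul_le_mul_of_nonneg_left e2 hε.le
    linarith
  have hpos : ∀ z ∈ D, ∀ w, w ≠ 0 → 0 < levi Φ z w := by
    intro z hz w hw
    refine lt_of_lt_of_le ?_ (hlev z hz w)
    have h1 : 0 < ∑ i, ‖w i‖ ^ 2 := by
      obtain ⟨i, hi⟩ : ∃ i, w i ≠ 0 := by
        by_contra hcon
        push Not at hcon
        exact hw (funext hcon)
      have hi' : 0 < ‖w i‖ ^ 2 := by positivity
      exact lt_of_lt_of_le hi'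
        (Finset.single_le_sum (f := fun i => ‖w i‖ ^ 2) (fun j _ => by positivity)
          (Finset.mem_univ i))
    have h2 : 0 ≤ ε * (σ z * grad2 u z w) :=
      mul_nonneg hε.le (mul_nonneg (hσpos z).le (grad2_nonneg _ _ _))
    linarith
  have hGs : ContDiffOn ℝ ∞ G D := by
    have h1 : ContDiffOn ℝ ∞ (fun y => chi (u y)) D := chi_smooth.comp_contDiffOn hus
    exact Complex.ofRealCLM.contDiff.comp_contDiffOn h1
  have hac : ContinuousOn a D := ha.smooth.continuousOn
  have hbc : ContinuousOn b D := hb.smooth.continuousOn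
  have hρc : ContinuousOn ρ D := hρ.smooth.continuousOn
  have hσc : ContinuousOn σ D := by
    have h1 : ContinuousOn (fun y => Real.exp (a y)) D := hac.rexp
    have h2 : ContinuousOn (fun y => Real.exp (b y)) D := hbc.rexp
    have h3 : ∀ y ∈ D, Real.exp (a y) + Real.exp (b y) ≠ 0 := fun y _ => by positivity
    exact (h1.div (h1.add h2) h3).mul (h2.div (h1.add h2) h3)
  have hhc : ContinuousOn h D := by
    refine ContinuousOn.div ?_ (continuousOn_const.mul hσc) fun y _ =>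
      (mul_pos hε (hσpos y)).ne'
    exact (chi_deriv_cont.comp_continuousOn (hac.sub hbc)).pow 2
  have hh0 : ∀ z ∈ D, 0 ≤ h z := fun z _ => div_nonneg (sq_nonneg _) (mul_pos hε (hσpos z)).le
  have hdb : ∀ z ∈ D, ∀ w, ‖dbar G z w‖ ^ 2 ≤ h z * levi Φ z w := by
    intro z hz w
    have hu2 : ContDiffAt ℝ 2 u z := (ha.at hDo hz).sub (hb.at hDo hz)
    rw [hG, dbar_comp hu2 (chi_diff _)]
    have h1 : (deriv chi (u z)) ^ 2 * grad2 u z w = h z * (ε * (σ z * grad2 u z w)) := by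
      rw [hh]
      have := (hσpos z).ne'
      field_simp
    rw [h1]
    refine mul_le_mul_of_nonneg_left ?_ (hh0 z hz)
    have := hlev z hz w
    have h2 : 0 ≤ ∑ i, ‖w i‖ ^ 2 := Finset.sum_nonneg fun i _ => by positivity
    linarith
  -- pointwise estimate of the right hand side
  have hqK : ∀ z ∈ D, q z ≤ K := by
    intro z hz
    have hz' : ‖z‖ < r := by simpa [hD] using hz
    calc q z ≤ ∑ _i : Fin N, r ^ 2 := Finset.sum_le_sum fun i _ =>
          pow_le_pow_left₀ (norm_nonneg _) ((norm_le_pi_norm z i).trans hz'.le) 2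
      _ = K := by simp [hK]
  have hq0 : ∀ z, 0 ≤ q z := fun z => Finset.sum_nonneg fun i _ => by positivity
  have hrhs : ∀ z ∈ D, h z * Real.exp (-Φ z) ≤ C1 * Real.exp (-(ρ z) - max (a z) (b z)) := by
    intro z hz
    by_cases hu1 : 1 < |u z|
    · have : h z = 0 := by rw [hh]; simp [chi_deriv_zero hu1]
      rw [this, zero_mul]
      positivity
    · have hu1' : |a z - b z| ≤ 1 := not_lt.1 hu1
      have hab := abs_le.1 hu1'
      -- bound of `1/σ`
      have hσb : 1 / (1 + Real.exp 1) ^ 2 ≤ σ z := by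
        have e1 : Real.exp (a z) ≤ Real.exp 1 * Real.exp (b z) := by
          rw [← Real.exp_add]; exact Real.exp_le_exp.2 (by linarith)
        have e2 : Real.exp (b z) ≤ Real.exp 1 * Real.exp (a z) := by
          rw [← Real.exp_add]; exact Real.exp_le_exp.2 (by linarith)
        have e3 : 1 / (1 + Real.exp 1) ≤ Real.exp (a z) / (Real.exp (a z) + Real.exp (b z)) := by
          rw [div_le_div_iff₀ (by positivity) (by positivity)]
          nlinarith
        have e4 : 1 / (1 + Real.exp 1) ≤ Real.exp (b z) / (Real.exp (a z) + Real.exp (b z)) := by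
          rw [div_le_div_iff₀ (by positivity) (by positivity)]
          nlinarith
        calc 1 / (1 + Real.exp 1) ^ 2 = 1 / (1 + Real.exp 1) * (1 / (1 + Real.exp 1)) := by
              field_simp
          _ ≤ σ z := mul_le_mul e3 e4 (by positivity) (by positivity)
      have hhb : h z ≤ M ^ 2 * (1 + Real.exp 1) ^ 2 / ε := by
        rw [hh]
        have e1 : (deriv chi (u z)) ^ 2 ≤ M ^ 2 := by
          rw [← sq_abs]; exact pow_le_pow_left₀ (abs_nonneg _) (hM _) 2
        rw [div_le_div_iff₀ (mul_pos hε (hσpos z)) hε]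
        have e2 : 1 ≤ (1 + Real.exp 1) ^ 2 * σ z := by
          rw [div_le_iff₀ (by positivity)] at hσb
          linarith
        calc (deriv chi (u z)) ^ 2 * ε ≤ M ^ 2 * ε := by gcongr
          _ = M ^ 2 * ε * 1 := by ring
          _ ≤ M ^ 2 * ε * ((1 + Real.exp 1) ^ 2 * σ z) := by gcongr
          _ = _ := by ring
      have hΦb : -Φ z ≤ (1 + K) + (-(ρ z) - max (a z) (b z)) := by
        have e1 : max (a z) (b z) ≤ ℓ z := by
          rw [hℓ]
          refine max_le ?_ ?_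
          · rw [Real.le_log_iff_exp_le (by positivity)]
            linarith [Real.exp_pos (b z)]
          · rw [Real.le_log_iff_exp_le (by positivity)]
            linarith [Real.exp_pos (a z)]
        have e2 : max (a z) (b z) - 1 ≤ s * a z + (1 - s) * b z := by
          rcases le_total (a z) (b z) with hle | hle
          · rw [max_eq_right hle]; nlinarith
          · rw [max_eq_left hle]; nlinarith
        have e3 := hρ0 z hz
        have e4 := hq0 z
        have e5 : (1 - ε) * (max (a z) (b z) - 1) ≤ (1 - ε) * (s * a z + (1 - s) * b z) :=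
          mul_le_mul_of_nonneg_left e2 (by linarith)
        have e6 := mul_le_mul_of_nonneg_left e1 hε.le
        have e7 : ρ z ≤ (1 - ε) * ρ z := by nlinarith
        simp only [hΦ]
        nlinarith
      calc h z * Real.exp (-Φ z) ≤ M ^ 2 * (1 + Real.exp 1) ^ 2 / ε *
            Real.exp ((1 + K) + (-(ρ z) - max (a z) (b z))) :=
            mul_le_mul hhb (Real.exp_le_exp.2 hΦb) (Real.exp_pos _).le (by positivity)
        _ = C1 * Real.exp (-(ρ z) - max (a z) (b z)) := by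
            rw [Real.exp_add, hC1]; ring
  have hI : ∫⁻ z in D, ENNReal.ofReal (h z * Real.exp (-Φ z)) ≤
      ENNReal.ofReal C1 * ∫⁻ z in D, ENNReal.ofReal (Real.exp (-(ρ z) - max (a z) (b z))) := by
    rw [← lintegral_const_mul' _ _ ENNReal.ofReal_ne_top]
    refine setLIntegral_mono' measurableSet_ball fun z hz => ?_
    rw [← ENNReal.ofReal_mul hC10]
    exact ENNReal.ofReal_le_ofReal (hrhs z hz)
  have hfin : ∫⁻ z in D, ENNReal.ofReal (h z * Real.exp (-Φ z)) < ⊤ :=
    lt_of_le_of_lt hI (ENNReal.mul_lt_top ENNReal.ofReal_lt_top hint)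
  obtain ⟨f, hf, hf2⟩ := hsol Φ G h hPΦ.smooth hpos hGs hhc hh0 hdb hfin
  refine ⟨f, hf, ?_⟩
  calc _ ≤ ∫⁻ z in D, ENNReal.ofReal (‖G z - f z‖ ^ 2 * Real.exp (-Φ z)) := by
        refine setLIntegral_mono' measurableSet_ball fun z hz => ENNReal.ofReal_le_ofReal ?_
        refine mul_le_mul_of_nonneg_left (Real.exp_le_exp.2 ?_) (by positivity)
        have e1 : ℓ z ≤ 0 := by
          rw [hℓ]
          refine Real.log_nonpos (by positivity) ?_
          have h1 : Real.exp (a z) ≤ 1 / 2 := by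
            calc Real.exp (a z) ≤ Real.exp (-Real.log 2) := Real.exp_le_exp.2 (ha0 z hz)
              _ = 1 / 2 := by rw [Real.exp_neg, Real.exp_log (by norm_num)]; norm_num
          have h2 : Real.exp (b z) ≤ 1 / 2 := by
            calc Real.exp (b z) ≤ Real.exp (-Real.log 2) := Real.exp_le_exp.2 (hb0 z hz)
              _ = 1 / 2 := by rw [Real.exp_neg, Real.exp_log (by norm_num)]; norm_num
          linarith
        have e2 := hqK z hz
        have e3 : ε * ℓ z ≤ 0 := mul_nonpos_of_nonneg_of_nonpos hε.le e1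
        simp only [hΦ]
        linarith
    _ ≤ 2 * ∫⁻ z in D, ENNReal.ofReal (h z * Real.exp (-Φ z)) := hf2
    _ ≤ 2 * (ENNReal.ofReal C1 *
        ∫⁻ z in D, ENNReal.ofReal (Real.exp (-(ρ z) - max (a z) (b z)))) := by gcongr
    _ = _ := by
        rw [ENNReal.ofReal_mul (by norm_num : (0 : ℝ) ≤ 2), ENNReal.ofReal_ofNat, mul_assoc]

end Crest.Agent.R271.Sum186
end
end

-- ▼ part R271/Sum5_186
section

/-!
Row 271 (S0413), local theory: the dichotomy in the Sum Theorem (Blueprint_710, 2.3).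
-/

open MeasureTheory Set Filter Topology Metric
open scoped ContDiff ENNReal Real

noncomputable section

namespace Crest.Agent.R271.Sum186

variable {N : ℕ}

/-- `W R A B ε s z = (R A^s B^{1-s})^{-(1-ε)}` -/
def W (R A B : CN N → ℝ) (ε s : ℝ) (z : CN N) : ℝ≥0∞ :=
  (ENNReal.ofReal ((R z * (A z ^ s * B z ^ (1 - s))) ^ (1 - ε)))⁻¹

/-- `(R max(A,B))^{-1}` -/
def W1 (R A B : CN N → ℝ) (z : CN N) : ℝ≥0∞ :=
  (ENNReal.ofReal (R z * max (A z) (B z)))⁻¹

lemma ofReal_exp_neg (x : ℝ) : ENNReal.ofReal (Real.exp (-x)) = (ENNReal.ofReal (Real.exp x))⁻¹ := by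
  rw [Real.exp_neg, ENNReal.ofReal_inv_of_pos (Real.exp_pos x)]

/-- normalised data: the sequences defining `LogPsh`, bounded above -/
structure Data (D : Set (CN N)) (R : CN N → ℝ) (M : ℝ) where
  φ : ℕ → CN N → ℝ
  psm : ∀ k, Psm D (φ k)
  anti : ∀ z ∈ D, Antitone fun k => φ k z
  lim : ∀ z ∈ D, Tendsto (fun k => Real.exp (φ k z)) atTop (𝓝 (R z))
  le : ∀ k, ∀ z ∈ D, φ k z ≤ M

lemma Data.le_exp {D : Set (CN N)} {R : CN N → ℝ} {M : ℝ} (d : Data D R M) {z : CN N} (hz : z ∈ D)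
    (k : ℕ) : R z ≤ Real.exp (d.φ k z) := by
  have : Antitone fun k => Real.exp (d.φ k z) := fun i j hij => Real.exp_le_exp.2 (d.anti z hz hij)
  exact this.le_of_tendsto (d.lim z hz) k

lemma Data.nonneg {D : Set (CN N)} {R : CN N → ℝ} {M : ℝ} (d : Data D R M) {z : CN N} (hz : z ∈ D) :
    0 ≤ R z := ge_of_tendsto' (d.lim z hz) fun k => (Real.exp_pos _).le

lemma Data.le_one {D : Set (CN N)} {R : CN N → ℝ} {M : ℝ} (d : Data D R M) {z : CN N} (hz : z ∈ D) :
    R z ≤ Real.exp M := (d.le_exp hz 0).trans (Real.exp_le_exp.2 (d.le 0 z hz))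

lemma Data.aemeas {r : ℝ} {R : CN N → ℝ} {M : ℝ} (d : Data (ball 0 r) R M) :
    AEMeasurable R (volume.restrict (ball 0 r)) := by
  refine aemeasurable_of_tendsto_metrizable_ae (u := atTop)
    (f := fun k z => Real.exp (d.φ k z)) (fun k => ?_) ?_
  · exact ((d.psm k).smooth.continuousOn.rexp).aemeasurable measurableSet_ball
  · exact (ae_restrict_iff' measurableSet_ball).2 (Eventually.of_forall fun z hz => d.lim z hz)

/-- the dichotomy, uniform in `s` -/
theorem dichotomy {r : ℝ} (hr : 0 < r) (hsol : Solver N (ball 0 r)) {ε : ℝ} (hε : 0 < ε)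
    (hε1 : ε < 1) {R A B : CN N → ℝ} (dR : Data (ball 0 r) R 0)
    (dA : Data (ball 0 r) A (-Real.log 2)) (dB : Data (ball 0 r) B (-Real.log 2))
    (hint : ∫⁻ z in ball 0 r, W1 R A B z < ⊤) :
    ∃ r' : ℝ, 0 < r' ∧ r' ≤ r ∧ ∀ s : ℝ, 0 ≤ s → s ≤ 1 →
      (∫⁻ z in ball 0 r', (if Real.exp 1 * A z < B z then W R A B ε s z else 0) < ⊤) ∨
      (∫⁻ z in ball 0 r', (if Real.exp 1 * B z < A z then W R A B ε s z else 0) < ⊤) := by
  classical
  obtain ⟨C, hC0, hC⟩ := core_step hsol hε hε1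
  set I : ℝ≥0∞ := ∫⁻ z in ball 0 r, W1 R A B z with hI
  set K : ℝ≥0∞ := ENNReal.ofReal C * I with hK
  have hKfin : K < ⊤ := ENNReal.mul_lt_top ENNReal.ofReal_lt_top hint
  set K' : ℝ≥0∞ := 2 * K + 2 * volume (ball (0 : CN N) r) with hK'
  have hK'fin : K' ≠ ⊤ := by
    rw [hK']
    exact ENNReal.add_ne_top.2 ⟨ENNReal.mul_ne_top (by norm_num) hKfin.ne,
      ENNReal.mul_ne_top (by norm_num) measure_ball_lt_top.ne⟩
  obtain ⟨r', hr'0, hr'r, hequi⟩ := equicont (N := N) (C := K'.toReal) hr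
    (show (0 : ℝ) < 1 / 4 by norm_num)
  refine ⟨r', hr'0, hr'r, fun s hs0 hs1 => ?_⟩
  -- bound of the right hand side, uniform in `k`
  have hexp : ∀ k, ∀ z ∈ ball (0 : CN N) r,
      ENNReal.ofReal (Real.exp (-(dR.φ k z) - max (dA.φ k z) (dB.φ k z))) ≤ W1 R A B z := by
    intro k z hz
    have e1 : -(dR.φ k z) - max (dA.φ k z) (dB.φ k z) =
        -(dR.φ k z + max (dA.φ k z) (dB.φ k z)) := by ring
    rw [e1, ofReal_exp_neg, W1]
    apply ENNReal.inv_le_inv.2
    apply ENNReal.ofReal_le_ofReal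
    rw [Real.exp_add]
    refine mul_le_mul (dR.le_exp hz k) ?_ (le_max_of_le_left (dA.nonneg hz)) (Real.exp_pos _).le
    refine max_le ((dA.le_exp hz k).trans (Real.exp_le_exp.2 (le_max_left _ _)))
      ((dB.le_exp hz k).trans (Real.exp_le_exp.2 (le_max_right _ _)))
  have hIk : ∀ k, ∫⁻ z in ball (0 : CN N) r,
      ENNReal.ofReal (Real.exp (-(dR.φ k z) - max (dA.φ k z) (dB.φ k z))) ≤ I := fun k =>
    setLIntegral_mono' measurableSet_ball (hexp k)
  choose f hf hf2 using fun k => hC (dR.φ k) (dA.φ k) (dB.φ k) (dR.psm k) (dA.psm k) (dB.psm k)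
    (dR.le k) (dA.le k) (dB.le k) (lt_of_le_of_lt (hIk k) hint) s hs0 hs1
  have hlog2 : 0 < Real.log 2 := Real.log_pos (by norm_num)
  -- weights
  set x : ℕ → CN N → ℝ := fun k z =>
    (1 - ε) * (dR.φ k z + (s * dA.φ k z + (1 - s) * dB.φ k z)) with hx
  have hx0 : ∀ k, ∀ z ∈ ball (0 : CN N) r, x k z ≤ 0 := by
    intro k z hz
    have h1 := dR.le k z hz
    have h2 := dA.le k z hz
    have h3 := dB.le k z hz
    have h4 : s * dA.φ k z ≤ 0 := mul_nonpos_of_nonneg_of_nonpos hs0 (by linarith)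
    have h5 : (1 - s) * dB.φ k z ≤ 0 :=
      mul_nonpos_of_nonneg_of_nonpos (by linarith) (by linarith)
    exact mul_nonpos_of_nonneg_of_nonpos (by linarith) (by linarith)
  have hFk : ∀ k, ∫⁻ z in ball 0 r, ENNReal.ofReal
      (‖(chi (dA.φ k z - dB.φ k z) : ℂ) - f k z‖ ^ 2 * Real.exp (-(x k z))) ≤ K := fun k =>
    (hf2 k).trans (by rw [hK]; gcongr; exact hIk k)
  -- `L²` bound of `f k`
  have hfL2 : ∀ k, ∫⁻ z in ball (0 : CN N) r, ENNReal.ofReal (‖f k z‖ ^ 2) ≤
      ENNReal.ofReal K'.toReal := by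
    intro k
    rw [ENNReal.ofReal_toReal hK'fin]
    have hac : ContinuousOn (fun z => dA.φ k z - dB.φ k z) (ball 0 r) :=
      (dA.psm k).smooth.continuousOn.sub (dB.psm k).smooth.continuousOn
    calc ∫⁻ z in ball (0 : CN N) r, ENNReal.ofReal (‖f k z‖ ^ 2)
        ≤ ∫⁻ z in ball (0 : CN N) r, (2 * ENNReal.ofReal
          (‖(chi (dA.φ k z - dB.φ k z) : ℂ) - f k z‖ ^ 2 * Real.exp (-(x k z))) + 2) := by
          refine setLIntegral_mono' measurableSet_ball fun z hz => ?_
          set c : ℂ := (chi (dA.φ k z - dB.φ k z) : ℂ) with hc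
          have hc1 : ‖c‖ ≤ 1 := by
            rw [hc, Complex.norm_real, Real.norm_of_nonneg (chi_nonneg _)]
            exact chi_le_one _
          have h1 : ‖f k z‖ ^ 2 ≤ 2 * (‖c - f k z‖ ^ 2 * Real.exp (-(x k z))) + 2 := by
            have h2 : ‖f k z‖ ≤ ‖c - f k z‖ + ‖c‖ := by
              have := norm_sub_le c (c - f k z)
              rw [sub_sub_cancel] at this
              linarith
            have h3 : 1 ≤ Real.exp (-(x k z)) := Real.one_le_exp (by linarith [hx0 k z hz])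
            have h4 : ‖c - f k z‖ ^ 2 ≤ ‖c - f k z‖ ^ 2 * Real.exp (-(x k z)) :=
              le_mul_of_one_le_right (by positivity) h3
            nlinarith [norm_nonneg (f k z), norm_nonneg (c - f k z), norm_nonneg c,
              sq_nonneg (‖c - f k z‖ - ‖c‖)]
          calc ENNReal.ofReal (‖f k z‖ ^ 2) ≤
                ENNReal.ofReal (2 * (‖c - f k z‖ ^ 2 * Real.exp (-(x k z))) + 2) :=
                ENNReal.ofReal_le_ofReal h1
            _ = _ := by
                rw [ENNReal.ofReal_add (by positivity) (by norm_num),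
                  ENNReal.ofReal_mul (by norm_num : (0 : ℝ) ≤ 2), ENNReal.ofReal_ofNat]
      _ = 2 * (∫⁻ z in ball (0 : CN N) r, ENNReal.ofReal
          (‖(chi (dA.φ k z - dB.φ k z) : ℂ) - f k z‖ ^ 2 * Real.exp (-(x k z)))) +
          2 * volume (ball (0 : CN N) r) := by
          rw [lintegral_add_right _ measurable_const, lintegral_const_mul' _ _ (by norm_num),
            setLIntegral_const]
      _ ≤ K' := by rw [hK']; gcongr; exact hFk k
  have hnear : ∀ k, ∀ z ∈ ball (0 : CN N) r', ‖f k z - f k 0‖ ≤ 1 / 4 := fun k =>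
    hequi (f k) (hf k) (hfL2 k)
  have hsub : ball (0 : CN N) r' ⊆ ball 0 r := ball_subset_ball hr'r
  -- measurability
  have hmeas : ∀ k, AEMeasurable (fun z => ENNReal.ofReal
      (‖(chi (dA.φ k z - dB.φ k z) : ℂ) - f k z‖ ^ 2 * Real.exp (-(x k z))))
      (volume.restrict (ball 0 r')) := by
    intro k
    have hac : ContinuousOn (fun z => dA.φ k z - dB.φ k z) (ball 0 r) :=
      (dA.psm k).smooth.continuousOn.sub (dB.psm k).smooth.continuousOn
    have h1 : ContinuousOn (fun z => (chi (dA.φ k z - dB.φ k z) : ℂ)) (ball 0 r) :=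
      (Complex.continuous_ofReal.comp chi_smooth.continuous).comp_continuousOn hac
    have h2 : ContinuousOn (x k) (ball 0 r) := by
      rw [hx]
      exact continuousOn_const.mul ((dR.psm k).smooth.continuousOn.add
        ((continuousOn_const.mul (dA.psm k).smooth.continuousOn).add
          (continuousOn_const.mul (dB.psm k).smooth.continuousOn)))
    have h3 : ContinuousOn (fun z => ‖(chi (dA.φ k z - dB.φ k z) : ℂ) - f k z‖ ^ 2 *
        Real.exp (-(x k z))) (ball 0 r) :=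
      (((h1.sub (hf k).continuousOn).norm.pow 2).mul (h2.neg.rexp))
    exact ((ENNReal.continuous_ofReal.comp_continuousOn h3).mono hsub).aemeasurable
      measurableSet_ball
  -- convergence of the weights
  have hwlim : ∀ z ∈ ball (0 : CN N) r, Tendsto (fun k => ENNReal.ofReal (Real.exp (-(x k z))))
      atTop (𝓝 (W R A B ε s z)) := by
    intro z hz
    have h1 : ∀ k, Real.exp (x k z) = (Real.exp (dR.φ k z) *
        (Real.exp (dA.φ k z) ^ s * Real.exp (dB.φ k z) ^ (1 - s))) ^ (1 - ε) := by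
      intro k
      rw [← Real.exp_mul, ← Real.exp_mul, ← Real.exp_add, ← Real.exp_add, ← Real.exp_mul]
      congr 1
      simp only [hx]
      ring
    simp only [ofReal_exp_neg, h1, W]
    refine (continuous_inv.tendsto (ENNReal.ofReal _)).comp ?_
    refine (ENNReal.continuous_ofReal.tendsto _).comp ?_
    have h2 : Tendsto (fun k => Real.exp (dA.φ k z) ^ s) atTop (𝓝 (A z ^ s)) :=
      (dA.lim z hz).rpow_const (Or.inr hs0)
    have h3 : Tendsto (fun k => Real.exp (dB.φ k z) ^ (1 - s)) atTop (𝓝 (B z ^ (1 - s))) :=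
      (dB.lim z hz).rpow_const (Or.inr (by linarith))
    exact ((dR.lim z hz).mul (h2.mul h3)).rpow_const (Or.inr (by linarith))
  -- the Fatou step
  have fatou : ∀ (E : CN N → Prop) [DecidablePred E] (n : ℕ → ℕ), StrictMono n →
      (∀ z ∈ ball (0 : CN N) r', E z → ∀ᶠ j in atTop,
        1 / 4 ≤ ‖(chi (dA.φ (n j) z - dB.φ (n j) z) : ℂ) - f (n j) z‖) →
      ∫⁻ z in ball 0 r', (if E z then W R A B ε s z else 0) < ⊤ := by
    intro E _ n hn hE
    have h1 : ∫⁻ z in ball 0 r', (if E z then W R A B ε s z else 0) ≤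
        ENNReal.ofReal 16 * K := by
      calc ∫⁻ z in ball 0 r', (if E z then W R A B ε s z else 0)
          ≤ ∫⁻ z in ball 0 r', ENNReal.ofReal 16 * liminf (fun j => ENNReal.ofReal
            (‖(chi (dA.φ (n j) z - dB.φ (n j) z) : ℂ) - f (n j) z‖ ^ 2 *
              Real.exp (-(x (n j) z)))) atTop := by
            refine setLIntegral_mono' measurableSet_ball fun z hz => ?_
            split_ifs with hEz
            · have h2 := (hwlim z (hsub hz)).comp hn.tendsto_atTop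
              have h3 : Tendsto (fun j => ENNReal.ofReal (1 / 16) *
                  ENNReal.ofReal (Real.exp (-(x (n j) z)))) atTop
                  (𝓝 (ENNReal.ofReal (1 / 16) * W R A B ε s z)) :=
                ENNReal.Tendsto.const_mul h2 (Or.inr ENNReal.ofReal_ne_top)
              have h4 : ENNReal.ofReal (1 / 16) * W R A B ε s z ≤ liminf (fun j => ENNReal.ofReal
                  (‖(chi (dA.φ (n j) z - dB.φ (n j) z) : ℂ) - f (n j) z‖ ^ 2 *
                    Real.exp (-(x (n j) z)))) atTop := by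
                rw [← h3.liminf_eq]
                refine liminf_le_liminf ?_
                filter_upwards [hE z hz hEz] with j hj
                rw [← ENNReal.ofReal_mul (by norm_num)]
                apply ENNReal.ofReal_le_ofReal
                refine mul_le_mul_of_nonneg_right ?_ (Real.exp_pos _).le
                calc (1 / 16 : ℝ) = (1 / 4) ^ 2 := by norm_num
                  _ ≤ _ := pow_le_pow_left₀ (by norm_num) hj 2
              calc W R A B ε s z = ENNReal.ofReal 16 * (ENNReal.ofReal (1 / 16) *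
                    W R A B ε s z) := by
                    rw [← mul_assoc, ← ENNReal.ofReal_mul (by norm_num)]
                    norm_num
                _ ≤ _ := by gcongr
            · exact zero_le
        _ = ENNReal.ofReal 16 * ∫⁻ z in ball 0 r', liminf (fun j => ENNReal.ofReal
            (‖(chi (dA.φ (n j) z - dB.φ (n j) z) : ℂ) - f (n j) z‖ ^ 2 *
              Real.exp (-(x (n j) z)))) atTop :=
            lintegral_const_mul' _ _ ENNReal.ofReal_ne_top
        _ ≤ ENNReal.ofReal 16 * liminf (fun j => ∫⁻ z in ball 0 r', ENNReal.ofReal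
            (‖(chi (dA.φ (n j) z - dB.φ (n j) z) : ℂ) - f (n j) z‖ ^ 2 *
              Real.exp (-(x (n j) z)))) atTop := by
            gcongr
            exact lintegral_liminf_le' fun j => hmeas (n j)
        _ ≤ ENNReal.ofReal 16 * K := by
            gcongr
            refine (liminf_le_liminf (v := fun _ => K) (Eventually.of_forall fun j => ?_)).trans
              (by simp)
            exact (lintegral_mono_set hsub).trans (hFk (n j))
    exact lt_of_le_of_lt h1 (ENNReal.mul_lt_top ENNReal.ofReal_lt_top hKfin)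
  by_cases hfreq : ∃ᶠ k in atTop, 1 / 2 ≤ ‖f k 0‖
  · left
    obtain ⟨n, hn, hn2⟩ := extraction_of_frequently_atTop hfreq
    refine fatou _ n hn fun z hz hEz => ?_
    have hAlim := (dA.lim z (hsub hz)).comp hn.tendsto_atTop
    have hBlim := (dB.lim z (hsub hz)).comp hn.tendsto_atTop
    have := (hAlim.const_mul (Real.exp 1)).eventually_lt hBlim hEz
    filter_upwards [this] with j hj
    have h1 : dA.φ (n j) z - dB.φ (n j) z ≤ -1 := by
      simp only [Function.comp_apply, ← Real.exp_add] at hj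
      have := Real.exp_lt_exp.1 hj
      linarith
    rw [chi_zero h1]
    simp only [Complex.ofReal_zero, zero_sub, norm_neg]
    have h2 := hnear (n j) z hz
    have h3 := hn2 j
    have h4 := norm_sub_norm_le (f (n j) 0) (f (n j) z)
    rw [norm_sub_rev] at h4
    linarith
  · right
    rw [not_frequently] at hfreq
    obtain ⟨k0, hk0⟩ := eventually_atTop.1 hfreq
    refine fatou _ (fun j => j + k0) (fun i j hij => by simpa using hij) fun z hz hEz => ?_
    have hAlim := (dA.lim z (hsub hz)).comp (tendsto_add_atTop_nat k0)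
    have hBlim := (dB.lim z (hsub hz)).comp (tendsto_add_atTop_nat k0)
    have := (hBlim.const_mul (Real.exp 1)).eventually_lt hAlim hEz
    filter_upwards [this] with j hj
    have h1 : 1 ≤ dA.φ (j + k0) z - dB.φ (j + k0) z := by
      simp only [Function.comp_apply, ← Real.exp_add] at hj
      have := Real.exp_lt_exp.1 hj
      linarith
    rw [chi_one h1]
    have h2 := hnear (j + k0) z hz
    have h3 := hk0 (j + k0) (by omega)
    have h4 : ‖(1 : ℂ)‖ ≤ ‖((1 : ℝ) : ℂ) - f (j + k0) z‖ + ‖f (j + k0) z - f (j + k0) 0‖ +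
        ‖f (j + k0) 0‖ := by
      have := norm_add₃_le (a := ((1 : ℝ) : ℂ) - f (j + k0) z)
        (b := f (j + k0) z - f (j + k0) 0) (c := f (j + k0) 0)
      simpa using this
    rw [norm_one] at h4
    linarith

end Crest.Agent.R271.Sum186
end
end

-- ▼ part R271/Sum6_186
section

/-!
Row 271 (S0413), local theory: the Sum Theorem for two functions (Blueprint_710, 2.3).
-/

open MeasureTheory Set Filter Topology Metric
open scoped ContDiff ENNReal Real

noncomputable section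

namespace Crest.Agent.R271.Sum186

variable {N : ℕ}

/-- real inequality used on `{e A < B}` -/
lemma cmp_left {R A B ε s s1 : ℝ} (hR0 : 0 ≤ R) (hR1 : R ≤ 1) (hA : 0 ≤ A) (hAB : A ≤ B)
    (hB : 0 < B) (hB1 : B ≤ 1) (hε : 0 < ε) (hε2 : ε < 1 / 2) (hs0 : 0 ≤ s)
    (hs : s * (1 - 2 * ε) ≤ s1 * (1 - ε)) :
    (R * (A ^ s1 * B ^ (1 - s1))) ^ (1 - ε) ≤ (R * (A ^ s * B ^ (1 - s))) ^ (1 - 2 * ε) := by
  set y : ℝ := A / B with hy
  have hy0 : 0 ≤ y := div_nonneg hA hB.le
  have hy1 : y ≤ 1 := (div_le_one hB).2 hAB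
  have key : ∀ t : ℝ, R * (A ^ t * B ^ (1 - t)) = (R * B) * y ^ t := by
    intro t
    rw [hy, Real.div_rpow hA hB.le, Real.rpow_sub hB, Real.rpow_one]
    have : B ^ t ≠ 0 := (Real.rpow_pos_of_pos hB t).ne'
    field_simp
  have hx0 : 0 ≤ R * B := mul_nonneg hR0 hB.le
  have hx1 : R * B ≤ 1 := mul_le_one₀ hR1 hB.le hB1
  have hs1 : 0 ≤ s1 := by
    have : 0 ≤ s1 * (1 - ε) := le_trans (mul_nonneg hs0 (by linarith)) hs
    by_contra hcon
    push Not at hcon
    nlinarith
  rw [key s1, key s, Real.mul_rpow hx0 (Real.rpow_nonneg hy0 _),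
    Real.mul_rpow hx0 (Real.rpow_nonneg hy0 _), ← Real.rpow_mul hy0, ← Real.rpow_mul hy0]
  refine mul_le_mul ?_ ?_ (Real.rpow_nonneg hy0 _) (Real.rpow_nonneg hx0 _)
  · exact Real.rpow_le_rpow_of_exponent_ge' hx0 hx1 (by linarith) (by linarith)
  · exact Real.rpow_le_rpow_of_exponent_ge' hy0 hy1 (mul_nonneg hs0 (by linarith)) hs

/-- real inequality used in the middle region -/
lemma cmp_mid {R A B ε s : ℝ} (hR0 : 0 ≤ R) (hR1 : R ≤ 1) (hA : 0 ≤ A) (hB : 0 ≤ B)
    (hA1 : A ≤ 1)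
    (h1 : B ≤ Real.exp 1 * A) (h2 : A ≤ Real.exp 1 * B) (hε : 0 < ε) (hε2 : ε < 1)
    (hs0 : 0 ≤ s) (hs1 : s ≤ 1) :
    (Real.exp 1)⁻¹ * (R * max A B) ≤ (R * (A ^ s * B ^ (1 - s))) ^ (1 - ε) := by
  have he : 0 < Real.exp 1 := Real.exp_pos 1
  have he1 : (1 : ℝ) ≤ Real.exp 1 := Real.one_le_exp (by norm_num)
  set m : ℝ := max A B / Real.exp 1 with hm
  have hm0 : 0 ≤ m := div_nonneg (le_max_of_le_left hA) he.le
  have hmA : m ≤ A := by
    rw [hm, div_le_iff₀ he]
    exact max_le (by nlinarith) (by linarith)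
  have hmB : m ≤ B := by
    rw [hm, div_le_iff₀ he]
    exact max_le (by linarith) (by nlinarith)
  have h3 : m ≤ A ^ s * B ^ (1 - s) := by
    calc m = m ^ s * m ^ (1 - s) := by
          rw [← Real.rpow_add_of_nonneg hm0 hs0 (by linarith)]
          simp
      _ ≤ _ := mul_le_mul (Real.rpow_le_rpow hm0 hmA hs0)
          (Real.rpow_le_rpow hm0 hmB (by linarith)) (Real.rpow_nonneg hm0 _)
          (Real.rpow_nonneg hA _)
  have h4 : R * m ≤ R * (A ^ s * B ^ (1 - s)) := mul_le_mul_of_nonneg_left h3 hR0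
  have hRm0 : 0 ≤ R * m := mul_nonneg hR0 hm0
  have hRm1 : R * m ≤ 1 := mul_le_one₀ hR1 hm0 (hmA.trans hA1)
  calc (Real.exp 1)⁻¹ * (R * max A B) = R * m := by rw [hm]; field_simp
    _ = (R * m) ^ (1 : ℝ) := (Real.rpow_one _).symm
    _ ≤ (R * m) ^ (1 - ε) := Real.rpow_le_rpow_of_exponent_ge' hRm0 hRm1 (by linarith) (by linarith)
    _ ≤ _ := Real.rpow_le_rpow hRm0 h4 (by linarith)

lemma W_swap (R A B : CN N → ℝ) (ε s : ℝ) (z : CN N) :
    W R A B ε s z = W R B A ε (1 - s) z := by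
  unfold W
  rw [sub_sub_cancel, mul_comm (A z ^ s)]

lemma aemeas_ite {r : ℝ} {R A B : CN N → ℝ} {MR MA MB : ℝ} (dR : Data (ball 0 r) R MR)
    (dA : Data (ball 0 r) A MA) (dB : Data (ball 0 r) B MB) (ε s : ℝ) {r' : ℝ} (hr' : r' ≤ r) :
    AEMeasurable (fun z => if Real.exp 1 * A z < B z then W R A B ε s z else 0)
      (volume.restrict (ball 0 r')) := by
  have h1 : AEMeasurable (fun z => (R z, A z, B z)) (volume.restrict (ball 0 r')) :=
    ((dR.aemeas.prodMk (dA.aemeas.prodMk dB.aemeas))).mono_set (ball_subset_ball hr')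
  have h2 : Measurable (fun p : ℝ × ℝ × ℝ => if Real.exp 1 * p.2.1 < p.2.2 then
      (ENNReal.ofReal ((p.1 * (p.2.1 ^ s * p.2.2 ^ (1 - s))) ^ (1 - ε)))⁻¹ else 0) := by
    refine Measurable.ite (measurableSet_lt ?_ ?_) ?_ measurable_const
    · fun_prop
    · fun_prop
    · fun_prop
  exact h2.comp_aemeasurable h1

/-- normalised Sum Theorem for two functions -/
theorem sum_norm {r : ℝ} (hr : 0 < r) (hsol : Solver N (ball 0 r)) {ε : ℝ} (hε : 0 < ε)
    (hε1 : ε < 1 / 2) {R A B : CN N → ℝ} (dR : Data (ball 0 r) R 0)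
    (dA : Data (ball 0 r) A (-Real.log 2)) (dB : Data (ball 0 r) B (-Real.log 2))
    (hint : ∫⁻ z in ball 0 r, W1 R A B z < ⊤) :
    ∃ s : ℝ, 0 ≤ s ∧ s ≤ 1 ∧ ∃ r' : ℝ, 0 < r' ∧ r' ≤ r ∧
      ∫⁻ z in ball 0 r', W R A B (2 * ε) s z < ⊤ := by
  classical
  obtain ⟨r', hr'0, hr'r, hdi⟩ := dichotomy hr hsol hε (by linarith) dR dA dB hint
  have hsub : ball (0 : CN N) r' ⊆ ball 0 r := ball_subset_ball hr'r
  have hlog2 : 0 < Real.log 2 := Real.log_pos (by norm_num)
  have hem : Real.exp (-Real.log 2) ≤ 1 := by rw [Real.exp_le_one_iff]; linarith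
  set P : ℝ → Prop := fun s =>
    ∫⁻ z in ball 0 r', (if Real.exp 1 * A z < B z then W R A B ε s z else 0) < ⊤ with hP
  set Q : ℝ → Prop := fun s =>
    ∫⁻ z in ball 0 r', (if Real.exp 1 * B z < A z then W R A B ε s z else 0) < ⊤ with hQ
  have hR0 : ∀ z ∈ ball (0 : CN N) r, 0 ≤ R z := fun z hz => dR.nonneg hz
  have hA0 : ∀ z ∈ ball (0 : CN N) r, 0 ≤ A z := fun z hz => dA.nonneg hz
  have hB0 : ∀ z ∈ ball (0 : CN N) r, 0 ≤ B z := fun z hz => dB.nonneg hz
  have hR1 : ∀ z ∈ ball (0 : CN N) r, R z ≤ 1 := fun z hz => by simpa using dR.le_one hz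
  have hA1 : ∀ z ∈ ball (0 : CN N) r, A z ≤ 1 := fun z hz => (dA.le_one hz).trans hem
  have hB1 : ∀ z ∈ ball (0 : CN N) r, B z ≤ 1 := fun z hz => (dB.le_one hz).trans hem
  have he : 0 < Real.exp 1 := Real.exp_pos 1
  have he1 : (1 : ℝ) ≤ Real.exp 1 := Real.one_le_exp (by norm_num)
  -- end points
  have hP0 : P 0 := by
    refine lt_of_le_of_lt ?_ (lt_of_le_of_lt (lintegral_mono_set hsub) hint)
    refine setLIntegral_mono' measurableSet_ball fun z hz => ?_
    have hz' := hsub hz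
    split_ifs with h
    · have hBpos : 0 < B z := lt_of_le_of_lt (mul_nonneg he.le (hA0 z hz')) h
      have hAB : A z ≤ B z := by nlinarith [hA0 z hz']
      unfold W W1
      apply ENNReal.inv_le_inv.2
      apply ENNReal.ofReal_le_ofReal
      rw [max_eq_right hAB, Real.rpow_zero, one_mul, sub_zero, Real.rpow_one]
      have hx0 : 0 ≤ R z * B z := mul_nonneg (hR0 z hz') hBpos.le
      have hx1 : R z * B z ≤ 1 := mul_le_one₀ (hR1 z hz') hBpos.le (hB1 z hz')
      calc R z * B z = (R z * B z) ^ (1 : ℝ) := (Real.rpow_one _).symm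
        _ ≤ _ := Real.rpow_le_rpow_of_exponent_ge' hx0 hx1 (by linarith) (by linarith)
    · exact zero_le
  have hQ1 : Q 1 := by
    refine lt_of_le_of_lt ?_ (lt_of_le_of_lt (lintegral_mono_set hsub) hint)
    refine setLIntegral_mono' measurableSet_ball fun z hz => ?_
    have hz' := hsub hz
    split_ifs with h
    · have hApos : 0 < A z := lt_of_le_of_lt (mul_nonneg he.le (hB0 z hz')) h
      have hAB : B z ≤ A z := by nlinarith [hB0 z hz']
      unfold W W1
      apply ENNReal.inv_le_inv.2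
      apply ENNReal.ofReal_le_ofReal
      rw [max_eq_left hAB, sub_self, Real.rpow_zero, mul_one, Real.rpow_one]
      have hx0 : 0 ≤ R z * A z := mul_nonneg (hR0 z hz') hApos.le
      have hx1 : R z * A z ≤ 1 := mul_le_one₀ (hR1 z hz') hApos.le (hA1 z hz')
      calc R z * A z = (R z * A z) ^ (1 : ℝ) := (Real.rpow_one _).symm
        _ ≤ _ := Real.rpow_le_rpow_of_exponent_ge' hx0 hx1 (by linarith) (by linarith)
    · exact zero_le
  -- the supremum
  set T : Set ℝ := {s | s ∈ Icc (0 : ℝ) 1 ∧ P s} with hT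
  have h0T : (0 : ℝ) ∈ T := ⟨⟨le_rfl, zero_le_one⟩, hP0⟩
  have hTb : BddAbove T := ⟨1, fun s hs => hs.1.2⟩
  set t : ℝ := sSup T with ht
  have ht0 : 0 ≤ t := le_csSup hTb h0T
  have ht1 : t ≤ 1 := csSup_le ⟨0, h0T⟩ fun s hs => hs.1.2
  set κ : ℝ := (1 - 2 * ε) / (1 - ε) with hκ
  have hκ0 : 0 < κ := div_pos (by linarith) (by linarith)
  have hκ1 : κ < 1 := (div_lt_one (by linarith)).2 (by linarith)
  obtain ⟨s1, hs1T, hs1⟩ : ∃ s1 ∈ T, t * κ ≤ s1 := by
    rcases eq_or_lt_of_le ht0 with h | h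
    · exact ⟨0, h0T, by rw [← h]; simp⟩
    · obtain ⟨s1, hs1, hlt⟩ := exists_lt_of_lt_csSup ⟨0, h0T⟩
        (show t * κ < sSup T by rw [← ht]; nlinarith)
      exact ⟨s1, hs1, hlt.le⟩
  obtain ⟨s2, hs20, hs21, hQ2, hs2⟩ : ∃ s2 : ℝ, 0 ≤ s2 ∧ s2 ≤ 1 ∧ Q s2 ∧
      (1 - t) * κ ≤ 1 - s2 := by
    rcases eq_or_lt_of_le ht1 with h | h
    · exact ⟨1, by norm_num, le_rfl, hQ1, by rw [h]; simp⟩
    · refine ⟨1 - (1 - t) * κ, ?_, ?_, ?_, by linarith⟩
      · nlinarith
      · nlinarith [mul_nonneg (sub_nonneg.2 ht1) hκ0.le]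
      · have hgt : t < 1 - (1 - t) * κ := by nlinarith
        have hnT : 1 - (1 - t) * κ ∉ T := fun hmem => absurd (le_csSup hTb hmem) (not_le.2 hgt)
        have h0' : 0 ≤ 1 - (1 - t) * κ := by linarith
        have h1' : 1 - (1 - t) * κ ≤ 1 := by
          nlinarith [mul_nonneg (sub_nonneg.2 ht1) hκ0.le]
        rcases hdi _ h0' h1' with h2 | h2
        · exact absurd ⟨⟨h0', h1'⟩, h2⟩ hnT
        · exact h2
  refine ⟨t, ht0, ht1, r', hr'0, hr'r, ?_⟩
  have hc1 : t * (1 - 2 * ε) ≤ s1 * (1 - ε) := by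
    have h := mul_le_mul_of_nonneg_right hs1 (show 0 ≤ 1 - ε by linarith)
    have h2 : t * κ * (1 - ε) = t * (1 - 2 * ε) := by
      rw [hκ]; field_simp [show (1 - ε : ℝ) ≠ 0 by linarith]
    linarith
  have hc2 : (1 - t) * (1 - 2 * ε) ≤ (1 - s2) * (1 - ε) := by
    have h := mul_le_mul_of_nonneg_right hs2 (show 0 ≤ 1 - ε by linarith)
    have h2 : (1 - t) * κ * (1 - ε) = (1 - t) * (1 - 2 * ε) := by
      rw [hκ]; field_simp [show (1 - ε : ℝ) ≠ 0 by linarith]
    linarith
  -- pointwise bound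
  have hpt : ∀ z ∈ ball (0 : CN N) r', W R A B (2 * ε) t z ≤
      (if Real.exp 1 * A z < B z then W R A B ε s1 z else 0) +
      ((if Real.exp 1 * B z < A z then W R B A ε (1 - s2) z else 0) +
        ENNReal.ofReal (Real.exp 1) * W1 R A B z) := by
    intro z hz
    have hz' := hsub hz
    by_cases h1 : Real.exp 1 * A z < B z
    · rw [if_pos h1]
      refine le_trans ?_ le_self_add
      have hBpos : 0 < B z := lt_of_le_of_lt (mul_nonneg he.le (hA0 z hz')) h1
      have hAB : A z ≤ B z := by nlinarith [hA0 z hz']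
      unfold W
      apply ENNReal.inv_le_inv.2
      apply ENNReal.ofReal_le_ofReal
      exact cmp_left (hR0 z hz') (hR1 z hz') (hA0 z hz') hAB hBpos (hB1 z hz') hε hε1 ht0 hc1
    · rw [if_neg h1, zero_add]
      by_cases h2 : Real.exp 1 * B z < A z
      · rw [if_pos h2]
        refine le_trans ?_ le_self_add
        have hApos : 0 < A z := lt_of_le_of_lt (mul_nonneg he.le (hB0 z hz')) h2
        have hAB : B z ≤ A z := by nlinarith [hB0 z hz']
        rw [W_swap]
        unfold W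
        apply ENNReal.inv_le_inv.2
        apply ENNReal.ofReal_le_ofReal
        exact cmp_left (hR0 z hz') (hR1 z hz') (hB0 z hz') hAB hApos (hA1 z hz') hε hε1
          (by linarith) hc2
      · rw [if_neg h2, zero_add]
        unfold W W1
        rw [← inv_inv (ENNReal.ofReal (Real.exp 1)),
          ← ENNReal.mul_inv (Or.inr ?_) (Or.inl ?_), ← ENNReal.ofReal_inv_of_pos he,
          ← ENNReal.ofReal_mul (by positivity)]
        · apply ENNReal.inv_le_inv.2
          apply ENNReal.ofReal_le_ofReal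
          exact cmp_mid (hR0 z hz') (hR1 z hz') (hA0 z hz') (hB0 z hz') (hA1 z hz')
            (not_lt.1 h1) (not_lt.1 h2) (by linarith) (by linarith) ht0 ht1
        · exact ENNReal.ofReal_ne_top
        · simp [he]
  have hm1 := aemeas_ite dR dA dB ε s1 hr'r
  have hm2 := aemeas_ite dR dB dA ε (1 - s2) hr'r
  have hswap : ∫⁻ z in ball 0 r', (if Real.exp 1 * B z < A z then W R B A ε (1 - s2) z else 0) < ⊤ := by
    refine lt_of_le_of_lt (le_of_eq ?_) hQ2
    refine lintegral_congr fun z => ?_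
    rw [← W_swap]
  calc ∫⁻ z in ball 0 r', W R A B (2 * ε) t z ≤ ∫⁻ z in ball 0 r',
      ((if Real.exp 1 * A z < B z then W R A B ε s1 z else 0) +
      ((if Real.exp 1 * B z < A z then W R B A ε (1 - s2) z else 0) +
        ENNReal.ofReal (Real.exp 1) * W1 R A B z)) := setLIntegral_mono' measurableSet_ball hpt
    _ = (∫⁻ z in ball 0 r', (if Real.exp 1 * A z < B z then W R A B ε s1 z else 0)) +
        ((∫⁻ z in ball 0 r', (if Real.exp 1 * B z < A z then W R B A ε (1 - s2) z else 0)) +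
          ENNReal.ofReal (Real.exp 1) * ∫⁻ z in ball 0 r', W1 R A B z) := by
        rw [lintegral_add_left' hm1, lintegral_add_left' hm2,
          lintegral_const_mul' _ _ ENNReal.ofReal_ne_top]
    _ < ⊤ := by
        refine ENNReal.add_lt_top.2 ⟨hs1T.2, ENNReal.add_lt_top.2 ⟨hswap, ?_⟩⟩
        exact ENNReal.mul_lt_top ENNReal.ofReal_lt_top
          (lt_of_le_of_lt (lintegral_mono_set hsub) hint)

end Crest.Agent.R271.Sum186
end
end

-- ▼ part R271/Sum7_186

/-!
Row 271 (S0413), local theory: the Sum Theorem for finitely many functions (Blueprint_710, 2.3).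
-/

open MeasureTheory Set Filter Topology Metric
open scoped ContDiff ENNReal Real

noncomputable section

namespace Crest.Agent.R271.Sum186

variable {N : ℕ}

/-- lowering the exponent -/
lemma inv_rpow_le {x p q : ℝ} (hx : 0 ≤ x) (hp : 0 ≤ p) (hpq : p ≤ q) :
    (ENNReal.ofReal (x ^ p))⁻¹ ≤ (ENNReal.ofReal (x ^ q))⁻¹ + 1 := by
  rcases le_total x 1 with h | h
  · refine le_trans ?_ le_self_add
    apply ENNReal.inv_le_inv.2
    apply ENNReal.ofReal_le_ofReal
    exact Real.rpow_le_rpow_of_exponent_ge' hx h hp hpq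
  · refine le_trans ?_ le_add_self
    apply ENNReal.inv_le_one.2
    rw [ENNReal.one_le_ofReal]
    exact Real.one_le_rpow h hp

lemma lint_lower {r : ℝ} {X : CN N → ℝ} (hX : ∀ z ∈ ball (0 : CN N) r, 0 ≤ X z) {p q : ℝ}
    (hp : 0 ≤ p) (hpq : p ≤ q)
    (h : ∫⁻ z in ball 0 r, (ENNReal.ofReal (X z ^ q))⁻¹ < ⊤) :
    ∫⁻ z in ball 0 r, (ENNReal.ofReal (X z ^ p))⁻¹ < ⊤ := by
  calc ∫⁻ z in ball 0 r, (ENNReal.ofReal (X z ^ p))⁻¹ ≤
      ∫⁻ z in ball 0 r, ((ENNReal.ofReal (X z ^ q))⁻¹ + 1) :=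
        setLIntegral_mono' measurableSet_ball fun z hz => inv_rpow_le (hX z hz) hp hpq
    _ = (∫⁻ z in ball 0 r, (ENNReal.ofReal (X z ^ q))⁻¹) + volume (ball (0 : CN N) r) := by
        rw [lintegral_add_right _ measurable_const, setLIntegral_const, one_mul]
    _ < ⊤ := ENNReal.add_lt_top.2 ⟨h, measure_ball_lt_top⟩

/-- scaled data -/
lemma exists_data {r0 : ℝ} (hr0 : 0 < r0) {R : CN N → ℝ} (hR : LogPsh (ball 0 r0) R) :
    ∃ (M : ℝ), ∃ r1 : ℝ, 0 < r1 ∧ r1 ≤ r0 ∧ Nonempty (Data (ball 0 r1) R M) := by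
  obtain ⟨φ, h1, h2, h3⟩ := hR
  have h0 : (0 : CN N) ∈ ball (0 : CN N) r0 := mem_ball_self hr0
  have hc : ContinuousAt (φ 0) 0 :=
    (h1 0).smooth.continuousOn.continuousAt (isOpen_ball.mem_nhds h0)
  have hev : ∀ᶠ z in 𝓝 (0 : CN N), φ 0 z < φ 0 0 + 1 :=
    hc.eventually (gt_mem_nhds (by linarith))
  obtain ⟨r1, hr1, hr1'⟩ := Metric.eventually_nhds_iff_ball.1 hev
  refine ⟨φ 0 0 + 1, min r1 r0, lt_min hr1 hr0, min_le_right _ _, ⟨⟨φ, ?_, ?_, ?_, ?_⟩⟩⟩
  · exact fun k => (h1 k).mono (ball_subset_ball (min_le_right _ _))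
  · exact fun z hz => h2 z (ball_subset_ball (min_le_right _ _) hz)
  · exact fun z hz => h3 z (ball_subset_ball (min_le_right _ _) hz)
  · intro k z hz
    have := h2 z (ball_subset_ball (min_le_right _ _) hz) (Nat.zero_le k)
    exact this.trans (hr1' z (ball_subset_ball (min_le_left _ _) hz)).le

/-- restrict data to a smaller ball, relax the bound -/
def Data.restr {D D' : Set (CN N)} {R : CN N → ℝ} {M M' : ℝ} (d : Data D R M) (hD : D' ⊆ D)
    (hM : M ≤ M') : Data D' R M' where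
  φ := d.φ
  psm k := (d.psm k).mono hD
  anti z hz := d.anti z (hD hz)
  lim z hz := d.lim z (hD hz)
  le k z hz := (d.le k z (hD hz)).trans hM

/-- multiply by `e^m` -/
def Data.shift {r : ℝ} {R : CN N → ℝ} {M : ℝ} (d : Data (ball 0 r) R M) (m : ℝ) :
    Data (ball 0 r) (fun z => R z * Real.exp m) (M + m) where
  φ k z := d.φ k z + m
  psm k := (d.psm k).add isOpen_ball (Psm.const _ m)
  anti z hz _ _ hij := by
    have := d.anti z hz hij
    simp only
    linarith
  lim z hz := by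
    simp only [Real.exp_add]
    exact (d.lim z hz).mul_const _
  le k z hz := by
    have := d.le k z hz
    linarith

theorem sum_two (hsol : ∀ r : ℝ, 0 < r → Solver N (ball 0 r)) {r0 : ℝ} (hr0 : 0 < r0)
    {R A B : CN N → ℝ} (hR : LogPsh (ball 0 r0) R) (hA : LogPsh (ball 0 r0) A)
    (hB : LogPsh (ball 0 r0) B)
    (hint : ∫⁻ z in ball 0 r0, W1 R A B z < ⊤) {ε : ℝ} (hε : 0 < ε) (hε1 : ε < 1) :
    ∃ s : ℝ, 0 ≤ s ∧ s ≤ 1 ∧ ∃ r' : ℝ, 0 < r' ∧ r' ≤ r0 ∧
      ∫⁻ z in ball 0 r', W R A B ε s z < ⊤ := by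
  obtain ⟨M1, r1, hr1, hr10, ⟨d1⟩⟩ := exists_data hr0 hR
  obtain ⟨M2, r2, hr2, hr20, ⟨d2⟩⟩ := exists_data hr0 hA
  obtain ⟨M3, r3, hr3, hr30, ⟨d3⟩⟩ := exists_data hr0 hB
  set r : ℝ := min r1 (min r2 r3) with hr
  have hr0' : 0 < r := lt_min hr1 (lt_min hr2 hr3)
  have hrr1 : r ≤ r1 := min_le_left _ _
  have hrr2 : r ≤ r2 := (min_le_right _ _).trans (min_le_left _ _)
  have hrr3 : r ≤ r3 := (min_le_right _ _).trans (min_le_right _ _)
  set M : ℝ := max M1 (max M2 M3) with hM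
  have hM1 : M1 ≤ M := le_max_left _ _
  have hM2 : M2 ≤ M := (le_max_left _ _).trans (le_max_right _ _)
  have hM3 : M3 ≤ M := (le_max_right _ _).trans (le_max_right _ _)
  set m : ℝ := -M - Real.log 2 with hm
  have hlog2 : 0 < Real.log 2 := Real.log_pos (by norm_num)
  have e1 := (d1.restr (ball_subset_ball hrr1) hM1).shift m
  have e2 := (d2.restr (ball_subset_ball hrr2) hM2).shift m
  have e3 := (d3.restr (ball_subset_ball hrr3) hM3).shift m
  have hMm : M + m = - Real.log 2 := by rw [hm]; ring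
  rw [hMm] at e1 e2 e3
  have e1' := e1.restr (M' := 0) subset_rfl (by linarith)
  set c : ℝ := Real.exp m with hc
  have hc0 : 0 < c := Real.exp_pos m
  have hsub : ball (0 : CN N) r ⊆ ball 0 r0 := ball_subset_ball (hrr1.trans hr10)
  have hnR : ∀ z ∈ ball (0 : CN N) r, 0 ≤ R z := fun z hz => hR.nonneg (hsub hz)
  have hnA : ∀ z ∈ ball (0 : CN N) r, 0 ≤ A z := fun z hz => hA.nonneg (hsub hz)
  have hnB : ∀ z ∈ ball (0 : CN N) r, 0 ≤ B z := fun z hz => hB.nonneg (hsub hz)
  have hint' : ∫⁻ z in ball 0 r, W1 (fun z => R z * c) (fun z => A z * c) (fun z => B z * c) z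
      < ⊤ := by
    have h1 : ∀ z ∈ ball (0 : CN N) r, W1 (fun z => R z * c) (fun z => A z * c)
        (fun z => B z * c) z ≤ ENNReal.ofReal (c * c)⁻¹ * W1 R A B z := by
      intro z hz
      unfold W1
      have h2 : R z * c * max (A z * c) (B z * c) = (c * c) * (R z * max (A z) (B z)) := by
        rw [← max_mul_of_nonneg _ _ hc0.le]; ring
      rw [h2, ENNReal.ofReal_mul (by positivity), ENNReal.mul_inv (Or.inr ENNReal.ofReal_ne_top)
        (Or.inl ENNReal.ofReal_ne_top), ENNReal.ofReal_inv_of_pos (by positivity)]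
    refine lt_of_le_of_lt (setLIntegral_mono' measurableSet_ball h1) ?_
    rw [lintegral_const_mul' _ _ ENNReal.ofReal_ne_top]
    exact ENNReal.mul_lt_top ENNReal.ofReal_lt_top
      (lt_of_le_of_lt (lintegral_mono_set hsub) hint)
  obtain ⟨s, hs0, hs1, r', hr'0, hr'r, hfin⟩ := sum_norm hr0' (hsol r hr0')
    (show 0 < ε / 2 by linarith) (by linarith) e1' e2 e3 hint'
  refine ⟨s, hs0, hs1, r', hr'0, hr'r.trans (hrr1.trans hr10), ?_⟩
  have h2 : ∀ z ∈ ball (0 : CN N) r', W R A B ε s z ≤ ENNReal.ofReal ((c * c) ^ (1 - ε)) *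
      W (fun z => R z * c) (fun z => A z * c) (fun z => B z * c) (2 * (ε / 2)) s z := by
    intro z hz
    have hz' := ball_subset_ball hr'r hz
    unfold W
    have e : (R z * c * ((A z * c) ^ s * (B z * c) ^ (1 - s))) ^ (1 - 2 * (ε / 2)) =
        (c * c) ^ (1 - ε) * (R z * (A z ^ s * B z ^ (1 - s))) ^ (1 - ε) := by
      rw [← Real.mul_rpow (by positivity) (mul_nonneg (hnR z hz')
        (mul_nonneg (Real.rpow_nonneg (hnA z hz') _) (Real.rpow_nonneg (hnB z hz') _)))]
      rw [show 1 - 2 * (ε / 2) = 1 - ε by ring]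
      congr 1
      rw [Real.mul_rpow (hnA z hz') hc0.le, Real.mul_rpow (hnB z hz') hc0.le]
      have : c ^ s * c ^ (1 - s) = c := by
        rw [← Real.rpow_add hc0]; simp
      calc R z * c * (A z ^ s * c ^ s * (B z ^ (1 - s) * c ^ (1 - s))) =
          (c * (c ^ s * c ^ (1 - s))) * (R z * (A z ^ s * B z ^ (1 - s))) := by ring
        _ = _ := by rw [this]
    rw [e, ENNReal.ofReal_mul (by positivity), ENNReal.mul_inv (Or.inr ENNReal.ofReal_ne_top)
      (Or.inl ENNReal.ofReal_ne_top), ← mul_assoc (ENNReal.ofReal ((c * c) ^ (1 - ε))),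
      ENNReal.mul_inv_cancel, one_mul]
    · simp only [ne_eq, ENNReal.ofReal_eq_zero, not_le]
      positivity
    · exact ENNReal.ofReal_ne_top
  refine lt_of_le_of_lt (setLIntegral_mono' measurableSet_ball h2) ?_
  rw [lintegral_const_mul' _ _ ENNReal.ofReal_ne_top]
  exact ENNReal.mul_lt_top ENNReal.ofReal_lt_top hfin

/-- Sum Theorem, finitely many functions -/
theorem sum_fin (hsol : ∀ r : ℝ, 0 < r → Solver N (ball 0 r)) {ι : Type*} (S : Finset ι)
    (hS : S.Nonempty) :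
    ∀ {r0 : ℝ} (_ : 0 < r0) {R : CN N → ℝ} {A : ι → CN N → ℝ} (_ : LogPsh (ball 0 r0) R)
    (_ : ∀ i ∈ S, LogPsh (ball 0 r0) (A i))
    (_ : ∫⁻ z in ball 0 r0, (ENNReal.ofReal (R z * ∑ i ∈ S, A i z))⁻¹ < ⊤)
    {ε : ℝ} (_ : 0 < ε) (_ : ε < 1),
    ∃ t : ι → ℝ, (∀ i, 0 ≤ t i) ∧ ∑ i ∈ S, t i = 1 ∧ ∃ r' : ℝ, 0 < r' ∧ r' ≤ r0 ∧
      ∫⁻ z in ball 0 r', (ENNReal.ofReal ((R z * ∏ i ∈ S, A i z ^ t i) ^ (1 - ε)))⁻¹ < ⊤ := by
  classical
  induction hS using Finset.Nonempty.cons_induction with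
  | singleton a =>
    intro r0 hr0 R A hR hA hint ε hε hε1
    refine ⟨fun _ => 1, fun _ => zero_le_one, by simp, r0, hr0, le_rfl, ?_⟩
    simp only [Finset.sum_singleton, Finset.prod_singleton, Real.rpow_one] at hint ⊢
    have hX : ∀ z ∈ ball (0 : CN N) r0, 0 ≤ R z * A a z := fun z hz =>
      mul_nonneg (hR.nonneg hz) ((hA a (by simp)).nonneg hz)
    refine lint_lower hX (by linarith) (show 1 - ε ≤ 1 by linarith) ?_
    simpa using hint
  | cons a S ha hS ih =>
    intro r0 hr0 R A hR hA hint ε hε hε1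
    have hAa : LogPsh (ball 0 r0) (A a) := hA a (by simp)
    have hAi : ∀ i ∈ S, LogPsh (ball 0 r0) (A i) := fun i hi => hA i (by simp [hi])
    have hA' : LogPsh (ball 0 r0) (fun z => ∑ i ∈ S, A i z) := LogPsh.sum isOpen_ball S hS hAi
    -- hypothesis of `sum_two`
    have hint1 : ∫⁻ z in ball 0 r0, W1 R (A a) (fun z => ∑ i ∈ S, A i z) z < ⊤ := by
      have h1 : ∀ z ∈ ball (0 : CN N) r0, W1 R (A a) (fun z => ∑ i ∈ S, A i z) z ≤
          2 * (ENNReal.ofReal (R z * ∑ i ∈ Finset.cons a S ha, A i z))⁻¹ := by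
        intro z hz
        unfold W1
        have h2 : (2 : ℝ≥0∞) = (ENNReal.ofReal (1 / 2))⁻¹ := by
          rw [← ENNReal.ofReal_inv_of_pos (by norm_num)]; norm_num
        rw [h2, ← ENNReal.mul_inv (Or.inr ENNReal.ofReal_ne_top) (Or.inl ENNReal.ofReal_ne_top),
          ← ENNReal.ofReal_mul (by norm_num)]
        apply ENNReal.inv_le_inv.2
        apply ENNReal.ofReal_le_ofReal
        rw [Finset.sum_cons]
        have h3 := le_max_left (A a z) (∑ i ∈ S, A i z)
        have h4 := le_max_right (A a z) (∑ i ∈ S, A i z)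
        have h5 := hR.nonneg hz
        nlinarith
      refine lt_of_le_of_lt (setLIntegral_mono' measurableSet_ball h1) ?_
      rw [lintegral_const_mul' _ _ (by norm_num)]
      exact ENNReal.mul_lt_top (by norm_num) hint
    set ε1 : ℝ := ε / 2 with hε1'
    have hε10 : 0 < ε1 := by linarith
    have hε11 : ε1 < 1 := by linarith
    obtain ⟨s, hs0, hs1, r1, hr1, hr10, h1⟩ := sum_two hsol hr0 hR hAa hA' hint1 hε10 hε11
    set c : ℝ := (1 - s) * (1 - ε1) with hc
    have hc0 : 0 ≤ c := mul_nonneg (by linarith) (by linarith)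
    have hsub1 : ball (0 : CN N) r1 ⊆ ball 0 r0 := ball_subset_ball hr10
    have hR' : LogPsh (ball 0 r1) (fun z => (R z * A a z ^ s) ^ (1 - ε1)) :=
      (((hR.mono hsub1).mul isOpen_ball ((hAa.mono hsub1).rpow isOpen_ball hs0)).rpow
        isOpen_ball (by linarith))
    have hAi' : ∀ i ∈ S, LogPsh (ball 0 r1) (fun z => A i z ^ c) := fun i hi =>
      ((hAi i hi).mono hsub1).rpow isOpen_ball hc0
    -- hypothesis of the induction hypothesis
    have hint2 : ∫⁻ z in ball 0 r1, (ENNReal.ofReal ((R z * A a z ^ s) ^ (1 - ε1) *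
        ∑ i ∈ S, A i z ^ c))⁻¹ < ⊤ := by
      have hcard : (0 : ℝ) < (S.card : ℝ) := by
        exact_mod_cast hS.card_pos
      have h2 : ∀ z ∈ ball (0 : CN N) r1, (ENNReal.ofReal ((R z * A a z ^ s) ^ (1 - ε1) *
          ∑ i ∈ S, A i z ^ c))⁻¹ ≤ ENNReal.ofReal ((S.card : ℝ) ^ c) *
            W R (A a) (fun z => ∑ i ∈ S, A i z) ε1 s z := by
        intro z hz
        have hz' := hsub1 hz
        have hnR := hR.nonneg hz'
        have hna := hAa.nonneg hz'
        have hnS : 0 ≤ ∑ i ∈ S, A i z := hA'.nonneg hz'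
        have hni : ∀ i ∈ S, 0 ≤ A i z := fun i hi => (hAi i hi).nonneg hz'
        unfold W
        have e1 : (R z * (A a z ^ s * (∑ i ∈ S, A i z) ^ (1 - s))) ^ (1 - ε1) =
            (R z * A a z ^ s) ^ (1 - ε1) * (∑ i ∈ S, A i z) ^ c := by
          rw [← mul_assoc, Real.mul_rpow (mul_nonneg hnR (Real.rpow_nonneg hna _))
            (Real.rpow_nonneg hnS _), ← Real.rpow_mul hnS]
        have e2 : (∑ i ∈ S, A i z) ^ c ≤ (S.card : ℝ) ^ c * ∑ i ∈ S, A i z ^ c := by
          obtain ⟨j, hj, hmax⟩ := Finset.exists_max_image S (fun i => A i z) hS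
          have h3 : ∑ i ∈ S, A i z ≤ S.card * A j z := by
            calc ∑ i ∈ S, A i z ≤ ∑ _i ∈ S, A j z := Finset.sum_le_sum fun i hi => hmax i hi
              _ = S.card * A j z := by simp
          calc (∑ i ∈ S, A i z) ^ c ≤ (S.card * A j z) ^ c := Real.rpow_le_rpow hnS h3 hc0
            _ = (S.card : ℝ) ^ c * A j z ^ c := Real.mul_rpow hcard.le (hni j hj)
            _ ≤ _ := by
                refine mul_le_mul_of_nonneg_left ?_ (Real.rpow_nonneg hcard.le _)
                exact Finset.single_le_sum (f := fun i => A i z ^ c)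
                  (fun i hi => Real.rpow_nonneg (hni i hi) _) hj
        have hcc : 0 < (S.card : ℝ) ^ c := Real.rpow_pos_of_pos hcard c
        rw [e1, ← inv_inv (ENNReal.ofReal ((S.card : ℝ) ^ c)),
          ← ENNReal.mul_inv (Or.inr ENNReal.ofReal_ne_top) (Or.inl (by simp [hcc])),
          ← ENNReal.ofReal_inv_of_pos hcc, ← ENNReal.ofReal_mul (by positivity)]
        apply ENNReal.inv_le_inv.2
        apply ENNReal.ofReal_le_ofReal
        have h4 : 0 ≤ (R z * A a z ^ s) ^ (1 - ε1) :=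
          Real.rpow_nonneg (mul_nonneg hnR (Real.rpow_nonneg hna _)) _
        calc ((S.card : ℝ) ^ c)⁻¹ * ((R z * A a z ^ s) ^ (1 - ε1) * (∑ i ∈ S, A i z) ^ c)
            ≤ ((S.card : ℝ) ^ c)⁻¹ * ((R z * A a z ^ s) ^ (1 - ε1) *
              ((S.card : ℝ) ^ c * ∑ i ∈ S, A i z ^ c)) := by gcongr
          _ = _ := by field_simp
      refine lt_of_le_of_lt (setLIntegral_mono' measurableSet_ball h2) ?_
      rw [lintegral_const_mul' _ _ ENNReal.ofReal_ne_top]
      exact ENNReal.mul_lt_top ENNReal.ofReal_lt_top h1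
    obtain ⟨t, ht0, ht1, r', hr'0, hr'r, h3⟩ := ih hr1 hR' hAi' hint2 hε10 hε11
    refine ⟨fun i => if i = a then s else (1 - s) * t i, fun i => ?_, ?_, r', hr'0,
      hr'r.trans hr10, ?_⟩
    · simp only
      split_ifs
      · exact hs0
      · exact mul_nonneg (by linarith) (ht0 i)
    · rw [Finset.sum_cons, if_pos rfl]
      have : ∑ i ∈ S, (if i = a then s else (1 - s) * t i) = ∑ i ∈ S, (1 - s) * t i := by
        refine Finset.sum_congr rfl fun i hi => if_neg ?_
        rintro rfl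
        exact ha hi
      rw [this, ← Finset.mul_sum, ht1]
      ring
    · have hsub : ball (0 : CN N) r' ⊆ ball 0 r0 := ball_subset_ball (hr'r.trans hr10)
      have hprod : ∀ z, ∏ i ∈ Finset.cons a S ha, A i z ^ (if i = a then s else (1 - s) * t i) =
          A a z ^ s * ∏ i ∈ S, A i z ^ ((1 - s) * t i) := by
        intro z
        rw [Finset.prod_cons, if_pos rfl]
        congr 1
        refine Finset.prod_congr rfl fun i hi => ?_
        rw [if_neg]
        rintro rfl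
        exact ha hi
      simp only [hprod]
      have hX : ∀ z ∈ ball (0 : CN N) r',
          0 ≤ R z * (A a z ^ s * ∏ i ∈ S, A i z ^ ((1 - s) * t i)) := by
        intro z hz
        have hz' := hsub hz
        exact mul_nonneg (hR.nonneg hz') (mul_nonneg (Real.rpow_nonneg (hAa.nonneg hz') _)
          (Finset.prod_nonneg fun i hi => Real.rpow_nonneg ((hAi i hi).nonneg hz') _))
      refine lint_lower hX (by linarith) (show 1 - ε ≤ (1 - ε1) * (1 - ε1) by
        rw [hε1']; nlinarith) ?_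
      refine lt_of_le_of_lt (le_of_eq ?_) h3
      refine setLIntegral_congr_fun measurableSet_ball fun z hz => ?_
      have hz' := hsub hz
      have hnR := hR.nonneg hz'
      have hna := hAa.nonneg hz'
      have hni : ∀ i ∈ S, 0 ≤ A i z := fun i hi => (hAi i hi).nonneg hz'
      have hP : 0 ≤ ∏ i ∈ S, A i z ^ ((1 - s) * t i) :=
        Finset.prod_nonneg fun i hi => Real.rpow_nonneg (hni i hi) _
      congr 2
      have e1 : ∏ i ∈ S, (A i z ^ c) ^ t i = (∏ i ∈ S, A i z ^ ((1 - s) * t i)) ^ (1 - ε1) := by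
        rw [← Real.finsetProd_rpow _ _ fun i hi => Real.rpow_nonneg (hni i hi) _]
        refine Finset.prod_congr rfl fun i hi => ?_
        rw [← Real.rpow_mul (hni i hi), ← Real.rpow_mul (hni i hi), hc]
        congr 1
        ring
      rw [e1, ← mul_assoc, ← Real.mul_rpow (mul_nonneg hnR (Real.rpow_nonneg hna _)) hP,
        ← Real.rpow_mul (mul_nonneg (mul_nonneg hnR (Real.rpow_nonneg hna _)) hP)]

end Crest.Agent.R271.Sum186
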